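import Vale.Agent.P145.BDefs

/-! P145, block BVS: counting sites in boxes. -/

open Finset

namespace Vale.Agent.P145.Bv

open Vale.Agent.P152 (Site sd)

/-- the sites at distance at most `N` -/
noncomputable def bCnt_q (v : Site) (N : ℕ) : Finset Site :=
  Icc (v.1 - N) (v.1 + N) ×ˢ Icc (v.2 - N) (v.2 + N)

theorem bCnt_mem {v w : Site} {N : ℕ} : w ∈ bCnt_q v N ↔ sd v w ≤ N := by
  simp only [bCnt_q, mem_product, mem_Icc, sd, max_le_iff, abs_le]
  omega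

theorem bCnt_card (v : Site) (N : ℕ) : ((bCnt_q v N).card : ℝ) = (2 * N + 1) ^ 2 := by
  have e : ∀ a : ℤ, (a + N + 1 - (a - N)).toNat = 2 * N + 1 := fun a => by omega
  rw [bCnt_q, card_product, Int.card_Icc, Int.card_Icc, e, e]
  push_cast
  ring

theorem bCnt_sum (v : Site) (N : ℕ) :
    ∑ w ∈ bCnt_q v N, 1 / max 1 (sd v w : ℝ) ≤ 1 + 8 * N := by
  induction N with
  | zero =>
    have h := sum_le_card_nsmul (bCnt_q v 0) (fun w => 1 / max 1 (sd v w : ℝ)) 1 fun w _ =>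
      div_le_one_of_le₀ (le_max_left _ _) (by positivity)
    rw [nsmul_eq_mul, bCnt_card] at h
    simpa using h
  | succ N ih =>
    have hs : bCnt_q v N ⊆ bCnt_q v (N + 1) := fun w hw => by
      rw [bCnt_mem] at hw ⊢
      omega
    have N0 : (0 : ℝ) < N + 1 := by positivity
    have h := sum_le_card_nsmul (bCnt_q v (N + 1) \ bCnt_q v N)
      (fun w => 1 / max 1 (sd v w : ℝ)) (1 / ((N : ℝ) + 1)) fun w hw => by
        have h1 : (N : ℤ) + 1 ≤ sd v w := not_le.1 fun k => (mem_sdiff.1 hw).2 (bCnt_mem.2 k)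
        exact one_div_le_one_div_of_le N0 (le_max_of_le_right (by exact_mod_cast h1))
    rw [nsmul_eq_mul, cast_card_sdiff hs, bCnt_card, bCnt_card] at h
    rw [← sum_sdiff hs]
    have e : ((2 * ((N + 1 : ℕ) : ℝ) + 1) ^ 2 - (2 * N + 1) ^ 2) * (1 / ((N : ℝ) + 1)) = 8 := by
      push_cast
      field_simp
      ring
    rw [e] at h
    push_cast
    linarith

theorem bCnt_sub {δ x : ℝ} {v w : Site} (hδ : 0 < δ) (h : δ * (sd v w : ℝ) ≤ x) :
    w ∈ bCnt_q v ⌊x / δ⌋₊ := by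
  have h1 : (sd v w : ℝ) < (⌊x / δ⌋₊ : ℝ) + 1 :=
    ((le_div_iff₀' hδ).2 h).trans_lt (Nat.lt_floor_add_one _)
  have h2 : sd v w < (⌊x / δ⌋₊ : ℤ) + 1 := by exact_mod_cast h1
  exact bCnt_mem.2 (by omega)

theorem bBox : B_box := fun δ x v hδ => by
  classical
  exact ⟨(bCnt_q v ⌊x / δ⌋₊).filter fun w => δ * (sd v w : ℝ) ≤ x, fun w =>
    ⟨fun h => (mem_filter.1 h).2, fun h => mem_filter.2 ⟨bCnt_sub hδ h, h⟩⟩⟩

theorem bCnt : B_cnt := by
  intro δ x v S hδ hx hS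
  have hs : S ⊆ bCnt_q v ⌊x / δ⌋₊ := fun w hw => bCnt_sub hδ (hS w hw)
  have h1 : δ * ⌊x / δ⌋₊ ≤ x :=
    (le_div_iff₀' hδ).1 (Nat.floor_le (div_nonneg (hδ.le.trans hx) hδ.le))
  have h2 : (S.card : ℝ) ≤ (2 * ⌊x / δ⌋₊ + 1) ^ 2 := by
    rw [← bCnt_card v]
    exact_mod_cast card_le_card hs
  have h3 := (sum_le_sum_of_subset_of_nonneg hs fun w _ _ => by positivity).trans (bCnt_sum v _)
  refine ⟨(mul_le_mul_of_nonneg_left h2 (by positivity)).trans ?_,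
    (mul_le_mul_of_nonneg_left h3 hδ.le).trans (by linarith)⟩
  rw [← mul_pow, show 9 * x ^ 2 = (3 * x) ^ 2 by ring]
  exact pow_le_pow_left₀ (by positivity) (by linarith) 2

end Vale.Agent.P145.Bv
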