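import Vale.Agent.P145.BDefs

/-! P145, block BVS: a smooth convex version of the positive part. -/

open Set Filter Topology

namespace Vale.Agent.P145.Bv

open Real (smoothTransition)

theorem bCut_zero {t : ℝ} (h : t ≤ 0 ∨ 1 ≤ t) : deriv smoothTransition t = 0 := by
  rcases h with h | h
  · exact IsLocalMin.deriv_eq_zero (.of_forall fun u => by
      rw [smoothTransition.zero_of_nonpos h]; exact smoothTransition.nonneg u)
  · exact IsLocalMax.deriv_eq_zero (.of_forall fun u => by
      rw [smoothTransition.one_of_one_le h]; exact smoothTransition.le_one u)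

theorem bCut : B_cut := by
  have hs : ContDiff ℝ (⊤ : ℕ∞) smoothTransition := smoothTransition.contDiff
  have hc : Continuous fun u : ℝ => smoothTransition (u - 1) :=
    smoothTransition.continuous.comp (continuous_id.sub continuous_const)
  obtain ⟨χ, hχ⟩ : ∃ χ : ℝ → ℝ, χ = fun s => ∫ u in (1 : ℝ)..s, smoothTransition (u - 1) :=
    ⟨_, rfl⟩
  have d0 : ∀ s, HasDerivAt χ (smoothTransition (s - 1)) s := fun s =>
    hχ ▸ (hc.integral_hasStrictDerivAt 1 s).hasDerivAt
  have d1 : deriv χ = fun s => smoothTransition (s - 1) := funext fun s => (d0 s).deriv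
  have d2 : ∀ s, deriv (deriv χ) s = deriv smoothTransition (s - 1) := fun s => by
    rw [d1, deriv_comp_sub_const]
  obtain ⟨K, hK⟩ := (isCompact_Icc (a := (0 : ℝ)) (b := 1)).exists_bound_of_continuousOn
    (hs.continuous_deriv (by simp)).continuousOn
  have K0 : 0 ≤ K := (norm_nonneg _).trans (hK 0 ⟨le_rfl, zero_le_one⟩)
  have z : ∀ s ≤ 1, χ s = 0 := fun s h => by
    rw [hχ]
    refine (intervalIntegral.integral_congr (g := fun _ => 0) fun u hu => ?_).trans (by simp)
    rw [uIcc_of_ge h] at hu
    exact smoothTransition.zero_of_nonpos (by linarith [hu.2])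
  have p : ∀ s, 0 ≤ χ s := fun s => by
    rcases le_total s 1 with h | h
    · exact (z s h).ge
    · rw [hχ]
      exact intervalIntegral.integral_nonneg h fun u _ => smoothTransition.nonneg _
  refine ⟨χ, K, contDiff_infty_iff_deriv.2 ⟨fun s => (d0 s).differentiableAt,
    d1 ▸ hs.comp (contDiff_id.sub contDiff_const)⟩, K0, fun s => ⟨z s, fun h => ⟨?_, ?_⟩,
      ?_, ?_, ?_, ?_, ?_, p s, ?_⟩⟩
  · rw [d1]; exact smoothTransition.one_of_one_le (by linarith)
  · rw [d2]; exact bCut_zero (Or.inr (by linarith))
  · rw [d1]; exact smoothTransition.nonneg _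
  · rw [d1]; exact smoothTransition.le_one _
  · rw [d2]; exact smoothTransition.monotone.deriv_nonneg
  · rw [d2]
    by_cases h : s - 1 ≤ 0 ∨ 1 ≤ s - 1
    · rw [bCut_zero h]; exact K0
    · push Not at h
      exact (le_abs_self _).trans (hK _ ⟨h.1.le, h.2.le⟩)
  · rcases le_total s 2 with h | h
    · linarith [p s]
    · have h1 := intervalIntegral.integral_add_adjacent_intervals (μ := MeasureTheory.volume)
        (hc.intervalIntegrable 1 2) (hc.intervalIntegrable 2 s)
      have h2 : ∫ u in (2 : ℝ)..s, smoothTransition (u - 1) = s - 2 := by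
        refine (intervalIntegral.integral_congr (g := fun _ => 1) fun u hu => ?_).trans (by simp)
        rw [uIcc_of_le h] at hu
        exact smoothTransition.one_of_one_le (by linarith [hu.1])
      have h3 := p 2
      rw [hχ] at h3 ⊢
      linarith
  · rcases le_total s 1 with h | h
    · rw [z s h]; exact le_max_right _ _
    · have h1 := intervalIntegral.integral_mono_on (μ := MeasureTheory.volume) h
        (hc.intervalIntegrable 1 s) (continuous_const.intervalIntegrable 1 s)
        fun u _ => smoothTransition.le_one (u - 1)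
      rw [intervalIntegral.integral_const, smul_eq_mul, mul_one] at h1
      rw [hχ]
      linarith [le_max_left s 0]

end Vale.Agent.P145.Bv
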