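import Vale.Agent.P145.BDefs

/-! P145, block BVS: truncation of the Green potential of the disc. -/

open Set Filter Topology Metric MeasureTheory

namespace Vale.Agent.P145.Bv

open Vale.Agent.P071

theorem bDisc_int {a : ℂ → ℝ} (ha : Test DD a) : ∫ x in DD, lap a x = 0 := by
  have h := green2 (a := fun _ => (1 : ℝ)) isOpen_DD contDiffOn_const ha
  simp only [gdot, d1_eq, d2_eq, dd_const, zero_mul, add_zero, integral_zero, one_mul] at h
  linarith

theorem bDisc_en {a g U : ℂ → ℝ} {t : ℝ} (ha : Test DD a) (hg : Test DD g)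
    (hU : ContinuousOn U DD) (h : ∀ x ∈ DD, 0 ≤ U x * g x + a x * lap a x ∧
      U x * g x + a x * lap a x ≤ 4 * t * g x + 2 * t * lap a x) :
    |(∫ x in DD, gdot a a x) - ∫ x in DD, U x * g x| ≤ 4 * t * ∫ x in DD, g x := by
  have i1 := hg.integrableOn_mul isOpen_DD hU
  have i2 := ha.lap.integrableOn_mul isOpen_DD ha.continuous.continuousOn
  have i3 : IntegrableOn (fun x => 4 * t * g x) DD := (hg.integrable.const_mul _).integrableOn
  have i4 : IntegrableOn (fun x => 2 * t * lap a x) DD :=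
    (ha.lap.integrable.const_mul _).integrableOn
  have e1 := setIntegral_nonneg (μ := volume) measurableSet_DD fun x hx => (h x hx).1
  have e2 := setIntegral_mono_on (i1.add i2) (i3.add i4) measurableSet_DD fun x hx => (h x hx).2
  simp only [Pi.add_apply] at e2
  rw [integral_add i1 i2] at e1 e2
  rw [integral_add i3 i4, integral_const_mul, integral_const_mul, bDisc_int ha] at e2
  rw [green2 isOpen_DD (ha.contDiffOn.of_le one_le_oo) ha, abs_le]
  constructor <;> linarith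

theorem bDisc (h1 : B_cut) (h2 : B_pos) : B_disc := by
  intro g hg g0
  rcases eq_or_ne g 0 with rfl | hne
  · refine ⟨0, le_rfl, fun θ hθ u _ => ⟨fun _ => 0, hg, ?_, fun x _ => ?_⟩⟩
    · simpa [gdot, d1_eq, d2_eq, dd_const] using hθ.le
    · simp [lap_const]
  obtain ⟨χ, K, hχ, -, hs⟩ := h1
  obtain ⟨hU, hl, C0, hC0, -⟩ := G0_spec hg
  have hp := h2 g hg g0 hne
  obtain ⟨C, c0, hC⟩ : ∃ C : ℝ, 0 ≤ C ∧ ∀ x ∈ DD, G0 g x ≤ C * hh x :=
    ⟨max C0 0, le_max_right _ _, fun x hx => ((le_abs_self _).trans (hC0 x hx)).trans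
      (mul_le_mul_of_nonneg_right (le_max_left _ _) (hh_pos hx).le)⟩
  generalize G0 g = U at hU hl hp hC ⊢
  refine ⟨C, c0, fun θ hθ u hu => ?_⟩
  have hsub : {z | u ≤ hh z} ⊆ DD := fun z hz => mem_DD_of_hh_pos (hu.trans_le hz)
  obtain ⟨m, m0, hm⟩ := (isCompact_hh_ge hu).exists_forall_le' (hU.continuousOn.mono hsub)
    fun z hz => hp z (hsub hz)
  have I0 : 0 ≤ ∫ x in DD, g x := integral_nonneg g0
  obtain ⟨t, t0, t1, t2⟩ : ∃ t > 0, 2 * t ≤ m ∧ 4 * t * ∫ x in DD, g x ≤ θ := by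
    refine ⟨min (m / 2) (θ / (4 * ((∫ x in DD, g x) + 1))), by positivity,
      by linarith [min_le_left (m / 2) (θ / (4 * ((∫ x in DD, g x) + 1)))], ?_⟩
    have := min_le_right (m / 2) (θ / (4 * ((∫ x in DD, g x) + 1)))
    have p : 0 < min (m / 2) (θ / (4 * ((∫ x in DD, g x) + 1))) := by positivity
    rw [le_div_iff₀ (by positivity)] at this
    nlinarith
  have hV : ContDiffOn ℝ oo (fun x => t⁻¹ * U x) DD := contDiffOn_const.mul hU
  have hb : ContDiffOn ℝ oo (fun x => t * χ (t⁻¹ * U x)) DD :=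
    contDiffOn_const.mul (hχ.comp_contDiffOn hV)
  have d0 : 0 < t / (C + 1) / 2 := by positivity
  have ha := (chi_test d0).mul_left isOpen_DD hb
  obtain ⟨a, hae⟩ : ∃ a, a = fun x => t * χ (t⁻¹ * U x) * chi (t / (C + 1) / 2) x := ⟨_, rfl⟩
  rw [← hae] at ha
  have ea : ∀ x ∈ DD, a x = t * χ (t⁻¹ * U x) := fun x hx => by
    rcases le_total (2 * (t / (C + 1) / 2)) (hh x) with h | h
    · simp only [hae, chi_eq_one d0 h, mul_one]
    · have e : χ (t⁻¹ * U x) = 0 := (hs _).1 (by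
        rw [inv_mul_le_iff₀ t0]
        rw [mul_div_cancel₀ _ two_ne_zero, le_div_iff₀ (by positivity)] at h
        nlinarith [hC x hx, hh_pos hx])
      simp only [hae, e, mul_zero, zero_mul]
  have key : ∀ x ∈ DD, 0 ≤ a x ∧ a x ≤ U x ∧ U x - 2 * t ≤ a x ∧ 0 ≤ g x + lap a x ∧
      (2 * t ≤ U x → g x + lap a x = 0) := fun x hx => by
    obtain ⟨-, s2, -, s4, s5, -, s7, s8, s9⟩ := hs (t⁻¹ * U x)
    have p : 0 < t⁻¹ * U x := mul_pos (inv_pos.2 t0) (hp x hx)
    have q : t * (t⁻¹ * U x) = U x := mul_inv_cancel_left₀ t0.ne' _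
    have e : g x + lap a x = (1 - deriv χ (t⁻¹ * U x)) * g x + t * (deriv (deriv χ) (t⁻¹ * U x) *
        gdot (fun x => t⁻¹ * U x) (fun x => t⁻¹ * U x) x) := by
      rw [lap_congr (b := fun x => t * χ (t⁻¹ * U x))
        (by filter_upwards [isOpen_DD.mem_nhds hx] with y hy using ea y hy), lap_const_mul,
        lap_comp ((hV.contDiffAt (isOpen_DD.mem_nhds hx)).of_le two_le_oo)
          (hχ.contDiffAt.of_le two_le_oo), lap_const_mul, hl x hx]
      field_simp
      ring
    rw [max_eq_left p.le] at s9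
    rw [ea x hx, e]
    refine ⟨by positivity, by nlinarith, by nlinarith, add_nonneg (mul_nonneg (by linarith) (g0 x))
      (mul_nonneg t0.le (mul_nonneg s5 gdot_self_nonneg)), fun h => ?_⟩
    obtain ⟨r1, r2⟩ := s2 (by rw [le_inv_mul_iff₀ t0]; linarith)
    rw [r1, r2]
    ring
  refine ⟨a, ha, (bDisc_en (t := t) ha hg hU.continuousOn fun x hx => ?_).trans t2,
    fun x hx => ?_⟩
  · obtain ⟨k1, k2, k3, k4, k5⟩ := key x hx
    have e1 := mul_nonneg k1 k4
    have e2 := mul_nonneg (sub_nonneg.2 k2) (g0 x)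
    have e3 := mul_le_mul_of_nonneg_right (show U x - a x ≤ 2 * t by linarith) (g0 x)
    have e4 : a x * (g x + lap a x) ≤ 2 * t * (g x + lap a x) := by
      rcases le_total (2 * t) (U x) with h | h
      · rw [k5 h, mul_zero, mul_zero]
      · exact mul_le_mul_of_nonneg_right (k2.trans h) k4
    constructor <;> nlinarith
  · obtain ⟨k1, k2, -, k4, k5⟩ := key x hx
    exact ⟨k1, k2.trans (hC x hx), k4, fun h => le_of_not_ge fun h' => h (k5 (t1.trans (hm x h')))⟩

end Vale.Agent.P145.Bv
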