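import Vale.Agent.P145.BDefs

/-! P145, block BVS: the truncated logarithm. -/

open Set Filter Topology Metric MeasureTheory

namespace Vale.Agent.P145.Bv

open Vale.Agent.P071 (Test gdot DD hh G0)

theorem bEll_lap {χ : ℝ → ℝ} (hχ : ContDiff ℝ (⊤ : ℕ∞) χ) (L b : ℝ) (x : ℂ) (hx : 0 < b - hh x) :
    P071.lap (fun z => χ (L - Real.log (b - hh z))) x =
      deriv (deriv χ) (L - Real.log (b - hh x)) * (4 * ‖x‖ ^ 2 / (b - hh x) ^ 2) +
        deriv χ (L - Real.log (b - hh x)) * (4 * ‖x‖ ^ 2 / (b - hh x) ^ 2 - 4 / (b - hh x)) := by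
  have h1 : Differentiable ℝ χ := hχ.differentiable P071.oo_ne_zero
  have h2 : Differentiable ℝ (deriv χ) :=
    (hχ.deriv' (n := P071.oo)).differentiable P071.oo_ne_zero
  have hg : ∀ t, 0 < b - t → HasDerivAt (fun t => L - Real.log (b - t)) (b - t)⁻¹ t := by
    intro t ht
    have := (((hasDerivAt_id t).const_sub b).log ht.ne').const_sub L
    refine this.congr_deriv ?_
    simp [neg_div]
  have hi : HasDerivAt (fun t => (b - t)⁻¹) (((b - hh x) ^ 2)⁻¹) (hh x) := by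
    have := ((hasDerivAt_id (hh x)).const_sub b).inv hx.ne'
    refine this.congr_deriv ?_
    simp
  have he : ∀ᶠ t in 𝓝 (hh x), 0 < b - t :=
    (continuous_const.sub continuous_id).continuousAt.eventually (lt_mem_nhds hx)
  have k := P071.lap_comp_hh (g := fun t => χ (L - Real.log (b - t)))
    (g1 := fun t => deriv χ (L - Real.log (b - t)) * (b - t)⁻¹) (z := x)
    (he.mono fun t ht => (h1 _).hasDerivAt.comp t (hg t ht))
    (((h2 _).hasDerivAt.comp (hh x) (hg _ hx)).mul hi)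
  rw [k]
  simp only [Function.comp_def]
  field_simp
  ring

theorem bEll (h : B_cut) : B_ell := by
  obtain ⟨χ, K, hχ, hK, H⟩ := h
  refine ⟨36 * K, by positivity, fun ρ hρ a ha => ?_⟩
  have hs : ∀ y : ℂ, 1 + a ^ 2 - hh y = ‖y‖ ^ 2 + a ^ 2 := fun y => by
    unfold hh
    ring
  have hq : ∀ y : ℂ, 0 < ‖y‖ ^ 2 + a ^ 2 := fun y => by positivity
  have hw : ∀ y : ℂ, Real.log (ρ ^ 2) - Real.log (1 + a ^ 2 - hh y) =
      Real.log (ρ ^ 2 / (‖y‖ ^ 2 + a ^ 2)) := fun y => by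
    rw [hs, Real.log_div (by positivity) (hq y).ne']
  have h0 : ∀ y : ℂ, ρ < ‖y‖ → χ (Real.log (ρ ^ 2) - Real.log (1 + a ^ 2 - hh y)) = 0 := by
    intro y hy
    refine (H _).1 ?_
    rw [hw]
    refine (Real.log_nonpos (by positivity) ?_).trans zero_le_one
    rw [div_le_one (hq y)]
    nlinarith [sq_nonneg a]
  refine ⟨fun z => χ (Real.log (ρ ^ 2) - Real.log (1 + a ^ 2 - hh z)), ⟨?_, ?_, subset_univ _⟩,
    fun x => ⟨(H _).2.2.2.2.2.2.2.1, ?_, fun hx => ⟨h0 x hx, ?_⟩, ?_⟩⟩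
  · exact hχ.comp (contDiff_const.sub ((contDiff_const.sub P071.contDiff_hh).log fun y => by
      rw [hs]
      exact (hq y).ne'))
  · exact HasCompactSupport.intro (isCompact_closedBall 0 ρ) fun y hy =>
      h0 y (by simpa using hy)
  · rw [bEll_lap hχ _ _ x (by rw [hs]; exact hq x), hw, hs]
    obtain ⟨-, k2, k3, -, k5, k6, -⟩ := H (Real.log (ρ ^ 2 / (‖x‖ ^ 2 + a ^ 2)))
    have q0 := hq x
    have e1 : 4 * ‖x‖ ^ 2 / (‖x‖ ^ 2 + a ^ 2) ^ 2 ≤ 4 / (‖x‖ ^ 2 + a ^ 2) := by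
      rw [div_le_div_iff₀ (by positivity) q0]
      nlinarith [mul_nonneg q0.le (sq_nonneg a)]
    have e2 := mul_nonneg k3 (sub_nonneg.2 e1)
    have e3 := mul_le_mul_of_nonneg_left e1 k5
    have e4 : deriv (deriv χ) (Real.log (ρ ^ 2 / (‖x‖ ^ 2 + a ^ 2))) * (4 / (‖x‖ ^ 2 + a ^ 2)) ≤
        36 * K / ρ ^ 2 := by
      rcases le_total 2 (Real.log (ρ ^ 2 / (‖x‖ ^ 2 + a ^ 2))) with h2 | h2
      · rw [(k2 h2).2, zero_mul]
        positivity
      · rw [Real.log_le_iff_le_exp (by positivity), div_le_iff₀ q0] at h2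
        have h3 : Real.exp 2 ≤ 9 := by
          have h4 : Real.exp 2 = Real.exp 1 * Real.exp 1 := by
            rw [← Real.exp_add]
            norm_num
          have h5 := Real.exp_one_lt_three
          have h6 := Real.exp_pos 1
          nlinarith
        have h7 : 4 / (‖x‖ ^ 2 + a ^ 2) ≤ 36 / ρ ^ 2 := by
          rw [div_le_div_iff₀ q0 (by positivity)]
          nlinarith
        refine (mul_le_mul k6 h7 (by positivity) hK).trans_eq ?_
        ring
    linarith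
  · have e : (fun z => χ (Real.log (ρ ^ 2) - Real.log (1 + a ^ 2 - hh z))) =ᶠ[𝓝 x] fun _ => 0 := by
      filter_upwards [continuous_norm.continuousAt.eventually (lt_mem_nhds hx)] with y hy
      exact h0 y hy
    rw [P071.lap_congr e, P071.lap_const]
  · rw [← hw]
    exact (H _).2.2.2.2.2.2.1

end Vale.Agent.P145.Bv
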