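import Vale.Agent.P145.BDefs

/-! P145, block BVS: bounds for the two point function. -/

open Set Filter Topology Metric MeasureTheory

namespace Vale.Agent.P145.Bv

open Vale.Agent.P152 (Site Pl sd)

theorem bKer_mem {f z : Site} {n : ℕ} :
    f ∈ sq z n ↔ z.1 - n ≤ f.1 ∧ f.1 < z.1 + n ∧ z.2 - n ≤ f.2 ∧ f.2 < z.2 + n := by
  simp only [sq, P152.bx, Finset.mem_product, Finset.mem_Ico, and_assoc, Prod.fst_sub,
    Prod.snd_sub, Prod.fst_add, Prod.snd_add]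

theorem bKer_one {c : ℝ} (h : V1 c) : ∃ C, 0 ≤ C ∧ K1 c C := by
  obtain ⟨C, hC, h⟩ := h
  refine ⟨C, hC, fun r D v w L hD hs hL hr => ?_⟩
  have h1 : 2 * L ≤ (⌈2 * L⌉₊ : ℝ) := Nat.le_ceil _
  have h2 : (⌈2 * L⌉₊ : ℝ) < 2 * L + 1 := Nat.ceil_lt_add_one (by linarith)
  have h3 : Real.exp L ≤ 2 ^ ⌈2 * L⌉₊ := by
    have e : (2 : ℝ) ^ ⌈2 * L⌉₊ = Real.exp (⌈2 * L⌉₊ * Real.log 2) := by
      rw [Real.exp_nat_mul, Real.exp_log two_pos]
    rw [e, Real.exp_le_exp]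
    nlinarith [Real.log_two_gt_d9]
  have h4 : (r : ℝ) ≤ 2 ^ ⌈2 * L⌉₊ * max 1 (sd v w : ℝ) :=
    hr.trans (mul_le_mul_of_nonneg_right h3 (le_max_of_le_left zero_le_one))
  refine (h ⌈2 * L⌉₊ r D v w hD hs (by exact_mod_cast h4)).trans ?_
  exact mul_le_mul_of_nonneg_left (by linarith) hC

theorem bKer_glob {c C δ R x : ℝ} {V : Finset Site} {v : Site} (hC : 0 ≤ C) (hK : K1 c C)
    (hδ : 0 < δ) (hV : Cc V) (hR : 0 ≤ R) (hx : 0 ≤ x) (hf : ∀ f ∈ V, ‖pnt δ f‖ ≤ R)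
    (hv : δ * (sd 0 v : ℝ) ≤ x) (w : Site) :
    VV c V v w ≤ C * (2 + 2 * ((R + x + δ) / δ) * (1 / max 1 (sd v w : ℝ))) := by
  have h1 : (R + x) / δ < ((⌊(R + x) / δ⌋₊ + 1 : ℕ) : ℝ) := by
    push_cast; exact Nat.lt_floor_add_one _
  have h2 : ((⌊(R + x) / δ⌋₊ + 1 : ℕ) : ℝ) ≤ (R + x + δ) / δ := by
    have := Nat.floor_le (a := (R + x) / δ) (by positivity)
    rw [add_div (R + x), div_self hδ.ne']
    push_cast; linarith
  have h0 : 0 < ⌊(R + x) / δ⌋₊ + 1 := Nat.succ_pos _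
  generalize ⌊(R + x) / δ⌋₊ + 1 = n at h0 h1 h2
  have hm : (0 : ℝ) < max 1 (sd v w : ℝ) := lt_max_of_lt_left one_pos
  have hs : ¬ sq v n ⊆ V := fun hs => by
    have h3 := hf (v.1 - n, v.2) (hs (bKer_mem.2 (by simp only; omega)))
    have h4 := (norm_fst_le _).trans h3
    simp only [pnt, Real.norm_eq_abs] at h4
    have h5 : v.1 ≤ sd 0 v := by
      simp only [sd, Prod.fst_zero, Prod.snd_zero, zero_sub, abs_neg]
      exact le_max_of_le_left (le_abs_self _)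
    have h6 : (v.1 : ℝ) ≤ sd 0 v := by exact_mod_cast h5
    rw [div_lt_iff₀ hδ] at h1
    have h7 := (neg_le_abs _).trans h4
    push_cast at h7
    nlinarith
  refine (hK n V v w (n / max 1 (sd v w : ℝ)) hV hs (by positivity) ?_).trans ?_
  · rw [← div_le_iff₀ hm]
    linarith [Real.add_one_le_exp (n / max 1 (sd v w : ℝ))]
  · refine mul_le_mul_of_nonneg_left ?_ hC
    rw [mul_assoc, mul_one_div]
    gcongr

theorem bKer_norm (δ : ℝ) (v w : Site) : ‖cp δ (w - v)‖ ^ 2 ≤ 2 * (δ * (sd v w : ℝ)) ^ 2 := by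
  have h1 : |(v.1 : ℝ) - w.1| ≤ sd v w := by
    have : |v.1 - w.1| ≤ sd v w := le_max_left _ _
    exact_mod_cast this
  have h2 : |(v.2 : ℝ) - w.2| ≤ sd v w := by
    have : |v.2 - w.2| ≤ sd v w := le_max_right _ _
    exact_mod_cast this
  have h3 := sq_le_sq' (abs_le.1 h1).1 (abs_le.1 h1).2
  have h4 := sq_le_sq' (abs_le.1 h2).1 (abs_le.1 h2).2
  rw [Complex.sq_norm, cp, tc, Complex.normSq_mk]
  simp only [pnt, Prod.fst_sub, Prod.snd_sub]
  push_cast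
  nlinarith [sq_nonneg δ]

theorem bKer_log {m n s r δ y : ℝ} (hm : 0 < m) (hn : 0 < n) (hs : 0 < s) (hδ : 0 < δ)
    (hy : 0 < y) (hnr : δ * n ≤ 3 * r) (hys : y ≤ 3 * (δ * s) ^ 2) :
    4 + 2 * Real.log (m * n / s) ≤ Real.log ((50 * m * r) ^ 2 / y) := by
  have hr : 0 < r := by nlinarith [mul_pos hδ hn]
  have h1 : Real.exp 4 ≤ 81 := by
    have e : Real.exp 4 = Real.exp 1 ^ 4 := by rw [← Real.exp_nat_mul]; norm_num
    rw [e]
    calc Real.exp 1 ^ 4 ≤ 3 ^ 4 := by gcongr; linarith [Real.exp_one_lt_d9]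
      _ = 81 := by norm_num
  have e : Real.exp (2 * Real.log (m * n / s)) = (m * n / s) ^ 2 := by
    rw [two_mul, Real.exp_add, Real.exp_log (by positivity), pow_two]
  rw [Real.le_log_iff_exp_le (by positivity), Real.exp_add, e, le_div_iff₀ hy]
  calc Real.exp 4 * (m * n / s) ^ 2 * y ≤ 81 * (m * n / s) ^ 2 * (3 * (δ * s) ^ 2) := by gcongr
    _ = 243 * m ^ 2 * (δ * n) ^ 2 := by field_simp; norm_num
    _ ≤ 243 * m ^ 2 * (3 * r) ^ 2 := by gcongr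
    _ ≤ (50 * m * r) ^ 2 := by nlinarith [sq_nonneg (m * r)]

theorem bKer : B_ker := by
  refine fun c => ⟨bKer_one, fun C hC hK δ V v hδ hV =>
    ⟨fun R x hR hx hf hv w => bKer_glob hC hK hδ hV hR hx hf hv w, ?_⟩⟩
  intro ε r a M n1 f l hε ha hδr hn1 hM hf hd hl w hw
  have hr : 0 < r := hδ.trans_le hδr
  have h1 : 2 * r < δ * ((⌊2 * r / δ⌋₊ + 1 : ℕ) : ℝ) := by
    rw [mul_comm δ, ← div_lt_iff₀ hδ]
    push_cast; exact Nat.lt_floor_add_one _
  have h2 : δ * ((⌊2 * r / δ⌋₊ + 1 : ℕ) : ℝ) ≤ 3 * r := by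
    have := Nat.floor_le (a := 2 * r / δ) (by positivity)
    rw [le_div_iff₀ hδ] at this
    push_cast; linarith
  generalize ⌊2 * r / δ⌋₊ + 1 = n at h1 h2
  have hn0 : (0 : ℝ) < n := by
    by_contra hn
    nlinarith
  have hn : n1 ≤ n := by
    have : (n1 : ℝ) ≤ n := le_of_mul_le_mul_left (by linarith) hδ
    exact_mod_cast this
  have key : ∀ p q : ℤ, dist (δ * p) (δ * q) ≤ 2 * r → q - n ≤ p ∧ p < q + n := fun p q h => by
    rw [Real.dist_eq, ← mul_sub, abs_mul, abs_of_pos hδ] at h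
    have h3 := abs_lt.1 (lt_of_mul_lt_mul_left (h.trans_lt h1) hδ.le)
    have h4 : (q : ℝ) - n ≤ p ∧ (p : ℝ) < q + n := ⟨by linarith, by linarith⟩
    exact_mod_cast h4
  rw [Prod.dist_eq, max_le_iff] at hd
  have hs : ¬ sq v n ⊆ V := fun hs =>
    hf (hs (bKer_mem.2 ⟨(key _ _ hd.1).1, (key _ _ hd.1).2, key _ _ hd.2⟩))
  obtain ⟨hl0, hl1⟩ := hl (cp δ (w - v))
  rcases le_or_gt (M * n : ℤ) (sd v w) with hc | hc
  · exact (hM n hn V v w hV hs hc).trans (le_add_of_nonneg_right (mul_nonneg hC hl0))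
  · have hs0 : (0 : ℝ) < sd v w := by
      by_contra h
      nlinarith
    have hs1 : (1 : ℝ) ≤ sd v w := by
      have : (0 : ℤ) < sd v w := by exact_mod_cast hs0
      exact_mod_cast this
    have hc' : (sd v w : ℝ) < M * n := by exact_mod_cast hc
    have hM0 : (0 : ℝ) ≤ M := Nat.cast_nonneg M
    have hL := bKer_log (m := M + 1) (y := ‖cp δ (w - v)‖ ^ 2 + a ^ 2) (by positivity) hn0 hs0 hδ
      (by positivity) h2 (by nlinarith [bKer_norm δ v w])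
    refine (hK n V v w (Real.log ((M + 1) * n / (sd v w : ℝ))) hV hs (Real.log_nonneg ?_)
      ?_).trans ?_
    · rw [le_div_iff₀ hs0]; linarith
    · rw [Real.exp_log (by positivity), max_eq_right hs1, div_mul_cancel₀ _ hs0.ne']
      nlinarith
    · exact (mul_le_mul_of_nonneg_left (by linarith) hC).trans (le_add_of_nonneg_left hε)

end Vale.Agent.P145.Bv
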