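import Vale.Agent.P145.BDefs

/-! P145, block BVS: positivity of the Green potential and the bridge between the two planes. -/

open Set Filter Topology Metric MeasureTheory

namespace Vale.Agent.P145.Bv

open Vale.Agent.P071 (Test gdot DD hh G0)
open Vale.Agent.P152 (Site Pl Sm en sd PH)

theorem bPos : B_pos := by
  intro g hg h0 hne x hx
  obtain ⟨C, hC⟩ := hg.bdd
  have hi : IntegrableOn (fun y => P071.g0 x y * g y) DD :=
    (P071.integrableOn_g0 hx).mul_bdd (c := C) hg.continuous.aestronglyMeasurable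
      (Eventually.of_forall fun y => by simpa using hC y)
  have hn : 0 ≤ᵐ[volume.restrict DD] fun y => P071.g0 x y * g y :=
    (ae_restrict_iff' P071.measurableSet_DD).2 (Eventually.of_forall fun y hy =>
      mul_nonneg (P071.g0_nonneg hx hy) (h0 y))
  unfold G0
  rw [setIntegral_pos_iff_support_of_nonneg_ae hn hi]
  have ho : IsOpen ({y | 0 < g y} ∩ DD) :=
    (isOpen_lt continuous_const hg.continuous).inter P071.isOpen_DD
  obtain ⟨y, hy⟩ := Function.ne_iff.1 hne
  have hy' : 0 < g y := lt_of_le_of_ne (h0 y) (Ne.symm hy)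
  have hyD : y ∈ DD := by
    by_contra h
    exact hy (hg.eq_zero h)
  have hp : 0 < volume ({y | 0 < g y} ∩ DD) := ho.measure_pos _ ⟨y, hy', hyD⟩
  rw [← measure_diff_null (t := {x}) (measure_singleton x)] at hp
  refine hp.trans_le (measure_mono ?_)
  rintro z ⟨⟨hz1, hz2⟩, hz3⟩
  refine ⟨?_, hz2⟩
  exact (mul_pos (P071.g0_pos hx hz2 (fun h => hz3 h.symm)) hz1).ne'

lemma bPos_tc : tc = Complex.equivRealProdCLM.symm := rfl

lemma bPos_fd (f : ℂ → ℝ) (p q : Pl) : fderiv ℝ (f ∘ tc) p q = fderiv ℝ f (tc p) (tc q) := by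
  rw [bPos_tc, ContinuousLinearEquiv.comp_right_fderiv]
  rfl

theorem bBr : B_br := by
  refine ⟨fun D f hf => ⟨⟨?_, ?_⟩, ?_, ?_⟩, fun D y hy => ?_, fun p q => ?_, fun δ v w => ⟨?_, ?_⟩⟩
  · exact hf.1.comp Complex.equivRealProdCLM.symm.contDiff
  · exact hf.2.1.comp_homeomorph Complex.equivRealProdCLM.symm.toHomeomorph
  · refine Subset.trans ?_ (preimage_mono hf.2.2)
    exact closure_minimal (fun p hp => subset_closure hp)
      (isClosed_closure.preimage Complex.equivRealProdCLM.symm.continuous)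
  · rw [← (Complex.volume_preserving_equiv_real_prod.symm).integral_comp
      Complex.measurableEquivRealProd.symm.measurableEmbedding]
    unfold en P152.l2
    refine integral_congr_ae (Eventually.of_forall fun p => ?_)
    simp only [P152.grd, bPos_fd, if_true, Bool.false_eq_true, if_false, gdot, P071.d1, P071.d2, pow_two]
    rfl
  · refine ⟨(y.re, y.im), ?_, rfl⟩
    have := Complex.equivRealProdCLM.symm.toHomeomorph.preimage_frontier D
    change tc ⁻¹' frontier D = frontier (tc ⁻¹' D) at this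
    rw [← this]
    exact hy
  · rw [Prod.dist_eq, Complex.dist_eq, Real.dist_eq, Real.dist_eq]
    exact max_le (Complex.abs_re_le_norm (tc p - tc q)) (Complex.abs_im_le_norm (tc p - tc q))
  · apply Complex.ext <;> simp [cp, tc, pnt, mul_sub]
  · intro hδ
    rw [Prod.dist_eq, Real.dist_eq, Real.dist_eq]
    simp only [pnt, sd]
    push_cast
    rw [← mul_sub, ← mul_sub, abs_mul, abs_mul, abs_of_nonneg hδ, mul_max_of_nonneg _ _ hδ]

end Vale.Agent.P145.Bv
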