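import Vale.Agent.P145.BDefs

/-! P145, block BVS: mass and potential of the swept charge. -/

open Set Filter Topology Metric MeasureTheory

namespace Vale.Agent.P145.Bv

open Vale.Agent.P152 (Site Pl Sm en sd PH)

theorem bPot_shift (F G : Site → ℝ) (S : Finset Site) (t : Site)
    (h : ∀ w, F w ≠ 0 → w ∈ S ∧ w - t ∈ S) :
    ∑ w ∈ S, F (w + t) * G w = ∑ w ∈ S, F w * G (w - t) := by
  refine Finset.sum_bij_ne_zero (fun w _ _ => w + t) (fun w _ k => ?_)
    (fun _ _ _ _ _ _ k => add_right_cancel k) (fun w _ k => ?_) fun w _ _ => ?_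
  · exact (h _ (left_ne_zero_of_mul k)).1
  · refine ⟨w - t, (h _ (left_ne_zero_of_mul k)).2, ?_, sub_add_cancel w t⟩
    rwa [sub_add_cancel]
  · rw [add_sub_cancel_right]

/-- the lattice Laplacian -/
def bPot_L (F : Site → ℝ) (w : Site) : ℝ :=
  F (w + (1, 0)) + F (w - (1, 0)) + F (w + (0, 1)) + F (w - (0, 1)) - 4 * F w

theorem bPot_green (F G : Site → ℝ) (S : Finset Site)
    (h : ∀ w, F w ≠ 0 → ∀ u, sd u w ≤ 1 → u ∈ S) :
    ∑ w ∈ S, bPot_L F w * G w = ∑ w ∈ S, F w * bPot_L G w := by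
  have k : ∀ t : Site, |t.1| ≤ 1 → |t.2| ≤ 1 →
      ∑ w ∈ S, F (w + t) * G w = ∑ w ∈ S, F w * G (w - t) := fun t h1 h2 =>
    bPot_shift F G S t fun w hw => ⟨h w hw w (by simp [sd]), h w hw _ (by simp [sd, h1, h2])⟩
  have k1 := k (1, 0) (by simp) (by simp)
  have k2 := k (-(1, 0)) (by simp) (by simp)
  have k3 := k (0, 1) (by simp) (by simp)
  have k4 := k (-(0, 1)) (by simp) (by simp)
  simp only [← sub_eq_add_neg, sub_neg_eq_add] at k2 k4
  simp only [bPot_L, sub_mul, add_mul, mul_sub, mul_add, Finset.sum_sub_distrib,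
    Finset.sum_add_distrib, k1, k2, k3, k4, mul_assoc, mul_left_comm (F _) 4]
  ring

theorem bPot_sd {δ : ℝ} (hδ : 0 < δ) (v w : Site) : δ * (sd v w : ℝ) ≤ ‖cp δ (w - v)‖ := by
  have h1 : |δ * ((w.1 - v.1 : ℤ) : ℝ)| ≤ ‖cp δ (w - v)‖ := Complex.abs_re_le_norm (cp δ (w - v))
  have h2 : |δ * ((w.2 - v.2 : ℤ) : ℝ)| ≤ ‖cp δ (w - v)‖ := Complex.abs_im_le_norm (cp δ (w - v))
  rw [abs_mul, abs_of_pos hδ, ← Int.cast_abs, abs_sub_comm] at h1 h2
  unfold sd
  rcases max_choice |v.1 - w.1| |v.2 - w.2| with e | e <;> rwa [e]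

theorem bPot (h : B_cnt) : B_pot := by
  intro f g δ e σ S hδ he hσ hS hf
  have d2 : 0 < δ ^ 2 := by positivity
  have gr := fun G => bPot_green (fun w => f (cp δ w)) G S hS
  have hf' : ∀ w, δ ^ 2 * P071.lap f (cp δ w) ≤ bPot_L (fun w => f (cp δ w)) w + e * δ ^ 2 :=
    fun w => by
      have : bPot_L (fun w => f (cp δ w)) w = dl δ (f ∘ tc) w := rfl
      linarith [(abs_le.1 (hf w)).1]
  refine ⟨fun Mg h0 hg => ?_, fun l θ ρ K Mf Ml v hρ hθ hK f0 l0 hl hl' hfg => ?_⟩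
  · have k := gr fun _ => 1
    have z : ∀ w, bPot_L (fun _ => 1) w = 0 := fun w => by
      unfold bPot_L
      norm_num
    simp only [z, mul_zero, mul_one, Finset.sum_const_zero] at k
    refine (Finset.sum_le_sum (g := fun w => bPot_L (fun w => f (cp δ w)) w + (Mg + e) * δ ^ 2)
      fun w _ => ?_).trans ?_
    · have := mul_le_mul_of_nonneg_left (hg (cp δ w)) d2.le
      linarith [hf' w]
    · rw [Finset.sum_add_distrib, k, Finset.sum_const, nsmul_eq_mul]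
      have := mul_le_mul_of_nonneg_left hσ (add_nonneg h0 he)
      linarith
  have ρ0 : 0 < ρ := hδ.trans_le hρ
  have Mf0 : 0 ≤ Mf := (f0 0).1.trans (f0 0).2
  have Ml0 : 0 ≤ Ml := (l0 0).1.trans (l0 0).2
  have ed : 0 ≤ e * δ ^ 2 := by positivity
  have k := gr fun w => l (cp δ (w - v))
  have a1 : ∑ w ∈ S, δ ^ 2 * (g (cp δ w) + P071.lap f (cp δ w)) * l (cp δ (w - v)) ≤
      ∑ w ∈ S, (bPot_L (fun w => f (cp δ w)) w * l (cp δ (w - v)) + e * δ ^ 2 * Ml) :=
    Finset.sum_le_sum fun w _ => by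
      have b1 : g (cp δ w) * l (cp δ (w - v)) = 0 := by
        rcases le_or_gt ‖cp δ (w - v)‖ ρ with b | b
        · rw [(hfg w b).2, zero_mul]
        · rw [((hl' _).2 b).1, mul_zero]
      have b2 := mul_le_mul_of_nonneg_right (hf' w) (l0 (cp δ (w - v))).1
      have b3 := mul_le_mul_of_nonneg_left (l0 (cp δ (w - v))).2 ed
      have b4 : δ ^ 2 * (g (cp δ w) * l (cp δ (w - v))) = 0 := by rw [b1, mul_zero]
      linarith
  have a2 : ∑ w ∈ S, f (cp δ w) * bPot_L (fun w => l (cp δ (w - v))) w ≤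
      ∑ w ∈ S, ((if ‖cp δ (w - v)‖ ≤ ρ then θ * (δ ^ 2 * (K / ρ ^ 2)) else 0) + Mf * (e * δ ^ 2)) :=
    Finset.sum_le_sum fun w _ => by
      have b1 : bPot_L (fun w => l (cp δ (w - v))) w = dl δ (l ∘ tc) (w - v) := by
        unfold bPot_L
        simp only [add_sub_right_comm w _ v, sub_right_comm w _ v]
        rfl
      have b2 := mul_le_mul_of_nonneg_left (abs_le.1 (hl (w - v))).2 (f0 (cp δ w)).1
      have b3 := mul_le_mul_of_nonneg_right (f0 (cp δ w)).2 ed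
      have b4 : f (cp δ w) * (δ ^ 2 * P071.lap l (cp δ (w - v))) ≤
          if ‖cp δ (w - v)‖ ≤ ρ then θ * (δ ^ 2 * (K / ρ ^ 2)) else 0 := by
        split_ifs with b
        · exact (mul_le_mul_of_nonneg_left (mul_le_mul_of_nonneg_left (hl' _).1 d2.le)
            (f0 _).1).trans (mul_le_mul_of_nonneg_right (hfg w b).1 (by positivity))
        · exact mul_nonpos_of_nonneg_of_nonpos (f0 _).1
            (mul_nonpos_of_nonneg_of_nonpos d2.le ((hl' _).2 (not_le.1 b)).2)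
      rw [b1]
      linarith
  have a3 := (h δ ρ v (S.filter fun w => ‖cp δ (w - v)‖ ≤ ρ) hδ hρ fun w hw =>
    (bPot_sd hδ v w).trans (Finset.mem_filter.1 hw).2).1
  rw [Finset.sum_add_distrib, Finset.sum_const, nsmul_eq_mul] at a1 a2
  rw [← Finset.sum_filter, Finset.sum_const, nsmul_eq_mul] at a2
  have a4 := mul_le_mul_of_nonneg_right a3 (show 0 ≤ θ * (K / ρ ^ 2) by positivity)
  have a5 : 9 * ρ ^ 2 * (θ * (K / ρ ^ 2)) = 9 * K * θ := by field_simp
  have a6 := mul_le_mul_of_nonneg_left hσ (mul_nonneg he (add_nonneg Mf0 Ml0))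
  linarith

end Vale.Agent.P145.Bv
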