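import Vale.Agent.P145.BDefs

/-! P145, block BVS: the second moment of a smeared height. -/

open Set Filter Topology Metric MeasureTheory

namespace Vale.Agent.P145.Bv

open Vale.Agent.P152 (Site Pl Sm en sd PH)

theorem bSum_exp (c : ℝ) (V S : Finset Site) (a : Site →₀ ℝ) (hS : ∀ v, a v ≠ 0 → v ∈ S) :
    PH c V (fun h => lin a h ^ 2) = ∑ v ∈ S, ∑ w ∈ S, a v * a w * VV c V v w := by
  have e : ∀ h : P152.Ht, lin a h = ∑ v ∈ S, a v * (h (v, true) : ℝ) := fun h =>
    Finsupp.sum_of_support_subset a (fun v hv => hS v (Finsupp.mem_support_iff.1 hv)) _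
      fun _ _ => zero_mul _
  simp only [e, pow_two, Finset.sum_mul_sum]
  simp only [VV, PH, Finset.mul_sum, ← mul_div_assoc, ← Finset.sum_div]
  refine congrArg (· / _) ?_
  rw [Finset.sum_comm]
  refine Finset.sum_congr rfl fun v _ => ?_
  rw [Finset.sum_comm]
  exact Finset.sum_congr rfl fun w _ => Finset.sum_congr rfl fun h _ => by ring

theorem bSum : B_sum := by
  intro c V S a A G P N e H ε μ p n Γ he hH hε hp hn hS ha hG hV hΓ hμ hA
  rw [bSum_exp c V S a hS]
  have hμ0 : 0 ≤ μ := (Finset.sum_nonneg fun v _ => (ha v).2.2.1).trans hμ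
  have hk : 0 ≤ e * (2 * H + e) := by positivity
  have h1 : ∀ v ∈ S, ∀ w, a v * a w * VV c V v w ≤
      A v * (A w * max (VV c V v w) 0) + e * (2 * H + e) * G v w := fun v hv w => by
    obtain ⟨a1, a2, a3, a4⟩ := ha v
    obtain ⟨b1, b2, b3, b4⟩ := ha w
    have m0 : 0 ≤ max (VV c V v w) 0 := le_max_right _ _
    have m1 : max (VV c V v w) 0 ≤ G v w := max_le (hV v hv w) (hG v w).1
    have k1 : a v * a w ≤ A v * A w + e * (2 * H + e) :=
      (mul_le_mul a2 b2 b1 (by positivity)).trans (by nlinarith)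
    calc a v * a w * VV c V v w ≤ a v * a w * max (VV c V v w) 0 :=
          mul_le_mul_of_nonneg_left (le_max_left _ _) (mul_nonneg a1 b1)
      _ ≤ (A v * A w + e * (2 * H + e)) * max (VV c V v w) 0 := mul_le_mul_of_nonneg_right k1 m0
      _ = A v * (A w * max (VV c V v w) 0) + e * (2 * H + e) * max (VV c V v w) 0 := by ring
      _ ≤ _ := add_le_add le_rfl (mul_le_mul_of_nonneg_left m1 hk)
  have h2 : ∀ v ∈ S, A v * ∑ w ∈ S, A w * max (VV c V v w) 0 ≤ A v * (ε * μ + p + H * n) :=
    fun v hv => by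
    by_cases h0 : A v = 0
    · rw [h0, zero_mul, zero_mul]
    obtain ⟨k1, k2, k3⟩ := hA v hv h0
    refine mul_le_mul_of_nonneg_left ?_ (ha v).2.2.1
    calc ∑ w ∈ S, A w * max (VV c V v w) 0 ≤ ∑ w ∈ S, (ε * A w + A w * P v w + H * N v w) := by
          refine Finset.sum_le_sum fun w _ => ?_
          obtain ⟨_, _, b3, b4⟩ := ha w
          obtain ⟨_, g2, g3⟩ := hG v w
          have m : max (VV c V v w) 0 ≤ ε + P v w + N v w := max_le (k1 w) (by positivity)
          have m1 := mul_le_mul_of_nonneg_left m b3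
          have m2 := mul_le_mul_of_nonneg_right b4 g3
          nlinarith
      _ ≤ _ := by
          rw [Finset.sum_add_distrib, Finset.sum_add_distrib, ← Finset.mul_sum, ← Finset.mul_sum]
          exact add_le_add (add_le_add (mul_le_mul_of_nonneg_left hμ hε) k2)
            (mul_le_mul_of_nonneg_left k3 hH)
  calc ∑ v ∈ S, ∑ w ∈ S, a v * a w * VV c V v w
      ≤ ∑ v ∈ S, (A v * (ε * μ + p + H * n) + e * (2 * H + e) * Γ) := by
        refine Finset.sum_le_sum fun v hv => (Finset.sum_le_sum fun w _ => h1 v hv w).trans ?_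
        rw [Finset.sum_add_distrib, ← Finset.mul_sum, ← Finset.mul_sum]
        exact add_le_add (h2 v hv) (mul_le_mul_of_nonneg_left (hΓ v hv) hk)
    _ ≤ _ := by
        rw [Finset.sum_add_distrib, ← Finset.sum_mul, Finset.sum_const, nsmul_eq_mul]
        exact add_le_add (mul_le_mul_of_nonneg_right hμ (by positivity)) (le_of_eq (by ring))

end Vale.Agent.P145.Bv
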