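import Vale.Agent.P145.BDefs

/-! P145, block BVS: sweeping the charge in a Jordan domain. -/

open Set Filter Topology Metric MeasureTheory

namespace Vale.Agent.P145.Bv

open Vale.Agent.P071 Vale.Agent.P153.Wick

theorem bSwp_near {x : ℂ} (hx : x ∈ DD) : ∃ ζ ∈ sphere (0 : ℂ) 1, dist x ζ ≤ hh x := by
  have h1 := mem_DD.1 hx
  have h0 := norm_nonneg x
  have h2 := Complex.norm_exp_ofReal_mul_I (Complex.arg x)
  refine ⟨_, mem_sphere_zero_iff_norm.2 h2, ?_⟩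
  have e : x - Complex.exp (Complex.arg x * Complex.I) =
      ((‖x‖ - 1 : ℝ) : ℂ) * Complex.exp (Complex.arg x * Complex.I) := by
    rw [Complex.ofReal_sub, sub_mul, Complex.norm_mul_exp_arg_mul_I, Complex.ofReal_one, one_mul]
  rw [dist_eq_norm, e, norm_mul, h2, mul_one, Complex.norm_real, Real.norm_eq_abs,
    abs_of_nonpos (by linarith), hh]
  nlinarith

theorem bSwp_hh {x ζ : ℂ} (hx : x ∈ DD) (hζ : ζ ∈ sphere (0 : ℂ) 1) : hh x ≤ 2 * dist x ζ := by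
  have h1 := mem_DD.1 hx
  have h0 := norm_nonneg x
  have h2 := norm_sub_norm_le ζ x
  rw [mem_sphere_zero_iff_norm.1 hζ, ← dist_eq_norm, dist_comm] at h2
  unfold hh
  nlinarith

theorem bSwp (h : B_disc) : B_swp := by
  intro ψ g hψ hg hg0 θ hθ
  obtain ⟨ho, hb, hc, hfr, -, hun, hQ⟩ := s_conf ψ hψ
  have hnot : ∀ ζ ∈ sphere (0 : ℂ) 1, ψ ζ ∉ ψ '' ball 0 1 := by
    rintro ζ hζ ⟨x, hx, e⟩
    rw [hψ.2.1 (ball_subset_closedBall hx) (sphere_subset_closedBall hζ) e, mem_ball,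
      mem_sphere.1 hζ] at hx
    exact lt_irrefl _ hx
  have hne : ψ '' ball 0 1 ≠ univ := fun hu => NormedSpace.unbounded_univ ℝ ℂ (hu ▸ hb)
  rw [hQ]
  generalize ψ '' ball 0 1 = D at *
  generalize inv ψ = φ at *
  obtain ⟨C, hC, hd⟩ := h (R.gt ψ g) (R.gt_test hc hg) fun x =>
    mul_nonneg (sq_nonneg _) (indicator_nonneg (fun y _ => hg0 _) x)
  obtain ⟨d, hd0, hd1⟩ := hun (θ / (2 * C + 1)) (by positivity)
  obtain ⟨ρ, hρ, hρ1⟩ := hg.2.1.isCompact.exists_cthickening_subset_open ho hg.2.2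
  refine ⟨min d ρ, lt_min hd0 hρ, fun r hr => ?_⟩
  obtain ⟨u, hu, hu1⟩ := hun r hr
  obtain ⟨a, ha, ha1, ha2⟩ := hd θ hθ u hu
  have hf : Test D (D.indicator (a ∘ φ)) :=
    R.test_comp ho (Transport.contDiffOn_hol ho hc.hφ) hc.hf.continuousOn hc.mapsf hc.right ha
  have hv : ∀ x ∈ DD, D.indicator (a ∘ φ) (ψ x) = a x := fun x hx => by
    rw [indicator_of_mem (hc.mapsf hx), Function.comp_apply, hc.left x hx]
  generalize D.indicator (a ∘ φ) = f at hf hv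
  have hev : ∀ x ∈ DD, f ∘ ψ =ᶠ[𝓝 x] a := fun x hx => by
    filter_upwards [isOpen_DD.mem_nhds hx] with y hy using hv y hy
  have key : ∀ x ∈ DD, R.gt ψ g x + lap a x = ‖deriv ψ x‖ ^ 2 * (g (ψ x) + lap f (ψ x)) := by
    intro x hx
    rw [R.gt_eq hx, ← lap_congr (hev x hx), ((hc.lap_comp ho hf.contDiffOn).2 x hx).1, mul_add]
  have hp : ∀ x ∈ DD, 0 < ‖deriv ψ x‖ ^ 2 := fun x hx =>
    pow_pos (norm_pos_iff.2 (Transport.deriv_ne hc ho hx)) 2
  have hcs : ∀ z, (f z = 0 ∧ g z + lap f z = 0) ∨ ∃ x ∈ DD, ψ x = z := fun z => by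
    by_cases hz : z ∈ D
    · exact Or.inr ⟨φ z, hc.mapsφ hz, hc.right z hz⟩
    · exact Or.inl ⟨hf.eq_zero hz, by rw [hg.eq_zero hz, hf.lap.eq_zero hz, add_zero]⟩
  refine ⟨f, hf, ?_, fun z => ?_, fun z hz => ?_, fun z y hy hz => ⟨?_, ?_⟩⟩
  · have e1 : ∫ z, gdot f f z = ∫ x in DD, gdot a a x := by
      have h1 := (hf.contDiffOn (V := D)).of_le one_le_oo
      rw [← setIntegral_eq_integral_of_forall_compl_eq_zero (s := D) fun z hz => by
        rw [gdot, d1_eq, d2_eq, (hf.dd _).eq_zero hz, (hf.dd _).eq_zero hz]; ring,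
        hc.integral_gdot ho h1 h1]
      exact setIntegral_congr_fun measurableSet_DD fun x hx => gdot_congr (hev x hx) (hev x hx)
    have e2 : Qv D φ g = ∫ x in DD, G0 (R.gt ψ g) x * R.gt ψ g x := by
      rw [R.Q_eq ho hc hg, hc.integral_eq ho]
      refine setIntegral_congr_fun measurableSet_DD fun x hx => ?_
      simp only [R.gt_eq hx, hc.left x hx]
      ring
    rw [e1, e2]
    exact ha1
  · rcases hcs z with ⟨h1, h2⟩ | ⟨x, hx, rfl⟩
    · exact ⟨h1.ge, h2.ge⟩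
    · obtain ⟨k1, -, k3, -⟩ := ha2 x hx
      rw [key x hx] at k3
      exact ⟨hv x hx ▸ k1, (mul_nonneg_iff_of_pos_left (hp x hx)).1 k3⟩
  · obtain ⟨x, hx, rfl⟩ := (hcs z).resolve_left fun k => hz k.2
    obtain ⟨-, -, -, k4⟩ := ha2 x hx
    rw [key x hx] at k4
    obtain ⟨ζ, hζ, k5⟩ := bSwp_near hx
    obtain ⟨y, hy, e⟩ := exists_mem_frontier_infDist_compl_eq_dist (hc.mapsf hx) hne
    refine ⟨y, hy, e ▸ (infDist_le_dist_of_mem (hnot ζ hζ)).trans ?_⟩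
    exact (hu1 x (ball_subset_closedBall hx) ζ (sphere_subset_closedBall hζ)).1
      (k5.trans (k4 (mul_ne_zero (hp x hx).ne' hz)))
  · rcases hcs z with ⟨h1, -⟩ | ⟨x, hx, rfl⟩
    · exact h1.le.trans hθ.le
    · obtain ⟨ζ, hζ, rfl⟩ := hfr hy
      have k1 := (hd1 x (ball_subset_closedBall hx) ζ (sphere_subset_closedBall hζ)).2
        (hz.trans (min_le_left _ _))
      have k2 := bSwp_hh hx hζ
      rw [le_div_iff₀ (by positivity)] at k1
      rw [hv x hx]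
      refine (ha2 x hx).2.1.trans ?_
      nlinarith [mul_le_mul_of_nonneg_left k2 hC, dist_nonneg (x := x) (y := ζ)]
  · by_contra h0
    rw [ho.frontier_eq] at hy
    exact hy.2 (hρ1 (mem_cthickening_of_dist_le y z ρ _ (subset_tsupport g h0)
      (dist_comm z y ▸ hz.trans (min_le_right _ _))))

end Vale.Agent.P145.Bv
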