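import Vale.Agent.P145.BDefs

/-! P145: the lattice Laplacian of a test function. -/

open Set Filter Topology Metric MeasureTheory

namespace Vale.Agent.P145.Bv

open Vale.Agent.P071 (Test dd)
open Vale.Agent.P152 (Site Pl)

theorem bTay_line {f : ℂ → ℝ} (hf : Test univ f) (z v : ℂ) (σ s : ℝ) :
    HasDerivAt (fun s : ℝ => f (z + (σ * s) • v)) (σ * dd v f (z + (σ * s) • v)) s := by
  have h1 : HasDerivAt (fun s : ℝ => z + (σ * s) • v) (σ • v) s := by
    simpa only [mul_one] using (((hasDerivAt_id' s).const_mul σ).smul_const v).const_add z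
  have h2 := (hf.diffAt (z + (σ * s) • v)).hasFDerivAt.comp_hasDerivAt s h1
  rw [map_smul, smul_eq_mul] at h2
  exact h2

theorem bTay_mv {k k' : ℝ → ℝ} {t C : ℝ} (hk : ∀ s, HasDerivAt k (k' s) s) (h0 : k 0 = 0)
    (hC : ∀ s ∈ Icc 0 t, |k' s| ≤ C) {s : ℝ} (hs : s ∈ Icc 0 t) : |k s| ≤ C * t := by
  have h1 := norm_image_sub_le_of_norm_deriv_le_segment' (fun x _ => (hk x).hasDerivWithinAt)
    (fun x hx => hC x (Ico_subset_Icc_self hx)) s hs
  rw [h0, sub_zero, sub_zero] at h1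
  exact h1.trans (mul_le_mul_of_nonneg_left hs.2 ((abs_nonneg _).trans (hC s hs)))

theorem bTay_dir {f : ℂ → ℝ} (hf : Test univ f) {v : ℂ} (hv : ‖v‖ = 1) {e : ℝ} (he : 0 < e) :
    ∀ᶠ t : ℝ in 𝓝[>] 0, ∀ z,
      |f (z + t • v) + f (z - t • v) - 2 * f z - t ^ 2 * dd v (dd v f) z| ≤ e * t ^ 2 := by
  have hF := (hf.dd v).dd v
  obtain ⟨d, hd, hu⟩ := Metric.uniformContinuous_iff.1
    (hF.2.1.uniformContinuous_of_continuous hF.continuous) (e / 2) (half_pos he)
  filter_upwards [Ioo_mem_nhdsGT hd] with t ht z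
  have near : ∀ σ : ℝ, |σ| = 1 → ∀ s ∈ Icc 0 t,
      |dd v (dd v f) (z + (σ * s) • v) - dd v (dd v f) z| ≤ e / 2 := fun σ hσ s hs => by
    refine (hu ?_).le
    rw [dist_eq_norm, add_sub_cancel_left, norm_smul, hv, mul_one, Real.norm_eq_abs, abs_mul, hσ,
      one_mul, abs_of_nonneg hs.1]
    exact hs.2.trans_lt ht.2
  have h1 : ∀ s ∈ Icc 0 t, |1 * dd v f (z + (1 * s) • v) + -1 * dd v f (z + (-1 * s) • v) -
      2 * s * dd v (dd v f) z| ≤ e * t := fun s hs => by
    refine bTay_mv (k := fun s => 1 * dd v f (z + (1 * s) • v) + -1 * dd v f (z + (-1 * s) • v) -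
      2 * s * dd v (dd v f) z) (fun s => (((bTay_line (hf.dd v) z v 1 s).const_mul 1).add
        ((bTay_line (hf.dd v) z v (-1) s).const_mul (-1))).sub
        (((hasDerivAt_id' s).const_mul 2).mul_const _)) (by simp) (fun r hr => ?_) hs
    have a1 := abs_le.1 (near 1 abs_one r hr)
    have a2 := abs_le.1 (near (-1) (by simp) r hr)
    rw [abs_le]
    constructor <;> linarith [a1.1, a1.2, a2.1, a2.2]
  have h2 := bTay_mv (k := fun s => f (z + (1 * s) • v) + f (z + (-1 * s) • v) - 2 * f z -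
      s * s * dd v (dd v f) z) (fun s => (((bTay_line hf z v 1 s).add
        (bTay_line hf z v (-1) s)).sub_const (2 * f z)).sub
        (((hasDerivAt_id' s).mul (hasDerivAt_id' s)).mul_const _)) (by simp; ring)
    (fun r hr => le_of_eq_of_le (by ring_nf) (h1 r hr)) ⟨ht.1.le, le_rfl⟩
  rw [one_mul, neg_one_mul, neg_smul, ← sub_eq_add_neg, mul_assoc e, ← pow_two] at h2
  exact h2

theorem bTay : B_tay := by
  intro f hf e he
  filter_upwards [bTay_dir hf (v := 1) norm_one (half_pos he),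
    bTay_dir hf Complex.norm_I (half_pos he)] with δ h1 h2 w
  have a1 := abs_le.1 (h1 (cp δ w))
  have a2 := abs_le.1 (h2 (cp δ w))
  have e1 : tc (pnt δ (w + (1, 0))) = cp δ w + δ • (1 : ℂ) := by
    apply Complex.ext <;> simp [tc, cp, pnt, mul_add]
  have e2 : tc (pnt δ (w - (1, 0))) = cp δ w - δ • (1 : ℂ) := by
    apply Complex.ext <;> simp [tc, cp, pnt, mul_sub]
  have e3 : tc (pnt δ (w + (0, 1))) = cp δ w + δ • Complex.I := by
    apply Complex.ext <;> simp [tc, cp, pnt, mul_add]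
  have e4 : tc (pnt δ (w - (0, 1))) = cp δ w - δ • Complex.I := by
    apply Complex.ext <;> simp [tc, cp, pnt, mul_sub]
  have e5 : P071.lap f (cp δ w) =
      dd 1 (dd 1 f) (cp δ w) + dd Complex.I (dd Complex.I f) (cp δ w) := rfl
  have e6 : tc (pnt δ w) = cp δ w := rfl
  simp only [dl, Function.comp_apply, e1, e2, e3, e4, e5, e6]
  rw [abs_le]
  constructor <;> linarith [a1.1, a1.2, a2.1, a2.2]

end Vale.Agent.P145.Bv
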