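import Vale.Agent.P145.BMain
import Vale.Agent.P145.BCut
import Vale.Agent.P145.BEll
import Vale.Agent.P145.BTay
import Vale.Agent.P145.BPos
import Vale.Agent.P145.BDisc
import Vale.Agent.P145.BSwp
import Vale.Agent.P145.BCnt
import Vale.Agent.P145.BPot
import Vale.Agent.P145.BKer
import Vale.Agent.P145.BSum

/-! P145, block BVS: the boundary charge is not seen. -/

open Set Metric

namespace Vale.Agent.P145.Bv

theorem bvs {c : ℝ} (h1 : V1 c) (h2 : V2 c) (ψ : ℂ → ℂ) (g : ℂ → ℝ) (hψ : P153.IsJordanMap ψ)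
    (hg : P153.IsTest ψ g) (h0 : ∀ z, 0 ≤ g z) :
    BVS c (tc ⁻¹' (ψ '' ball 0 1)) (g ∘ tc) (P153.gffVar ψ g) :=
  bMain (bEll bCut) bTay bBox bCnt (bPot bCnt) bKer bSum bBr h1 h2 (P153.Wick.Conf.bdd hψ) hg
    (bSwp (bDisc bCut bPos) ψ g hψ hg h0)

end Vale.Agent.P145.Bv
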