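import Vale.Agent.P145.WStm
import Vale.Agent.P153.Wick.R
import Vale.Agent.P153.Wick.Conf

/-! P145, block BVS: step statements. -/

open Set Filter Topology Metric MeasureTheory

namespace Vale.Agent.P145.Bv

open Vale.Agent.P071 (Test gdot DD hh G0)
open Vale.Agent.P152 (Site Pl Sm en sd PH)

noncomputable section

/-- the plane as the complex plane -/
def tc (p : Pl) : ℂ := ⟨p.1, p.2⟩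

/-- position of a site at mesh `δ` -/
def cp (δ : ℝ) (v : Site) : ℂ := tc (pnt δ v)

/-- a smooth convex version of the positive part -/
def B_cut : Prop := ∃ (χ : ℝ → ℝ) (K : ℝ), ContDiff ℝ (⊤ : ℕ∞) χ ∧ 0 ≤ K ∧ ∀ s : ℝ,
  (s ≤ 1 → χ s = 0) ∧ (2 ≤ s → deriv χ s = 1 ∧ deriv (deriv χ) s = 0) ∧
  0 ≤ deriv χ s ∧ deriv χ s ≤ 1 ∧ 0 ≤ deriv (deriv χ) s ∧ deriv (deriv χ) s ≤ K ∧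
  s - 2 ≤ χ s ∧ 0 ≤ χ s ∧ χ s ≤ max s 0

/-- a truncated logarithm -/
def B_ell : Prop := ∃ K : ℝ, 0 ≤ K ∧ ∀ ρ > 0, ∀ a > 0, ∃ l : ℂ → ℝ, Test univ l ∧ ∀ x : ℂ,
  0 ≤ l x ∧ P071.lap l x ≤ K / ρ ^ 2 ∧ (ρ < ‖x‖ → l x = 0 ∧ P071.lap l x ≤ 0) ∧
  Real.log (ρ ^ 2 / (‖x‖ ^ 2 + a ^ 2)) - 2 ≤ l x

/-- the lattice Laplacian of a test function -/
def B_tay : Prop := ∀ f : ℂ → ℝ, Test univ f → ∀ e > 0, ∀ᶠ δ : ℝ in 𝓝[>] 0, ∀ v : Site,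
  |dl δ (f ∘ tc) v - δ ^ 2 * P071.lap f (cp δ v)| ≤ e * δ ^ 2

/-- the Green potential is positive -/
def B_pos : Prop := ∀ g : ℂ → ℝ, Test DD g → (∀ x, 0 ≤ g x) → g ≠ 0 → ∀ x ∈ DD, 0 < G0 g x

/-- truncation of the Green potential of the disc along a level line -/
def B_disc : Prop := ∀ g : ℂ → ℝ, Test DD g → (∀ x, 0 ≤ g x) → ∃ C : ℝ, 0 ≤ C ∧ ∀ θ > 0, ∀ u > 0,
  ∃ a : ℂ → ℝ, Test DD a ∧ |(∫ x in DD, gdot a a x) - ∫ x in DD, G0 g x * g x| ≤ θ ∧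
    ∀ x ∈ DD, 0 ≤ a x ∧ a x ≤ C * hh x ∧ 0 ≤ g x + P071.lap a x ∧
      (g x + P071.lap a x ≠ 0 → hh x ≤ u)

/-- the charge `g` can be swept to a thin layer near the boundary -/
def Swp (D : Set ℂ) (g : ℂ → ℝ) (Q : ℝ) : Prop := ∀ θ > 0, ∃ ρ > 0, ∀ r > 0, ∃ f : ℂ → ℝ,
  Test D f ∧ |(∫ z, gdot f f z) - Q| ≤ θ ∧ (∀ z, 0 ≤ f z ∧ 0 ≤ g z + P071.lap f z) ∧
  (∀ z, g z + P071.lap f z ≠ 0 → ∃ y ∈ frontier D, dist z y ≤ r) ∧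
  ∀ z, ∀ y ∈ frontier D, dist z y ≤ ρ → f z ≤ θ ∧ g z = 0

def B_swp : Prop := ∀ (ψ : ℂ → ℂ) (g : ℂ → ℝ), P153.IsJordanMap ψ → Test (ψ '' ball 0 1) g →
  (∀ z, 0 ≤ g z) → Swp (ψ '' ball 0 1) g (P153.gffVar ψ g)

/-- boxes -/
def B_box : Prop := ∀ (δ x : ℝ) (v : Site), 0 < δ →
  ∃ S : Finset Site, ∀ w, w ∈ S ↔ δ * (sd v w : ℝ) ≤ x

/-- counting -/
def B_cnt : Prop := ∀ (δ x : ℝ) (v : Site) (S : Finset Site), 0 < δ → δ ≤ x →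
  (∀ w ∈ S, δ * (sd v w : ℝ) ≤ x) → δ ^ 2 * (S.card : ℝ) ≤ 9 * x ^ 2 ∧
    δ * ∑ w ∈ S, 1 / max 1 (sd v w : ℝ) ≤ 9 * x

/-- mass and logarithmic potential of the swept charge -/
def B_pot : Prop := ∀ (f g : ℂ → ℝ) (δ e σ : ℝ) (S : Finset Site), 0 < δ → 0 ≤ e →
  δ ^ 2 * (S.card : ℝ) ≤ σ → (∀ w, f (cp δ w) ≠ 0 → ∀ u, sd u w ≤ 1 → u ∈ S) →
  (∀ w, |dl δ (f ∘ tc) w - δ ^ 2 * P071.lap f (cp δ w)| ≤ e * δ ^ 2) →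
  (∀ Mg : ℝ, 0 ≤ Mg → (∀ z, g z ≤ Mg) →
    ∑ w ∈ S, δ ^ 2 * (g (cp δ w) + P071.lap f (cp δ w)) ≤ (Mg + e) * σ) ∧
  ∀ (l : ℂ → ℝ) (θ ρ K Mf Ml : ℝ) (v : Site), δ ≤ ρ → 0 ≤ θ → 0 ≤ K →
    (∀ z, 0 ≤ f z ∧ f z ≤ Mf) → (∀ z, 0 ≤ l z ∧ l z ≤ Ml) →
    (∀ w, |dl δ (l ∘ tc) w - δ ^ 2 * P071.lap l (cp δ w)| ≤ e * δ ^ 2) →
    (∀ x, P071.lap l x ≤ K / ρ ^ 2 ∧ (ρ < ‖x‖ → l x = 0 ∧ P071.lap l x ≤ 0)) →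
    (∀ w, ‖cp δ (w - v)‖ ≤ ρ → f (cp δ w) ≤ θ ∧ g (cp δ w) = 0) →
    ∑ w ∈ S, δ ^ 2 * (g (cp δ w) + P071.lap f (cp δ w)) * l (cp δ (w - v)) ≤
      9 * K * θ + e * σ * (Mf + Ml)

/-- logarithmic bound with a real parameter -/
def K1 (c C : ℝ) : Prop := ∀ (r : ℕ) (D : Finset Site) (v w : Site) (L : ℝ), Cc D →
  ¬ sq v r ⊆ D → 0 ≤ L → (r : ℝ) ≤ Real.exp L * max 1 (sd v w : ℝ) → VV c D v w ≤ C * (2 + 2 * L)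

/-- bounds for the two point function -/
def B_ker : Prop := ∀ c : ℝ, (V1 c → ∃ C, 0 ≤ C ∧ K1 c C) ∧ ∀ C, 0 ≤ C → K1 c C →
  ∀ (δ : ℝ) (V : Finset Site) (v : Site), 0 < δ → Cc V →
  (∀ R x : ℝ, 0 ≤ R → 0 ≤ x → (∀ f ∈ V, ‖pnt δ f‖ ≤ R) → δ * (sd 0 v : ℝ) ≤ x → ∀ w,
    VV c V v w ≤ C * (2 + 2 * ((R + x + δ) / δ) * (1 / max 1 (sd v w : ℝ)))) ∧
  ∀ (ε r a : ℝ) (M n1 : ℕ) (f : Site) (l : ℂ → ℝ), 0 ≤ ε → 0 < a → δ ≤ r → δ * n1 ≤ r →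
    (∀ r ≥ n1, ∀ (D : Finset Site) (v w : Site), Cc D → ¬ sq v r ⊆ D → (M * r : ℤ) ≤ sd v w →
      VV c D v w ≤ ε) → f ∉ V → dist (pnt δ f) (pnt δ v) ≤ 2 * r →
    (∀ x, 0 ≤ l x ∧ Real.log ((50 * (M + 1) * r) ^ 2 / (‖x‖ ^ 2 + a ^ 2)) - 2 ≤ l x) →
    ∀ w, a ≤ δ * (sd v w : ℝ) → VV c V v w ≤ ε + C * l (cp δ (w - v))

/-- the second moment of a smeared height -/
def B_sum : Prop := ∀ (c : ℝ) (V S : Finset Site) (a : Site →₀ ℝ) (A : Site → ℝ)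
  (G P N : Site → Site → ℝ) (e H ε μ p n Γ : ℝ), 0 ≤ e → 0 ≤ H → 0 ≤ ε → 0 ≤ p → 0 ≤ n →
  (∀ v, a v ≠ 0 → v ∈ S) → (∀ v, 0 ≤ a v ∧ a v ≤ A v + e ∧ 0 ≤ A v ∧ A v ≤ H) →
  (∀ v w, 0 ≤ G v w ∧ 0 ≤ P v w ∧ 0 ≤ N v w) → (∀ v ∈ S, ∀ w, VV c V v w ≤ G v w) →
  (∀ v ∈ S, ∑ w ∈ S, G v w ≤ Γ) → ∑ v ∈ S, A v ≤ μ →
  (∀ v ∈ S, A v ≠ 0 → (∀ w, VV c V v w ≤ ε + P v w + N v w) ∧
    ∑ w ∈ S, A w * P v w ≤ p ∧ ∑ w ∈ S, N v w ≤ n) →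
  PH c V (fun h => lin a h ^ 2) ≤ μ * (ε * μ + p + H * n) + e * (2 * H + e) * S.card * Γ

/-- from the complex plane to the plane -/
def B_br : Prop := (∀ (D : Set ℂ) (f : ℂ → ℝ), Test D f → Sm (f ∘ tc) ∧
    tsupport (f ∘ tc) ⊆ tc ⁻¹' D ∧ en (f ∘ tc) = ∫ z, gdot f f z) ∧
  (∀ D : Set ℂ, ∀ y ∈ frontier D, ∃ p ∈ frontier (tc ⁻¹' D), tc p = y) ∧
  (∀ p q : Pl, dist p q ≤ dist (tc p) (tc q)) ∧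
  ∀ (δ : ℝ) (v w : Site), cp δ (w - v) = cp δ w - cp δ v ∧
    (0 ≤ δ → dist (pnt δ v) (pnt δ w) = δ * (sd v w : ℝ))

end

end Vale.Agent.P145.Bv
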