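import Mathlib

/-! From Laplace transforms on a cone to convergence in law: abstract part. -/

open Set Metric Filter Topology MeasureTheory

namespace Vale.Agent.P145.Lp

theorem schwarz {Ω : Set ℂ} {g : ℂ → ℂ} {M : ℝ} (hd : DifferentiableOn ℂ g Ω)
    (hm : ∀ z ∈ Ω, ‖g z‖ ≤ M) {x : ℂ} {R : ℝ} (hx : x ∈ Ω) (hR : ball x R ⊆ Ω) {y : ℂ}
    (hy : y ∈ ball x R) : dist (g y) (g x) ≤ 2 * M / R * dist y x := by
  refine Complex.dist_le_div_mul_dist_of_mapsTo_ball (hd.mono hR) ?_ hy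
  intro z hz
  rw [mem_closedBall, dist_eq_norm]
  linarith [norm_sub_le (g z) (g x), hm z (hR hz), hm x hx]

theorem montel {ι : Type*} (l : Ultrafilter ι) {Ω : Set ℂ} (ho : IsOpen Ω) {F : ι → ℂ → ℂ} {M : ℝ}
    (hM : 0 < M) (hd : ∀ i, DifferentiableOn ℂ (F i) Ω) (hm : ∀ᶠ i in l, ∀ z ∈ Ω, ‖F i z‖ ≤ M) :
    ∃ f : ℂ → ℂ, TendstoLocallyUniformlyOn F f l Ω := by
  have hex : ∀ z, ∃ a, z ∈ Ω → Tendsto (fun i => F i z) l (𝓝 a) := by
    intro z
    by_cases hz : z ∈ Ω
    · have hle : (l.map (fun i => F i z) : Filter ℂ) ≤ 𝓟 (closedBall (0 : ℂ) M) := by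
        rw [le_principal_iff, Ultrafilter.coe_map, mem_map]
        exact hm.mono fun i hi => mem_closedBall_zero_iff.2 (hi z hz)
      obtain ⟨a, -, ha⟩ := (isCompact_closedBall (0 : ℂ) M).ultrafilter_le_nhds _ hle
      exact ⟨a, fun _ => ha⟩
    · exact ⟨0, fun h => absurd h hz⟩
  choose f hf using hex
  refine ⟨f, Metric.tendstoLocallyUniformlyOn_iff.mpr fun ε hε x hx => ?_⟩
  obtain ⟨R, hR, hRΩ⟩ := Metric.isOpen_iff.mp ho x hx
  have hδ0 : 0 < min R (ε * R / (8 * M)) := lt_min hR (by positivity)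
  refine ⟨ball x _, mem_nhdsWithin_of_mem_nhds (ball_mem_nhds x hδ0), ?_⟩
  have hev := Metric.tendsto_nhds.mp (hf x hx) (ε / 4) (by positivity)
  filter_upwards [hev, hm] with i hi hi' y hy
  have hyR : y ∈ ball x R := ball_subset_ball (min_le_left _ _) hy
  have hy2 : dist y x ≤ ε * R / (8 * M) := (mem_ball.mp hy).le.trans (min_le_right _ _)
  have hb : 2 * M / R * dist y x ≤ ε / 4 := by
    calc 2 * M / R * dist y x ≤ 2 * M / R * (ε * R / (8 * M)) := by gcongr
      _ = ε / 4 := by field_simp; ring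
  have h1 : dist (F i y) (F i x) ≤ ε / 4 := (schwarz (hd i) hi' hx hRΩ hyR).trans hb
  have h2 : dist (f y) (f x) ≤ ε / 4 :=
    le_of_tendsto ((hf y (hRΩ hyR)).dist (hf x hx))
      (hm.mono fun j hj => (schwarz (hd j) hj hx hRΩ hyR).trans hb)
  have h3 := dist_triangle4 (f y) (f x) (F i x) (F i y)
  rw [dist_comm (f x) (F i x), dist_comm (F i x) (F i y)] at h3
  linarith

/-- the theorem of Vitali for entire functions -/
theorem vitali {F : ℕ → ℂ → ℂ} {f : ℂ → ℂ} (hd : ∀ n, Differentiable ℂ (F n))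
    (hf : Differentiable ℂ f) (hb : ∀ R > 0, ∃ M > 0, ∀ᶠ n in atTop, ∀ z, ‖z‖ < R → ‖F n z‖ ≤ M)
    (hc : ∀ t : ℝ, 0 ≤ t → Tendsto (fun n => F n t) atTop (𝓝 (f t))) (z : ℂ) :
    Tendsto (fun n => F n z) atTop (𝓝 (f z)) := by
  refine tendsto_iff_ultrafilter _ _ _ |>.2 fun U hU => ?_
  have hR : 0 < ‖z‖ + 2 := by positivity
  obtain ⟨M, hM, h⟩ := hb _ hR
  obtain ⟨g, hg⟩ := montel U (Ω := ball 0 (‖z‖ + 2)) isOpen_ball hM
    (fun n => (hd n).differentiableOn)
    ((h.filter_mono hU).mono fun n hn w hw => hn w (mem_ball_zero_iff.1 hw))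
  have g1 := (hg.differentiableOn (Eventually.of_forall fun n => (hd n).differentiableOn)
    isOpen_ball).analyticOnNhd isOpen_ball
  have hz : z ∈ ball (0 : ℂ) (‖z‖ + 2) := mem_ball_zero_iff.2 (by linarith)
  have e : EqOn g f (ball 0 (‖z‖ + 2)) := by
    refine g1.eqOn_of_preconnected_of_frequently_eq
      ((hf.differentiableOn).analyticOnNhd isOpen_ball) (convex_ball _ _).isPreconnected
      (mem_ball_self hR) ?_
    have t1 : Tendsto (fun k : ℕ => ((1 / ((k : ℝ) + 1) : ℝ) : ℂ)) atTop (𝓝[≠] 0) := by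
      refine tendsto_nhdsWithin_iff.2 ⟨?_, Eventually.of_forall fun k => ?_⟩
      · exact (Complex.continuous_ofReal.tendsto' 0 0 rfl).comp
          tendsto_one_div_add_atTop_nhds_zero_nat
      · exact Complex.ofReal_ne_zero.2 Nat.one_div_pos_of_nat.ne'
    refine t1.frequently (Eventually.frequently (Eventually.of_forall fun k => ?_))
    refine tendsto_nhds_unique (hg.tendsto_at (mem_ball_zero_iff.2 ?_))
      ((hc _ Nat.one_div_pos_of_nat.le).mono_left hU)
    rw [Complex.norm_real, Real.norm_of_nonneg Nat.one_div_pos_of_nat.le]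
    have : 1 / ((k : ℝ) + 1) ≤ 1 := Nat.one_div_le_one_div (Nat.zero_le k) |>.trans (by simp)
    linarith [norm_nonneg z]
  exact e hz ▸ hg.tendsto_at hz

variable {Ω : Type} {S : ℕ → Finset Ω} {w : ℕ → Ω → ℝ}

/-- continuation of a weighted Laplace transform -/
theorem cont (hw : ∀ n ω, 0 ≤ w n ω) (Y : ℕ → Ω → ℝ) (a b d : ℝ)
    (hb : ∀ R ≥ 0, ∃ M, ∀ᶠ n in atTop, ∑ ω ∈ S n, w n ω * Real.exp (-R * Y n ω) ≤ M)
    (hc : ∀ t ≥ 0, Tendsto (fun n => ∑ ω ∈ S n, w n ω * Real.exp (t * Y n ω)) atTop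
      (𝓝 (Real.exp (a + b * t + d * t ^ 2)))) (z : ℂ) :
    Tendsto (fun n => ∑ ω ∈ S n, (w n ω : ℂ) * Complex.exp (z * Y n ω)) atTop
      (𝓝 (Complex.exp (a + b * z + d * z ^ 2))) := by
  refine vitali (F := fun n z => ∑ ω ∈ S n, (w n ω : ℂ) * Complex.exp (z * Y n ω))
    (f := fun z => Complex.exp (a + b * z + d * z ^ 2)) (fun n => by fun_prop) (by fun_prop)
    (fun R hR => ?_) (fun t ht => ?_) z
  · obtain ⟨M, hM⟩ := hb R hR.le
    refine ⟨|M| + Real.exp (a + b * R + d * R ^ 2) + 1, by positivity, ?_⟩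
    filter_upwards [hM, (hc R hR.le).eventually (gt_mem_nhds (lt_add_one _))] with n h1 h2 z hz
    refine (norm_sum_le _ _).trans (le_trans (Finset.sum_le_sum (g := fun ω =>
      w n ω * Real.exp (-R * Y n ω) + w n ω * Real.exp (R * Y n ω)) fun ω _ => ?_) ?_)
    · rw [norm_mul, Complex.norm_real, Real.norm_of_nonneg (hw n ω), ← mul_add, Complex.norm_exp]
      refine mul_le_mul_of_nonneg_left ?_ (hw n ω)
      have h3 := abs_le.1 ((Complex.abs_re_le_norm z).trans hz.le)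
      simp only [Complex.mul_re, Complex.ofReal_re, Complex.ofReal_im, mul_zero, sub_zero]
      rcases le_total 0 (Y n ω) with k | k
      · linarith [Real.exp_le_exp.2 (mul_le_mul_of_nonneg_right h3.2 k),
          Real.exp_pos (-R * Y n ω)]
      · linarith [Real.exp_le_exp.2 (mul_le_mul_of_nonpos_right h3.1 k),
          Real.exp_pos (R * Y n ω)]
    · rw [Finset.sum_add_distrib]
      linarith [le_abs_self M]
  · have := (Complex.continuous_ofReal.tendsto _).comp (hc t ht)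
    simpa [Function.comp_def] using this

/-- from the cone to the characteristic function of a difference -/
theorem cone (hw : ∀ n ω, 0 ≤ w n ω) (h1 : ∀ n, ∑ ω ∈ S n, w n ω = 1) (A B : ℕ → Ω → ℝ)
    (qa qb qc : ℝ) (sym : ∀ n (F : ℝ → ℝ → ℝ), ∑ ω ∈ S n, w n ω * F (A n ω) (B n ω) =
      ∑ ω ∈ S n, w n ω * F (-A n ω) (-B n ω))
    (hc : ∀ s ≥ 0, ∀ t ≥ 0, Tendsto (fun n => ∑ ω ∈ S n, w n ω * Real.exp (s * A n ω + t * B n ω))
      atTop (𝓝 (Real.exp ((s ^ 2 * qa + 2 * s * t * qb + t ^ 2 * qc) / 2)))) :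
    0 ≤ qa - 2 * qb + qc ∧
      Tendsto (fun n => ∑ ω ∈ S n, (w n ω : ℂ) * Complex.exp (Complex.I * (A n ω - B n ω : ℝ)))
        atTop (𝓝 (Real.exp (-(qa - 2 * qb + qc) / 2) : ℝ)) := by
  have step : ∀ s ≥ 0, Tendsto (fun n => ∑ ω ∈ S n, w n ω * Real.exp (s * (A n ω - B n ω))) atTop
      (𝓝 (Real.exp (0 + 0 * s + (qa - 2 * qb + qc) / 2 * s ^ 2))) := by
    intro s hs
    have k := cont (S := S) (w := fun n ω => w n ω * Real.exp (s * A n ω))
      (fun n ω => mul_nonneg (hw n ω) (Real.exp_pos _).le) B (s ^ 2 * qa / 2) (s * qb) (qc / 2)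
      (fun R hR => ?_) (fun t ht => ?_) (-s)
    · have k2 := (Complex.continuous_re.tendsto _).comp k
      have e1 : ∀ x : ℝ, (Complex.exp (-(s : ℂ) * x)).re = Real.exp (-s * x) := fun x => by
        rw [← Complex.exp_ofReal_re]; push_cast; rfl
      have e2 : (Complex.exp (((s ^ 2 * qa / 2 : ℝ) : ℂ) + ((s * qb : ℝ) : ℂ) * (-(s : ℂ)) +
          ((qc / 2 : ℝ) : ℂ) * (-(s : ℂ)) ^ 2)).re =
          Real.exp (0 + 0 * s + (qa - 2 * qb + qc) / 2 * s ^ 2) := by
        rw [← Complex.exp_ofReal_re]; congr 2; push_cast; ring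
      rw [e2] at k2
      refine k2.congr fun n => ?_
      simp only [Function.comp, Complex.re_sum, Complex.re_ofReal_mul, e1, mul_assoc,
        ← Real.exp_add]
      exact Finset.sum_congr rfl fun ω _ => by congr 2; ring
    · have k1 := (hc (2 * s) (by positivity) 0 le_rfl).eventually (gt_mem_nhds (lt_add_one _))
      have k2 := (hc 0 le_rfl (2 * R) (by positivity)).eventually (gt_mem_nhds (lt_add_one _))
      refine ⟨_, (k1.and k2).mono fun n hn => le_trans ?_ (add_le_add hn.1.le hn.2.le)⟩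
      rw [sym n fun x y => Real.exp (0 * x + 2 * R * y), ← Finset.sum_add_distrib]
      refine Finset.sum_le_sum fun ω _ => ?_
      rw [mul_assoc, ← mul_add]
      refine mul_le_mul_of_nonneg_left ?_ (hw n ω)
      have e1 : Real.exp (2 * s * A n ω + 0 * B n ω) = Real.exp (s * A n ω) ^ 2 := by
        rw [← Real.exp_nat_mul]; congr 1; push_cast; ring
      have e2 : Real.exp (0 * -A n ω + 2 * R * -B n ω) = Real.exp (-R * B n ω) ^ 2 := by
        rw [← Real.exp_nat_mul]; congr 1; push_cast; ring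
      rw [e1, e2]
      nlinarith [sq_nonneg (Real.exp (s * A n ω) - Real.exp (-R * B n ω)),
        mul_pos (Real.exp_pos (s * A n ω)) (Real.exp_pos (-R * B n ω))]
    · convert hc s hs t ht using 3
      · simp only [mul_assoc, Real.exp_add]
      · ring
  have neg : ∀ n (s : ℝ), ∑ ω ∈ S n, w n ω * Real.exp (-s * (A n ω - B n ω)) =
      ∑ ω ∈ S n, w n ω * Real.exp (s * (A n ω - B n ω)) := fun n s => by
    rw [sym n fun x y => Real.exp (-s * (x - y))]
    exact Finset.sum_congr rfl fun ω _ => by congr 2; ring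
  constructor
  · have k : (1 : ℝ) ≤ Real.exp (0 + 0 * 1 + (qa - 2 * qb + qc) / 2 * 1 ^ 2) := by
      refine ge_of_tendsto' (step 1 zero_le_one) fun n => ?_
      have e := neg n 1
      have : ∑ ω ∈ S n, w n ω * 2 ≤ ∑ ω ∈ S n, (w n ω * Real.exp (-1 * (A n ω - B n ω)) +
          w n ω * Real.exp (1 * (A n ω - B n ω))) := Finset.sum_le_sum fun ω _ => by
        rw [← mul_add]
        refine mul_le_mul_of_nonneg_left ?_ (hw n ω)
        linarith [Real.add_one_le_exp (-1 * (A n ω - B n ω)),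
          Real.add_one_le_exp (1 * (A n ω - B n ω))]
      rw [← Finset.sum_mul, h1, Finset.sum_add_distrib] at this
      linarith
    have := Real.one_le_exp_iff.1 k
    linarith
  · have k := cont hw (fun n ω => A n ω - B n ω) 0 0 ((qa - 2 * qb + qc) / 2) (fun R hR => ⟨_,
      ((step R hR).eventually (gt_mem_nhds (lt_add_one _))).mono fun n hn =>
        (neg n R).le.trans hn.le⟩) step Complex.I
    convert k using 2
    rw [Complex.I_sq]
    push_cast
    ring_nf

/-- Levy continuity for weighted sums -/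
theorem law {k : ℕ} (hw : ∀ n ω, 0 ≤ w n ω) (h1 : ∀ n, ∑ ω ∈ S n, w n ω = 1)
    (X : ℕ → Ω → Fin k → ℝ) (M : Matrix (Fin k) (Fin k) ℝ) (hM : M.PosSemidef)
    (hc : ∀ t : Fin k → ℝ, Tendsto (fun n => ∑ ω ∈ S n, (w n ω : ℂ) *
      Complex.exp (Complex.I * (∑ i, t i * X n ω i : ℝ))) atTop
      (𝓝 (Real.exp (-(t ⬝ᵥ M.mulVec t) / 2) : ℝ)))
    (F : BoundedContinuousFunction (EuclideanSpace ℝ (Fin k)) ℝ) :
    Tendsto (fun n => ∑ ω ∈ S n, w n ω * F (WithLp.toLp 2 (X n ω))) atTop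
      (𝓝 (∫ z, F z ∂ProbabilityTheory.multivariateGaussian 0 M)) := by
  let m : ℕ → Measure (EuclideanSpace ℝ (Fin k)) := fun n =>
    ∑ ω ∈ S n, ENNReal.ofReal (w n ω) • Measure.dirac (WithLp.toLp 2 (X n ω))
  have hi : ∀ {E : Type} [NormedAddCommGroup E] [NormedSpace ℝ E] [CompleteSpace E] (n : ℕ)
      (g : EuclideanSpace ℝ (Fin k) → E), ∫ z, g z ∂m n =
        ∑ ω ∈ S n, w n ω • g (WithLp.toLp 2 (X n ω)) := fun n g => by
    rw [integral_finsetSum_measure fun ω _ =>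
      (integrable_dirac (by simp)).smul_measure ENNReal.ofReal_ne_top]
    exact Finset.sum_congr rfl fun ω _ => by
      rw [integral_smul_measure, integral_dirac, ENNReal.toReal_ofReal (hw n ω)]
  have hp : ∀ n, IsProbabilityMeasure (m n) := fun n => ⟨by
    simp only [m, Measure.coe_finsetSum, Finset.sum_apply, Measure.smul_apply, measure_univ,
      smul_eq_mul, mul_one]
    rw [← ENNReal.ofReal_sum_of_nonneg fun ω _ => hw n ω, h1, ENNReal.ofReal_one]⟩
  let μ : ℕ → ProbabilityMeasure (EuclideanSpace ℝ (Fin k)) := fun n => ⟨m n, hp n⟩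
  let ν : ProbabilityMeasure (EuclideanSpace ℝ (Fin k)) :=
    ⟨ProbabilityTheory.multivariateGaussian 0 M, inferInstance⟩
  have h2 : Tendsto μ atTop (𝓝 ν) := by
    refine ProbabilityMeasure.tendsto_iff_tendsto_charFun.2 fun t => ?_
    have e2 : charFun (ν : Measure _) t = (Real.exp (-(t ⬝ᵥ M.mulVec t) / 2) : ℝ) := by
      change charFun (ProbabilityTheory.multivariateGaussian 0 M) t = _
      rw [ProbabilityTheory.charFun_multivariateGaussian hM]
      simp [neg_div]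
    rw [e2]
    refine (hc t).congr fun n => ?_
    change _ = charFun (m n) t
    rw [charFun_apply, hi]
    refine Finset.sum_congr rfl fun ω _ => ?_
    simp [PiLp.inner_apply, mul_comm]
  have h3 := ProbabilityMeasure.tendsto_iff_forall_integral_tendsto.1 h2 F
  exact h3.congr fun n => hi n F

end Vale.Agent.P145.Lp
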