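import Vale.Agent.P145.Defs
import Vale.Agent.P153.Wick.Conf

/-! P145: the covariance is a symmetric bilinear form on test functions. -/

open Set Filter Topology MeasureTheory Metric
open Vale.Agent.P071 (Test DD g0 Conf)
open Vale.Agent.P153 (IsJordanMap green IsTest)
open Vale.Agent.P153.Wick (inv s_conf)

namespace Vale.Agent.P145.Lp

variable {ψ : ℂ → ℂ} {f f' g : ℂ → ℝ}

theorem green_symm (z w : ℂ) : green ψ z w = green ψ w z := by
  rw [P153.Wick.Conf.green_eq, P153.Wick.Conf.green_eq, P071.g0_symm]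

theorem jac_bdd {D : Set ℂ} {φ : ℂ → ℂ} (hc : Conf D ψ φ) (hg : Test D g) :
    ∃ A, 0 ≤ A ∧ ∀ u ∈ DD, ‖deriv ψ u‖ ^ 2 * |g (ψ u)| ≤ A := by
  have hK : IsCompact (φ '' tsupport g) :=
    hg.2.1.isCompact.image_of_continuousOn (hc.hφ.continuousOn.mono hg.2.2)
  have hs : φ '' tsupport g ⊆ DD := by
    rintro _ ⟨x, hx, rfl⟩
    exact hc.mapsφ (hg.2.2 hx)
  have h1 : ContinuousOn (fun u => ‖deriv ψ u‖ ^ 2 * |g (ψ u)|) DD :=
    ((hc.hf.deriv isOpen_ball).continuousOn.norm.pow 2).mul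
      (hg.continuous.comp_continuousOn hc.hf.continuousOn).abs
  obtain ⟨A, hA⟩ := hK.exists_bound_of_continuousOn (h1.mono hs)
  refine ⟨|A|, abs_nonneg _, fun u hu => ?_⟩
  by_cases k : ψ u ∈ tsupport g
  · exact (le_abs_self _).trans ((hA u ⟨_, k, hc.left u hu⟩).trans (le_abs_self _))
  · simp [image_eq_zero_of_notMem_tsupport k]

theorem slice {D : Set ℂ} {φ : ℂ → ℂ} (ho : IsOpen D) (hc : Conf D ψ φ) (hg : Test D g) :
    ∃ B, ∀ x ∈ DD, IntegrableOn (fun w => g0 x (φ w) * g w) D ∧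
      ∫ w in D, ‖g0 x (φ w) * g w‖ ≤ B := by
  obtain ⟨A, hA0, hA⟩ := jac_bdd hc hg
  obtain ⟨B, -, hB⟩ := P071.g0_int
  refine ⟨A * B, fun x hx => ?_⟩
  have hb : ∀ u ∈ DD, ‖deriv ψ u‖ ^ 2 * ‖g0 x (φ (ψ u)) * g (ψ u)‖ ≤ A * g0 x u := fun u hu => by
    rw [hc.left u hu, norm_mul, Real.norm_of_nonneg (P071.g0_nonneg hx hu), Real.norm_eq_abs,
      mul_left_comm, mul_comm A]
    exact mul_le_mul_of_nonneg_left (hA u hu) (P071.g0_nonneg hx hu)
  have hm : AEStronglyMeasurable (fun w => g0 x (φ w) * g w) (volume.restrict D) :=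
    ((P071.measurable_g0_right x).comp_aemeasurable
      (hc.hφ.continuousOn.aemeasurable ho.measurableSet)).aestronglyMeasurable.mul
      hg.continuous.aestronglyMeasurable
  have hi : IntegrableOn (fun u => ‖deriv ψ u‖ ^ 2 * ‖g0 x (φ (ψ u)) * g (ψ u)‖) DD := by
    refine ((hB x hx).1.const_mul A).mono' ?_ ?_
    · refine AEStronglyMeasurable.congr (f := fun u => ‖deriv ψ u‖ ^ 2 * ‖g0 x u * g (ψ u)‖) ?_ ?_
      · exact ((measurable_deriv ψ).norm.pow_const 2).aestronglyMeasurable.mul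
          ((P071.measurable_g0_right x).aestronglyMeasurable.mul
            ((hg.continuous.comp_continuousOn hc.hf.continuousOn).aestronglyMeasurable
              measurableSet_ball)).norm
      · filter_upwards [ae_restrict_mem measurableSet_ball] with u hu
        rw [hc.left u hu]
    · filter_upwards [ae_restrict_mem measurableSet_ball] with u hu
      rw [Real.norm_of_nonneg (by positivity)]
      exact hb u hu
  refine ⟨(integrable_norm_iff hm).1 ((hc.integrableOn_iff ho fun w => ‖g0 x (φ w) * g w‖).2 hi), ?_⟩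
  rw [hc.integral_eq ho]
  refine (setIntegral_mono_on hi ((hB x hx).1.const_mul A) measurableSet_ball hb).trans ?_
  rw [integral_const_mul]
  exact mul_le_mul_of_nonneg_left (hB x hx).2 hA0

theorem int_green (h : IsJordanMap ψ) (hf : IsTest ψ f) (hg : IsTest ψ g) :
    IntegrableOn (fun p : ℂ × ℂ => f p.1 * green ψ p.1 p.2 * g p.2)
      ((ψ '' ball 0 1) ×ˢ (ψ '' ball 0 1)) := by
  obtain ⟨ho, hb, hc, -⟩ := s_conf ψ h
  obtain ⟨B, hB⟩ := slice ho hc hg
  obtain ⟨A, hA⟩ := Test.bdd (U := ψ '' ball 0 1) hf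
  have : IsFiniteMeasure (volume.restrict (ψ '' ball 0 1)) :=
    isFiniteMeasure_restrict.2 hb.measure_lt_top.ne
  have hφ := hc.hφ.continuousOn.aemeasurable (μ := volume) ho.measurableSet
  have hm : AEStronglyMeasurable (fun p : ℂ × ℂ => g0 (inv ψ p.1) (inv ψ p.2) * g p.2)
      ((volume.restrict (ψ '' ball 0 1)).prod (volume.restrict (ψ '' ball 0 1))) :=
    (P071.measurable_g0.comp_aemeasurable (hφ.comp_fst.prodMk hφ.comp_snd)).aestronglyMeasurable.mul
      (hg.1.continuous.comp continuous_snd).aestronglyMeasurable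
  rw [IntegrableOn, Measure.volume_eq_prod, ← Measure.prod_restrict]
  simp only [P153.Wick.Conf.green_eq, mul_assoc]
  refine Integrable.bdd_mul (c := A) ?_ (hf.1.continuous.comp continuous_fst).aestronglyMeasurable
    (Eventually.of_forall fun p => hA p.1)
  rw [integrable_prod_iff hm]
  refine ⟨(ae_restrict_mem ho.measurableSet).mono fun x hx => (hB _ (hc.mapsφ hx)).1,
    (integrable_const B).mono' hm.norm.integral_prod_right' ?_⟩
  filter_upwards [ae_restrict_mem ho.measurableSet] with x hx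
  rw [Real.norm_of_nonneg (integral_nonneg fun _ => norm_nonneg _)]
  exact (hB _ (hc.mapsφ hx)).2

theorem cov_symm (f g : ℂ → ℝ) : AT.cov ψ f g = AT.cov ψ g f := by
  unfold AT.cov
  rw [Measure.volume_eq_prod, ← Measure.prod_restrict, ← integral_prod_swap]
  refine integral_congr_ae (Eventually.of_forall fun p => ?_)
  simp only [Prod.fst_swap, Prod.snd_swap, green_symm p.2]
  ring

theorem cov_mul (t : ℝ) (f g : ℂ → ℝ) : AT.cov ψ (fun z => t * f z) g = t * AT.cov ψ f g := by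
  unfold AT.cov
  simp only [← integral_const_mul, mul_assoc]

theorem cov_add (h : IsJordanMap ψ) (hf : IsTest ψ f) (hf' : IsTest ψ f') (hg : IsTest ψ g) :
    AT.cov ψ (fun z => f z + f' z) g = AT.cov ψ f g + AT.cov ψ f' g := by
  unfold AT.cov
  simp only [add_mul]
  exact integral_add (int_green h hf hg) (int_green h hf' hg)

theorem test_sum {ι : Type} (s : Finset ι) {φ : ι → ℂ → ℝ} (hφ : ∀ i, IsTest ψ (φ i)) (t : ι → ℝ) :
    IsTest ψ fun z => ∑ i ∈ s, t i * φ i z := by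
  classical
  induction s using Finset.induction_on with
  | empty => exact ⟨by simpa using contDiff_const, by simp [HasCompactSupport], by simp⟩
  | insert i s hi ih =>
    simp only [Finset.sum_insert hi]
    exact Test.add (Test.const_mul (hφ i) _) ih

theorem cov_sum (h : IsJordanMap ψ) {ι : Type} (s : Finset ι) {φ : ι → ℂ → ℝ}
    (hφ : ∀ i, IsTest ψ (φ i)) (t : ι → ℝ) (hg : IsTest ψ g) :
    AT.cov ψ (fun z => ∑ i ∈ s, t i * φ i z) g = ∑ i ∈ s, t i * AT.cov ψ (φ i) g := by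
  classical
  induction s using Finset.induction_on with
  | empty => simp [AT.cov]
  | insert i s hi ih =>
    simp only [Finset.sum_insert hi]
    rw [cov_add h (Test.const_mul (hφ i) _) (test_sum s hφ t) hg, cov_mul, ih]

theorem cov_quad (h : IsJordanMap ψ) {ι : Type} (s : Finset ι) {φ : ι → ℂ → ℝ}
    (hφ : ∀ i, IsTest ψ (φ i)) (t : ι → ℝ) :
    AT.cov ψ (fun z => ∑ i ∈ s, t i * φ i z) (fun z => ∑ i ∈ s, t i * φ i z) =
      ∑ i ∈ s, t i * ∑ j ∈ s, AT.cov ψ (φ i) (φ j) * t j := by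
  rw [cov_sum h s hφ t (test_sum s hφ t)]
  refine Finset.sum_congr rfl fun i _ => ?_
  rw [cov_symm, cov_sum h s hφ t (hφ i)]
  simp only [cov_symm (φ i), mul_comm]

theorem cov_two (h : IsJordanMap ψ) (hf : IsTest ψ f) (hg : IsTest ψ g) (s t : ℝ) :
    AT.cov ψ (fun z => s * f z + t * g z) (fun z => s * f z + t * g z) =
      s ^ 2 * AT.cov ψ f f + 2 * s * t * AT.cov ψ f g + t ^ 2 * AT.cov ψ g g := by
  have k := cov_quad h Finset.univ (φ := ![f, g]) (Fin.forall_fin_two.2 ⟨hf, hg⟩) ![s, t]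
  simp only [Fin.sum_univ_two, Matrix.cons_val_zero, Matrix.cons_val_one] at k
  rw [k, cov_symm g f]
  ring

/-- a test function is a difference of two nonnegative ones -/
theorem test_split (h : IsJordanMap ψ) (hf : IsTest ψ f) : ∃ a b : ℂ → ℝ, IsTest ψ a ∧
    IsTest ψ b ∧ (∀ z, 0 ≤ a z) ∧ (∀ z, 0 ≤ b z) ∧ f = fun z => 1 * a z + -1 * b z := by
  obtain ⟨K, hK, h1, h2⟩ := exists_compact_between hf.2.1.isCompact (s_conf ψ h).1 hf.2.2
  obtain ⟨χ, c1, c2, c3⟩ := exists_contMDiffMap_one_nhds_of_subset_interior (n := (⊤ : ℕ∞))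
    (modelWithCornersSelf ℝ ℂ) (isClosed_tsupport f) h1
  have hs : tsupport χ ⊆ K := closure_minimal (fun z hz => by_contra fun k => hz (c2 z k)) hK.isClosed
  have hχ : IsTest ψ χ :=
    ⟨χ.contMDiff.contDiff, hK.of_isClosed_subset (isClosed_tsupport _) hs, hs.trans h2⟩
  obtain ⟨C, hC⟩ := Test.bdd (U := ψ '' ball 0 1) hf
  have hC0 : 0 ≤ C := (abs_nonneg _).trans (hC 0)
  refine ⟨fun z => f z + C * χ z, fun z => C * χ z, Test.add hf (Test.const_mul hχ C),
    Test.const_mul hχ C, fun z => ?_, fun z => mul_nonneg hC0 (c3 z).1, by funext z; ring⟩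
  beta_reduce
  by_cases k : z ∈ tsupport f
  · rw [c1.self_of_nhdsSet z k]
    linarith [neg_abs_le (f z), hC z]
  · rw [image_eq_zero_of_notMem_tsupport k, zero_add]
    exact mul_nonneg hC0 (c3 z).1

end Vale.Agent.P145.Lp
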