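import Vale.Agent.P145.WStm

/-! P145, block W: elementary facts on the joint law. -/

open Filter Topology

namespace Vale.Agent.P145

open Vale.Agent.P152

variable {c : ℝ} {D : Finset Site} {F G : Ht → Finset Vx → ℝ}

theorem wpi_of {p : Prop} (h : p) : pi p = 1 := if_pos h
theorem wpi_not {p : Prop} (h : ¬ p) : pi p = 0 := if_neg h
theorem wpi_nonneg (p : Prop) : 0 ≤ pi p := by unfold pi; split_ifs <;> norm_num
theorem wpi_le (p : Prop) : pi p ≤ 1 := by unfold pi; split_ifs <;> norm_num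
theorem wpi_mono {p q : Prop} (h : p → q) : pi p ≤ pi q := by
  by_cases k : p
  · rw [wpi_of k, wpi_of (h k)]
  · rw [wpi_not k]; exact wpi_nonneg q
theorem wpi_congr {p q : Prop} (h : p ↔ q) : pi p = pi q := by rw [propext h]
theorem wpi_and (p q : Prop) : pi (p ∧ q) = pi p * pi q := by
  by_cases k : p <;> by_cases k' : q <;> simp [pi, k, k']
theorem wpi_neg (p : Prop) : pi (¬ p) = 1 - pi p := by by_cases k : p <;> simp [pi, k]

theorem wj_ow (hc : 1 ≤ c) (h : Ht) (ω : Finset Vx) (m : Vx) : 0 ≤ ow c h ω m := by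
  unfold ow hv ag
  split_ifs <;> linarith

theorem wj_sum_ow (c : ℝ) (D : Finset Site) (h : Ht) :
    ∑ ω ∈ (vin D).powerset, ∏ m ∈ vin D, ow c h ω m = hwt c D h := by
  unfold ow
  rw [sum_prod_ite]
  exact Finset.prod_congr rfl fun m _ => by ring

theorem wj_jn (c : ℝ) (D : Finset Site) (F : Ht → ℝ) :
    jn c D (fun h _ => F h) = ∑ h ∈ hs D, hwt c D h * F h :=
  Finset.sum_congr rfl fun h _ => by rw [← Finset.sum_mul, wj_sum_ow]

theorem wj_den (c : ℝ) (D : Finset Site) : jn c D 1 = ∑ h ∈ hs D, hwt c D h :=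
  (wj_jn c D 1).trans (by simp)

theorem wj_PH (c : ℝ) (D : Finset Site) (F : Ht → ℝ) : JH c D (fun h _ => F h) = PH c D F := by
  rw [JH, wj_jn, wj_den, PH]

theorem wj_const (hc : 1 ≤ c) (D : Finset Site) (a : ℝ) : JH c D (fun _ _ => a) = a := by
  have h := PH_smul (c := c) (D := D) a 1
  rw [PH_one (by linarith), mul_one] at h
  rw [wj_PH c D fun _ => a, ← h]
  congr 1
  funext x
  simp [h]

theorem wj_add (F G : Ht → Finset Vx → ℝ) :
    JH c D (fun h ω => F h ω + G h ω) = JH c D F + JH c D G := by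
  simp only [JH, jn, mul_add, Finset.sum_add_distrib, add_div]

theorem wj_mul (a : ℝ) (F : Ht → Finset Vx → ℝ) :
    JH c D (fun h ω => a * F h ω) = a * JH c D F := by
  simp only [JH, jn, Finset.mul_sum, ← mul_div_assoc, mul_left_comm]

theorem wj_sub (F G : Ht → Finset Vx → ℝ) :
    JH c D (fun h ω => F h ω - G h ω) = JH c D F - JH c D G := by
  simp only [JH, jn, mul_sub, Finset.sum_sub_distrib, sub_div]

theorem wj_sum {ι : Type*} (s : Finset ι) (F : ι → Ht → Finset Vx → ℝ) :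
    JH c D (fun h ω => ∑ i ∈ s, F i h ω) = ∑ i ∈ s, JH c D (F i) := by
  classical
  induction s using Finset.induction_on with
  | empty => simp [JH, jn]
  | insert i s hi ih => simp only [Finset.sum_insert hi, wj_add, ih]

theorem wj_ok {h : Ht} {ω : Finset Vx} (hh : h ∈ hs D) (hω : ω ∈ (vin D).powerset)
    (h0 : ∏ m ∈ vin D, ow c h ω m ≠ 0) : Ok D h ω := by
  have k := Finset.prod_ne_zero_iff.1 h0
  have s := Finset.mem_powerset.1 hω
  refine ⟨mem_hs.1 hh, s, fun m hm => ?_, fun m hm hn => ?_⟩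
  · by_contra e
    exact k m (s hm) (by simp [ow, ag, hm, e])
  · by_contra e
    obtain ⟨a1, a2, a3, a4⟩ := (mem_hs.1 hh).edge hm
    rw [abs_eq (by norm_num)] at a1 a2 a3 a4
    have e2 : h (src m, true) = h (tgt m, true) := by omega
    exact k m hm (by simp [ow, ag, hv, hn, e, e2])

theorem wj_mono (hc : 1 ≤ c) (h : ∀ h ω, Ok D h ω → F h ω ≤ G h ω) : JH c D F ≤ JH c D G := by
  refine div_le_div_of_nonneg_right (Finset.sum_le_sum fun x hx => Finset.sum_le_sum fun ω hω => ?_)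
    (by rw [wj_den]; exact (hZ_pos (by linarith) D).le)
  by_cases h0 : ∏ m ∈ vin D, ow c x ω m = 0
  · rw [h0, zero_mul, zero_mul]
  · exact mul_le_mul_of_nonneg_left (h x ω (wj_ok hx hω h0))
      (Finset.prod_nonneg fun m _ => wj_ow hc x ω m)

theorem wj_congr (hc : 1 ≤ c) (h : ∀ h ω, Ok D h ω → F h ω = G h ω) : JH c D F = JH c D G :=
  le_antisymm (wj_mono hc fun x ω k => (h x ω k).le) (wj_mono hc fun x ω k => (h x ω k).ge)

theorem wj_nonneg (hc : 1 ≤ c) (h : ∀ h ω, Ok D h ω → 0 ≤ F h ω) : 0 ≤ JH c D F :=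
  (wj_const hc D 0).ge.trans (wj_mono hc h)

theorem wmem_bd {E : Finset Site} {m : Vx} : m ∈ bd E ↔ ¬ (fa m ∈ E ↔ fb m ∈ E) := by
  simp only [bd, Finset.mem_sdiff, mem_vx, mem_vin]; tauto

theorem wmem_sq {z f : Site} {n : ℕ} :
    f ∈ sq z n ↔ z.1 - n ≤ f.1 ∧ f.1 < z.1 + n ∧ z.2 - n ≤ f.2 ∧ f.2 < z.2 + n := mem_wq

theorem wenc_mono {O O' : Set Vx} {A B : Set Site} (h : O ⊆ O') (k : Enc O A B) : Enc O' A B :=
  k.imp fun _ e => ⟨e.1, e.2.1, e.2.2.1, e.2.2.2.1, e.2.2.2.2.trans h⟩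

/-- the event only looks at the edges between the two boxes -/
theorem wenc_loc {O S : Set Vx} {A B : Finset Site}
    (h : ∀ m ∈ vx B, m ∉ vin A → m ∈ S) (k : Enc O A B) : Enc (O ∩ S) A B := by
  obtain ⟨E, h1, h2, h3, h4, h5⟩ := k
  refine ⟨E, h1, h2, h3, h4, fun m hm => ⟨h5 hm, ?_⟩⟩
  have e := Finset.mem_sdiff.1 hm
  exact h m (vx_mono (Finset.coe_subset.1 h2) e.1) fun k => e.2 (vin_mono (Finset.coe_subset.1 h1) k)

theorem wlin_sub (a : Site →₀ ℝ) (h : Ht) (k : ℤ) :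
    lin a (h - fun _ => k) = a.sum fun v r => r * ((h (v, true) : ℝ) - k) := by
  simp [lin]

theorem wlin_dep {a : Site →₀ ℝ} {U : Set Site} (h : ∀ v, v ∉ U → a v = 0) : DepV U (lin a) :=
  fun x y e => Finset.sum_congr rfl fun v hv => by
    beta_reduce
    rw [e v (by by_contra k; exact Finsupp.mem_support_iff.1 hv (h v k))]

theorem wlin_smul (t : ℝ) (a : Site →₀ ℝ) (h : Ht) : lin (t • a) h = t * lin a h := by
  rw [lin, Finsupp.sum_smul_index' (by simp), lin, Finsupp.sum, Finsupp.sum, Finset.mul_sum]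
  exact Finset.sum_congr rfl fun v _ => by simp [mul_assoc]

theorem wlk_step {U : Set Site} {f g : Site} (hf : f ∈ U) (hg : g ∈ U) (h : NNa f g) :
    DS ∅ U f g := by
  refine ⟨hf, hg, ?_⟩
  rcases h with rfl | rfl | rfl | rfl
  · exact ⟨(f + (1, 0), false), id, Or.inr ⟨rfl, by simp [fb, dir]⟩⟩
  · exact ⟨(f, false), id, Or.inl ⟨rfl, by simp [fb, dir]⟩⟩
  · exact ⟨(f + (0, 1), true), id, Or.inr ⟨rfl, by simp [fb, dir]⟩⟩
  · exact ⟨(f, true), id, Or.inl ⟨rfl, by simp [fb, dir]⟩⟩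

theorem wcn_of {U : Set Site} (h : NC U) : Cn U := fun f hf g hg =>
  ⟨hf, by
    have k := h f hf g hg
    clear hg
    induction k with
    | refl => exact .refl
    | tail _ e ih => exact ih.tail (wlk_step e.1 e.2.1 e.2.2)⟩

end Vale.Agent.P145
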