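import Vale.Agent.P145.WBas
import Vale.Agent.P152.FLat

/-! P145, block W: sampling and summation by parts. -/

open Filter Topology

namespace Vale.Agent.P145

open Vale.Agent.P152

theorem wid_toS {g : Site → ℝ} (h : (Function.support g).Finite) (v : Site) : toS g v = g v := by
  rw [toS, dif_pos h, Finsupp.ofSupportFinite_coe]

theorem wid_sum (a : Site →₀ ℝ) (u : Site → ℝ) :
    (a.sum fun v r => r * u v) = ∑ᶠ v, a v * u v :=
  (finsum_eq_sum_of_support_subset (fun v => a v * u v) fun _ hm =>
    Finset.mem_coe.2 (Finsupp.mem_support_iff.2 (left_ne_zero_of_mul hm))).symm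

theorem wid_parts (g : Vx →₀ ℝ) (H : Site → ℝ) :
    (g.sum fun m r => r * (H (tgt m) - H (src m))) =
      ∑ᶠ x : Site, (∑ b : Bool, (g (x - dir b, b) - g (x, b))) * H x := by
  induction g using Finsupp.induction_linear with
  | zero => simp
  | add g g' h1 h2 =>
    rw [Finsupp.sum_add_index' (by simp) (by simp [add_mul]), h1, h2,
      ← finsum_add_distrib (FLat_fin g _) (FLat_fin g' _)]
    refine finsum_congr fun x => ?_
    simp only [Finsupp.add_apply, Fintype.sum_bool]
    ring
  | single m a =>
    obtain ⟨y, b⟩ := m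
    have e : ∀ x : Site, (∑ b' : Bool, ((Finsupp.single (y, b) a) (x - dir b', b') -
        (Finsupp.single (y, b) a) (x, b'))) * H x =
        (if x = y + dir b then a * H x else 0) - if x = y then a * H x else 0 := by
      intro x
      have e1 : (y = x - dir b) = (x = y + dir b) :=
        propext ⟨fun h => by simp [h], fun h => by simp [h]⟩
      cases b <;> simp [Finsupp.single_apply, e1, sub_mul, eq_comm (a := y) (b := x)]
    have f : ∀ y : Site, (Function.support fun x => if x = y then a * H x else 0).Finite :=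
      fun y => (Set.finite_singleton y).subset fun x hx => by_contra fun h1 => hx (if_neg h1)
    simp only [e]
    rw [finsum_sub_distrib (f _) (f _), finsum_eq_single _ (y + dir b) fun x hx => if_neg hx,
      finsum_eq_single _ y fun x hx => if_neg hx, if_pos rfl, if_pos rfl,
      Finsupp.sum_single_index (by simp), mul_sub]
    rfl

theorem wid_lgr {δ : ℝ} (hδ : 0 < δ) {η : Pl → ℝ} (hη : Sm η) (m : Vx) :
    lgr δ η m = η (pnt δ (tgt m)) - η (pnt δ (src m)) := lgr_apply hδ hη m

theorem wid_div {δ : ℝ} (hδ : 0 < δ) {η : Pl → ℝ} (hη : Sm η) (x : Site) :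
    ∑ b : Bool, (lgr δ η (x - dir b, b) - lgr δ η (x, b)) = -dl δ η x := by
  simp only [Fintype.sum_bool, wid_lgr hδ hη, tgt, src, sub_add_cancel, dl, dir, if_true,
    Bool.false_eq_true, if_false]
  ring

theorem wid_sm {η : Pl → ℝ} (hη : Sm η) : Sm fun p => 2 * η p :=
  ⟨contDiff_const.mul hη.1, hη.2.mul_left⟩

theorem w_id : W_id := by
  intro δ φ η hδ hφ hη
  have f1 : (Function.support fun v : Site => δ ^ 2 * φ (pnt δ v)).Finite :=
    (fin_samp hδ hφ.2).subset fun v hv => right_ne_zero_of_mul hv
  have f2 : (Function.support (dl δ η)).Finite := by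
    refine (FLat_fin (lgr δ η) fun _ => 1).subset fun v hv => ?_
    simp only [Function.mem_support, wid_div hδ hη, mul_one] at hv ⊢
    exact neg_ne_zero.2 hv
  have f3 : (Function.support (psi δ φ η)).Finite :=
    (f1.union f2).subset (Function.support_add _ _)
  have f4 : (Function.support fun v => max (psi δ φ η v) 0).Finite :=
    f3.subset fun v hv k => hv (by simp [k])
  have f5 : (Function.support fun v => max (-psi δ φ η v) 0).Finite :=
    f3.subset fun v hv k => hv (by simp [k])
  have e1 := wid_toS f1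
  have e4 := wid_toS f4
  have e5 := wid_toS f5
  refine ⟨fun v => ⟨e1 v, e4 v, e5 v⟩, fun v hv => ?_, fun h a => ?_, fun h => ?_, wid_sm hη, ?_, ?_⟩
  · by_contra k
    push Not at k
    have z : ∀ w : Site, |(w.1 : ℝ)| ≤ 1 → |(w.2 : ℝ)| ≤ 1 →
        φ (pnt δ (v + w)) = 0 ∧ η (pnt δ (v + w)) = 0 := by
      intro w h1 h2
      have d : dist (pnt δ v) (pnt δ (v + w)) ≤ δ := by
        simp only [pnt, Prod.dist_eq, Real.dist_eq, Prod.fst_add, Prod.snd_add, Int.cast_add,
          mul_add, sub_add_cancel_left, abs_neg, abs_mul, abs_of_pos hδ]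
        exact max_le (mul_le_of_le_one_right hδ.le h1) (mul_le_of_le_one_right hδ.le h2)
      exact ⟨image_eq_zero_of_notMem_tsupport fun q => (k _ (Or.inl q)).not_ge d,
        image_eq_zero_of_notMem_tsupport fun q => (k _ (Or.inr q)).not_ge d⟩
    have z0 := z 0 (by simp) (by simp)
    rw [add_zero] at z0
    apply hv
    rw [psi, dl, sub_eq_add_neg v, sub_eq_add_neg v, z0.1, z0.2, (z (1, 0) (by simp) (by simp)).2,
      (z (0, 1) (by simp) (by simp)).2, (z (-(1, 0)) (by simp) (by simp)).2,
      (z (-(0, 1)) (by simp) (by simp)).2]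
    simp
  · have s : ∀ b : Site →₀ ℝ,
        (Function.support fun v => b v * ((h (v, true) : ℝ) - a)).Finite := fun b =>
      b.support.finite_toSet.subset fun v hv =>
        Finset.mem_coe.2 (Finsupp.mem_support_iff.2 (left_ne_zero_of_mul hv))
    have t : XH (lgr δ η) h = (lgr δ η).sum fun m r =>
        r * (((h (tgt m, true) : ℝ) - a) - ((h (src m, true) : ℝ) - a)) := by
      simp [XH]
    rw [t, wid_parts _ fun v => (h (v, true) : ℝ) - a, wlin_sub, wlin_sub, wlin_sub, wid_sum,
      wid_sum, wid_sum, ← finsum_sub_distrib (s _) (s _), ← finsum_add_distrib _ (s _)]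
    · refine finsum_congr fun v => ?_
      rw [wid_div hδ hη, smp, psp, psm, e1, e4, e5]
      have := max_zero_sub_max_neg_zero_eq_self (psi δ φ η v)
      rw [psi] at this ⊢
      linear_combination ((h (v, true) : ℝ) - a) * this
    · exact ((s _).union (s _)).subset (Function.support_sub _ _)
  · have : lgr δ (fun p => 2 * η p) = (2 : ℝ) • lgr δ η := Finsupp.ext fun m => by
      rw [Finsupp.smul_apply, wid_lgr hδ (wid_sm hη), wid_lgr hδ hη, smul_eq_mul, mul_sub]
    rw [this, XH, Finsupp.sum_smul_index' (by simp), XH, Finsupp.sum, Finsupp.sum, Finset.mul_sum]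
    exact Finset.sum_congr rfl fun v _ => by simp [mul_assoc]
  · unfold tsupport
    congr 1
    ext p
    simp
  · have g : ∀ b p, grd (fun p => 2 * η p) b p = 2 * grd η b p := fun b p => by
      rw [grd, grd, fderiv_const_mul (hη.1.differentiable (by simp) p)]
      rfl
    simp only [en, l2, g]
    rw [← MeasureTheory.integral_const_mul]
    congr 1
    funext p
    ring

end Vale.Agent.P145
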