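import Vale.Agent.P145.LkStm
import Vale.Agent.P145.WId
import Vale.Agent.P145.WBas
import Vale.Agent.P145.LpAbs
import Vale.Agent.P145.LpCov

/-! P145: from the Laplace transform on nonnegative test functions to convergence in law. -/

open Set Filter Topology Metric

namespace Vale.Agent.P145.Lp

open Vale.Agent.P152 Vale.Agent.P145.Lk Vale.Agent.P145.AT
open Vale.Agent.P153 (IsJordanMap IsTest)
open Vale.Agent.P071 (Test)

/-- the boundary charge is not seen in Jordan domains -/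
def BVJ (c : ℝ) : Prop := ∀ (ψ : ℂ → ℂ) (g : ℂ → ℝ), IsJordanMap ψ → IsTest ψ g →
  (∀ z, 0 ≤ g z) → BVS c (DP ψ) (g ∘ cx) (cov ψ g g)

variable {ψ : ℂ → ℂ} {f g : ℂ → ℝ} {c K δ : ℝ}

theorem test_cx (hf : IsTest ψ f) : Sm (f ∘ cx) ∧ tsupport (f ∘ cx) ⊆ DP ψ := by
  refine ⟨⟨?_, cxH_eq ▸ hf.2.1.comp_homeomorph cxH⟩, fun p hp => hf.2.2 ?_⟩
  · exact cxH_eq ▸ hf.1.comp Complex.equivRealProdCLM.symm.contDiff
  · exact tsupport_comp_subset_preimage f (f := cx) (cxH_eq ▸ cxH.continuous) hp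

theorem smp_apply (hδ : 0 < δ) (hf : IsTest ψ f) (v : Site) :
    smp δ (f ∘ cx) v = δ ^ 2 * f (cx (pnt δ v)) :=
  ((w_id δ _ _ hδ (test_cx hf).1 (test_cx hf).1).1 v).1

theorem lin_sum (hδ : 0 < δ) {ι : Type} (s : Finset ι) {φ : ι → ℂ → ℝ}
    (hφ : ∀ i, IsTest ψ (φ i)) (t : ι → ℝ) (h : Ht) :
    lin (smp δ ((fun z => ∑ i ∈ s, t i * φ i z) ∘ cx)) h =
      ∑ i ∈ s, t i * lin (smp δ (φ i ∘ cx)) h := by
  have e : smp δ ((fun z => ∑ i ∈ s, t i * φ i z) ∘ cx) = ∑ i ∈ s, t i • smp δ (φ i ∘ cx) := by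
    ext v
    rw [smp_apply hδ (test_sum s hφ t), Finsupp.finsetSum_apply, Finset.mul_sum]
    refine Finset.sum_congr rfl fun i _ => ?_
    rw [Finsupp.smul_apply, smp_apply hδ (hφ i), smul_eq_mul, mul_left_comm]
  rw [e, lin, ← Finsupp.sum_finsetSum_index (by simp) (fun _ _ _ => add_mul _ _ _)]
  exact Finset.sum_congr rfl fun i _ => wlin_smul _ _ _

theorem lin_two (hδ : 0 < δ) (hf : IsTest ψ f) (hg : IsTest ψ g) (s t : ℝ) (h : Ht) :
    lin (smp δ ((fun z => s * f z + t * g z) ∘ cx)) h =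
      s * lin (smp δ (f ∘ cx)) h + t * lin (smp δ (g ∘ cx)) h := by
  have k := lin_sum hδ Finset.univ (φ := ![f, g]) (Fin.forall_fin_two.2 ⟨hf, hg⟩) ![s, t] h
  simpa only [Fin.sum_univ_two, Matrix.cons_val_zero, Matrix.cons_val_one] using k

theorem lin_neg (a : Site →₀ ℝ) (h : Ht) : lin a (-h) = -lin a h := by
  simp [lin, Finsupp.sum]

/-- normalised weights -/
noncomputable def pw (c : ℝ) (D : Finset Site) (h : Ht) : ℝ := hwt c D h / ∑ h ∈ hs D, hwt c D h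

theorem PH_eq (c : ℝ) (D : Finset Site) (F : Ht → ℝ) :
    PH c D F = ∑ h ∈ hs D, pw c D h * F h := by
  simp only [PH, pw, Finset.sum_div, div_mul_eq_mul_div]

theorem pw_nonneg (hc : 0 < c) (D : Finset Site) (h : Ht) : 0 ≤ pw c D h :=
  (div_pos (hwt_pos hc D h) (hZ_pos hc D)).le

theorem pw_one (hc : 0 < c) (D : Finset Site) : ∑ h ∈ hs D, pw c D h = 1 := by
  simpa using (PH_eq c D 1).symm.trans (PH_one hc)

theorem char (hc : 0 < c) (hψ : IsJordanMap ψ) {δ : ℕ → ℝ} {U : ℕ → Finset Site}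
    (hδ : ∀ n, 0 < δ n) (hL : ∀ g, IsTest ψ g → (∀ z, 0 ≤ g z) →
      Tendsto (fun n => PH c (U n) fun h => Real.exp (lin (smp (δ n) (g ∘ cx)) h)) atTop
        (𝓝 (Real.exp (K * cov ψ g g / 2)))) (hf : IsTest ψ f) :
    0 ≤ K * cov ψ f f ∧ Tendsto (fun n => ∑ h ∈ hs (U n), (pw c (U n) h : ℂ) *
      Complex.exp (Complex.I * (lin (smp (δ n) (f ∘ cx)) h : ℝ))) atTop
      (𝓝 (Real.exp (-(K * cov ψ f f) / 2) : ℝ)) := by
  obtain ⟨a, b, ha, hb, a0, b0, rfl⟩ := test_split hψ hf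
  have k := cone (S := fun n => hs (U n)) (w := fun n => pw c (U n))
    (fun n => pw_nonneg hc _) (fun n => pw_one hc _) (fun n => lin (smp (δ n) (a ∘ cx)))
    (fun n => lin (smp (δ n) (b ∘ cx))) (K * cov ψ a a) (K * cov ψ a b) (K * cov ψ b b)
    (fun n F => by
      rw [← PH_eq, ← PH_eq, ← PH_neg]
      simp only [lin_neg])
    fun s hs t ht => by
      have k := hL _ (Test.add (Test.const_mul ha s) (Test.const_mul hb t))
        fun z => add_nonneg (mul_nonneg hs (a0 z)) (mul_nonneg ht (b0 z))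
      rw [cov_two hψ ha hb] at k
      simp only [lin_two (hδ _) ha hb, PH_eq] at k
      convert k using 3
      ring
  have e : K * cov ψ (fun z => 1 * a z + -1 * b z) (fun z => 1 * a z + -1 * b z) =
      K * cov ψ a a - 2 * (K * cov ψ a b) + K * cov ψ b b := by
    rw [cov_two hψ ha hb]
    ring
  simp only [e, lin_two (hδ _) ha hb]
  simpa only [one_mul, neg_mul, ← sub_eq_add_neg] using k

theorem latConv (hc : 0 < c) (hi : A_in) (ho : A_out) (hb : BVJ c) (hL : LAP c K) :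
    LatConv c K := by
  intro ψ δ U hψ hA k φ hφ
  have ne : (DP ψ).Nonempty := ⟨cxH.symm (ψ 0), 0, mem_ball_self one_pos, by
    rw [← cxH_eq, cxH.apply_symm_apply]⟩
  have key := fun t : Fin k → ℝ => char (K := K) (U := U) hc hψ hA.pos (fun g hg g0 =>
    hL _ δ U _ _ (hi ψ hψ).1 ne (hi ψ hψ).2 (ho ψ hψ) hA (test_cx hg).1 (test_cx hg).2
      (fun p => g0 _) (hb ψ g hψ hg g0)) (test_sum Finset.univ hφ t)
  have e : ∀ t : Fin k → ℝ, K * cov ψ (fun z => ∑ i, t i * φ i z) (fun z => ∑ i, t i * φ i z) =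
      t ⬝ᵥ (Matrix.of fun i j => K * cov ψ (φ i) (φ j)).mulVec t := fun t => by
    rw [cov_quad hψ _ hφ]
    simp only [dotProduct, Matrix.mulVec, Matrix.of_apply, Finset.mul_sum]
    exact Finset.sum_congr rfl fun i _ => Finset.sum_congr rfl fun j _ => by ring
  simp only [e, lin_sum (hA.pos _) _ hφ] at key
  have hM : (Matrix.of fun i j => K * cov ψ (φ i) (φ j)).PosSemidef :=
    Matrix.PosSemidef.of_dotProduct_mulVec_nonneg
      (by ext i j; simp [cov_symm (φ i)]) fun t => (key t).1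
  refine ⟨hM, fun F => ?_⟩
  simp only [PH_eq]
  exact law (fun n => pw_nonneg hc _) (fun n => pw_one hc _)
    (fun n h i => lin (smp (δ n) (φ i ∘ cx)) h) _ hM (fun t => (key t).2) F

end Vale.Agent.P145.Lp
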