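import Vale.Agent.P145.BAll
import Vale.Agent.P145.LpLaw

/-! P145, block BVS in the form used by the link. -/

namespace Vale.Agent.P145.Bv

theorem bvj {c : ℝ} (h1 : V1 c) (h2 : V2 c) : Lp.BVJ c :=
  fun ψ g hψ hg h0 => bvs h1 h2 ψ g hψ hg h0

end Vale.Agent.P145.Bv
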