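import Vale.Agent.P145.BDefs

/-! P145, block BVS: assembly. -/

open Set Filter Topology Metric MeasureTheory

namespace Vale.Agent.P145.Bv

open Vale.Agent.P071 (Test gdot DD hh G0)
open Vale.Agent.P152 (Site Pl Sm en sd PH)

theorem bMain_toS {g : Site → ℝ} {S : Finset Site} (h : ∀ v, g v ≠ 0 → v ∈ S) (v : Site) :
    toS g v = g v := by
  have hf : (Function.support g).Finite := S.finite_toSet.subset h
  rw [toS, dif_pos hf]; rfl

theorem bMain_small {B ε : ℝ} (hB : 0 ≤ B) (hε : 0 < ε) : ∃ t > 0, t ≤ 1 ∧ t ≤ ε ∧ B * t ≤ ε := by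
  refine ⟨min 1 (ε / (B + 1)), lt_min one_pos (by positivity), min_le_left _ _,
    (min_le_right _ _).trans (div_le_self hε.le (by linarith)), ?_⟩
  refine (mul_le_mul_of_nonneg_left (min_le_right _ _) hB).trans ?_
  rw [← mul_div_assoc, div_le_iff₀ (by positivity)]
  nlinarith

theorem bMain_tri (u v w : Site) : sd u w ≤ sd u v + sd v w := by
  unfold sd
  have h1 := abs_sub_le u.1 v.1 w.1
  have h2 := abs_sub_le u.2 v.2 w.2
  refine max_le ?_ ?_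
  · exact h1.trans (add_le_add (le_max_left _ _) (le_max_left _ _))
  · exact h2.trans (add_le_add (le_max_right _ _) (le_max_right _ _))

theorem bMain_comm (u v : Site) : sd u v = sd v u := by
  unfold sd; rw [abs_sub_comm u.1, abs_sub_comm u.2]

/-- sums of the global bound -/
theorem bMain_G (hcnt : B_cnt) {δ y C T T' : ℝ} (v : Site) (S : Finset Site) (h0 : 0 < δ)
    (h1 : δ ≤ y) (hC : 0 ≤ C) (hT : 0 ≤ T) (hT' : T ≤ T') (h : ∀ w ∈ S, δ * (sd v w : ℝ) ≤ y) :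
    ∑ w ∈ S, C * (2 + 2 * (T / δ) * (1 / max 1 (sd v w : ℝ))) ≤
      18 * C * (y ^ 2 + T' * y) / δ ^ 2 := by
  obtain ⟨a1, a2⟩ := hcnt δ y v S h0 h1 h
  rw [← Finset.mul_sum, Finset.sum_add_distrib, ← Finset.mul_sum, Finset.sum_const, nsmul_eq_mul,
    le_div_iff₀ (by positivity)]
  have hy : 0 ≤ y := h0.le.trans h1
  have e : C * ((S.card : ℝ) * 2 + 2 * (T / δ) * ∑ w ∈ S, 1 / max 1 (sd v w : ℝ)) * δ ^ 2 =
      2 * C * (δ ^ 2 * S.card + T * (δ * ∑ w ∈ S, 1 / max 1 (sd v w : ℝ))) := by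
    field_simp
  rw [e]
  have a3 : T * (δ * ∑ w ∈ S, 1 / max 1 (sd v w : ℝ)) ≤ T' * (9 * y) :=
    (mul_le_mul_of_nonneg_left a2 hT).trans (mul_le_mul_of_nonneg_right hT' (by positivity))
  nlinarith [mul_le_mul_of_nonneg_left (add_le_add a1 a3) hC]

/-- the estimate at a fixed mesh -/
theorem bMain_fix (hbox : B_box) (hcnt : B_cnt) (hpot : B_pot) (hker : B_ker) (hsum : B_sum)
    (hbr : B_br) {c C : ℝ} (hC : 0 ≤ C) (hK1 : K1 c C) {D : Set ℂ} {g f l : ℂ → ℝ}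
    {x R Mg Mf Ml H K θ ε r a e δ : ℝ} {M n1 : ℕ} {V : Finset Site} (hx : 1 ≤ x)
    (hD : ∀ z ∈ D, ‖z‖ + 1 ≤ x) (hg : Test D g) (hf : Test D f) (hR : 0 ≤ R) (hMg : 0 ≤ Mg)
    (hK : 0 ≤ K) (hθ : 0 ≤ θ) (hε : 0 ≤ ε) (ha : 0 < a) (ha1 : a ≤ 1) (he : 0 ≤ e) (he1 : e ≤ 1)
    (h0 : 0 < δ) (h1 : δ ≤ a) (h2 : δ ≤ r) (h3 : δ * n1 ≤ r) (gM : ∀ z, g z ≤ Mg)
    (fM : ∀ z, 0 ≤ f z ∧ f z ≤ Mf) (lM : ∀ z, 0 ≤ l z ∧ l z ≤ Ml)
    (hH : ∀ z, 0 ≤ g z + P071.lap f z ∧ g z + P071.lap f z ≤ H)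
    (hl : ∀ z, P071.lap l z ≤ K / (50 * (M + 1) * r) ^ 2 ∧
      (50 * (M + 1) * r < ‖z‖ → l z = 0 ∧ P071.lap l z ≤ 0) ∧
      Real.log ((50 * (M + 1) * r) ^ 2 / (‖z‖ ^ 2 + a ^ 2)) - 2 ≤ l z)
    (tf : ∀ w, |dl δ (f ∘ tc) w - δ ^ 2 * P071.lap f (cp δ w)| ≤ e * δ ^ 2)
    (tl : ∀ w, |dl δ (l ∘ tc) w - δ ^ 2 * P071.lap l (cp δ w)| ≤ e * δ ^ 2)
    (hs : ∀ z, g z + P071.lap f z ≠ 0 → ∃ y ∈ frontier D, dist z y ≤ r)
    (hn : ∀ z, ∀ y ∈ frontier D, dist z y ≤ 50 * (M + 1) * r + r → f z ≤ θ ∧ g z = 0)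
    (hV2 : ∀ r ≥ n1, ∀ (D : Finset Site) (v w : Site), Cc D → ¬ sq v r ⊆ D →
      (M * r : ℤ) ≤ sd v w → VV c D v w ≤ ε)
    (hV : Cc V) (hVR : ∀ f ∈ V, ‖pnt δ f‖ ≤ R)
    (hVf : ∀ z ∈ frontier (tc ⁻¹' D), ∃ f, f ∉ V ∧ dist (pnt δ f) z ≤ r)
    (b : Site → ℝ) (hb : ∀ v, 0 ≤ b v ∧ (psi δ (g ∘ tc) (f ∘ tc) v = 0 → b v = 0) ∧
      b v ≤ δ ^ 2 * (g (cp δ v) + P071.lap f (cp δ v)) + e * δ ^ 2) :
    PH c V (fun h => lin (toS b) h ^ 2) ≤ ((Mg + 1) * (9 * x ^ 2)) ^ 2 * ε +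
      (Mg + 1) * (9 * x ^ 2) * C * 9 * K * θ +
      (Mg + 1) * (9 * x ^ 2) * H * 18 * C * (1 + (R + x + 1)) * a +
      ((Mg + 1) * (9 * x ^ 2) * C * (9 * x ^ 2) * (Mf + Ml) +
        (2 * H + 1) * (9 * x ^ 2) * (18 * C * ((2 * x) ^ 2 + (R + x + 1) * (2 * x)))) * e := by
  obtain ⟨-, b2, b3, b4⟩ := hbr
  obtain ⟨S, hS⟩ := hbox δ x 0 h0
  have hδ1 : δ ≤ 1 := h1.trans ha1
  have hr : 0 < r := h0.trans_le h2
  have hH0 : 0 ≤ H := (hH 0).1.trans (hH 0).2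
  have hMf : 0 ≤ Mf := (fM 0).1.trans (fM 0).2
  have hMl : 0 ≤ Ml := (lM 0).1.trans (lM 0).2
  have hσ : δ ^ 2 * (S.card : ℝ) ≤ 9 * x ^ 2 :=
    (hcnt δ x 0 S h0 (hδ1.trans hx) fun w hw => (hS w).1 hw).1
  have hmem : ∀ w, cp δ w ∈ D → ∀ u, sd u w ≤ 1 → u ∈ S := by
    intro w hw u hu
    have c1 : δ * (sd 0 w : ℝ) ≤ ‖cp δ w‖ := by
      rw [← (b4 δ 0 w).2 h0.le]
      refine (b3 _ _).trans (le_of_eq ?_)
      have : tc (pnt δ 0) = 0 := by simp [tc, pnt, Complex.ext_iff]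
      rw [this, dist_zero_left]; rfl
    have c2 : (sd 0 u : ℝ) ≤ sd 0 w + 1 := by
      have := bMain_tri 0 w u
      rw [bMain_comm w u] at this
      exact_mod_cast this.trans (by linarith)
    rw [hS]
    nlinarith [hD _ hw, mul_le_mul_of_nonneg_left c2 h0.le]
  have hfS : ∀ w, f (cp δ w) ≠ 0 → ∀ u, sd u w ≤ 1 → u ∈ S := fun w hw =>
    hmem w (by_contra fun h => hw (hf.eq_zero h))
  have hbS : ∀ v, b v ≠ 0 → v ∈ S := by
    intro v hv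
    by_contra hv'
    refine hv ((hb v).2.1 ?_)
    have c1 : ∀ w, sd v w ≤ 1 → f (tc (pnt δ w)) = 0 := fun w hw =>
      by_contra fun h => hv' (hfS w h v hw)
    have c2 : g (tc (pnt δ v)) = 0 := by_contra fun h =>
      hv' (hmem v (by_contra fun h' => h (hg.eq_zero h')) v (by simp [sd]))
    simp only [psi, dl, Function.comp_apply]
    rw [c2, c1 v (by simp [sd]), c1 _ (by simp [sd]), c1 _ (by simp [sd]), c1 _ (by simp [sd]),
      c1 _ (by simp [sd])]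
    ring
  obtain ⟨p1, p2⟩ := hpot f g δ e (9 * x ^ 2) S h0 he hσ hfS tf
  have kk := fun v => (hker c).2 C hC hK1 δ V v h0 hV
  obtain ⟨G, hG⟩ : ∃ G : Site → Site → ℝ, ∀ v w,
    G v w = C * (2 + 2 * ((R + x + δ) / δ) * (1 / max 1 (sd v w : ℝ))) := ⟨_, fun _ _ => rfl⟩
  have hG0 : ∀ v w, 0 ≤ G v w := fun v w => by rw [hG]; positivity
  have hVG : ∀ v ∈ S, ∀ w, VV c V v w ≤ G v w := fun v hv w => by
    rw [hG]; exact (kk v).1 R x hR (by linarith) hVR ((hS v).1 hv) w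
  have hT : 0 ≤ R + x + δ := by positivity
  have hT' : R + x + δ ≤ R + x + 1 := by linarith
  have hA := (p1 Mg hMg gM).trans (mul_le_mul_of_nonneg_right (add_le_add_right he1 Mg)
    (by positivity))
  have key := hsum c V S (toS b) (fun v => δ ^ 2 * (g (cp δ v) + P071.lap f (cp δ v))) G
    (fun v w => C * l (cp δ (w - v))) (fun v w => if δ * (sd v w : ℝ) ≤ a then G v w else 0)
    (e * δ ^ 2) (H * δ ^ 2) ε ((Mg + 1) * (9 * x ^ 2))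
    (C * (9 * K * θ + e * (9 * x ^ 2) * (Mf + Ml))) (18 * C * (a ^ 2 + (R + x + 1) * a) / δ ^ 2)
    (18 * C * ((2 * x) ^ 2 + (R + x + 1) * (2 * x)) / δ ^ 2) (by positivity) (by positivity) hε
    (by positivity) (by positivity) (fun v hv => hbS v (by rwa [bMain_toS hbS] at hv))
    (fun v => by
      rw [bMain_toS hbS]
      exact ⟨(hb v).1, (hb v).2.2, mul_nonneg (sq_nonneg _) (hH _).1,
        (mul_le_mul_of_nonneg_left (hH _).2 (sq_nonneg _)).trans (mul_comm _ _).le⟩)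
    (fun v w => ⟨hG0 v w, mul_nonneg hC (lM _).1, by split_ifs; exacts [hG0 v w, le_rfl]⟩) hVG
    (fun v hv => by
      simp only [hG]
      refine bMain_G hcnt v S h0 (by linarith) hC hT hT' fun w hw => ?_
      have c1 : (sd v w : ℝ) ≤ sd 0 v + sd 0 w := by
        have := bMain_tri v 0 w
        rw [bMain_comm v 0] at this
        exact_mod_cast this
      nlinarith [(hS v).1 hv, (hS w).1 hw, mul_le_mul_of_nonneg_left c1 h0.le])
    hA (fun v hv hv' => ?_)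
  · refine key.trans ?_
    have e1 : H * δ ^ 2 * (18 * C * (a ^ 2 + (R + x + 1) * a) / δ ^ 2) =
        H * 18 * C * (a ^ 2 + (R + x + 1) * a) := by field_simp
    have e2 : ∀ Γ : ℝ, e * δ ^ 2 * (2 * (H * δ ^ 2) + e * δ ^ 2) * S.card * (Γ / δ ^ 2) =
        e * (2 * H + e) * (δ ^ 2 * S.card) * Γ := fun Γ => by field_simp
    rw [e1, e2]
    have c1 : a ^ 2 + (R + x + 1) * a ≤ (1 + (R + x + 1)) * a := by nlinarith
    have c2 : e * (2 * H + e) * (δ ^ 2 * S.card) ≤ e * (2 * H + 1) * (9 * x ^ 2) := by gcongr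
    have c3 := mul_le_mul_of_nonneg_left c1
      (show 0 ≤ (Mg + 1) * (9 * x ^ 2) * H * 18 * C by positivity)
    have c4 := mul_le_mul_of_nonneg_right c2
      (show 0 ≤ 18 * C * ((2 * x) ^ 2 + (R + x + 1) * (2 * x)) by positivity)
    linarith
  obtain ⟨y, hy, hd⟩ := hs (cp δ v) fun h => hv' (by simp only [h, mul_zero])
  obtain ⟨p, hp, rfl⟩ := b2 D y hy
  obtain ⟨f0, hf0, hd0⟩ := hVf p hp
  have hd1 : dist (pnt δ f0) (pnt δ v) ≤ 2 * r := by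
    have := (b3 (pnt δ v) p).trans hd
    linarith [dist_triangle_right (pnt δ f0) (pnt δ v) p]
  refine ⟨fun w => ?_, ?_, ?_⟩
  · split_ifs with h
    · linarith [hVG v hv w, mul_nonneg hC (lM (cp δ (w - v))).1]
    · rw [add_zero]
      exact (kk v).2 ε r a M n1 f0 l hε ha h2 h3 hV2 hf0 hd1 (fun z => ⟨(lM z).1, (hl z).2.2⟩) w
        (not_le.1 h).le
  · simp only [mul_left_comm _ C, ← Finset.mul_sum]
    refine mul_le_mul_of_nonneg_left (p2 l θ _ K Mf Ml v ?_ hθ hK fM lM tl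
      (fun z => ⟨(hl z).1, (hl z).2.1⟩) fun w hw => hn _ _ hy ?_) hC
    · have : (0 : ℝ) ≤ M := Nat.cast_nonneg M
      nlinarith
    · rw [(b4 δ v w).1, ← dist_eq_norm] at hw
      linarith [dist_triangle (cp δ w) (cp δ v) (tc p)]
  · rw [← Finset.sum_filter]
    simp only [hG]
    exact bMain_G hcnt v _ h0 h1 hC hT hT' fun w hw => (Finset.mem_filter.1 hw).2

theorem bMain (hell : B_ell) (htay : B_tay) (hbox : B_box) (hcnt : B_cnt) (hpot : B_pot)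
    (hker : B_ker) (hsum : B_sum) (hbr : B_br) {c : ℝ} (h1 : V1 c) (h2 : V2 c) {D : Set ℂ}
    {g : ℂ → ℝ} {Q : ℝ} (hb : Bornology.IsBounded D) (hg : Test D g) (hs : Swp D g Q) :
    BVS c (tc ⁻¹' D) (g ∘ tc) Q := by
  intro ε hε
  obtain ⟨C, hC, hK1⟩ := (hker c).1 h1
  obtain ⟨K, hK, hl⟩ := hell
  obtain ⟨x0, hx0, hD⟩ := hb.exists_pos_norm_le
  obtain ⟨Mg, hMg⟩ := hg.bdd
  have hMg0 : 0 ≤ Mg := (abs_nonneg _).trans (hMg 0)
  obtain ⟨x, hx⟩ : ∃ x, x = x0 + 1 := ⟨_, rfl⟩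
  have hx1 : 1 ≤ x := by linarith
  have hε4 : 0 < ε / 4 := by positivity
  obtain ⟨ε1, hε1, -, -, q1⟩ := bMain_small (B := ((Mg + 1) * (9 * x ^ 2)) ^ 2) (by positivity) hε4
  obtain ⟨θ, hθ, -, hθε, q2⟩ :=
    bMain_small (B := (Mg + 1) * (9 * x ^ 2) * C * 9 * K) (by positivity) hε4
  obtain ⟨M, n1, -, hV2⟩ := h2 ε1 hε1
  obtain ⟨ρ, hρ, hs⟩ := hs θ hθ
  obtain ⟨r, hr, hrρ⟩ : ∃ r > 0, 50 * ((M : ℝ) + 1) * r + r = ρ :=
    ⟨ρ / (50 * (M + 1) + 1), by positivity, by field_simp⟩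
  obtain ⟨f, hf, s1, s2, s3, s4⟩ := hs r hr
  obtain ⟨b1, b2, b3⟩ := hbr.1 D f hf
  refine ⟨f ∘ tc, r, b1, b2, hr, by rw [b3]; linarith, fun δ V R hδ hlim hV => ?_⟩
  have hlim' : Tendsto δ atTop (𝓝[>] 0) :=
    tendsto_nhdsWithin_iff.2 ⟨hlim, Eventually.of_forall hδ⟩
  obtain ⟨H, hH⟩ := (hg.add hf.lap).bdd
  obtain ⟨Mf, hMf⟩ := hf.bdd
  have hH0 : 0 ≤ H := (abs_nonneg _).trans (hH 0)
  have hMf0 : 0 ≤ Mf := (abs_nonneg _).trans (hMf 0)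
  obtain ⟨a, ha, ha1, -, q3⟩ := bMain_small
    (B := (Mg + 1) * (9 * x ^ 2) * H * 18 * C * (1 + (|R| + x + 1))) (by positivity) hε4
  obtain ⟨l, hl, hl'⟩ := hl (50 * (M + 1) * r) (by positivity) a ha
  obtain ⟨Ml, hMl⟩ := hl.bdd
  have hMl0 : 0 ≤ Ml := (abs_nonneg _).trans (hMl 0)
  obtain ⟨e, he, he1, -, q4⟩ := bMain_small
    (B := (Mg + 1) * (9 * x ^ 2) * C * (9 * x ^ 2) * (Mf + Ml) +
      (2 * H + 1) * (9 * x ^ 2) * (18 * C * ((2 * x) ^ 2 + (|R| + x + 1) * (2 * x))))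
    (by positivity) hε4
  filter_upwards [hV, hlim'.eventually (htay f ⟨hf.1, hf.2.1, subset_univ _⟩ e he),
    hlim'.eventually (htay l hl e he), hlim.eventually (eventually_le_nhds ha),
    hlim.eventually (eventually_le_nhds (show 0 < r / (n1 + 1) by positivity))]
    with n ⟨v1, v2, v3⟩ tf tl d1 d2
  rw [le_div_iff₀ (by positivity)] at d2
  have hn1 : (0 : ℝ) ≤ n1 := Nat.cast_nonneg n1
  have key := bMain_fix hbox hcnt hpot hker hsum hbr hC hK1 hx1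
    (fun z hz => by linarith [hD z hz]) hg hf (abs_nonneg R) hMg0 hK hθ.le hε1.le ha ha1 he.le he1
    (hδ n) d1 (by nlinarith [hδ n]) (by nlinarith [hδ n]) (fun z => (le_abs_self _).trans (hMg z))
    (fun z => ⟨(s2 z).1, (le_abs_self _).trans (hMf z)⟩)
    (fun z => ⟨(hl' z).1, (le_abs_self _).trans (hMl z)⟩)
    (fun z => ⟨(s2 z).2, (le_abs_self _).trans (hH z)⟩) (fun z => (hl' z).2) tf tl s3
    (by rw [hrρ]; exact s4) hV2 v1 (fun f hf => (v2 f hf).trans (le_abs_self R)) v3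
  have hp : ∀ v, |psi (δ n) (g ∘ tc) (f ∘ tc) v -
      δ n ^ 2 * (g (cp (δ n) v) + P071.lap f (cp (δ n) v))| ≤ e * δ n ^ 2 := fun v => by
    refine le_trans (le_of_eq ?_) (tf v)
    congr 1
    simp only [psi, cp, Function.comp_apply]
    ring
  have hA : ∀ v, 0 ≤ δ n ^ 2 * (g (cp (δ n) v) + P071.lap f (cp (δ n) v)) := fun v =>
    mul_nonneg (sq_nonneg _) (s2 _).2
  have he' : 0 ≤ e * δ n ^ 2 := by positivity
  constructor
  · refine (key _ fun v => ⟨le_max_right _ _, fun h => by rw [h, max_self], max_le ?_ ?_⟩).trans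
      (by linarith)
    · linarith [(abs_le.1 (hp v)).2]
    · linarith [hA v]
  · refine (key _ fun v => ⟨le_max_right _ _, fun h => by rw [h, neg_zero, max_self],
      max_le ?_ ?_⟩).trans (by linarith)
    · linarith [(abs_le.1 (hp v)).1, hA v]
    · linarith [hA v]

end Vale.Agent.P145.Bv
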