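import Vale.Agent.P152.NFMk
import Vale.Agent.P152.NFDec
import Vale.Agent.P152.NFLink
import Vale.Agent.P152.NFSym
import Vale.Agent.P152.FDefs

/-! P145, lattice core: objects and block statements. See `skel/P145/MATH.md`. -/

open Filter Topology

namespace Vale.Agent.P145

open Vale.Agent.P152

/-! ### Planar notions (plaquettes and primal edges) -/

/-- `m` separates the plaquettes `f`, `g` -/
def Sep (m : Vx) (f g : Site) : Prop := (fa m = f ∧ fb m = g) ∨ (fa m = g ∧ fb m = f)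

/-- `m` joins the vertices `v`, `w` -/
def Joi (m : Vx) (v w : Site) : Prop := (src m = v ∧ tgt m = w) ∨ (src m = w ∧ tgt m = v)

/-- dual step inside `U` that crosses an edge not in `O` -/
def DS (O : Set Vx) (U : Set Site) (f g : Site) : Prop :=
  f ∈ U ∧ g ∈ U ∧ ∃ m, m ∉ O ∧ Sep m f g

/-- `f` and `g` are joined by a path of plaquettes of `U` -/
def Lk (U : Set Site) (f g : Site) : Prop := f ∈ U ∧ Relation.ReflTransGen (DS ∅ U) f g

/-- connected sets of plaquettes -/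
def Cn (U : Set Site) : Prop := ∀ f ∈ U, ∀ g ∈ U, Lk U f g

/-- finite sets with connected complement -/
def Cc (D : Finset Site) : Prop := Cn (D : Set Site)ᶜ

/-- plaquettes reached from `A` without crossing an edge of `O` -/
def Rch (O : Set Vx) (A : Set Site) : Set Site :=
  {g | ∃ f ∈ A, Relation.ReflTransGen (DS O Set.univ) f g}

/-- boundary edges -/
def bd (E : Finset Site) : Finset Vx := vx E \ vin E

/-- `A` is enclosed by edges of `O` inside `B` -/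
def Enc (O : Set Vx) (A B : Set Site) : Prop :=
  ∃ E : Finset Site, A ⊆ E ∧ (E : Set Site) ⊆ B ∧ Cn E ∧ Cc E ∧ (bd E : Set Vx) ⊆ O

/-- primal path along edges of `O` -/
def Pth (O : Set Vx) : Site → Site → Prop := Relation.ReflTransGen fun v w => ∃ m ∈ O, Joi m v w

/-- the square of `2 n × 2 n` plaquettes centred at the vertex `z` -/
noncomputable def sq (z : Site) (n : ℕ) : Finset Site := bx (z - ((n : ℤ), (n : ℤ)), z + ((n : ℤ), (n : ℤ)))

/-- arm from the inside of `sq z n` to the boundary of `sq z N` -/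
def Arm (O : Set Vx) (z : Site) (n N : ℕ) : Prop :=
  ∃ v w, sd v z < n ∧ (N : ℤ) ≤ sd w z ∧ Pth (O ∩ vin (sq z N)) v w

/-- the edge has the end `v` -/
def End (m : Vx) (v : Site) : Prop := src m = v ∨ tgt m = v

/-- even finite edge sets are boundaries -/
def P_ex : Prop := ∀ η : Finset Vx, (∀ v : Site, ((v, true) ∈ η ↔ (v - (1, 0), true) ∈ η) ↔
    ((v, false) ∈ η ↔ (v - (0, 1), false) ∈ η)) → ∃ s : Finset Site, bd s = η

/-- the boundary of a connected set with connected complement is connected -/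
def P_tim : Prop := ∀ E : Finset Site, Cn E → Cc E → ∀ m ∈ bd E, ∀ m' ∈ bd E,
  Pth (bd E) (src m) (src m')

/-- nesting -/
def P_nest : Prop := ∀ E C : Finset Site, Cn E → Cc E → Cn C → Cc C →
  (∀ m ∈ bd E, ∀ m' ∈ bd C, ∀ v, End m v → ¬ End m' v) → E ⊆ C ∨ C ⊆ E ∨ Disjoint E C

/-- no dual path means enclosed -/
def P_enc : Prop := ∀ (O : Set Vx) (A : Set Site) (B : Finset Site), Cn A → Cc B →
  (∀ f ∈ A, f ∉ Rch O (B : Set Site)ᶜ) → Enc O A B

/-! ### Heights with open edges -/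

/-- the two ends have the same height -/
def ag (h : Ht) (m : Vx) : ℝ := if h (src m, true) = h (tgt m, true) then 1 else 0

/-- edge weight, `ω` is the set of OPEN edges -/
def ow (c : ℝ) (h : Ht) (ω : Finset Vx) (m : Vx) : ℝ :=
  if m ∈ ω then ag h m else hv c h m - ag h m

noncomputable def jn (c : ℝ) (D : Finset Site) (F : Ht → Finset Vx → ℝ) : ℝ :=
  ∑ h ∈ hs D, ∑ ω ∈ (vin D).powerset, (∏ m ∈ vin D, ow c h ω m) * F h ω

/-- joint law of the height and of the open edges -/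
noncomputable def JH (c : ℝ) (D : Finset Site) (F : Ht → Finset Vx → ℝ) : ℝ :=
  jn c D F / jn c D 1

/-- configurations of nonzero weight satisfy this -/
def Ok (D : Finset Site) (h : Ht) (ω : Finset Vx) : Prop :=
  IsH D h ∧ ω ⊆ vin D ∧ (∀ m ∈ ω, h (src m, true) = h (tgt m, true)) ∧
    ∀ m ∈ vin D, m ∉ ω → h (fa m, false) = h (fb m, false)

/-- open edges whose height satisfies `p` -/
def op (p : ℤ → Prop) (h : Ht) (ω : Finset Vx) : Set Vx := {m | m ∈ ω ∧ p (h (src m, true))}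

/-- open edges with spin plus -/
def o0 (h : Ht) (ω : Finset Vx) : Set Vx := op (fun z => z % 4 = 0) h ω

/-- open edges with spin minus -/
def o2 (h : Ht) (ω : Finset Vx) : Set Vx := op (fun z => z % 4 = 2) h ω

/-- open edges with spin plus, edges that are not interior count as open -/
def ox (D : Finset Site) (h : Ht) (ω : Finset Vx) : Set Vx := (vin D : Set Vx)ᶜ ∪ o0 h ω

/-- law of the pair of plus and minus open edges -/
noncomputable def PG (c : ℝ) (D : Finset Site) (G : Set Vx → Set Vx → ℝ) : ℝ :=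
  JH c D fun h ω => G (ox D h ω) (o2 h ω)

/-- increasing in the plus edges, decreasing in the minus edges -/
def Up (G : Set Vx → Set Vx → ℝ) : Prop :=
  ∀ P P' Q Q', P ⊆ P' → Q' ⊆ Q → G P Q ≤ G P' Q'

open Classical in
/-- indicator of a proposition -/
noncomputable def pi (p : Prop) : ℝ := if p then 1 else 0

/-- smeared height -/
noncomputable def lin (a : Site →₀ ℝ) (h : Ht) : ℝ := a.sum fun v r => r * h (v, true)

/-- smeared increments -/
noncomputable def XH (g : Vx →₀ ℝ) (h : Ht) : ℝ :=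
  g.sum fun m r => r * ((h (tgt m, true) : ℝ) - h (src m, true))

/-- two point function -/
noncomputable def VV (c : ℝ) (D : Finset Site) (v w : Site) : ℝ :=
  PH c D fun h => (h (v, true) : ℝ) * h (w, true)

/-! ### Block LK: lifting, spins, legs -/

/-- increments with constant class on the boundary lift to a height with zero boundary values -/
def L_lift : Prop := ∀ (D : Finset Site) (h : Ht) (j : ℤ), Cc D →
  (∀ f ∈ D, ∀ v ∈ cor f, |h (f, false) - h (v, true)| = 1) →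
  (∀ f ∈ D, ∀ v ∈ cor f, v ∉ inn D → h (v, true) % 4 = j) →
  ∃ h', IsH D h' ∧ ∀ f ∈ D, ∀ v ∈ cor f, h' (f, false) - h' (v, true) = h (f, false) - h (v, true)

/-- vertices with spin minus -/
def tau (D : Finset Site) (h : Ht) : Finset Site := (inn D).filter fun v => h (v, true) % 4 = 2

/-- plaquettes with dual spin plus -/
def dag (D : Finset Site) (h : Ht) : Finset Site := D.filter fun f => h (f, false) % 4 = 1

/-- the constraint on spins -/
def Adm (D T s : Finset Site) : Prop :=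
  ∀ m ∈ vin D, (src m ∈ T ↔ tgt m ∈ T) ∨ (fa m ∈ s ↔ fb m ∈ s)

open Classical in
/-- heights are pairs of spin configurations -/
def L_spin : Prop := ∀ D : Finset Site, Cc D → ∀ Φ : Finset Site → Finset Site → ℝ,
  ∑ h ∈ hs D, Φ (tau D h) (dag D h) =
    ∑ T ∈ (inn D).powerset, ∑ s ∈ D.powerset, if Adm D T s then Φ T s else 0

/-- heights are leg configurations -/
def L_leg : Prop := ∀ (c : ℝ) (D : Finset Site), Cc D → ∀ F : Cfg → ℝ,
  ED c D ∅ F = PH c D fun h => F (cfg (NFLink_T D h))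

/-! ### Block MK: Markov property and exploration -/

/-- flat on `D'` at heights of class `j` -/
def Flat (D' : Finset Site) (j : ℤ) (h : Ht) : Prop :=
  ∀ f ∈ D', ∀ v ∈ cor f, h (f, false) = h (v, true) + 1 ∧ h (v, true) % 4 = j

/-- the boundary of `D'` is open and of class `j` -/
def Ring (D D' : Finset Site) (j : ℤ) (h : Ht) (ω : Finset Vx) : Prop :=
  (∀ m ∈ vin D, m ∈ bd D' → m ∈ ω) ∧ ∀ f ∈ D', ∀ v ∈ cor f, v ∉ inn D' → h (v, true) % 4 = j

def glue (D' : Finset Site) (ho hi : Ht) : Ht := ho - flat D' + hi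

/-- outside data -/
def Out (D D' : Finset Site) (j : ℤ) (ho : Ht) (ωo : Finset Vx) : Prop :=
  IsH D ho ∧ Flat D' j ho ∧ ωo ⊆ vin D \ vin D' ∧ (∀ m ∈ vin D, m ∈ bd D' → m ∈ ωo) ∧
    (∀ m ∈ ωo, ho (src m, true) = ho (tgt m, true)) ∧
    ∀ m ∈ vin D \ vin D', m ∉ ωo → ho (fa m, false) = ho (fb m, false)

/-- conditional expectation given the outside data -/
noncomputable def Inn (c : ℝ) (D' : Finset Site) (ho : Ht) (ωo : Finset Vx)
    (Φ : Ht → Finset Vx → ℝ) : ℝ := JH c D' fun hi ωi => Φ (glue D' ho hi) (ωo ∪ ωi)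

/-- Markov property as a comparison principle -/
def M_mk : Prop := ∀ c : ℝ, 1 ≤ c → ∀ (D D' : Finset Site) (j : ℤ) (Φ Ψ : Ht → Finset Vx → ℝ),
  D' ⊆ D → Cc D' → (∀ ho ωo, Out D D' j ho ωo → Inn c D' ho ωo Φ ≤ Inn c D' ho ωo Ψ) →
  JH c D (fun h ω => pi (Ring D D' j h ω) * Φ h ω) ≤ JH c D fun h ω => pi (Ring D D' j h ω) * Ψ h ω

open Classical in
/-- the part of `D` that is not reached from `A` -/
noncomputable def exd (D : Finset Site) (O : Set Vx) (A : Set Site) : Finset Site :=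
  D.filter fun f => f ∉ Rch O A

/-- exploration from `A`, blocked by `Of` and by open edges in `S` whose height satisfies `p` -/
def M_exp : Prop := ∀ c : ℝ, 1 ≤ c → ∀ (D : Finset Site) (j : ℤ) (A : Set Site) (Of S : Set Vx)
  (p : ℤ → Prop) (Φ Ψ : Ht → Finset Vx → ℝ), Cn ((D : Set Site)ᶜ ∪ A) → Disjoint Of (vin D) →
  (∀ z, p z → z % 4 = j) → (j = 0 ∨ (Of = ∅ ∧ (D : Set Site)ᶜ ⊆ A)) →
  (∀ D' ho ωo, D' ⊆ D → Cc D' → Out D D' j ho ωo → exd D (Of ∪ op p ho ωo ∩ S) A = D' →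
    (∀ hi ωi, Ok D' hi ωi →
      Rch (Of ∪ op p (glue D' ho hi) (ωo ∪ ωi) ∩ S) A = Rch (Of ∪ op p ho ωo ∩ S) A) →
    Inn c D' ho ωo Φ ≤ Inn c D' ho ωo Ψ) → JH c D Φ ≤ JH c D Ψ

/-- reflection of the height on `s` -/
def flp (s : Finset Site) (h : Ht) : Ht := fun x => if x.1 ∈ s then -h x else h x

/-- reflection on a union of components -/
def M_flip : Prop := ∀ (c : ℝ) (D s : Finset Site) (Φ : Ht → Finset Vx → ℝ),
  (∀ m ∈ vin D, fa m ∈ s ↔ fb m ∈ s) → JH c D Φ = JH c D fun h ω => Φ (flp s h) ω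

/-- lattice symmetries -/
def M_iso : Prop := ∀ (gv gp : Site ≃ Site) (ge : Vx ≃ Vx), Iso gv gp ge →
  ∀ (c : ℝ) (D : Finset Site) (G : Set Vx → Set Vx → ℝ),
  PG c (D.map gp.toEmbedding) G = PG c D fun P Q => G (ge '' P) (ge '' Q)

/-! ### Block GL: correlation inequalities for plus and minus edges -/

/-- four functions inequality -/
def G_four : Prop := ∀ c : ℝ, 1 ≤ c → ∀ (D : Finset Site) (f1 f2 f3 f4 : Set Vx → Set Vx → ℝ),
  Cc D → (∀ P Q, 0 ≤ f1 P Q ∧ 0 ≤ f2 P Q ∧ 0 ≤ f3 P Q ∧ 0 ≤ f4 P Q) →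
  (∀ P Q P' Q' B, Disjoint B (P ∪ Q ∪ P' ∪ Q') →
    f1 P Q * f2 P' Q' ≤ f3 (P ∩ P') (Q ∪ Q' ∪ B) * f4 (P ∪ P' ∪ B) (Q ∩ Q')) →
  PG c D f1 * PG c D f2 ≤ PG c D f3 * PG c D f4

/-- positive association -/
def G_pa : Prop := ∀ c : ℝ, 1 ≤ c → ∀ (D : Finset Site) (G G' : Set Vx → Set Vx → ℝ), Cc D →
  Up G → Up G' → PG c D G * PG c D G' ≤ PG c D (G * G')

/-- smaller domains favour plus -/
def G_dom : Prop := ∀ c : ℝ, 1 ≤ c → ∀ (D D' : Finset Site) (G : Set Vx → Set Vx → ℝ), Cc D →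
  Cc D' → D' ⊆ D → Up G → PG c D G ≤ PG c D' G

/-- minus boundary conditions are below plus boundary conditions -/
def G_pm : Prop := ∀ c : ℝ, 1 ≤ c → ∀ (D D' : Finset Site) (G : Set Vx → Set Vx → ℝ), Cc D →
  Cc D' → (∀ f ∈ D', ∀ v ∈ cor f, v ∈ inn D) → Up G → PG c D (fun P Q => G Q P) ≤ PG c D' G

/-! ### Block HU: absolute values -/

/-- average over the signs -/
noncomputable def sav (D : Finset Site) (F : Ht → ℝ) (H : Ht) (u : Finset Vx) : ℝ :=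
  (∑ s ∈ KK D (u ∩ vin D), F (NFDec_inv H s)) / (KK D (u ∩ vin D)).card

/-- `F` only depends on the heights of the vertices in `U` -/
def DepV (U : Set Site) (F : Ht → ℝ) : Prop :=
  ∀ h h' : Ht, (∀ v ∈ U, h (v, true) = h' (v, true)) → F h = F h'

/-- functions that increase with the absolute value and with the closed edges -/
def SP (F : Ht → ℝ) : Prop := DepV Set.univ F ∧ ∀ (D : Finset Site) (H H' : Ht)
  (u u' : Finset Vx), IsH D H → IsH D H' → 0 ≤ H → H ≤ H' → u ⊆ u' →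
    0 ≤ sav D F H u ∧ sav D F H u ≤ sav D F H' u'

def H_sp : Prop := ∀ a : Site →₀ ℝ, (∀ v, 0 ≤ a v) →
  SP (fun h => Real.exp (lin a h)) ∧ SP fun h => lin a h ^ 2

open Classical in
/-- sum over absolute values and closed edges -/
noncomputable def hu (c : ℝ) (D : Finset Site) (F : Ht → Finset Vx → ℝ) : ℝ :=
  ∑ H ∈ (hs D).filter (0 ≤ ·), ∑ u ∈ (vin D).powerset,
    (∏ m ∈ vin D, ew c H u m) * ((KK D u).card * F H u)

/-- four functions inequality -/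
def H_four : Prop := ∀ c : ℝ, 1 ≤ c → ∀ (D : Finset Site) (f1 f2 f3 f4 : Ht → Finset Vx → ℝ),
  (∀ H u, IsH D H → 0 ≤ H → 0 ≤ f1 H u ∧ 0 ≤ f2 H u ∧ 0 ≤ f3 H u ∧ 0 ≤ f4 H u) →
  (∀ H H' u u' u'', IsH D H → IsH D H' → 0 ≤ H → 0 ≤ H' → u'' ⊆ u ∩ u' →
    f1 H u * f2 H' u' ≤ f3 (H ⊓ H') u'' * f4 (H ⊔ H') (u ∪ u')) →
  hu c D f1 * hu c D f2 ≤ hu c D f3 * hu c D f4

/-- only the open edges at height zero are kept -/
def H_thin : Prop := ∀ (c : ℝ) (D : Finset Site) (F : Ht → ℝ) (b : Set Vx → ℝ),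
  jn c D (fun h ω => b (op (· = 0) h ω) * F h) =
    hu c D fun H u => b ((vin D \ u : Finset Vx) : Set Vx) * sav D F H u

/-- negative correlation -/
def H_neg : Prop := ∀ c : ℝ, 1 ≤ c → ∀ (D : Finset Site) (F : Ht → ℝ) (b : Set Vx → ℝ), SP F →
  Monotone b → (∀ O, 0 ≤ b O) → JH c D (fun h ω => b (op (· = 0) h ω) * F h) ≤
    JH c D (fun h ω => b (op (· = 0) h ω)) * PH c D F

/-- conditioning outside `D'` is worse than zero boundary values -/
def H_out : Prop := ∀ c : ℝ, 1 ≤ c → ∀ (D D' : Finset Site) (F : Ht → ℝ) (b : Set Vx → ℝ), SP F →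
  D' ⊆ D → (∀ O, 0 ≤ b O) → JH c D (fun h ω => b (op (· = 0) h ω \ vin D')) * PH c D' F ≤
    JH c D fun h ω => b (op (· = 0) h ω \ vin D') * F h

/-- monotonicity in the domain -/
def H_mono : Prop := ∀ c : ℝ, 1 ≤ c → ∀ (D D' : Finset Site) (F : Ht → ℝ), SP F → D' ⊆ D →
  PH c D' F ≤ PH c D F

/-- sandwich behind a wall at height `a` -/
def H_ex : Prop := ∀ c : ℝ, 1 ≤ c → ∀ (Λ Q Dm Dp : Finset Site) (S : Set Vx) (a : ℤ)
  (𝒜 : Set Vx → Prop) (F : Ht → ℝ), Cc Λ → Q ⊆ Λ → (∀ O O', O ⊆ O' → 𝒜 O → 𝒜 O') →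
  (∀ O ⊆ S, 𝒜 O → ∀ f ∈ Q, f ∉ Rch O (Λ : Set Site)ᶜ) → SP F → DepV (inn Q) F →
  (Dm ⊆ Q → Disjoint S (vin Dm) →
    JH c Λ (fun h ω => pi (𝒜 (op (· = a) h ω ∩ S))) * PH c Dm F ≤
      JH c Λ fun h ω => pi (𝒜 (op (· = a) h ω ∩ S)) * F (h - fun _ => a)) ∧
  (Cc Dp → Dp ⊆ Λ → S ⊆ vin Dp →
    JH c Λ (fun h ω => pi (𝒜 (op (· = a) h ω ∩ S)) * F (h - fun _ => a)) ≤
      JH c Λ (fun h ω => pi (𝒜 (op (· = a) h ω ∩ S))) * PH c Dp F)

/-! ### Blocks WR, SR, V: crossing estimates and two point functions -/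

/-- weak crossing estimates -/
def WR (c : ℝ) : Prop := ∃ c0 > 0, ∃ n0 : ℕ, 1 ≤ n0 ∧ ∀ n ≥ n0, ∀ (z : Site) (D : Finset Site),
  Cc D → c0 ≤ PG c D (fun P _ => pi (Enc P (sq z n) (sq z (2 * n)))) ∧
    c0 ≤ PG c D fun P _ => pi (Arm P z n (8 * n))

/-- one step of the exploration of the minus edges -/
def S_rec : Prop := ∀ c : ℝ, 1 ≤ c → ∀ (D : Finset Site) (v w : Site) (N : Set Vx → Set Vx → Prop)
  (b : Finset Site → ℝ), Cc D → (∀ D', 0 ≤ b D') →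
  (∀ D', D' ⊂ D → Cc D' → VV c D' v w ≤ b D') →
  (∀ h ω, Ok D h ω → Enc (o2 h ω) {v, w} Set.univ → N (ox D h ω) (o2 h ω)) →
  JH c D (fun h ω => pi (N (ox D h ω) (o2 h ω)) * ((h (v, true) : ℝ) * h (w, true))) ≤
    JH c D fun h ω => 4 * pi (N (ox D h ω) (o2 h ω)) +
      pi (Enc (o2 h ω) {v, w} Set.univ) * b (exd D (o2 h ω) (D : Set Site)ᶜ)

/-- strong crossing estimate -/
def SR (c : ℝ) : Prop := ∀ ε > 0, ∃ μ n1 : ℕ, 1 ≤ μ ∧ 1 ≤ n1 ∧ ∀ n ≥ n1, ∀ N ≥ μ * n,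
  ∀ z : Site, (∀ D, Cc D → PG c D (fun P _ => pi (¬ Enc P (sq z n) (sq z N))) ≤ ε) ∧
    ∀ᶠ ab in exh, PG c (bx ab) (fun _ Q => pi (¬ Enc Q (sq z n) (sq z N))) ≤ ε

/-- decoupling near the boundary -/
def V2 (c : ℝ) : Prop := ∀ ε > 0, ∃ M n1 : ℕ, 1 ≤ n1 ∧ ∀ r ≥ n1, ∀ (D : Finset Site) (v w : Site),
  Cc D → ¬ sq v r ⊆ D → (M * r : ℤ) ≤ sd v w → VV c D v w ≤ ε

/-- logarithmic bound -/
def V1 (c : ℝ) : Prop := ∃ C : ℝ, 0 ≤ C ∧ ∀ (k r : ℕ) (D : Finset Site) (v w : Site), Cc D →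
  ¬ sq v r ⊆ D → (r : ℤ) ≤ 2 ^ k * max 1 (sd v w) → VV c D v w ≤ C * (k + 1)

/-! ### Block I: the gradient field does not see a dashed wall -/

def BI (c K : ℝ) : Prop := ∀ η : Pl → ℝ, Sm η → ∀ l > 0, ∀ w > 0, ∀ y0 R : ℝ, ∀ ε > 0,
  ∀ᶠ δ : ℝ in 𝓝[>] 0, ∀ (ι : Type) (I : Finset ι) (ρ : ι → Set Vx → ℝ) (B : ι → Finset Vx),
  (∀ i O, 0 ≤ ρ i O ∧ ρ i O ≤ 1) → (∀ i O, ρ i O = ρ i (O ∩ B i)) →
  (∀ i ∈ I, ∃ (z : Pl) (j : ℤ), ‖z‖ ≤ R ∧ (∀ p ∈ tsupport η, 20 * l ≤ dist z p) ∧ ∀ m ∈ B i,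
    dist ((δ * m.1.1, δ * m.1.2) : Pl) z ≤ l ∧ y0 + j * l + w ≤ δ * m.1.2 ∧
      δ * m.1.2 ≤ y0 + (j + 1) * l - w) →
  ∀ᶠ ab in exh, |JH c (bx ab) fun h ω => (∏ i ∈ I, ρ i (o0 h ω) + ∏ i ∈ I, ρ i (o2 h ω)) *
    (Real.exp (XH (lgr δ η) h) - Real.exp (K * en η / 2))| ≤ ε

end Vale.Agent.P145
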