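import Vale.Agent.P153.Defs

/-! Definitions used in the statements for P145. -/

open Set Filter Topology MeasureTheory

namespace Vale.Agent.P145.AT

open Vale.Agent.P153 (poly IsJordanMap green IsTest)

/-- Vertices of the square lattice; a face is named after its lower left corner. -/
abbrev V : Type := ℤ × ℤ

/-- Position of a vertex in the plane. -/
def emb (x : V) : ℂ := ⟨x.1, x.2⟩

/-- A simple closed lattice polygon `β 0, …, β N = β 0`. -/
structure Pol where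
  N : ℕ
  β : ℕ → V
  three : 3 ≤ N
  adj : ∀ i < N, β (i + 1) - β i ∈ ({(1, 0), (-1, 0), (0, 1), (0, -1)} : Set V)
  closed : β N = β 0
  inj : InjOn β (Iio N)

/-- The boundary curve at unit mesh. -/
noncomputable def Pol.bd (P : Pol) (t : ℝ) : ℂ := poly (fun i => emb (P.β i)) P.N t

/-- The open region enclosed by the polygon. -/
def Pol.dom (P : Pol) : Set ℂ :=
  {z | z ∉ P.bd '' Icc 0 1 ∧ Bornology.IsBounded (connectedComponentIn (P.bd '' Icc 0 1)ᶜ z)}

/-- The vertices on or inside the polygon. -/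
def Pol.vert (P : Pol) : Set V := {v | emb v ∈ P.dom ∨ ∃ i < P.N, P.β i = v}

/-- The bounded faces: unit squares whose centre is inside the polygon. -/
def Pol.face (P : Pol) : Set V := {f | emb f + ⟨1 / 2, 1 / 2⟩ ∈ P.dom}

/-- The edge `(x, b)` joins `x` to this vertex. -/
def tg (e : V × Bool) : V := e.1 + if e.2 then (1, 0) else (0, 1)

/-- The edge `(x, b)` separates the face `x` from this face. -/
def ot (e : V × Bool) : V := e.1 - if e.2 then (0, 1) else (1, 0)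

/-- Spins on the vertices and spins on the faces. -/
abbrev Spin : Type := (V → ℤˣ) × (V → ℤˣ)

/-- The admissible configurations; spins outside the graph are set to `1`. -/
def Pol.Conf (P : Pol) : Set Spin :=
  {s | (∀ v, emb v ∉ P.dom → s.1 v = 1) ∧ (∀ f, f ∉ P.face → s.2 f = 1) ∧
    ∀ e : V × Bool, e.1 ∈ P.face → ot e ∈ P.face →
      ((s.1 e.1 : ℤ) - s.1 (tg e)) * ((s.2 e.1 : ℤ) - s.2 (ot e)) = 0}

/-- The weight of a configuration. -/
noncomputable def Pol.wt (P : Pol) (t : ℝ) (s : Spin) : ℝ :=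
  t ^ ({e : V × Bool | e.1 ∈ P.vert ∧ tg e ∈ P.vert ∧ s.1 e.1 ≠ s.1 (tg e)}.ncard +
    {e : V × Bool | e.1 ∈ P.face ∧ ot e ∈ P.face ∧ s.2 e.1 ≠ s.2 (ot e)}.ncard)

/-- Expectation in the height representation. -/
noncomputable def Pol.ex (P : Pol) (t : ℝ) (F : Spin → ℝ) : ℝ :=
  (∑ᶠ s ∈ P.Conf, P.wt t s * F s) / ∑ᶠ s ∈ P.Conf, P.wt t s

/-- `H` is the height function of the configuration `s` on the vertices. -/
def Pol.IsHt (P : Pol) (s : Spin) (H : V → ℝ) : Prop :=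
  (∀ i < P.N, H (P.β i) = 0) ∧ ∃ H' : V → ℝ, ∀ f ∈ P.face, ∀ v : V,
    v - f ∈ ({(0, 0), (1, 0), (0, 1), (1, 1)} : Set V) →
      H' f - H v = 1 / 2 * (((s.1 v : ℤ) : ℝ) * ((s.2 f : ℤ) : ℝ))

/-- The height at mesh `δ` tested against `φ`. -/
noncomputable def Pol.field (P : Pol) (δ : ℝ) (φ : ℂ → ℝ) (H : V → ℝ) : ℝ :=
  δ ^ 2 * ∑ᶠ v ∈ P.vert, H v * φ (δ * emb v)

/-- The polygons `P n` at meshes `δ n` approximate the image of the disc. -/
def Approx (ψ : ℂ → ℂ) (P : ℕ → Pol) (δ : ℕ → ℝ) : Prop :=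
  (∀ n, 0 < δ n) ∧ Tendsto δ atTop (𝓝 0) ∧
    (∀ e : ℝ, 0 < e → ∀ᶠ n in atTop, ∀ t ∈ Icc (0 : ℝ) 1, ∃ z ∈ Metric.sphere (0 : ℂ) 1,
      dist ((δ n : ℂ) * (P n).bd t) (ψ z) ≤ e) ∧
    ∀ K : Set ℂ, IsCompact K → K ⊆ ψ '' Metric.ball 0 1 →
      ∀ᶠ n in atTop, ∀ z ∈ K, z / δ n ∈ (P n).dom

/-- The kernel of the inverse Dirichlet Laplacian tested against `f` and `g`. -/
noncomputable def cov (ψ : ℂ → ℂ) (f g : ℂ → ℝ) : ℝ :=
  ∫ p in (ψ '' Metric.ball 0 1) ×ˢ (ψ '' Metric.ball 0 1), f p.1 * green ψ p.1 p.2 * g p.2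

/-- In every Jordan domain the height with edge parameter `t` converges in law to the centred
Gaussian field whose covariance is `a` times the inverse Dirichlet Laplacian. -/
def Conv (t a : ℝ) : Prop :=
  ∀ (ψ : ℂ → ℂ) (P : ℕ → Pol) (δ : ℕ → ℝ), IsJordanMap ψ → Approx ψ P δ →
    (∀ n, (P n).Conf.Finite ∧ (P n).Conf.Nonempty ∧ ∀ s ∈ (P n).Conf, ∃ H, (P n).IsHt s H) ∧
    ∀ H : ℕ → Spin → V → ℝ, (∀ n, ∀ s ∈ (P n).Conf, (P n).IsHt s (H n s)) →
      ∀ (k : ℕ) (φ : Fin k → ℂ → ℝ), (∀ i, IsTest ψ (φ i)) →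
        (Matrix.of fun i j => a * cov ψ (φ i) (φ j)).PosSemidef ∧
        ∀ F : BoundedContinuousFunction (EuclideanSpace ℝ (Fin k)) ℝ,
          Tendsto (fun n => (P n).ex t fun s =>
              F (WithLp.toLp 2 fun i => (P n).field (δ n) (φ i) (H n s))) atTop
            (𝓝 (∫ z, F z ∂ProbabilityTheory.multivariateGaussian 0
              (Matrix.of fun i j => a * cov ψ (φ i) (φ j))))

end Vale.Agent.P145.AT
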