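import Vale.Agent.P145.Defs

/-! Jordan domains. -/

open Set

namespace Vale.Agent.P145.AT

/-- Bounded connected open sets whose boundary is a simple closed curve. -/
def IsJordanDomain (D : Set ℂ) : Prop :=
  IsOpen D ∧ IsConnected D ∧ Bornology.IsBounded D ∧
    ∃ j : Circle → ℂ, Continuous j ∧ Function.Injective j ∧ frontier D = range j

end Vale.Agent.P145.AT
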