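import Vale.Agent.P145.DefsJ
import Vale.Agent.P153.CA.All

/-! P145: the parameters, and Jordan domains are images of the disc. -/

open Set Metric Real

namespace Vale.Agent.P145.AT

open Vale.Agent.P153 (IsJordanMap)
open Vale.Agent.P153.CA

theorem jdom_map {D : Set ℂ} (h : IsJordanDomain D) :
    ∃ ψ, IsJordanMap ψ ∧ ψ '' ball 0 1 = D := by
  obtain ⟨ho, hc, hb, j, j1, j2, j3⟩ := h
  have hl : JLoop fun t : ℝ => j (Circle.exp (2 * π * t)) := by
    refine ⟨⟨by fun_prop, fun t => ?_⟩, fun s hs t ht e => ?_⟩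
    · simp only [mul_add, mul_one, Circle.exp_add_two_pi]
    · have k := Circle.exp_injOn_Ico (a := 0) (b := 2 * π) (by simp)
        ⟨mul_nonneg two_pi_pos.le hs.1, mul_lt_of_lt_one_right two_pi_pos hs.2⟩
        ⟨mul_nonneg two_pi_pos.le ht.1, mul_lt_of_lt_one_right two_pi_pos ht.2⟩ (j2 e)
      exact mul_left_cancel₀ two_pi_pos.ne' k
  have hr : range (fun t : ℝ => j (Circle.exp (2 * π * t))) = frontier D := by
    rw [j3]
    refine Subset.antisymm (range_comp_subset_range _ j) ?_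
    rintro _ ⟨z, rfl⟩
    obtain ⟨x, rfl⟩ := Circle.exp_surjective z
    exact ⟨x / (2 * π), by simp only [mul_div_cancel₀ _ two_pi_pos.ne']⟩
  have key : ∀ S : Set ℂ, IsPreconnected S → S ⊆ (frontier D)ᶜ → (S ∩ D).Nonempty → S ⊆ D :=
    fun S h1 h2 h3 => h1.subset_of_closure_inter_subset ho h3 fun z hz =>
      by_contra fun k => h2 hz.2 (ho.frontier_eq ▸ ⟨hz.1, k⟩)
  have hi : D ⊆ inside (frontier D) := fun z hz => by
    have k : z ∉ frontier D := fun k => (ho.frontier_eq ▸ k : z ∈ closure D \ D).2 hz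
    exact ⟨k, hb.subset (key _ isPreconnected_connectedComponentIn
      (connectedComponentIn_subset _ _) ⟨z, mem_connectedComponentIn k, hz⟩)⟩
  obtain ⟨o, oD⟩ := hc.nonempty
  obtain ⟨ψ, h1, h2, -⟩ := car_all _ o 0 hl (hr ▸ hi oD)
  refine ⟨ψ, h1, h2.trans ?_⟩
  have k := (jct_all _ hl).2.2.1
  rw [hr] at k ⊢
  exact Subset.antisymm (key _ k (fun z hz => hz.1) ⟨o, hi oD, oD⟩) hi

theorem par_lt (U : ℝ) : 1 < √(1 + exp (4 * U)) :=
  Real.lt_sqrt_of_sq_lt (by linarith [exp_pos (4 * U)])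

theorem par_le {J U : ℝ} (hU : U ≤ J) (h : sinh (2 * J) = exp (-2 * U)) :
    √(1 + exp (4 * U)) ≤ 2 := by
  have a := exp_pos (2 * J)
  have b := exp_pos (2 * U)
  have ab : exp (2 * U) ≤ exp (2 * J) := exp_le_exp.2 (by linarith)
  have e : exp (4 * U) = exp (2 * U) ^ 2 := by rw [sq, ← exp_add]; congr 1; ring
  rw [sinh_eq, exp_neg, neg_mul, exp_neg] at h
  generalize exp (2 * J) = x at *
  generalize exp (2 * U) = y at *
  have k : (x ^ 2 - 1) * y = 2 * x := by field_simp at h; linarith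
  rw [Real.sqrt_le_left (by norm_num), e]
  by_contra q
  have q1 : 3 < y ^ 2 := by linarith [not_le.1 q]
  have q2 : y ^ 2 ≤ x * y := by nlinarith
  have q3 : y ≤ x := ab
  nlinarith [mul_pos a b, mul_le_mul_of_nonneg_left q3 a.le]

theorem par_t (U : ℝ) : (1 + exp (4 * U)) ^ (-(1 / 2) : ℝ) = (√(1 + exp (4 * U)))⁻¹ := by
  rw [rpow_neg (by positivity), sqrt_eq_rpow]

theorem par_a {c : ℝ} (h : 0 < c) :
    2 * π / (π * √(8 / π * arcsin (c / 2))) ^ 2 = 1 / arcsin (c / 2) / 4 := by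
  have a : 0 < arcsin (c / 2) := arcsin_pos.2 (by linarith)
  rw [mul_pow, sq_sqrt (by positivity)]
  field_simp
  norm_num

end Vale.Agent.P145.AT
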