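import Vale.Agent.P145.IBas
import Vale.Agent.P152.EAll

/-! P145, block I: all moves. -/

open Filter Topology

namespace Vale.Agent.P145.Ib

open Vale.Agent.P152

theorem IAll_prod {ι : Type} [Fintype ι] [Nonempty ι] (a : ι → ℝ) (ha : ∀ i, 0 ≤ a i)
    (J : Finset ι) : ∏ i ∈ J, a i ≤ 1 + ∑ i, a i ^ Fintype.card ι := by
  obtain ⟨j, hj⟩ := Finite.exists_max a
  have h1 : ∏ i ∈ J, a i ≤ a j ^ J.card := by
    rw [← Finset.prod_const]
    exact Finset.prod_le_prod (fun i _ => ha i) fun i _ => hj i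
  have h2 : a j ^ Fintype.card ι ≤ ∑ i, a i ^ Fintype.card ι :=
    Finset.single_le_sum (f := fun i => a i ^ Fintype.card ι) (fun i _ => pow_nonneg (ha i) _)
      (Finset.mem_univ j)
  have h3 := pow_nonneg (ha j) (Fintype.card ι)
  rcases le_total (a j) 1 with h | h
  · linarith [pow_le_one₀ (n := J.card) (ha j) h]
  · linarith [pow_le_pow_right₀ h J.card_le_univ]

theorem IAll_mom {S : HF} (hS : S0 S) {ι : Type} [Fintype ι] [Nonempty ι] (X : ι → Ht → ℝ)
    (hX : ∀ i, Ob Set.univ (X i)) {C : ℝ} (hC : ∀ i, S (X i ^ (2 * Fintype.card ι)) ≤ C)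
    (s : ι → Site) (J : Finset ι) :
    S ((∏ i ∈ J, hmv (trp (s i)) (X i)) ^ 2) ≤ 1 + Fintype.card ι * C := by
  have h1 : ∀ i, Ob Set.univ (hmv (trp (s i)) (X i ^ (2 * Fintype.card ι))) := fun i =>
    ((hX i).pow _).hmvu _
  have h2 := Ob.sum Finset.univ fun i _ => h1 i
  refine (hS.mono ((Ob.prod J fun i _ => (hX i).hmvu _).pow 2) ((Ob.one _).add h2)
    fun k _ => ?_).trans ?_
  · simp only [Pi.pow_apply, Finset.prod_apply, Pi.add_apply, Pi.one_apply, Finset.sum_apply,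
      hmv_pow, pow_mul]
    rw [← Finset.prod_pow]
    exact IAll_prod _ (fun i => sq_nonneg _) J
  · rw [hS.add _ _ (Ob.one _) h2, hS.one, hS.sum _ fun i _ => h1 i, ← Finset.card_univ,
      ← nsmul_eq_mul]
    exact add_le_add le_rfl (Finset.sum_le_card_nsmul _ _ _ fun i _ =>
      (hS.inv _ (.tr _) _ ((hX i).pow _)).trans_le (hC i))

theorem IAll_in {H : ℤ} {lo hi : Site} {F : Ht → ℝ} (h : Ob (Reg H lo hi) F) (q : Site) :
    Ob {p | ∃ x, InB lo hi x ∧ sd (rpos p) ((4 * H) • (x + q)) ≤ 8 * H}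
      (hmv (trp ((2 * H) • q)) F) := by
  refine h.hmv _ fun p ⟨x, hx, hp⟩ => ⟨x, hx, ?_⟩
  simp only [rpos_trp, sd, Prod.smul_fst, Prod.smul_snd, Prod.fst_add, Prod.snd_add,
    smul_eq_mul, max_le_iff, abs_le] at hp ⊢
  obtain ⟨⟨h1, h2⟩, h3, h4⟩ := hp
  refine ⟨⟨?_, ?_⟩, ?_, ?_⟩ <;> linarith

theorem IAll_end {S : HF} (hS : S1 S) (hc : CS2St) {A B : Ht → ℝ} {K : ℝ}
    (hA : Ob {p | 1 ≤ (rpos p).1} A) (hB : Ob {p | (rpos p).1 ≤ 1} B) (hK : S (B ^ 2) ≤ K) :
    S (B * A) ^ 2 ≤ K * S (hmv fop A * A) := by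
  have hq : Ob {p | 1 ≤ (rpos p).1} (hmv fop B) := hB.hmv _ fun p hp => by
    simp only [Set.mem_ofPred_eq, rpos_fop] at hp ⊢
    omega
  obtain ⟨h1, h2⟩ := hc S fop _ hS.toS0 sy2_fop fop_fop hS.rpo _ A hq hA
  have e : hmv fop (hmv fop B) = B := by
    rw [hmv_hmv, show fop ∘ fop = id from funext fop_fop, hmv_id]
  rw [← hmv_pow, hS.inv _ sy2_fop _ (hB.univ.pow 2)] at h2
  rw [e] at h1 h2
  exact h1.trans (mul_le_mul_of_nonneg_right (h2.trans hK) (hS.rpo A hA))

theorem IAll_split {ι : Type} [Fintype ι] [DecidableEq ι] (T : Finset ι) (f g : ι → Ht → ℝ) :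
    (∏ i ∈ Tᶜ, f i) * ∏ i ∈ T, g i = ∏ i, if i ∈ T then g i else f i := by
  rw [← Finset.prod_compl_mul_prod T]
  congr 1
  · exact Finset.prod_congr rfl fun i hi => by rw [if_neg (Finset.mem_compl.1 hi)]
  · exact Finset.prod_congr rfl fun i hi => by rw [if_pos hi]

theorem iAll (hr : RD2St) (hc : CS2St) (hm : Move2St) (hb : Comb2St) : All2St := by
  intro S hS k κ _ _ P h lo hi C ht hP h0
  let Q : (Fin (k + 1) ⊕ κ → Site) → Fin (k + 1) ⊕ κ → ℕ → Ht → ℝ := fun q i l =>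
    hmv (trp ((2 * (h l : ℤ)) • q i)) (P i l)
  let K : ℝ := 1 + Fintype.card (Fin (k + 1) ⊕ κ) * C
  have hQ : ∀ q, ∀ᶠ l in atTop, (1 : ℤ) ≤ h l ∧ (∀ i, Ob {p | ∃ x, InB (lo i) (hi i) x ∧
      sd (rpos p) ((4 * (h l : ℤ)) • (x + q i)) ≤ 8 * h l} (Q q i l)) ∧
      ∀ J : Finset (Fin (k + 1) ⊕ κ), S ((∏ i ∈ J, Q q i l) ^ 2) ≤ K := fun q =>
    hP.mono fun l hl => ⟨by exact_mod_cast hl.1, fun i => IAll_in (hl.2 i).1 (q i),
      IAll_mom hS.toS0 (fun i => P i l) (fun i => (hl.2 i).1.univ) (fun i => (hl.2 i).2) _⟩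
  have key := hb k κ 13 lo hi (fun q => Tendsto (fun l => S (∏ i, Q q i l)) atTop (𝓝 0))
    (by norm_num) ht (fun p s hp => ?_) (fun p hp => ?_)
    (fun lam e hd p T a ha1 ha2 ⟨m0, hm0⟩ => ?_)
  · simpa only [Q, Pi.zero_apply, smul_zero, trp_zero, hmv_id] using key
  · refine hp.congr' ((hQ p).mono fun l hl => ?_)
    have e1 : ∀ i, Q (fun i => p i + s) i l = hmv (trp ((2 * (h l : ℤ)) • s)) (Q p i l) :=
      fun i => by simp only [Q, hmv_hmv, trp_comp, ← smul_add, add_comm s]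
    simp only [e1, ← hmv_prod]
    exact (hS.inv _ (.tr _) _ (Ob.prod _ fun i _ => (hl.2.1 i).univ)).symm
  · let u : ℕ → Site := fun l => (6 * h l - 2 * h l * (lo (.inl 0) + p (.inl 0)).1, 0)
    have h1 := h0 (fun l => u l + (2 * (h l : ℤ)) • p (.inl 0)) (Eventually.of_forall fun l => by
      simp only [u, Prod.fst_add, Prod.smul_fst, smul_eq_mul]
      linarith)
    have h2 : Tendsto (fun l => S (∏ i, Q p i l) ^ 2) atTop (𝓝 0) := by
      refine squeeze_zero' (Eventually.of_forall fun l => sq_nonneg _) ?_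
        (by simpa only [mul_zero] using h1.const_mul K)
      filter_upwards [hQ p] with l hl
      have e1 : ∏ i, Q p i l = (∏ i ∈ {.inl 0}ᶜ, Q p i l) * Q p (.inl 0) l := by
        rw [← Finset.prod_compl_mul_prod {.inl 0}, Finset.prod_singleton]
      have hB : Ob {x | (rpos x).1 ≤ 4 * h l * (lo (.inl 0) + p (.inl 0)).1 - 44 * h l}
          (∏ i ∈ {.inl 0}ᶜ, Q p i l) :=
        Ob.prod _ fun i hi => (hl.2.1 i).mono fun x ⟨y, hy, hx⟩ => by
          have a1 := (EAll_fst hx).2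
          have a2 := hp i (by simpa using hi)
          have a3 : (y + p i).1 + 13 ≤ (lo (.inl 0) + p (.inl 0)).1 := by
            have := hy.2.1
            simp only [Prod.fst_add] at a2 ⊢
            omega
          have a4 := mul_le_mul_of_nonneg_left a3 (show (0 : ℤ) ≤ 4 * h l by positivity)
          simp only [Set.mem_ofPred_eq]
          linarith
      rw [← hS.inv _ (.tr (u l)) _ (Ob.prod _ fun i _ => (hl.2.1 i).univ), e1, hmv_mul,
        ← trp_comp, ← hmv_hmv]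
      refine IAll_end hS hc ((hl.2.1 (.inl 0)).hmv _ fun x ⟨y, hy, hx⟩ => ?_)
        (hB.hmv _ fun x hx => ?_) ?_
      · have a1 := (EAll_fst hx).1
        have a2 : (lo (.inl 0) + p (.inl 0)).1 ≤ (y + p (.inl 0)).1 := add_le_add_left hy.1 _
        have a4 := mul_le_mul_of_nonneg_left a2 (show (0 : ℤ) ≤ 4 * h l by positivity)
        simp only [Set.mem_ofPred_eq, rpos_trp, u]
        linarith [hl.1]
      · simp only [Set.mem_ofPred_eq, rpos_trp, u] at hx ⊢
        linarith [hl.1]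
      · rw [← hmv_pow, hS.inv _ (.tr _) _ (hB.univ.pow 2)]
        exact hl.2.2 _
    rw [tendsto_zero_iff_abs_tendsto_zero]
    simpa only [Function.comp_def, Real.sqrt_sq_eq_abs, Real.sqrt_zero] using h2.sqrt
  · obtain ⟨g, hR⟩ := hr S hS lam e hd
    have := hm S _ e g hS.toS0 hR (fun l => ∏ i ∈ Tᶜ, Q p i l) (fun l => ∏ i ∈ T, Q p i l) h
      (fun l => 2 * h l * a + 11 * h l) K m0 ?_ fun m hm => ?_
    · simpa only [IAll_split, ite_self] using this
    · filter_upwards [hP, hQ p] with l hl0 hl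
      have h4 : (0 : ℤ) ≤ 4 * h l := by positivity
      refine ⟨hl0.1, Ob.prod _ fun i hi => (hl.2.1 i).mono fun x ⟨y, hy, hx⟩ => ?_,
        Ob.prod _ fun i hi => (hl.2.1 i).mono fun x ⟨y, hy, hx⟩ => ?_, hl.2.2 _, hl.2.2 _⟩
      · have a1 := (EAll_lam hd (by positivity) hx).2
        have a2 := mul_le_mul_of_nonneg_left (ha1 i (Finset.mem_compl.1 hi) y hy) h4
        simp only [Set.mem_ofPred_eq, Function.comp_apply]
        linarith [hl.1]
      · have a1 := (EAll_lam hd (by positivity) hx).1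
        have a2 := mul_le_mul_of_nonneg_left (ha2 i hi y hy) h4
        simp only [Set.mem_ofPred_eq, Function.comp_apply]
        linarith [hl.1]
    · refine (hm0 m hm).congr fun l => ?_
      rw [hmv_prod, IAll_split]
      refine congrArg S (Finset.prod_congr rfl fun i _ => ?_)
      split_ifs with hi
      · simp only [Q, if_pos hi, hmv_hmv, trp_comp, mul_smul (2 * (h l : ℤ)), ← smul_add,
          add_comm (p i)]
      · simp only [Q, if_neg hi]

end Vale.Agent.P145.Ib
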