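import Vale.Agent.P145.IBas
import Vale.Agent.P152.FMU

/-! P145, block I: lattice approximations of bounded norm. -/

open Filter Topology

namespace Vale.Agent.P145.Ib

open Vale.Agent.P152

theorem apx_bd {f : Pl → ℝ} {G : ℝ → Vx →₀ ℝ} (hf : IsTest f) (hG : Apx f G) :
    ∃ G', Apx f G' ∧ Bd G' ∧ ∀ δ ζ, Valid ∅ ζ → XX (G' δ) ζ = XX (G δ) ζ := by
  classical
  obtain ⟨⟨b, a, β, h1, h2⟩, -⟩ := FMU_apx hf hG
  have key : ∀ δ ζ, Valid ∅ ζ → XX (if ∀ ζ, Valid ∅ ζ → XX (G δ) ζ = XX (a δ) ζ then a δ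
      else G δ) ζ = XX (G δ) ζ := fun δ ζ hζ => by
    split_ifs with h
    · exact (h ζ hζ).symm
    · rfl
  obtain ⟨r, hr, he⟩ := hG
  refine ⟨fun δ => if ∀ ζ, Valid ∅ ζ → XX (G δ) ζ = XX (a δ) ζ then a δ else G δ,
    ⟨r, hr, fun δ hδ ζ hζ => ?_⟩, ⟨(b + 1) ^ 2, ?_⟩, key⟩
  · rw [he δ hδ ζ hζ, XX_add, XX_add, Pi.add_apply, Pi.add_apply, key δ ζ hζ]
  · filter_upwards [h2, h1.eventually (ge_mem_nhds (lt_add_one b))] with δ h3 h4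
    rw [if_pos h3.2.1]
    exact (Real.sqrt_le_iff.1 (h3.2.2.trans h4)).2

theorem apx_add {f f' : Pl → ℝ} {G G' : ℝ → Vx →₀ ℝ} (hf : Sm f) (hf' : Sm f') (h : Apx f G)
    (h' : Apx f' G') : Apx (f + f') fun δ => G δ + G' δ := by
  obtain ⟨r, hr, he⟩ := h
  obtain ⟨r', hr', he'⟩ := h'
  refine ⟨fun δ => r δ + r' δ, squeeze_zero (fun _ => nsq_nonneg _) (fun δ => fnsq_add _ _) ?_,
    fun δ hδ ζ hζ => ?_⟩
  · simpa using (hr.const_mul 2).add (hr'.const_mul 2)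
  · rw [Ys_add hδ hf hf', Pi.add_apply, he δ hδ ζ hζ, he' δ hδ ζ hζ]
    simp only [XX_add, Pi.add_apply]
    ring

theorem apx_smul {f : Pl → ℝ} {G : ℝ → Vx →₀ ℝ} (t : ℝ) (h : Apx f G) :
    Apx (t • f) fun δ => t • G δ := by
  obtain ⟨r, hr, he⟩ := h
  refine ⟨fun δ => t • r δ, ?_, fun δ hδ ζ hζ => ?_⟩
  · simpa only [fnsq_smul, mul_zero] using hr.const_mul (t ^ 2)
  · rw [Ys_smul, Pi.smul_apply, he δ hδ ζ hζ, ← smul_add, XX_smul, Pi.smul_apply]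

theorem apx_zero : Apx 0 fun _ => 0 :=
  ⟨fun _ => 0, by simp [nsq], fun δ _ ζ _ => by simp [Ys, XX]⟩

end Vale.Agent.P145.Ib
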