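import Vale.Agent.P145.IDefs2
import Vale.Agent.P145.IApx

/-! P145, block I: the form used by the core. -/

open Filter Topology

namespace Vale.Agent.P145.Ib

open Vale.Agent.P152

/-- the open edges of class zero in `B` for the marks `ξ` -/
def IBI_o (B ξ : Finset Vx) (h : Ht) : Set Vx :=
  {m | m ∈ B ∧ (h (src m, true) = h (tgt m, true) ∧
    (h (fa m, false) ≠ h (fb m, false) ∨ m ∈ ξ)) ∧ h (src m, true) % 4 = 0}

theorem IBI_ob (B ξ : Finset Vx) (u : Set Vx → ℝ) {U : Set Pt}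
    (hU : ∀ m ∈ B, ∀ (x : Site) (b : Bool), sd x m.1 ≤ 1 → (x, b) ∈ U) :
    Ob U fun h => u (IBI_o B ξ h) := by
  refine ⟨fun h => congrArg u (Set.ext fun m => ?_), B.biUnion fun m =>
    {(src m, true), (tgt m, true), (fa m, false), (fb m, false)}, fun p hp => ?_,
    fun h h' e => congrArg u (Set.ext fun m => and_congr_right fun hm => ?_)⟩
  · simp only [IBI_o, hsh, Set.mem_ofPred_eq, add_left_inj, ne_eq, Int.add_emod_right]
  · obtain ⟨⟨⟨x, y⟩, b⟩, hm, hp⟩ := Finset.mem_biUnion.1 hp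
    simp only [Finset.mem_insert, Finset.mem_singleton] at hp
    rcases hp with rfl | rfl | rfl | rfl <;> refine hU _ hm _ _ ?_ <;> cases b <;>
      simp [sd, src, tgt, fa, fb, dir]
  · rw [e (src m, true) (Finset.mem_biUnion.2 ⟨m, hm, by simp⟩),
      e (tgt m, true) (Finset.mem_biUnion.2 ⟨m, hm, by simp⟩),
      e (fa m, false) (Finset.mem_biUnion.2 ⟨m, hm, by simp⟩),
      e (fb m, false) (Finset.mem_biUnion.2 ⟨m, hm, by simp⟩)]

theorem IBI_xh (g : Vx →₀ ℝ) : Ob Set.univ (XH g) :=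
  ⟨XH_hsh g 4, g.support.biUnion fun m => {(src m, true), (tgt m, true)}, fun _ _ => trivial,
    fun h h' e => Finset.sum_congr rfl fun m hm => by
      beta_reduce
      rw [e (src m, true) (Finset.mem_biUnion.2 ⟨m, hm, by simp⟩),
        e (tgt m, true) (Finset.mem_biUnion.2 ⟨m, hm, by simp⟩)]⟩

theorem IBI_o0 {D : Finset Site} {B B' ξ : Finset Vx} (h1 : B ⊆ B') (h2 : B' ⊆ vin D) (h : Ht) :
    o0 h (om D h ξ) ∩ B = IBI_o B (ξ ∩ B') h ∧
      o2 h (om D h ξ) ∩ B = IBI_o B (ξ ∩ B') (hsh 2 h) := by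
  constructor <;> ext m <;>
    simp only [o0, o2, op, om, IBI_o, hsh, Set.mem_inter_iff, Set.mem_ofPred_eq, Finset.mem_filter,
      Finset.mem_coe, Finset.mem_inter, add_left_inj, ne_eq]
  · exact ⟨fun k => ⟨k.2, ⟨k.1.1.2.1, k.1.1.2.2.imp id fun q => ⟨q, h1 k.2⟩⟩, k.1.2⟩,
      fun k => ⟨⟨⟨h2 (h1 k.1), k.2.1.1, k.2.1.2.imp id And.left⟩, k.2.2⟩, k.1⟩⟩
  · exact ⟨fun k => ⟨k.2, ⟨k.1.1.2.1, k.1.1.2.2.imp id fun q => ⟨q, h1 k.2⟩⟩, by omega⟩,
      fun k => ⟨⟨⟨h2 (h1 k.1), k.2.1.1, k.2.1.2.imp id And.left⟩, by omega⟩, k.1⟩⟩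

theorem iBI (hm : MarkSt) (hp : GrpSt) (hf : FinSt) (h0 : S0St) {c K : ℝ} (h1 : 1 < c)
    (hc : Conv c) (hs : St0 (EE c)) (hI : Ind (EE c) K) : BI c K := by
  classical
  intro η hη l hl w hw y0 R ε hε
  obtain ⟨κ, _, a, b, δ0, d0, hV, hk⟩ := hp (tsupport η) l w y0 R hl hw
  have hS := h0 _ hs
  have a1 : Apx (lap ((-1 : ℝ) • η)) fun δ => lgr δ η := by
    have := apx_smul (-1) (apx_lap hη)
    rw [← lap_smul _ hη.1] at this
    simpa only [neg_smul, one_smul, neg_neg] using this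
  have a2 : en ((-1 : ℝ) • η) = en η := by
    have e : grd ((-1 : ℝ) • η) = (-1 : ℝ) • grd η := funext fun e => grd_smul _ hη.1 e
    rw [en, e, FCalcB_smul, en]
    ring
  have a3 : ip ((-1 : ℝ) • η) 0 = 0 := by simp [ip]
  filter_upwards [hI κ a b _ 0 (fun _ => 0) _ (hη.smul (-1))
    ((tsupport_smul_subset_right (fun _ => (-1 : ℝ)) η).trans hV) test_zero apx_zero a1 (ε / 4)
    (by positivity), Ioc_mem_nhdsGT d0] with δ hδ hδ0 ι I ρ B r1 r2 r3
  have r4 : ∀ i : I, ∃ k : κ, ∀ m ∈ B i, ∀ x : Site, sd x m.1 ≤ 1 →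
      ((δ * x.1, δ * x.2) : Pl) ∈ Set.Icc (a k) (b k) := fun i => by
    obtain ⟨z, j, z1, z2, z3⟩ := r3 i i.2
    exact hk δ hδ0.1 hδ0.2 _ z j z1 z2 z3
  choose k hk' using r4
  set X : Ht → ℝ := fun h => Real.exp (XH (lgr δ η) h) - Real.exp (K * en η / 2) with hX
  have oX : Ob Set.univ X := (IBI_xh _).comp fun x => Real.exp x - Real.exp (K * en η / 2)
  set P : Finset Vx → Ht → ℝ := fun ξ => ∏ i ∈ I, fun h => ρ i (IBI_o (B i) ξ h) with hP
  have oP : ∀ ξ, Ob Set.univ (P ξ) := fun ξ =>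
    Ob.prod _ fun i _ => IBI_ob _ _ _ fun _ _ _ _ _ => trivial
  have b1 : ∀ ξ, |SS (EE c) (P ξ * X)| ≤ ε / 4 := fun ξ => by
    have w1 : Wall a b δ fun j => ∏ i ∈ Finset.univ.filter fun i : I => k i = j,
        fun h => ρ i (IBI_o (B i) ξ h) := fun j => by
      refine ⟨fun h => ?_, Ob.prod _ fun i hi => IBI_ob _ _ _ fun m hm x _ hx => ?_⟩
      · beta_reduce
        rw [Finset.prod_apply, Finset.abs_prod]
        exact Finset.prod_le_one (fun _ _ => abs_nonneg _) fun i _ =>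
          abs_le.2 ⟨by linarith [(r1 i (IBI_o (B i) ξ h)).1], (r1 i _).2⟩
      · rw [← (Finset.mem_filter.1 hi).2]
        exact hk' i m hm x hx
    have h2 := (hδ _ w1).2.1
    have w2 : (∏ j, ∏ i ∈ Finset.univ.filter fun i : I => k i = j,
        fun h => ρ i (IBI_o (B i) ξ h)) = P ξ :=
      (Finset.prod_fiberwise Finset.univ k _).trans
        (Finset.prod_attach I fun i h => ρ i (IBI_o (B i) ξ h))
    rw [w2, a2, a3, zero_add, sub_zero, ← mul_div_assoc,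
      ← hS.smul _ _ ((oP ξ).mul ((IBI_xh 0).comp Real.exp)),
      ← hS.sub ((oP ξ).mul ((IBI_xh _).comp Real.exp))
        (((oP ξ).mul ((IBI_xh 0).comp Real.exp)).smul _)] at h2
    refine le_of_eq_of_le (congrArg (fun F => |SS (EE c) F|) (funext fun h => ?_)) h2
    simp only [hX, Pi.mul_apply, Pi.sub_apply, Pi.smul_apply, smul_eq_mul, XH,
      Finsupp.sum_zero_index, Real.exp_zero]
    ring
  have b2 : ∀ ξ, ∀ᶠ ab in exh, |PH c (bx ab) (av (P ξ * X))| ≤ ε / 2 := fun ξ =>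
    (hf c h1 hc hs _ ((oP ξ).mul oX)).abs.eventually
      (ge_mem_nhds ((b1 ξ).trans_lt (by linarith)))
  filter_upwards [(eventually_all_finset (I.biUnion B).powerset).2 fun ξ _ => b2 ξ,
    ev_vin (I.biUnion B)] with ab c1 c2
  refine hm c _ _ ε h1.le fun ξ _ => ?_
  have c3 := c1 (ξ ∩ I.biUnion B) (Finset.mem_powerset.2 Finset.inter_subset_right)
  have c4 : ∀ h : Ht, (∏ i ∈ I, ρ i (o0 h (om (bx ab) h ξ)) +
      ∏ i ∈ I, ρ i (o2 h (om (bx ab) h ξ))) * X h = 2 * av (P (ξ ∩ I.biUnion B) * X) h := by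
    intro h
    have e := fun i (hi : i ∈ I) =>
      IBI_o0 (ξ := ξ) (Finset.subset_biUnion_of_mem B hi) c2 h
    rw [Finset.prod_congr rfl fun i hi => (r2 i _).trans (congrArg (ρ i) (e i hi).1),
      Finset.prod_congr rfl fun i hi => (r2 i _).trans (congrArg (ρ i) (e i hi).2)]
    simp only [av, hP, hX, Pi.mul_apply, Finset.prod_apply, XH_hsh]
    ring
  have c5 : (PH c (bx ab) fun h => 2 * av (P (ξ ∩ I.biUnion B) * X) h) =
      2 * PH c (bx ab) (av (P (ξ ∩ I.biUnion B) * X)) := by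
    simp only [PH, mul_left_comm _ (2 : ℝ), ← Finset.mul_sum, mul_div_assoc]
  refine le_of_eq_of_le (congrArg abs ((congrArg (PH c (bx ab)) (funext c4)).trans c5)) ?_
  rw [abs_mul, abs_two]
  linarith

end Vale.Agent.P145.Ib
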