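import Vale.Agent.P145.IBas
import Vale.Agent.P152.EComb

/-! P145, block I: combinatorics of the moves with boxes. -/

namespace Vale.Agent.P145.Ib

open Vale.Agent.P152

section

variable {k : ℕ} {κ : Type} [Fintype κ] [DecidableEq κ] {c : ℤ}
  {lo hi : Fin (k + 1) ⊕ κ → Site} {Null : (Fin (k + 1) ⊕ κ → Site) → Prop}

/-- one move in direction `e` -/
def IComb_Mv (c : ℤ) (lo hi : Fin (k + 1) ⊕ κ → Site) (Null : (Fin (k + 1) ⊕ κ → Site) → Prop)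
    (lam : Site → ℤ) (e : Site) : Prop :=
  (∀ x y, lam (x - y) = lam x - lam y) ∧
  ∀ (p : Fin (k + 1) ⊕ κ → Site) (T : Finset (Fin (k + 1) ⊕ κ)) (a : ℤ),
    (∀ i ∉ T, ∀ x, InB (lo i) (hi i) x → lam (x + p i) ≤ a) →
    (∀ i ∈ T, ∀ x, InB (lo i) (hi i) x → a + c ≤ lam (x + p i)) →
    (∃ m0 : ℕ, ∀ m : ℕ, m0 ≤ m → Null fun i => if i ∈ T then p i + (m : ℤ) • e else p i) →
    Null p

/-- all offsets with the given relative positions are null -/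
def IComb_All (lo hi : Fin (k + 1) ⊕ κ → Site) (Null : (Fin (k + 1) ⊕ κ → Site) → Prop)
    (Ps : Site → Prop) (Pb : Site → Site → Prop) : Prop :=
  ∀ p, (∀ i, i ≠ 0 → Ps (lo (.inl i) + p (.inl i) - (lo (.inl 0) + p (.inl 0)))) →
    (∀ j, Pb (lo (.inr j) + p (.inr j) - (lo (.inl 0) + p (.inl 0)))
      (hi (.inr j) + p (.inr j) - (lo (.inl 0) + p (.inl 0)))) → Null p

theorem IComb_rev {lam : Site → ℤ} {e : Site} (hs : ∀ p s, Null p → Null fun i => p i + s)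
    (h : IComb_Mv c lo hi Null lam e) : IComb_Mv c lo hi Null (fun x => -lam x) (-e) := by
  refine ⟨fun x y => (congrArg _ (h.1 x y)).trans (neg_sub' _ _), fun p T a h1 h2 ⟨m0, hm⟩ => ?_⟩
  refine h.2 p Tᶜ (-a - c) (fun i hi x hx => ?_) (fun i hi x hx => ?_) ⟨m0, fun m hm0 => ?_⟩
  · have := h2 i (by simpa using hi) x hx
    beta_reduce at this
    omega
  · have := h1 i (Finset.mem_compl.1 hi) x hx
    beta_reduce at this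
    omega
  · refine (congrArg Null (funext fun i => ?_)).mp (hs _ ((m : ℤ) • e) (hm m hm0))
    by_cases hi : i ∈ T <;> simp [hi]

open Classical in
theorem IComb_step {lam : Site → ℤ} {e : Site} (hc : 0 < c)
    (pt : ∀ i, hi (.inl i) = lo (.inl i))
    (wf : ∀ j, (lo (.inr j)).1 ≤ (hi (.inr j)).1 ∧ (lo (.inr j)).2 ≤ (hi (.inr j)).2)
    {K : ℤ} (hK : K = k * c + c) (h : IComb_Mv c lo hi Null lam e) {s0 : ℤ} (hs0 : 0 ≤ s0)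
    (Ps Qs : Site → Prop) (Pb Qb : Site → Site → Prop)
    (h1 : ∀ (d : Site) (m n : ℤ), Ps d → (s0 < lam d → -n ≤ d.1 → d.1 ≤ n → -n ≤ d.2 → d.2 ≤ n →
      2 * n + 2 * K ≤ m → Qs (d + m • e)) ∧ (lam d < s0 + K → Qs d))
    (h2 : ∀ (l h x : Site) (m n : ℤ), l.1 ≤ h.1 → l.2 ≤ h.2 → Pb l h →
      (s0 < lam l → (InB l h x → s0 + K ≤ lam x) ∧ (-n ≤ l.1 → h.1 ≤ n → -n ≤ l.2 → h.2 ≤ n →
        2 * n + 2 * K ≤ m → Qb (l + m • e) (h + m • e))) ∧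
      (lam l ≤ s0 → (InB l h x → lam x ≤ s0) ∧ Qb l h))
    (hQ : IComb_All lo hi Null Qs Qb) : IComb_All lo hi Null Ps Pb := by
  intro p hP hB
  have hQ' := fun (q : Fin (k + 1) ⊕ κ → Site) (e0 : q (.inl 0) = p (.inl 0)) => e0 ▸ hQ q
  generalize ht : lo (.inl 0) + p (.inl 0) = t at hP hB hQ'
  have l0 : lam (lo (.inl 0) + p (.inl 0) - t) = 0 := by rw [ht, h.1, sub_self]
  obtain ⟨s, s1, s2, hs⟩ := EComb_win hc
    (fun i => if i = 0 then 0 else lam (lo (.inl i) + p (.inl i) - t) - s0) (if_pos rfl)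
  obtain ⟨n, hn⟩ := Finite.exists_le fun i => max (max (-(lo i + p i - t).1) (hi i + p i - t).1)
    (max (-(lo i + p i - t).2) (hi i + p i - t).2)
  simp only [max_le_iff, neg_le] at hn
  obtain ⟨T, mem⟩ : ∃ T : Finset (Fin (k + 1) ⊕ κ), ∀ i, i ∈ T ↔ s0 + s < lam (lo i + p i - t) :=
    ⟨Finset.univ.filter fun i => s0 + s < lam (lo i + p i - t), fun i => by simp⟩
  have h0 : Sum.inl 0 ∉ T := by
    rw [mem]
    omega
  have sm : ∀ i x, InB (lo (.inl i)) (hi (.inl i)) x → x = lo (.inl i) := fun i x hx => by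
    rw [pt] at hx
    exact Prod.ext (le_antisymm hx.2.1 hx.1) (le_antisymm hx.2.2.2 hx.2.2.1)
  have tr : ∀ i x, InB (lo i) (hi i) x → InB (lo i + p i - t) (hi i + p i - t) (x + p i - t) :=
    fun i x hx => by
      simp only [InB, Prod.fst_add, Prod.fst_sub, Prod.snd_add, Prod.snd_sub] at hx ⊢
      omega
  have w1 : ∀ j, (lo (.inr j) + p (.inr j) - t).1 ≤ (hi (.inr j) + p (.inr j) - t).1 := fun j =>
    sub_le_sub_right (add_le_add_left (wf j).1 _) _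
  have w2 : ∀ j, (lo (.inr j) + p (.inr j) - t).2 ≤ (hi (.inr j) + p (.inr j) - t).2 := fun j =>
    sub_le_sub_right (add_le_add_left (wf j).2 _) _
  have bg := fun j x m => h2 _ _ x m n (w1 j) (w2 j) (hB j)
  have dn : ∀ j, Sum.inr j ∉ T → lam (lo (.inr j) + p (.inr j) - t) ≤ s0 := fun j hj => by
    by_contra hn
    have := ((bg j _ 0).1 (not_le.1 hn)).1 ⟨le_rfl, w1 j, le_rfl, w2 j⟩
    rw [mem] at hj
    omega
  have up : ∀ i, i ∈ T → s0 < lam (lo i + p i - t) := fun i hi => by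
    rw [mem] at hi
    omega
  refine h.2 p T (lam t + s0 + s) (fun i hi x hx => ?_) (fun i hi x hx => ?_)
    ⟨(2 * n + 2 * K).toNat, fun m hm => hQ' _ (if_neg h0) (fun i hi => ?_) fun j => ?_⟩
  · have e1 := h.1 (x + p i) t
    cases i with
    | inl i =>
      rw [mem, ← sm i x hx] at hi
      omega
    | inr j =>
      have := ((bg j _ 0).2 (dn j hi)).1 (tr _ x hx)
      omega
  · have e1 := h.1 (x + p i) t
    cases i with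
    | inl i =>
      have := hs i
      rw [if_neg fun e : i = 0 => h0 (e ▸ hi), ← sm i x hx] at this
      rw [mem, ← sm i x hx] at hi
      omega
    | inr j =>
      have := ((bg j _ 0).1 (up _ hi)).1 (tr _ x hx)
      omega
  · by_cases h3 : Sum.inl i ∈ T
    · have k1 := hn (.inl i)
      rw [pt] at k1
      rw [if_pos h3, ← add_assoc, add_sub_right_comm]
      exact (h1 _ m n (hP i hi)).1 (up _ h3) k1.1.1 k1.1.2 k1.2.1 k1.2.2 (by omega)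
    · rw [if_neg h3]
      rw [mem] at h3
      exact (h1 _ m n (hP i hi)).2 (by omega)
  · by_cases h3 : Sum.inr j ∈ T
    · have k1 := hn (.inr j)
      rw [if_pos h3, ← add_assoc, add_sub_right_comm, ← add_assoc, add_sub_right_comm (hi _ + _)]
      exact ((bg j t m).1 (up _ h3)).2 k1.1.1 k1.1.2 k1.2.1 k1.2.2 (by omega)
    · rw [if_neg h3]
      exact ((bg j t m).2 (dn j h3)).2

end

theorem iComb : Comb2St := by
  intro k κ _ _ c lo hi Null hc hp hs hZ hM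
  have M1 : IComb_Mv c lo hi Null _ _ := ⟨fun _ _ => rfl, hM _ _ (Or.inl ⟨rfl, rfl⟩)⟩
  have M2 : IComb_Mv c lo hi Null _ _ :=
    ⟨fun _ _ => sub_add_sub_comm _ _ _ _, hM _ _ (Or.inr (Or.inl ⟨rfl, rfl⟩))⟩
  have M3 : IComb_Mv c lo hi Null _ _ :=
    ⟨fun _ _ => sub_sub_sub_comm _ _ _ _, hM _ _ (Or.inr (Or.inr ⟨rfl, rfl⟩))⟩
  obtain ⟨Y1, Y2, y1, y2, hcl⟩ := hp.cls
  have far := hp.far
  obtain ⟨K, hK⟩ : ∃ K : ℤ, K = k * c + c := ⟨_, rfl⟩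
  have hcK : c ≤ K := hK ▸ le_add_of_nonneg_left (by positivity)
  rw [add_one_mul, ← hK] at hcl far
  have st := fun lam e => IComb_step (Null := Null) (lam := lam) (e := e) hc hp.pt
    (fun j => ⟨(hcl j).1, (hcl j).2.1⟩) hK
  clear hK
  have s10 : IComb_All lo hi Null (fun d => d.1 ≤ -c) fun _ h => h.1 ≤ -c := fun p h1 h2 =>
    hZ p fun i hi => by
      cases i with
      | inl i =>
        have := h1 i fun e => hi (congrArg _ e)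
        rw [hp.pt]
        simp only [Prod.fst_sub] at this
        omega
      | inr j =>
        have := h2 j
        simp only [Prod.fst_sub] at this
        omega
  have s9 := st _ _ (IComb_rev hs M2) le_rfl
    (fun d => d.1 ≤ -c ∨ (d.1 + K ≤ -d.2 ∧ -d.1 + K ≤ -d.2)) _
    (fun l h => (h.1 ≤ -c ∧ 0 ≤ l.1 + l.2) ∨ (h.1 + h.2 ≤ -K ∧ h.2 ≤ l.1 ∧ h.2 ≤ 0)) _
    (fun d m n h => ?_) (fun l h x m n w1 w2 h => ?_) s10
  have s8 := st _ _ (IComb_rev hs M3) le_rfl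
    (fun d => (d.1 + K ≤ d.2 ∧ -d.1 + K ≤ d.2) ∨ (d.1 + K ≤ -d.2 ∧ -d.1 + K ≤ -d.2) ∨
      (d.2 < K ∧ -d.2 < K ∧ 2 * K ≤ -d.1)) _
    (fun l h => (K ≤ l.2 - h.1 ∧ 0 ≤ l.1 + l.2) ∨ (h.1 + h.2 ≤ -K ∧ h.2 ≤ l.1 ∧ h.2 ≤ 0)) _
    (fun d m n h => ?_) (fun l h x m n w1 w2 h => ?_) s9
  have s7 := st _ _ M1 le_rfl
    (fun d => K ≤ d.2 ∨ (d.1 + K ≤ -d.2 ∧ -d.1 + K ≤ -d.2) ∨ (d.2 < K ∧ -d.2 < K ∧ 2 * K ≤ -d.1)) _
    (fun l h => (K ≤ l.2 ∧ 0 ≤ l.1 + l.2) ∨ (h.1 + h.2 ≤ -K ∧ h.2 ≤ l.1 ∧ h.2 ≤ 0)) _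
    (fun d m n h => ?_) (fun l h x m n w1 w2 h => ?_) s8
  have s6 := st _ _ M2 le_rfl
    (fun d => (d.1 + K ≤ d.2 ∧ -d.1 + K ≤ d.2) ∨ (d.1 + K ≤ -d.2 ∧ -d.1 + K ≤ -d.2) ∨
      (d.2 < K ∧ -d.2 < K ∧ (2 * K ≤ d.1 ∨ 2 * K ≤ -d.1))) _
    (fun l h => (K ≤ l.2 ∧ K ≤ l.1 + l.2) ∨ (h.1 + h.2 ≤ -K ∧ h.2 ≤ l.1 ∧ h.2 ≤ 0)) _
    (fun d m n h => ?_) (fun l h x m n w1 w2 h => ?_) s7
  have s5 := st _ _ (IComb_rev hs M1) le_rfl
    (fun d => (d.1 + K ≤ d.2 ∧ -d.1 + K ≤ d.2) ∨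
      (d.2 < K ∧ (2 * K ≤ d.1 ∨ 2 * K ≤ -d.1 ∨ 2 * K ≤ d.2 ∨ 2 * K ≤ -d.2))) _
    (fun l h => (K ≤ l.2 ∧ K ≤ l.1 + l.2) ∨ h.2 ≤ -K) _
    (fun d m n h => ?_) (fun l h x m n w1 w2 h => ?_) s6
  have s4 := st _ _ M1 le_rfl
    (fun d => 2 * K ≤ d.1 ∨ 2 * K ≤ -d.1 ∨ 2 * K ≤ d.2 ∨ 2 * K ≤ -d.2) _
    (fun l h => (K ≤ l.2 ∧ 0 ≤ l.1 + l.2) ∨ h.2 ≤ -K) _
    (fun d m n h => ?_) (fun l h x m n w1 w2 h => ?_) s5
  have s3 := st _ _ (IComb_rev hs M2) le_rfl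
    (fun d => 2 * K ≤ d.1 ∨ 2 * K ≤ -d.1 ∨ 2 * K ≤ d.2 ∨ 2 * K ≤ -d.2) _
    (fun l h => (K ≤ l.2 ∧ 0 ≤ l.1 + l.2) ∨ h.1 + h.2 ≤ -K) _
    (fun d m n h => ?_) (fun l h x m n w1 w2 h => ?_) s4
  have s2 := st _ _ M2 le_rfl
    (fun d => 2 * K ≤ d.1 ∨ 2 * K ≤ -d.1 ∨ 2 * K ≤ d.2 ∨ 2 * K ≤ -d.2) _
    (fun l h => K ≤ l.1 + l.2 ∨ h.1 + h.2 ≤ -K) _
    (fun d m n h => ?_) (fun l h x m n w1 w2 h => ?_) s3
  have s1 := st _ _ (IComb_rev hs M1) y2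
    (fun d => 2 * K ≤ d.1 ∨ 2 * K ≤ -d.1 ∨ 2 * K ≤ d.2 ∨ 2 * K ≤ -d.2) _
    (fun l h => h.2 ≤ -Y2 - K ∨ (-Y2 ≤ l.2 ∧ (K ≤ l.1 + l.2 ∨ h.1 + h.2 ≤ -K))) _
    (fun d m n h => ?_) (fun l h x m n w1 w2 h => ?_) s2
  have s0 := st _ _ M1 y1
    (fun d => 2 * K ≤ d.1 ∨ 2 * K ≤ -d.1 ∨ 2 * K ≤ d.2 ∨ 2 * K ≤ -d.2) _
    (fun l h => Y1 + K ≤ l.2 ∨ h.2 ≤ -Y2 - K ∨
      (-Y2 ≤ l.2 ∧ h.2 ≤ Y1 ∧ (K ≤ l.1 + l.2 ∨ h.1 + h.2 ≤ -K))) _
    (fun d m n h => ?_) (fun l h x m n w1 w2 h => ?_) s1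
  · refine s0 0 (fun i hi => ?_) fun j => ?_
    · have := far i hi
      simp only [sd, Int.abs_eq_natAbs] at this
      simp only [Pi.zero_apply, add_zero, Prod.fst_sub, Prod.snd_sub]
      omega
    · have := (hcl j).2.2
      simp only [Pi.zero_apply, add_zero, Prod.fst_sub, Prod.snd_sub]
      omega
  all_goals
    simp only [InB, Prod.fst_add, Prod.snd_add, Prod.neg_mk, Prod.smul_mk, smul_eq_mul]
    omega

end Vale.Agent.P145.Ib
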