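import Vale.Agent.P145.IBas
import Vale.Agent.P152.FMU

/-! P145, block I: from integration by parts to the tilt. -/

open Filter Topology

namespace Vale.Agent.P145.Ib

open Vale.Agent.P152

/-- on valid configurations `XX (G δ)` is a smeared increment of bounded norm -/
def IExpBd (G : ℝ → Vx →₀ ℝ) : Prop :=
  ∃ a, Bd a ∧ ∀ᶠ δ in 𝓝[>] (0 : ℝ), ∀ ζ, Valid ∅ ζ → XX (G δ) ζ = XX (a δ) ζ

theorem iexp_bd {f : Pl → ℝ} {G : ℝ → Vx →₀ ℝ} (hf : IsTest f) (hG : Apx f G) : IExpBd G := by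
  obtain ⟨b, a, β, h1, h2⟩ := (FMU_apx hf hG).1
  refine ⟨a, ⟨(b + 1) ^ 2, ?_⟩, h2.mono fun δ hδ => hδ.2.1⟩
  filter_upwards [h2, h1.eventually (ge_mem_nhds (lt_add_one b))] with δ e1 e2
  exact (Real.sqrt_le_iff.1 (e1.2.2.trans e2)).2

theorem iexp_bd0 : IExpBd fun _ => 0 :=
  ⟨fun _ => 0, ⟨0, Eventually.of_forall fun _ => by simp [nsq]⟩,
    Eventually.of_forall fun _ _ _ => rfl⟩

theorem iexp_der (hd : DerSt) {E : Fn} {w : ℝ → Cfg → ℝ} {U : Ultrafilter ℝ}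
    {G H : ℝ → Vx →₀ ℝ} (hE : St E) (hw : Wt w) (hU : (U : Filter ℝ) ≤ 𝓝[>] 0)
    (hG : IExpBd G) (hH : IExpBd H) : ∃ φ ψ : ℝ → ℝ, ∀ t,
    Tendsto (fun δ => E ∅ (w δ * fun ζ => Real.exp (XX (G δ + t • H δ) ζ))) U (𝓝 (φ t)) ∧
    Tendsto (fun δ => E ∅ (w δ * fun ζ => XX (H δ) ζ * Real.exp (XX (G δ + t • H δ) ζ))) U
      (𝓝 (ψ t)) ∧ HasDerivAt φ (ψ t) t := by
  obtain ⟨a, ha, ea⟩ := hG
  obtain ⟨b, hb, eb⟩ := hH
  obtain ⟨φ, ψ, h⟩ := hd E w U a b hE hw hU ha hb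
  refine ⟨φ, ψ, fun t => ⟨(h t).1.congr' ?_, (h t).2.1.congr' ?_, (h t).2.2⟩⟩
  · filter_upwards [hU ea, hU eb, hU hw] with δ e1 e2 e3
    refine fE_congr hE.toSt0 (e3.1.mul ((Loc.XX _).comp Real.exp))
      (e3.1.mul ((Loc.XX _).comp Real.exp)) fun ζ hζ => ?_
    simp only [Pi.mul_apply, XX_add, XX_smul, Pi.add_apply, Pi.smul_apply, e1 ζ hζ, e2 ζ hζ]
  · filter_upwards [hU ea, hU eb, hU hw] with δ e1 e2 e3
    refine fE_congr hE.toSt0
      (e3.1.mul ((Loc.XX _).comp₂ (Loc.XX _) fun x y => x * Real.exp y))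
      (e3.1.mul ((Loc.XX _).comp₂ (Loc.XX _) fun x y => x * Real.exp y)) fun ζ hζ => ?_
    simp only [Pi.mul_apply, XX_add, XX_smul, Pi.add_apply, Pi.smul_apply, e1 ζ hζ, e2 ζ hζ]

theorem iexp_smul {f : Pl → ℝ} {G : ℝ → Vx →₀ ℝ} (hG : Apx f G) (s : ℝ) :
    Apx (s • f) fun δ => s • G δ := by
  obtain ⟨r, hr, he⟩ := hG
  refine ⟨fun δ => s • r δ, ?_, fun δ hδ ζ hζ => ?_⟩
  · simpa only [fnsq_smul, mul_zero] using hr.const_mul (s ^ 2)
  · rw [Ys_smul, ← smul_add, XX_smul, Pi.smul_apply, Pi.smul_apply, he δ hδ ζ hζ]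

theorem iexp_add {f g : Pl → ℝ} {G H : ℝ → Vx →₀ ℝ} (hf : Sm f) (hg : Sm g) (hG : Apx f G)
    (hH : Apx g H) : Apx (f + g) fun δ => G δ + H δ := by
  obtain ⟨r, hr, he⟩ := hG
  obtain ⟨r', hr', he'⟩ := hH
  refine ⟨fun δ => r δ + r' δ, ?_, fun δ hδ ζ hζ => ?_⟩
  · refine squeeze_zero (fun δ => fnsq_nonneg _) (fun δ => fnsq_add _ _) ?_
    simpa using (hr.const_mul 2).add (hr'.const_mul 2)
  · rw [Ys_add hδ hf hg, add_add_add_comm, XX_add, Pi.add_apply, Pi.add_apply, he δ hδ ζ hζ,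
      he' δ hδ ζ hζ]

/-- the linear differential equation -/
theorem iexp_ode {φ : ℝ → ℝ} {a b : ℝ} (h : ∀ t, HasDerivAt φ ((-a + t * b) * φ t) t) :
    φ 1 = Real.exp (b / 2 - a) * φ 0 := by
  have h1 : ∀ t, HasDerivAt (fun t => φ t * Real.exp (a * t - b * t ^ 2 / 2)) 0 t := fun t => by
    have e : HasDerivAt (fun t : ℝ => a * t - b * t ^ 2 / 2) (a - b * t) t := by
      refine (((hasDerivAt_id' t).const_mul a).fun_sub
        (((hasDerivAt_pow 2 t).const_mul b).div_const 2)).congr_deriv ?_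
      simp only [mul_one, Nat.cast_ofNat, Nat.add_one_sub_one, pow_one]
      ring
    refine ((h t).fun_mul e.exp).congr_deriv ?_
    ring
  have h2 := is_const_of_deriv_eq_zero (fun t => (h1 t).differentiableAt)
    (fun t => (h1 t).deriv) 1 0
  simp only [mul_one, one_pow, mul_zero, ne_eq, OfNat.ofNat_ne_zero, not_false_eq_true, zero_pow,
    zero_div, sub_self, Real.exp_zero] at h2
  rw [← h2, mul_comm (φ 1), ← mul_assoc, ← Real.exp_add]
  simp

theorem iexp_i4 (hd : DerSt) {E : Fn} {K : ℝ} {w : ℝ → Cfg → ℝ} {V : Set Pl} (hE : St E)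
    (hw : Wt w) (h3 : I3 E K w V) : I4 E K w V := by
  intro η f G H hη hV hf hG hH
  refine (tendsto_iff_ultrafilter _ _ _).2 fun U hU => ?_
  have hl := test_lap hη
  obtain ⟨φ, ψ, h⟩ := iexp_der hd hE hw hU (iexp_bd hf hG) (iexp_bd hl hH)
  have e : ∀ t, ψ t = (-(K * ip η f) + t * (K * en η)) * φ t := fun t => by
    have a1 := (h3 η (f + t • lap η) (fun δ => G δ + t • H δ) H hη hV (hf.add (hl.smul t))
      (iexp_add hf.sm (hl.smul t).sm hG (iexp_smul hH t)) hH).mono_left hU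
    have a2 := tendsto_nhds_unique ((h t).2.1.add
      ((h t).1.const_mul (K * ip η (f + t • lap η)))) a1
    rw [ip_add hη.1.continuous hf.sm (hl.smul t).sm, ip_smul, ip_lap_self hη] at a2
    linear_combination a2
  have e1 := iexp_ode (φ := φ) fun t => e t ▸ (h t).2.2
  have a3 := (h 1).1.sub ((h 0).1.const_mul (Real.exp (K * (en η / 2 - ip η f))))
  rw [e1, show K * en η / 2 - K * ip η f = K * (en η / 2 - ip η f) by ring, sub_self] at a3
  simpa only [one_smul, zero_smul, add_zero] using a3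

theorem iexp_i2 (hd : DerSt) {E : Fn} {K : ℝ} {w : ℝ → Cfg → ℝ} {V : Set Pl} (hE : St E)
    (hw : Wt w) (h4 : I4 E K w V) : I2 E K w V := by
  intro η f G H hη hV hf hG hH
  refine (tendsto_iff_ultrafilter _ _ _).2 fun U hU => ?_
  have hl := test_lap hη
  obtain ⟨φ, ψ, h⟩ := iexp_der hd hE hw hU (iexp_bd hl hH) (iexp_bd hf hG)
  obtain ⟨φ', ψ', h'⟩ := iexp_der hd hE hw hU iexp_bd0 (iexp_bd hf hG)
  have e : φ = fun s => Real.exp (K * (en η / 2 - s * ip η f)) * φ' s := funext fun s => by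
    have a1 := (h4 η (s • f) (fun δ => s • G δ) H hη hV (hf.smul s) (iexp_smul hG s)
      hH).mono_left hU
    have a2 := (h s).1.sub ((h' s).1.const_mul (Real.exp (K * (en η / 2 - s * ip η f))))
    simp only [zero_add, add_comm (H _)] at a2
    rw [ip_smul] at a1
    exact sub_eq_zero.1 (tendsto_nhds_unique a2 a1)
  have d : HasDerivAt (fun s : ℝ => K * (en η / 2 - s * ip η f)) (K * -ip η f) 0 := by
    have := ((hasDerivAt_id (0 : ℝ)).mul_const (ip η f)).const_sub (en η / 2) |>.const_mul K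
    simpa using this
  have d1 := (e ▸ (h 0).2.2).unique (d.exp.mul (h' 0).2.2)
  have a3 := (h 0).2.1.sub (((h' 0).2.1.sub ((h' 0).1.const_mul (K * ip η f))).const_mul
    (Real.exp (K * (en η / 2))))
  have e0 : ψ 0 - Real.exp (K * (en η / 2)) * (ψ' 0 - K * ip η f * φ' 0) = 0 := by
    rw [d1]
    simp only [zero_mul, sub_zero]
    ring
  rw [e0] at a3
  refine a3.congr fun δ => ?_
  simp only [zero_smul, add_zero, XX_zero, Pi.zero_apply, Real.exp_zero, mul_one]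
  rw [show (w δ * fun _ => (1 : ℝ)) = w δ from mul_one _]

theorem i4 (hd : DerSt) : I4St := fun _ _ _ _ hE hw h3 =>
  ⟨iexp_i4 hd hE hw h3, iexp_i2 hd hE hw (iexp_i4 hd hE hw h3)⟩

end Vale.Agent.P145.Ib
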