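import Vale.Agent.P145.IBas
import Vale.Agent.P152.NFLink
import Vale.Agent.P152.NFSym
import Vale.Agent.P152.NTDefs

/-! P145, block I: the state as a limit of finite volume height models. -/

open Filter Topology

namespace Vale.Agent.P145.Ib

open Vale.Agent.P152

/-- the weight in terms of agreements -/
def IFin_w (c : ℝ) (a b : Bool) : ℝ := if a then (if b then c else 1) else (if b then 1 else 0)

theorem IFin_vw (c : ℝ) (a b d e : Bool) :
    vw c a b d e = if (a == b) = (e == d) then IFin_w c (a == b) (a == e) else 0 := by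
  cases a <;> cases b <;> cases d <;> cases e <;> simp [vw, IFin_w]

theorem IFin_wt (c : ℝ) {D : Finset Site} {h : Ht} (hh : IsH D h) :
    wt c D ∅ (cfg (NFLink_T D h)) = hwt c D h := by
  have e := NFLink_wt hh fun _ => IFin_w c
  simp only [← IFin_vw, mul_one] at e
  refine e.trans (Finset.prod_congr rfl fun m hm => ?_)
  obtain ⟨a1, a2, a3, a4⟩ := hh.edge hm
  rw [abs_eq (by norm_num)] at a1 a2 a3 a4
  by_cases p : h (src m, true) = h (tgt m, true) <;>
    by_cases q : h (fa m, false) = h (fb m, false) <;> simp only [IFin_w, hv, p, q] <;> simp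
  omega

theorem IFin_num (c : ℝ) (ab : Site × Site) (G : Cfg → ℝ) : num c (bx ab) ∅ G =
    ∑ h ∈ hs (bx ab), hwt c (bx ab) h * G (cfg (NFLink_T (bx ab) h)) := by
  refine (Finset.sum_of_injOn (NFLink_T (bx ab))
    (fun h hh h' hh' e => NFLink_inj (mem_hs.1 hh) (mem_hs.1 hh') e)
    (fun h _ => Finset.mem_powerset.2 (Finset.filter_subset _ _)) (fun T hT hn => ?_)
    fun h hh => by rw [IFin_wt c (mem_hs.1 hh)]).symm
  by_contra h0
  have h1 := left_ne_zero_of_mul h0
  obtain ⟨h, h5, h6⟩ := NFLink_surj ab (Finset.mem_powerset.1 hT)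
    (valid_of_wt (Finset.mem_powerset.1 hT) (Finset.empty_subset _) h1)
    (right_ne_zero_of_mul (left_ne_zero_of_mul h1))
  exact hn ⟨h, mem_hs.2 h5, h6⟩

theorem IFin_ED (c : ℝ) (ab : Site × Site) (G : Cfg → ℝ) :
    ED c (bx ab) ∅ G = PH c (bx ab) fun h => G (cfg (NFLink_T (bx ab) h)) := by
  simp only [ED, PH, IFin_num, Pi.one_apply, mul_one]

/-- extension to the whole plane -/
def IFin_ext (D : Finset Site) (h : Ht) : Ht := fun p =>
  if p.2 = false ∧ p.1 ∉ D then -1 else h p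

theorem IFin_in {D : Finset Site} (h : Ht) {p : Pt} (hp : p.1 ∈ D) : IFin_ext D h p = h p :=
  if_neg fun k => k.2 hp

theorem IFin_true (D : Finset Site) (h : Ht) (v : Site) : IFin_ext D h (v, true) = h (v, true) :=
  if_neg fun k => Bool.noConfusion k.1

theorem IFin_out {D : Finset Site} {h : Ht} (hh : IsH D h) {e : Site} (he : plq e ∉ D) :
    IFin_ext D h (plq e, false) = -1 ∧ IFin_ext D h (pvx e, true) = 0 :=
  ⟨if_pos ⟨rfl, he⟩, (IFin_true D h _).trans
    (hh.1 _ fun k => he (mem_inn_cor.1 k _ (NFLink_cor e)))⟩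

theorem IFin_isG {D : Finset Site} {h : Ht} (hh : IsH D h) : IsG (IFin_ext D h) := by
  refine ⟨fun v => (IFin_true D h v).symm ▸ hh.even' v, fun e => ?_⟩
  by_cases he : plq e ∈ D
  · rw [IFin_true, IFin_in h (p := (plq e, false)) he]
    exact hh.2.2 _ he _ (NFLink_cor e)
  · rw [(IFin_out hh he).1, (IFin_out hh he).2]
    rfl

theorem IFin_lgs {D : Finset Site} {h : Ht} (hh : IsH D h) :
    lgs (IFin_ext D h) = cfg (NFLink_T D h) := by
  funext l
  by_cases he : plq l.1 ∈ D
  · have a := hh.2.2 _ he _ (NFLink_cor l.1)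
    rw [abs_eq (by norm_num)] at a
    rw [NFLink_cfg h he, lgs, IFin_true, IFin_in h (p := (plq l.1, false)) he, decide_eq_decide]
    omega
  · rw [cfg_false (T := NFLink_T D h) fun k => he (mem_legs.1 (Finset.mem_filter.1 k).1), lgs,
      (IFin_out hh he).1, (IFin_out hh he).2]
    rfl

theorem iFin (hg : GeoSt) (hr : RepSt) : FinSt := by
  intro c _ hc h0 F hF
  obtain ⟨G, hG, -⟩ := (hr _ h0).ex F hF
  obtain ⟨A, -, hA⟩ := hF.2
  rw [(hr _ h0).eq F G hG]
  refine (hc ∅ G hG.1).congr' ((ev_subset (A.image Prod.fst)).mono fun ab hab => ?_)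
  simp only [IFin_ED, PH]
  congr 1
  refine Finset.sum_congr rfl fun h hh => ?_
  have e : ∀ p ∈ A, IFin_ext (bx ab) h p = h p :=
    fun p hp => IFin_in h (hab (Finset.mem_image_of_mem _ hp))
  rw [← IFin_lgs (mem_hs.1 hh), hG.2 _ (IFin_isG (mem_hs.1 hh)), av, av, hA _ _ e,
    hA (hsh 2 _) (hsh 2 h) fun p hp => congrArg (· + 2) (e p hp)]

end Vale.Agent.P145.Ib
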