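import Vale.Agent.P145.IBas
import Vale.Agent.P152.NFLink

/-! P145, block I: geometry of heights and legs. -/

namespace Vale.Agent.P145.Ib

open Vale.Agent.P152

theorem IGeo_leg {h : Ht} (hh : IsG h) (l : Leg) :
    h (plq l.1, false) - h (pvx l.1, true) = NFLink_s (lgs h l) := by
  have a := hh.2 l.1
  rw [abs_eq (by norm_num)] at a
  unfold lgs NFLink_s
  by_cases c : h (pvx l.1, true) < h (plq l.1, false)
  · rw [decide_eq_true c, if_pos rfl]; omega
  · rw [decide_eq_false c, if_neg (by simp)]; omega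

theorem IGeo_valid (h : Ht) (hh : IsG h) : Valid ∅ (lgs h) := by
  refine ⟨fun m => ?_, fun e => iff_of_true rfl (Finset.notMem_empty e)⟩
  obtain ⟨p0, p1, p2, p3⟩ := plq_lg m
  obtain ⟨q0, q1, q2, q3⟩ := pvx_lg m
  have a0 := IGeo_leg hh (lg m 0)
  have a1 := IGeo_leg hh (lg m 1)
  have a2 := IGeo_leg hh (lg m 2)
  have a3 := IGeo_leg hh (lg m 3)
  rw [p0, q0] at a0
  rw [p1, q1] at a1
  rw [p2, q2] at a2
  rw [p3, q3] at a3
  unfold Ice
  revert a0 a1 a2 a3
  cases lgs h (lg m 0) <;> cases lgs h (lg m 1) <;> cases lgs h (lg m 2) <;>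
    cases lgs h (lg m 3) <;> simp [NFLink_s] <;> omega

theorem IGeo_xh (g : Vx →₀ ℝ) (h : Ht) (hh : IsG h) : XX g (lgs h) = XH g h := by
  unfold XX XH
  refine Finsupp.sum_congr fun m _ => ?_
  obtain ⟨p0, p1, -, -⟩ := plq_lg m
  obtain ⟨q0, q1, -, -⟩ := pvx_lg m
  have a0 := IGeo_leg hh (lg m 0)
  have a1 := IGeo_leg hh (lg m 1)
  rw [p0, q0] at a0
  rw [p1, q1] at a1
  rw [((IGeo_valid h hh).1 m).inc_eq.1, ← NFLink_cast, ← NFLink_cast, ← a0, ← a1]
  push_cast
  ring

theorem IGeo_surj (ζ : Cfg) (hζ : Valid ∅ ζ) : ∃ h, IsG h ∧ lgs h = ζ := by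
  choose k hk using NFLink_int hζ
  have cell : ∀ l : Leg, ζ l = ζ (l.1, true) := fun ⟨e, b⟩ => by
    cases b
    · exact hζ.cell e
    · rfl
  have st : ∀ m, k (tgt m) + NFLink_s (ζ ((lg m 1).1, true)) =
      k (src m) + NFLink_s (ζ ((lg m 0).1, true)) ∧ k (tgt m) + NFLink_s (ζ ((lg m 2).1, true)) =
      k (src m) + NFLink_s (ζ ((lg m 3).1, true)) := fun m => by
    have a1 := hζ.inc_eq m
    obtain ⟨a2, a3⟩ := (hζ.1 m).inc_eq
    rw [← cell, ← cell, ← cell, ← cell]
    constructor <;> refine Int.cast_injective (α := ℝ) ?_ <;>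
      rw [Int.cast_add, Int.cast_add, hk, hk, NFLink_cast, NFLink_cast] <;> linarith
  have key : ∀ e : Site, k (plq e) + NFLink_s (ζ ((2 * (plq e).1, 2 * (plq e).2), true)) =
      k (pvx e) + NFLink_s (ζ (e, true)) := by
    rintro ⟨x, y⟩
    obtain ⟨a, rfl | rfl⟩ : ∃ a, x = 2 * a ∨ x = 2 * a + 1 := ⟨x / 2, by omega⟩ <;>
      obtain ⟨b, rfl | rfl⟩ : ∃ b, y = 2 * b ∨ y = 2 * b + 1 := ⟨y / 2, by omega⟩
    all_goals
      have s1 := (st ((a, b), true)).1
      have s2 := (st ((a, b), false)).1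
      have s3 := (st ((a + 1, b), false)).2
      have d1 : ∀ z : ℤ, 2 * z / 2 = z := fun z => by omega
      have d2 : ∀ z : ℤ, (2 * z + 1) / 2 = z := fun z => by omega
      have d3 : ∀ z : ℤ, (2 * z + 1 + 1) / 2 = z + 1 := fun z => by omega
      have d4 : ∀ z : ℤ, 2 * (z + 1) - 1 = 2 * z + 1 := fun z => by omega
      simp only [lg, src, tgt, dir, if_true, Bool.false_eq_true, if_false, Matrix.cons_val_zero,
        Matrix.cons_val_one, Matrix.cons_val, Prod.mk_add_mk, add_zero, d4] at s1 s2 s3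
      simp only [plq, pvx, d1, d2, d3]
    all_goals omega
  have odd : ∀ b, NFLink_s b = 1 ∨ NFLink_s b = -1 := fun b => by cases b <;> simp [NFLink_s]
  have par : ∀ m, k (tgt m) % 2 = k (src m) % 2 := fun m => by
    have a := (st m).1
    rcases odd (ζ ((lg m 1).1, true)) with b | b <;>
      rcases odd (ζ ((lg m 0).1, true)) with c | c <;> omega
  have z0 : k (0, 0) = 0 := by
    refine Int.cast_injective (α := ℝ) ?_
    rw [hk, Int.cast_zero]
    exact HH_zero ζ
  have ev : ∀ v, k v % 2 = 0 := by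
    have r : ∀ y x : ℤ, k (x, y) % 2 = k (0, y) % 2 := fun y x => by
      induction x using Int.induction_on with
      | zero => rfl
      | succ n ih => rw [← ih]; simpa [src, tgt, dir] using par ((n, y), true)
      | pred n ih => rw [← ih]; simpa [src, tgt, dir] using (par ((-n - 1, y), true)).symm
    have c : ∀ y : ℤ, k (0, y) % 2 = 0 := fun y => by
      induction y using Int.induction_on with
      | zero => rw [z0]; rfl
      | succ n ih => exact Eq.trans (by simpa [src, tgt, dir] using par ((0, n), false)) ih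
      | pred n ih =>
        exact Eq.trans (by simpa [src, tgt, dir] using (par ((0, -n - 1), false)).symm) ih
    exact fun v => (r v.2 v.1).trans (c v.2)
  obtain ⟨h, h1, h3⟩ : ∃ h : Ht, (∀ v, h (v, true) = k v) ∧
      ∀ e, h (plq e, false) - h (pvx e, true) = NFLink_s (ζ (e, true)) :=
    ⟨fun x => if x.2 then k x.1 else k x.1 + NFLink_s (ζ ((2 * x.1.1, 2 * x.1.2), true)),
      fun v => rfl, fun e => by simp [key e]⟩
  refine ⟨h, ⟨fun v => by rw [h1, Int.even_iff]; exact ev v, fun e => ?_⟩, funext fun l => ?_⟩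
  · rw [h3]
    rcases odd (ζ (e, true)) with b | b <;> rw [b] <;> rfl
  · have a := h3 l.1
    rw [← cell] at a
    unfold lgs
    revert a
    cases ζ l <;> simp [NFLink_s] <;> omega

variable {U : Set Site} {p q r : Pt}

theorem IGeo_refl (U : Set Site) (p : Pt) : Det U p p :=
  ⟨∅, by simp, fun _ _ _ _ _ => by simp⟩

theorem IGeo_symm (a : Det U p q) : Det U q p :=
  a.imp fun _ a => ⟨a.1, fun h h' b c d => by have := a.2 h h' b c d; omega⟩

theorem IGeo_trans (a : Det U p q) (b : Det U q r) : Det U p r := by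
  classical
  obtain ⟨A, a1, a2⟩ := a
  obtain ⟨B, b1, b2⟩ := b
  refine ⟨A ∪ B, fun e he => (Finset.mem_union.1 he).elim (a1 e) (b1 e), fun h h' c d e => ?_⟩
  have := a2 h h' c d fun x hx => e x (Finset.mem_union_left _ hx)
  have := b2 h h' c d fun x hx => e x (Finset.mem_union_right _ hx)
  omega

theorem IGeo_mono {V : Set Site} (a : Det U p q) (hU : U ⊆ V) : Det V p q :=
  a.imp fun _ a => ⟨fun e he => hU (a.1 e he), a.2⟩

/-- the plaquette `f` and its corner `v` -/
theorem IGeo_one (f v : Site) (h1 : v.1 = f.1 ∨ v.1 = f.1 + 1) (h2 : v.2 = f.2 ∨ v.2 = f.2 + 1)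
    (hU : f + v ∈ U) : Det U (f, false) (v, true) := by
  have e1 : plq (f + v) = f := Prod.ext (by simp [plq]; omega) (by simp [plq]; omega)
  have e2 : pvx (f + v) = v := Prod.ext (by simp [pvx]; omega) (by simp [pvx]; omega)
  refine ⟨{f + v}, by simpa using hU, fun h h' a b c => ?_⟩
  have a1 := IGeo_leg a (f + v, true)
  have a2 := IGeo_leg b (f + v, true)
  rw [c _ (Finset.mem_singleton_self _)] at a1
  simp only [e1, e2] at a1 a2
  omega

/-- two corners of a plaquette -/
theorem IGeo_two (f v w : Site) (h1 : v.1 = f.1 ∨ v.1 = f.1 + 1) (h2 : v.2 = f.2 ∨ v.2 = f.2 + 1)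
    (h3 : w.1 = f.1 ∨ w.1 = f.1 + 1) (h4 : w.2 = f.2 ∨ w.2 = f.2 + 1)
    (hv : f + v ∈ U) (hw : f + w ∈ U) : Det U (v, true) (w, true) :=
  IGeo_trans (IGeo_symm (IGeo_one f v h1 h2 hv)) (IGeo_one f w h3 h4 hw)

theorem IGeo_ind (P : ℤ → Pt) (hP : ∀ i, Det U (P i) (P (i + 1))) (i j : ℤ) :
    Det U (P i) (P j) := by
  have k : ∀ i, Det U (P i) (P 0) := fun i => by
    induction i using Int.induction_on with
    | zero => exact IGeo_refl _ _
    | succ n ih => exact IGeo_trans (IGeo_symm (hP n)) ih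
    | pred n ih =>
      have := hP (-n - 1)
      rw [sub_add_cancel] at this
      exact IGeo_trans this ih
  exact IGeo_trans (k i) (IGeo_symm (k j))

theorem IGeo_indN (P : ℤ → Pt) (a : ℤ) (hP : ∀ i, a ≤ i → Det U (P i) (P (i + 1))) (i : ℤ)
    (hi : a ≤ i) : Det U (P i) (P a) := by
  induction i, hi using Int.leInduction with
  | base => exact IGeo_refl _ _
  | succ n hn ih => exact IGeo_trans (IGeo_symm (hP n hn)) ih

/-- half planes bounded by a vertical line -/
theorem IGeo_half (c a : ℤ) (ha : c ≤ 2 * a) (x y : ℤ) (hx : a ≤ x) :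
    Det {e | c ≤ e.1} ((x, y), true) ((a, 0), true) := by
  refine IGeo_trans (IGeo_indN (fun i => ((i, y), true)) a (fun i hi => ?_) x hx)
    (IGeo_ind (fun j => ((a, j), true)) (fun j => ?_) y 0)
  · exact IGeo_two (i, y) _ _ (by simp) (by simp) (by simp) (by simp) (by simp; omega)
      (by simp; omega)
  · exact IGeo_two (a, j) _ _ (by simp) (by simp) (by simp) (by simp) (by simp; omega)
      (by simp; omega)

theorem IGeo_detu (p : Pt) : Det Set.univ p ((0, 0), true) := by
  have k : ∀ x y : ℤ, Det Set.univ ((x, y), true) ((0, 0), true) := fun x y =>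
    IGeo_trans (IGeo_ind (fun i => ((i, y), true)) (fun i => IGeo_two (i, y) _ _ (by simp)
      (by simp) (by simp) (by simp) (Set.mem_univ _) (Set.mem_univ _)) x 0)
      (IGeo_ind (fun j => ((0, j), true)) (fun j => IGeo_two (0, j) _ _ (by simp) (by simp)
        (by simp) (by simp) (Set.mem_univ _) (Set.mem_univ _)) y 0)
  obtain ⟨⟨x, y⟩, b⟩ := p
  cases b
  · exact IGeo_trans (IGeo_one _ (x, y) (by simp) (by simp) (Set.mem_univ _)) (k x y)
  · exact k x y

theorem IGeo_detf (p : Pt) (hp : 0 ≤ (rpos p).1) : Det {e | 0 ≤ e.1} p ((0, 0), true) := by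
  obtain ⟨⟨x, y⟩, b⟩ := p
  cases b <;> simp [rpos] at hp
  · exact IGeo_trans (IGeo_one _ (x, y) (by simp) (by simp) (by simp; omega))
      (IGeo_half 0 0 (by simp) x y (by omega))
  · exact IGeo_half 0 0 (by simp) x y hp

theorem IGeo_deto (p : Pt) (hp : 1 ≤ (rpos p).1) : Det {e | 1 ≤ e.1} p ((0, 0), false) := by
  have k : Det {e | 1 ≤ e.1} ((1, 0), true) ((0, 0), false) :=
    IGeo_symm (IGeo_one _ _ (by simp) (by simp) (by simp))
  obtain ⟨⟨x, y⟩, b⟩ := p
  cases b <;> simp [rpos] at hp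
  · exact IGeo_trans (IGeo_one _ (x + 1, y) (by simp) (by simp) (by simp; omega))
      (IGeo_trans (IGeo_half 1 1 (by simp) (x + 1) y (by omega)) k)
  · exact IGeo_trans (IGeo_half 1 1 (by simp) x y (by omega)) k

theorem IGeo_dets (p : Pt) (hp : (rpos p).2 ≤ (rpos p).1) :
    Det {e | e.2 < e.1} p ((0, 0), true) := by
  have dn : ∀ x y z : ℤ, y ≤ x → z ≤ y → Det {e : Site | e.2 < e.1} ((x, y), true) ((x, z), true) :=
    fun x y z h1 h2 => by
      have := IGeo_indN (U := {e : Site | e.2 < e.1}) (fun j => ((x, -j), true)) (-y)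
        (fun j hj => IGeo_two (x, -j - 1) _ _ (by simp) (by simp) (by simp) (by simp; omega)
          (by simp; omega) (by simp; omega)) (-z) (by omega)
      simp only [neg_neg] at this
      exact IGeo_symm this
  have hz : ∀ x z : ℤ, z ≤ x → Det {e : Site | e.2 < e.1} ((x, z), true) ((z, z), true) :=
    fun x z h => IGeo_indN (fun i => ((i, z), true)) z (fun i hi => IGeo_two (i, z - 1) _ _
      (by simp) (by simp) (by simp) (by simp) (by simp; omega) (by simp; omega)) x h
  have k : ∀ x y : ℤ, y ≤ x → Det {e : Site | e.2 < e.1} ((x, y), true) ((0, 0), true) :=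
    fun x y h => IGeo_trans (IGeo_trans (dn x y (min y 0) h (by omega)) (hz x _ (by omega)))
      (IGeo_symm (IGeo_trans (dn 0 0 (min y 0) le_rfl (by omega)) (hz 0 _ (by omega))))
  obtain ⟨⟨x, y⟩, b⟩ := p
  cases b <;> simp [rpos] at hp
  · exact IGeo_trans (IGeo_one _ (x + 1, y) (by simp) (by simp) (by simp; omega))
      (k _ _ (by omega))
  · exact k x y hp

theorem iGeo : GeoSt :=
  ⟨IGeo_valid, IGeo_surj, IGeo_xh, IGeo_detu, IGeo_detf, IGeo_deto, IGeo_dets⟩

end Vale.Agent.P145.Ib
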