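import Vale.Agent.P145.IDefs2

/-! P145, block I: a fixed finite family of boxes contains all the pieces. -/

open Filter Topology

namespace Vale.Agent.P145.Ib

open Vale.Agent.P152

theorem iGrp_floor {l : ℝ} (hl : 0 < l) (x : ℝ) :
    (⌊x / l⌋ : ℝ) * l ≤ x ∧ x ≤ (⌊x / l⌋ : ℝ) * l + l := by
  have h1 := Int.floor_le (x / l)
  have h2 := (Int.lt_floor_add_one (x / l)).le
  rw [le_div_iff₀ hl] at h1
  rw [div_le_iff₀ hl] at h2
  exact ⟨h1, by linarith⟩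

theorem iGrp_mul {l : ℝ} (hl : 0 < l) {i j : ℤ} (c : ℤ) (h : i + c ≤ j) :
    (i : ℝ) * l + c * l ≤ j * l := by
  have h1 : (i : ℝ) + c ≤ j := by exact_mod_cast h
  have := mul_le_mul_of_nonneg_right h1 hl.le
  linarith

theorem iGrp_le {l : ℝ} (hl : 0 < l) {i j : ℤ} (h : (i : ℝ) * l ≤ j * l) : i ≤ j := by
  exact_mod_cast le_of_mul_le_mul_right h hl

/-- the index set -/
def iGrp_S (T : Set Pl) (l y0 R : ℝ) : Set (ℤ × ℤ) :=
  {q | ∃ z : Pl, ‖z‖ ≤ R ∧ (q.1 : ℝ) * l ≤ z.1 ∧ z.1 ≤ q.1 * l + l ∧ y0 + q.2 * l - l ≤ z.2 ∧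
    z.2 ≤ y0 + q.2 * l + 2 * l ∧ ∀ p ∈ T, 20 * l ≤ dist z p}

theorem iGrp_fin (T : Set Pl) {l : ℝ} (hl : 0 < l) (y0 R : ℝ) : (iGrp_S T l y0 R).Finite := by
  obtain ⟨N, hN⟩ := exists_int_gt ((R + |y0|) / l + 3)
  have hN' : R + |y0| + 3 * l ≤ N * l := by
    have := mul_le_mul_of_nonneg_right hN.le hl.le
    rwa [add_mul, div_mul_cancel₀ _ hl.ne'] at this
  refine ((Set.finite_Icc (-N) N).prod (Set.finite_Icc (-N) N)).subset ?_
  rintro q ⟨z, h0, h1, h2, h3, h4, -⟩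
  have a1 := abs_le.1 ((norm_fst_le z).trans h0)
  have a2 := abs_le.1 ((norm_snd_le z).trans h0)
  have a3 := abs_nonneg y0
  have a4 := le_abs_self y0
  have a5 := neg_abs_le y0
  refine ⟨⟨iGrp_le hl ?_, iGrp_le hl ?_⟩, iGrp_le hl ?_, iGrp_le hl ?_⟩ <;> push_cast <;>
    linarith [a1.1, a1.2, a2.1, a2.2]

theorem iGrp : GrpSt := by
  intro T l w y0 R hl hw
  obtain ⟨u, u0, u1, u2⟩ : ∃ u : ℝ, 0 < u ∧ u ≤ w ∧ u ≤ l / 4 :=
    ⟨min w (l / 4), lt_min hw (by positivity), min_le_left _ _, min_le_right _ _⟩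
  refine ⟨iGrp_S T l y0 R, (iGrp_fin T hl y0 R).fintype,
    fun q => (q.1.1 * l - 2 * l, y0 + q.1.2 * l + u / 2),
    fun q => (q.1.1 * l + 3 * l, y0 + q.1.2 * l + l - u / 2), u / 2, half_pos u0, ?_, ?_⟩
  · intro p hp
    obtain ⟨k, k1, k2⟩ : ∃ k : ℤ, (k : ℝ) * l ≤ p.2 - y0 ∧ p.2 - y0 ≤ k * l + l :=
      ⟨_, iGrp_floor hl _⟩
    refine ⟨u, u0, y0 + k * l + 2 * l - u / 2 - p.2, p.2 - (y0 + k * l - l + u / 2), by linarith,
      by linarith, ?_⟩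
    rintro ⟨⟨i, j⟩, z, -, h1, h2, h3, h4, h5⟩
    dsimp only at h1 h2 h3 h4 ⊢
    refine ⟨⟨by dsimp only; linarith, by dsimp only; linarith⟩, ?_⟩
    by_cases c1 : k + 2 ≤ j
    · have := iGrp_mul hl 2 c1
      push_cast at this
      exact Or.inl (by linarith)
    by_cases c2 : j + 2 ≤ k
    · have := iGrp_mul hl 2 c2
      push_cast at this
      exact Or.inr (Or.inl (by linarith))
    have d1 := iGrp_mul hl (-1) (show j + -1 ≤ k by omega)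
    have d2 := iGrp_mul hl (-1) (show k + -1 ≤ j by omega)
    push_cast at d1 d2
    refine Or.inr (Or.inr ⟨by linarith, by linarith, ?_⟩)
    have h6 := h5 p hp
    rw [Prod.dist_eq, le_max_iff, Real.dist_eq, Real.dist_eq, le_abs, le_abs] at h6
    rcases h6 with (h6 | h6) | h6 | h6
    · exact Or.inl (by linarith)
    · exact Or.inr (by linarith)
    · linarith
    · linarith
  · intro δ d0 d1 B z j hz hT hB
    obtain ⟨i, i1, i2⟩ : ∃ i : ℤ, (i : ℝ) * l ≤ z.1 ∧ z.1 ≤ i * l + l := ⟨_, iGrp_floor hl _⟩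
    rcases B.eq_empty_or_nonempty with rfl | ⟨m0, hm0⟩
    · obtain ⟨k, k1, k2⟩ : ∃ k : ℤ, (k : ℝ) * l ≤ z.2 - y0 ∧ z.2 - y0 ≤ k * l + l :=
        ⟨_, iGrp_floor hl _⟩
      exact ⟨⟨(i, k), z, hz, i1, i2, by dsimp only; linarith, by dsimp only; linarith, hT⟩,
        fun m hm => absurd hm (Finset.notMem_empty m)⟩
    have key : ∀ m ∈ B, |δ * m.1.1 - z.1| ≤ l ∧ |δ * m.1.2 - z.2| ≤ l := fun m hm => by
      have := (hB m hm).1
      rwa [Prod.dist_eq, max_le_iff, Real.dist_eq, Real.dist_eq] at this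
    obtain ⟨-, b1, b2⟩ := hB m0 hm0
    have b3 := abs_le.1 (key m0 hm0).2
    refine ⟨⟨(i, j), z, hz, i1, i2, by dsimp only; linarith [b3.1, b3.2],
      by dsimp only; linarith [b3.1, b3.2], hT⟩, fun m hm x hx => ?_⟩
    obtain ⟨-, e1, e2⟩ := hB m hm
    have e3 := abs_le.1 (key m hm).1
    rw [sd, max_le_iff, abs_le, abs_le] at hx
    have f1 := iGrp_mul d0 (-1) (show x.1 + -1 ≤ m.1.1 by omega)
    have f2 := iGrp_mul d0 (-1) (show m.1.1 + -1 ≤ x.1 by omega)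
    have f3 := iGrp_mul d0 (-1) (show x.2 + -1 ≤ m.1.2 by omega)
    have f4 := iGrp_mul d0 (-1) (show m.1.2 + -1 ≤ x.2 by omega)
    push_cast at f1 f2 f3 f4
    refine ⟨⟨?_, ?_⟩, ?_, ?_⟩ <;> dsimp only <;> linarith [e3.1, e3.2]

end Vale.Agent.P145.Ib
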