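import Vale.Agent.P145.IBas
import Vale.Agent.P152.FIbp2

/-! P145, block I: integration by parts in a region. -/

open Filter Topology MeasureTheory Metric

namespace Vale.Agent.P145.Ib

open Vale.Agent.P152

theorem IIbp_one {V : Set Pl} {M : Fun} {K : ℝ} (hM : ClV V M) (hR : Rule V M K) {s}
    (hs : Tests s) {η f : Pl → ℝ} (hη : Sm η) (hf : IsTest f) {w : Pl} {r : ℝ} (hr : 0 < r)
    (hV : closedBall w (4 * r) ⊆ V) (h1 : tsupport η ⊆ closedBall w r)
    (h2 : ∀ h ∈ s, ∀ p ∈ tsupport h, p.1 ∉ Set.Icc (w.1 - 4 * r) (w.1 + 4 * r)) :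
    M (lap η ::ₘ f ::ₘ s) = -ip η f * (K * M s) := by
  obtain ⟨χ, c1, c2, -, W, c3, c4, c5⟩ := cut_one (isCompact_closedBall w r) isOpen_ball
    (closedBall_subset_ball (by linarith : r < 3 * r))
  obtain ⟨b, b1, b2, b3⟩ := bump_one (w.1, w.2 + 2 * r) hr
  have t1 := test_neutral (Sm.mul_left c1.1 hf.sm) b1 b3
  set g := χ * f - (∫ p, (χ * f) p) • b with hg
  have t2 := hf.sub t1
  have d1 : Disjoint (tsupport η) (tsupport (f - g)) := by
    refine Set.disjoint_left.2 fun p hp => notMem_tsupport_iff_eventuallyEq.2 ?_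
    have h3 : p ∉ tsupport b := fun hb => by
      have h4 := abs_le.1 ((le_max_right _ _).trans (mem_closedBall.1 (h1 hp)))
      have h5 := abs_lt.1 ((le_max_right _ _).trans_lt (mem_ball.1 (b2 hb)))
      linarith [h4.2, h5.1]
    filter_upwards [c3.mem_nhds (c4 (h1 hp)), notMem_tsupport_iff_eventuallyEq.1 h3] with q q1 q2
    simp [hg, c5 q q1, q2]
  have d2 : tsupport g ⊆ closedBall w (3 * r) := by
    refine closure_minimal (fun p hp => ?_) isClosed_closedBall
    by_cases h3 : χ p = 0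
    · have h4 : b p ≠ 0 := fun h => hp (by simp [hg, h3, h])
      have h5 := mem_ball.1 (b2 (subset_tsupport _ h4))
      have h6 : dist ((w.1, w.2 + 2 * r) : Pl) w ≤ 2 * r := by
        rw [Prod.dist_eq]
        refine max_le (by simp [hr.le]) ?_
        rw [Real.dist_eq, add_sub_cancel_left, abs_of_pos (by linarith)]
      have h7 := dist_triangle p ((w.1, w.2 + 2 * r) : Pl) w
      exact mem_closedBall.2 (by linarith)
    · exact ball_subset_closedBall (c2 (subset_tsupport _ h3))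
  have e1 := hR s hs η g w r hη t1 hr hV
    (h1.trans (closedBall_subset_closedBall (by linarith))) d2 fun h hh =>
      Set.disjoint_left.2 fun p hp hq => h2 h hh p hq (by
        have := abs_le.1 ((le_max_left _ _).trans (mem_closedBall.1 hp))
        constructor <;> linarith [this.1, this.2])
  have e2 := hM.null η ((f - g) ::ₘ s) hη
    (h1.trans ((closedBall_subset_closedBall (by linarith)).trans hV))
    (Multiset.forall_mem_cons.2 ⟨t2, hs⟩)
    (Multiset.forall_mem_cons.2 ⟨d1, fun h hh => FIbp1_out hr h1 (h2 h hh)⟩)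
  have e3 := ip_disj d1
  rw [Multiset.cons_swap, hM.toCl1.sub hf t1 (Multiset.forall_mem_cons.2 ⟨test_lap hη, hs⟩),
    Multiset.cons_swap, Multiset.cons_swap g, e1, sub_eq_zero] at e2
  rw [ip_sub hη.1.continuous hf.sm t1.sm, sub_eq_zero] at e3
  rw [e2, e3]

theorem IIbp_piece {V : Set Pl} {M : Fun} {K : ℝ} (hM : ClV V M) (hR : Rule V M K) {ι : Type}
    [DecidableEq ι] (S : Finset ι) (f : ι → Pl → ℝ) (hf : ∀ i ∈ S, IsTest (f i)) {r : ℝ}
    (hr : 0 < r) (hd : ∀ i ∈ S, ∀ j ∈ S, i ≠ j → ∀ p ∈ tsupport (f i), ∀ q ∈ tsupport (f j),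
      8 * r < dist p.1 q.1) {η : Pl → ℝ} (hη : Sm η) {w : Pl}
    (hV : closedBall w (4 * r) ⊆ V) (h1 : tsupport η ⊆ closedBall w r) :
    M (lap η ::ₘ S.val.map f) = ∑ j ∈ S, -ip η (f j) * (K * M ((S.erase j).val.map f)) := by
  by_cases h : ∀ j ∈ S, ∀ p ∈ tsupport (f j), p.1 ∉ Set.Icc (w.1 - 4 * r) (w.1 + 4 * r)
  · rw [hM.null η _ hη (h1.trans ((closedBall_subset_closedBall (by linarith)).trans hV))
      (Multiset.forall_mem_map_iff.2 hf)
      (Multiset.forall_mem_map_iff.2 fun j hj => FIbp1_out hr h1 (h j hj))]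
    exact (Finset.sum_eq_zero fun j hj => by simp [ip_disj (FIbp1_out hr h1 (h j hj))]).symm
  push Not at h
  obtain ⟨j, hj, p, hp, h2⟩ := h
  have h3 : ∀ i ∈ S.erase j, ∀ q ∈ tsupport (f i),
      q.1 ∉ Set.Icc (w.1 - 4 * r) (w.1 + 4 * r) := fun i hi q hq h4 => by
    have := hd i (Finset.mem_of_mem_erase hi) j hj (Finset.ne_of_mem_erase hi) q hq p hp
    linarith [Real.dist_le_of_mem_Icc h4 h2]
  rw [Finset.sum_eq_single_of_mem j hj fun i hi hij => by
    simp [ip_disj (FIbp1_out hr h1 (h3 i (Finset.mem_erase.2 ⟨hij, hi⟩)))],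
    ← IIbp_one hM hR
      (Multiset.forall_mem_map_iff.2 fun i hi => hf i (Finset.mem_of_mem_erase hi))
      hη (hf j hj) hr hV h1 (Multiset.forall_mem_map_iff.2 h3), ← Multiset.map_cons,
    Finset.erase_val, Multiset.cons_erase hj]

theorem IIbp_strip {V : Set Pl} {M : Fun} {K : ℝ} (hV : IsOpen V) (hM : ClV V M)
    (hR : Rule V M K) {ι : Type} [DecidableEq ι] (S : Finset ι)
    (f : ι → Pl → ℝ) (hf : ∀ i ∈ S, IsTest (f i))
    (hd : ∀ i ∈ S, ∀ j ∈ S, i ≠ j →
      Disjoint (Prod.fst '' tsupport (f i)) (Prod.fst '' tsupport (f j)))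
    {η : Pl → ℝ} (hη : Sm η) (hηV : tsupport η ⊆ V) :
    M (lap η ::ₘ S.val.map f) = ∑ j ∈ S, -ip η (f j) * (K * M ((S.erase j).val.map f)) := by
  have h1 : ∀ᶠ r in 𝓝[>] (0 : ℝ), ∀ i ∈ S, ∀ j ∈ S, i ≠ j → ∀ p ∈ tsupport (f i),
      ∀ q ∈ tsupport (f j), 8 * r < dist p.1 q.1 := by
    refine (eventually_all_finset S).2 fun i hi => (eventually_all_finset S).2 fun j hj => ?_
    by_cases hij : i = j
    · exact Eventually.of_forall fun r h => (h hij).elim
    obtain ⟨δ, d1, d2⟩ := (hd i hi j hj hij).exists_cthickenings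
      ((hf i hi).2.1.isCompact.image continuous_fst)
      ((hf j hj).2.1.isCompact.image continuous_fst).isClosed
    filter_upwards [Ioo_mem_nhdsGT (div_pos d1 (by norm_num : (0 : ℝ) < 8))] with r hr _ p hp q hq
    refine not_le.1 fun h => Set.disjoint_left.1 d2 (self_subset_cthickening _ ⟨p, hp, rfl⟩)
      (mem_cthickening_of_dist_le _ q.1 _ _ ⟨q, hq, rfl⟩ ?_)
    linarith [hr.2]
  obtain ⟨δ, hδ, hδV⟩ := hη.2.isCompact.exists_cthickening_subset_open hV hηV
  obtain ⟨r, ⟨h2, h4⟩, h3⟩ := ((h1.and (Ioo_mem_nhdsGT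
    (div_pos hδ (by norm_num : (0 : ℝ) < 5)))).and (Ioo_mem_nhdsGT one_pos)).exists
  obtain ⟨C, -, hC⟩ := pieces hη
  obtain ⟨I, ρ, w, -, a1, -, a2, a5, a3⟩ := hC r h3.1 h3.2.le
  have a4 : ∀ i, Sm (ρ i * η) := fun i => (a1 i).mul_right hη.1
  have a6 : ∀ i ∈ I, closedBall (w i) (4 * r) ⊆ V := fun i hi p hp => by
    obtain ⟨q, hq, hq'⟩ := a5 i hi
    refine hδV (mem_cthickening_of_dist_le p q _ _ hq ?_)
    have := dist_triangle p (w i) q
    linarith [mem_closedBall.1 hp, h4.2]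
  rw [a3, lap_sum I _ fun i _ => a4 i, hM.toCl1.sum I _ (fun i _ => test_lap (a4 i))
    (Multiset.forall_mem_map_iff.2 hf), Finset.sum_congr rfl fun i hi => IIbp_piece hM hR S f hf
      h3.1 h2 (a4 i) (a6 i hi) ((tsupport_mul_subset_left (f := ρ i) (g := η)).trans (a2 i)),
    Finset.sum_comm]
  refine Finset.sum_congr rfl fun j hj => ?_
  rw [FIbp1_ip (hf j hj).1.continuous I _ a4, ← Finset.sum_mul, Finset.sum_neg_distrib]

theorem IIbp_cl1 {M : Fun} (hM : Cl1 M) (K : ℝ) : Cl1 fun s => K * M s := by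
  refine ⟨fun f g s hf hg hs => ?_, fun a f s hf hs => ?_, ?_⟩
  · rw [hM.add f g s hf hg hs, mul_add]
  · rw [hM.smul a f s hf hs]; ring
  · obtain ⟨C, hC, h⟩ := hM.bdd
    refine ⟨fun n => |K| * C n, fun n => mul_nonneg (abs_nonneg _) (hC n), fun t ht => ?_⟩
    rw [abs_mul, mul_assoc]
    exact mul_le_mul_of_nonneg_left (h t ht) (abs_nonneg _)

theorem IIbp_idx {M N : Fun} (hM : Cl1 M) (hN : Cl1 N) {ι : Type} [DecidableEq ι] (S : Finset ι)
    {η : Pl → ℝ} (hη : Sm η)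
    (hst : ∀ f : ι → Pl → ℝ, (∀ i ∈ S, IsTest (f i)) → (∀ i ∈ S, ∀ j ∈ S, i ≠ j →
      Disjoint (Prod.fst '' tsupport (f i)) (Prod.fst '' tsupport (f j))) →
      M (lap η ::ₘ S.val.map f) = ∑ j ∈ S, -ip η (f j) * N ((S.erase j).val.map f))
    (f : ι → Pl → ℝ) (hf : ∀ i ∈ S, IsTest (f i)) :
    M (lap η ::ₘ S.val.map f) = ∑ j ∈ S, -ip η (f j) * N ((S.erase j).val.map f) := by
  set e := Real.sqrt (en η) with he
  have he0 : 0 ≤ e := Real.sqrt_nonneg _
  set K : ℝ := 1 + ∑ j ∈ S, (e * (|N ((S.erase j).val.map f)| + 1) + |ip η (f j)|) with hK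
  have hK0 : 0 < K := by
    have : 0 ≤ ∑ j ∈ S, (e * (|N ((S.erase j).val.map f)| + 1) + |ip η (f j)|) :=
      Finset.sum_nonneg fun j _ => by positivity
    linarith
  have key : ∀ ε : ℝ, 0 < ε → ε ≤ 1 →
      |M (lap η ::ₘ S.val.map f) -
        ∑ j ∈ S, -ip η (f j) * N ((S.erase j).val.map f)| ≤ ε * K := by
    intro ε hε hε1
    have hs1 : Tests {lap η} := fun h hh => by
      rw [Multiset.mem_singleton.1 hh]; exact test_lap hη
    have e1 := FIbp2_ev hM S S subset_rfl f hf hs1 hε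
    have e2 : ∀ᶠ ρ in 𝓝[>] (0 : ℝ), ∀ j ∈ S, ∀ f' : ι → Pl → ℝ,
        (∀ i ∈ S, Fl (f i - f' i) ρ) →
        |N (0 + (S.erase j).val.map f) - N (0 + (S.erase j).val.map f')| ≤ ε :=
      (Filter.eventually_all_finset S).2 fun j _ =>
        FIbp2_ev hN S (S.erase j) (Finset.erase_subset j S) f hf FIbp2_tests0 hε
    obtain ⟨ρ, ⟨h1, h2⟩, hρ⟩ := ((e1.and e2).and (Ioo_mem_nhdsGT hε)).exists
    obtain ⟨f', hf', hd⟩ := strip_apx S f hf hρ.1
    have i1 := hst f' (fun i hi => (hf' i hi).1) hd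
    have b1 := h1 f' fun i hi => (hf' i hi).2
    rw [Multiset.singleton_add, Multiset.singleton_add, i1] at b1
    have b2 : ∀ j ∈ S, |-ip η (f' j) * N ((S.erase j).val.map f') -
        -ip η (f j) * N ((S.erase j).val.map f)| ≤
        ε * (e * (|N ((S.erase j).val.map f)| + 1) + |ip η (f j)|) := by
      intro j hj
      have c1 := h2 j hj f' fun i hi => (hf' i hi).2
      rw [zero_add, zero_add] at c1
      have c2 := ip_le hη (hf' j hj).2
      rw [ip_sub hη.1.continuous (hf j hj).sm (hf' j hj).1.sm] at c2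
      have c3 : |ip η (f j) - ip η (f' j)| ≤ e * ε :=
        c2.trans (mul_le_mul_of_nonneg_left hρ.2.le he0)
      set a := ip η (f j)
      set a' := ip η (f' j)
      set B := N ((S.erase j).val.map f)
      set B' := N ((S.erase j).val.map f')
      have c4 : |B'| ≤ |B| + 1 := by
        have : B' = B - (B - B') := by ring
        rw [this]
        exact (abs_sub _ _).trans (by linarith)
      have c5 : -a' * B' - -a * B = (a - a') * B' + a * (B - B') := by ring
      rw [c5]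
      refine (abs_add_le _ _).trans ?_
      rw [abs_mul, abs_mul]
      have d1 : |a - a'| * |B'| ≤ e * ε * (|B| + 1) :=
        mul_le_mul c3 c4 (abs_nonneg _) (by positivity)
      have d2 : |a| * |B - B'| ≤ |a| * ε := mul_le_mul_of_nonneg_left c1 (abs_nonneg _)
      nlinarith
    have b3 : |∑ j ∈ S, -ip η (f' j) * N ((S.erase j).val.map f') -
        ∑ j ∈ S, -ip η (f j) * N ((S.erase j).val.map f)| ≤
        ε * ∑ j ∈ S, (e * (|N ((S.erase j).val.map f)| + 1) + |ip η (f j)|) := by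
      rw [← Finset.sum_sub_distrib, Finset.mul_sum]
      exact (Finset.abs_sum_le_sum_abs _ _).trans (Finset.sum_le_sum b2)
    refine (abs_sub_le _ (∑ j ∈ S, -ip η (f' j) * N ((S.erase j).val.map f')) _).trans ?_
    rw [hK, mul_add, mul_one]
    exact add_le_add b1 b3
  by_contra hne
  have hD := abs_pos.2 (sub_ne_zero.2 hne)
  set D := |M (lap η ::ₘ S.val.map f) - ∑ j ∈ S, -ip η (f j) * N ((S.erase j).val.map f)|
  have h1 := key (min 1 (D / (2 * K))) (lt_min one_pos (by positivity)) (min_le_left _ _)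
  have h2 : min 1 (D / (2 * K)) * K ≤ D / (2 * K) * K :=
    mul_le_mul_of_nonneg_right (min_le_right _ _) hK0.le
  have h3 : D / (2 * K) * K = D / 2 := by field_simp
  linarith

theorem iIbp : IbpSt := fun _ _ K hV hM hR _ _ S f _ hf hη hηV =>
  IIbp_idx hM.toCl1 (IIbp_cl1 hM.toCl1 K) S hη
    (fun f' hf' hd => IIbp_strip hV hM hR S f' hf' hd hη hηV) f hf

end Vale.Agent.P145.Ib
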