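import Vale.Agent.P145.IBas

/-! P145, block I: the uniform statement. -/

open Filter Topology

namespace Vale.Agent.P145.Ib

open Vale.Agent.P152

theorem IInd_rp (hg : Geo) {F : Ht → ℝ} {w : Cfg → ℝ} (h : Rp F w) (g g' : Vx →₀ ℝ)
    (φ : ℝ → ℝ → ℝ) : Rp (F * fun k => φ (XH g k) (XH g' k))
      (w * fun ζ => φ (XX g ζ) (XX g' ζ)) :=
  ⟨h.1.mul ((Loc.XX g).comp₂ (Loc.XX g') φ), fun k hk => by
    simp only [av, Pi.mul_apply, XH_hsh, h.2 k hk, hg.xh _ k hk]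
    ring⟩

theorem IInd_wall {κ : Type} [Fintype κ] {a b : κ → Pl} {δ : ℝ} {ρ : κ → Ht → ℝ}
    (h : Wall a b δ ρ) : Ob Set.univ (∏ j, ρ j) ∧ ∀ k, |(∏ j, ρ j) k| ≤ 1 :=
  ⟨Ob.prod _ fun j _ => (h j).2.univ, fun k => by
    rw [Finset.prod_apply, Finset.abs_prod]
    exact Finset.prod_le_one (fun _ _ => abs_nonneg _) fun j _ => (h j).1 k⟩

theorem IInd_unif {α : Type} {l : Filter ℝ} (P Q : ℝ → α → Prop) (h0 : ∀ δ, ∃ x, P δ x)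
    (h : ∀ x : ℝ → α, (∀ δ, P δ (x δ)) → ∀ᶠ δ in l, Q δ (x δ)) :
    ∀ᶠ δ in l, ∀ x, P δ x → Q δ x := by
  have h1 : ∀ δ, ∃ x, P δ x ∧ (Q δ x → ∀ y, P δ y → Q δ y) := fun δ => by
    by_cases k : ∃ y, P δ y ∧ ¬Q δ y
    · obtain ⟨y, k1, k2⟩ := k
      exact ⟨y, k1, fun q => absurd q k2⟩
    · obtain ⟨x, hx⟩ := h0 δ
      exact ⟨x, hx, fun _ y hy => not_not.1 fun q => k ⟨y, hy, q⟩⟩
  choose x x1 x2 using h1
  exact (h x x1).mono x2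

theorem iInd (hg : GeoSt) (hr : RepSt) (ho : One2St) (h3 : I3St) (h4 : I4St) : IndSt := by
  intro E K hE hG κ _ a b η f G H hη hV hf hG' hH ε hε
  have hR := hr E hE.toSt0
  refine IInd_unif (fun δ ρ => Wall a b δ ρ) _
    (fun δ => ⟨fun _ _ => 1, fun j => ⟨fun _ => abs_one.le, Ob.const _ 1⟩⟩) fun ρ hρ => ?_
  choose w w1 w2 using fun δ => hR.ex _ (IInd_wall (hρ δ)).1
  have hW : Wt w := Eventually.of_forall fun δ => ⟨(w1 δ).1, w2 δ 1 (IInd_wall (hρ δ)).2⟩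
  obtain ⟨o1, o2⟩ := ho E hE κ a b ρ w (Eventually.of_forall fun δ => ⟨hρ δ, w1 δ⟩)
  have i3 := h3 E K w _ hE hG hW o1 o2
  obtain ⟨i4, i2⟩ := h4 E K w _ hE hW i3
  have t : ∀ {u : ℝ → ℝ}, Tendsto u (𝓝[>] 0) (𝓝 0) → ∀ᶠ δ in 𝓝[>] (0 : ℝ), |u δ| ≤ ε :=
    fun hu => by
      have := hu.abs
      rw [abs_zero] at this
      exact this.eventually (ge_mem_nhds hε)
  filter_upwards [t (i3 η f G H hη hV hf hG' hH), t (i4 η f G H hη hV hf hG' hH),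
    t (i2 η f G H hη hV hf hG' hH)] with δ k3 k4 k2
  have e1 := hR.eq _ _ (IInd_rp hg (w1 δ) (H δ) (G δ) fun x y => x * Real.exp y)
  have e2 := hR.eq _ _ (IInd_rp hg (w1 δ) (G δ) (G δ) fun x _ => Real.exp x)
  have e3 := hR.eq _ _ (IInd_rp hg (w1 δ) (G δ + H δ) (G δ) fun x _ => Real.exp x)
  have e4 := hR.eq _ _ (IInd_rp hg (w1 δ) (G δ) (H δ) fun x y => x * Real.exp y)
  have e5 : SS E ((∏ j, ρ δ j) * XH (G δ)) = E ∅ (w δ * XX (G δ)) :=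
    hR.eq _ _ (IInd_rp hg (w1 δ) (G δ) (G δ) fun x _ => x)
  rw [e1, e2, e3, e4, e5, hR.eq _ _ (w1 δ)]
  exact ⟨k3, k4, k2⟩

end Vale.Agent.P145.Ib
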