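import Vale.Agent.P145.IBas
import Vale.Agent.P152.EMain

/-! P145, block I: the localized null property with a wall. -/

open Filter Topology

namespace Vale.Agent.P145.Ib

open Vale.Agent.P152

theorem ILoc_cls {r W Y1 Y2 : ℝ} {a b z : Pl} {t : Site} {c : ℤ} (hr : 0 < r)
    (hz : dist z ((r * t.1, r * t.2) : Pl) ≤ r) (hW : ((c : ℝ) + 6) * r ≤ W) (hab : a ≤ b)
    (h : z.2 + Y1 + W ≤ a.2 ∨ b.2 ≤ z.2 - Y2 - W ∨ (z.2 - Y2 ≤ a.2 ∧ b.2 ≤ z.2 + Y1 ∧
      (z.1 + z.2 + W ≤ a.1 + a.2 ∨ b.1 + b.2 ≤ z.1 + z.2 - W))) :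
    Cls t (⌈Y1 / r⌉ + 1) (⌈Y2 / r⌉ + 2) c (⌊a.1 / r⌋, ⌊a.2 / r⌋) (⌊b.1 / r⌋, ⌊b.2 / r⌋) := by
  have key : ∀ {x y : ℝ}, x ≤ y → x / r ≤ y / r := fun h => div_le_div_of_nonneg_right h hr.le
  rw [Prod.dist_eq, max_le_iff, Real.dist_eq, Real.dist_eq, abs_le, abs_le] at hz
  have z1 := key hz.1.1
  have z2 := key hz.1.2
  have z3 := key hz.2.1
  have z4 := key hz.2.2
  have w := key hW
  simp only [sub_div, neg_div, div_self hr.ne', mul_div_cancel_left₀ _ hr.ne',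
    mul_div_cancel_right₀ _ hr.ne'] at z1 z2 z3 z4 w
  have a1 := Int.lt_floor_add_one (a.1 / r)
  have a2 := Int.lt_floor_add_one (a.2 / r)
  have b1 := Int.floor_le (b.1 / r)
  have b2 := Int.floor_le (b.2 / r)
  have y1 := Int.le_ceil (Y1 / r)
  have y2 := Int.le_ceil (Y2 / r)
  have y3 := Int.ceil_lt_add_one (Y1 / r)
  have y4 := Int.ceil_lt_add_one (Y2 / r)
  refine ⟨Int.floor_mono (key hab.1), Int.floor_mono (key hab.2), ?_⟩
  simp only [← Int.cast_le (R := ℝ)]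
  push_cast
  rcases h with h | h | ⟨h1, h2, h⟩
  · have h := key h
    simp only [add_div] at h
    exact Or.inl (by linarith)
  · have h := key h
    simp only [sub_div] at h
    exact Or.inr (Or.inl (by linarith))
  · have h1 := key h1
    have h2 := key h2
    simp only [add_div, sub_div] at h1 h2
    refine Or.inr (Or.inr ⟨by linarith, by linarith, h.imp (fun h => ?_) fun h => ?_⟩) <;>
    · have h := key h
      simp only [add_div, sub_div] at h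
      linarith

theorem ILoc_near {R m t H : ℤ} (h0 : |R - 2 * m| ≤ 2) (h1 : |m - 2 * H * t| ≤ 2 * H + 2 + 2 * |t|)
    (h2 : |t| + 2 ≤ H) : |R - 4 * H * t| ≤ 8 * H := by
  rw [abs_le] at h0 h1 ⊢
  constructor <;> linarith [h0.1, h0.2, h1.1, h1.2]

theorem ILoc_floor {r x : ℝ} (hr : 0 < r) : |x - r * ⌊x / r⌋| ≤ r := by
  have h1 := (le_div_iff₀' hr).1 (Int.floor_le (x / r))
  have h2 := (div_lt_iff₀' hr).1 (Int.lt_floor_add_one (x / r))
  rw [abs_le]
  constructor <;> linarith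

theorem ILoc_abs {lo hi x : ℤ} (h1 : lo ≤ x) (h2 : x ≤ hi) : |x| ≤ |lo| + |hi| := by
  rw [abs_le]
  constructor <;> linarith [le_abs_self hi, neg_abs_le lo, abs_nonneg lo, abs_nonneg hi]

theorem iLoc (hr : RepSt) (hs : S1St) (ha : All2St) : Loc2St := by
  intro E hE r k η g t D κ _ a b W z ρ r0 hD hη hg s0 s1 ht hz hA hW hρ
  classical
  have hR := hr E hE.toSt0
  have hS := hs E hE
  obtain ⟨G, G0, G1⟩ : ∃ G : Fin (k + 1) → Bool → Pl → ℝ, G 0 = grd η ∧ ∀ j, G j.succ = g j :=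
    ⟨Fin.cons (grd η) g, rfl, fun _ => rfl⟩
  have hG : ∀ i b, Sm (G i b) ∧
      tsupport (G i b) ⊆ Metric.closedBall ((r * (t i).1, r * (t i).2) : Pl) r := fun i b => by
    refine Fin.cases ?_ (fun j => ?_) i
    · rw [G0]; exact ⟨eLoc_sm hη b, (eLoc_supp η b).trans s0⟩
    · rw [G1]; exact ⟨hg j b, s1 j b⟩
  choose M hM using fun i => eSamp (G i) fun b => (hG i b).1
  choose C hC using fun i => (eMom E hE).2 (Fintype.card (Fin (k + 1) ⊕ κ)) (M i)
  obtain ⟨lo, hlo⟩ : ∃ lo : Fin (k + 1) ⊕ κ → Site,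
      lo = Sum.elim t fun j => (⌊(a j).1 / r⌋, ⌊(a j).2 / r⌋) := ⟨_, rfl⟩
  obtain ⟨hi, hhi⟩ : ∃ hi : Fin (k + 1) ⊕ κ → Site,
      hi = Sum.elim t fun j => (⌊(b j).1 / r⌋, ⌊(b j).2 / r⌋) := ⟨_, rfl⟩
  have key := ha (SS E) hS k κ
    (Sum.elim (fun i l => Xs (D l) (G i) ∘ lgs) fun j l => ρ l j) (fun l => ⌊r / (2 * D l)⌋₊) lo hi
    (1 + ∑ i, |C i|) ?_ ?_ ?_
  · refine key.congr fun l => congrArg (SS E) ?_
    funext h
    simp only [Fintype.prod_sum_type, Fin.prod_univ_succ, Finset.prod_apply, Sum.elim_inl,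
      Sum.elim_inr, Pi.mul_apply, Function.comp_apply, G0, G1]
    exact mul_comm _ _
  · obtain ⟨Y1, Y2, y1, y2, hY⟩ := hA
    subst hlo hhi
    refine ⟨fun _ => rfl, ht, ⌈Y1 / r⌉ + 1, ⌈Y2 / r⌉ + 2, by positivity, by positivity, fun j => ?_⟩
    exact ILoc_cls r0 hz (by push_cast; exact hW) (hY j).1 (hY j).2
  · have h1 := eventually_all.2 fun i : Fin (k + 1) ⊕ κ => eLoc_scale hD r0
      (2 * (|((lo i).1 : ℝ)| + |((hi i).1 : ℝ)| + (|((lo i).2 : ℝ)| + |((hi i).2 : ℝ)|) + 2) + 2)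
    filter_upwards [h1, hρ] with l hl hw
    have h2 : ∀ i, |(lo i).1| + |(hi i).1| + (|(lo i).2| + |(hi i).2|) + 2 ≤
        (⌊r / (2 * D l)⌋₊ : ℤ) := fun i => by
      obtain ⟨-, -, a3, -, a5, a6⟩ := hl i
      have : |((lo i).1 : ℝ)| + |((hi i).1 : ℝ)| + (|((lo i).2 : ℝ)| + |((hi i).2 : ℝ)|) + 2 ≤
          ⌊r / (2 * D l)⌋₊ := by linarith
      exact_mod_cast this
    obtain ⟨a1, a2, -, a4, a5, -⟩ := hl (.inl 0)
    have h3 : ∀ i (x m : Site) (p : Pt), InB (lo i) (hi i) x → |D l * m.1 - r * x.1| ≤ r →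
        |D l * m.2 - r * x.2| ≤ r → |(rpos p).1 - 2 * m.1| ≤ 2 → |(rpos p).2 - 2 * m.2| ≤ 2 →
        p ∈ Reg (⌊r / (2 * D l)⌋₊ : ℕ) (lo i) (hi i) := fun i x m p hx c1 c2 d1 d2 => by
      have e0 := h2 i
      have e1 := ILoc_abs hx.1 hx.2.1
      have e2 := ILoc_abs hx.2.2.1 hx.2.2.2
      have e3 := abs_nonneg x.1
      have e4 := abs_nonneg x.2
      exact ⟨x, hx, max_le (ILoc_near d1 (eLoc_coord a1 a4 a5 c1) (by linarith))
        (ILoc_near d2 (eLoc_coord a1 a4 a5 c2) (by linarith))⟩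
    have hC0 : 0 ≤ ∑ i, |C i| := Finset.sum_nonneg fun _ _ => abs_nonneg _
    refine ⟨?_, fun i => ?_⟩
    · have := h2 (.inl 0)
      have := abs_nonneg (lo (.inl 0)).1
      have := abs_nonneg (lo (.inl 0)).2
      have := abs_nonneg (hi (.inl 0)).1
      have := abs_nonneg (hi (.inl 0)).2
      omega
    rcases i with i | j
    · obtain ⟨F, f1, f2, f3, f4⟩ := hM i (D l) a1 a2
      show Ob _ (Xs (D l) (G i) ∘ lgs) ∧ SS E ((Xs (D l) (G i) ^ _) ∘ lgs) ≤ _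
      rw [f1, hR.lnk _ ((Loc.XX F).pow _)]
      refine ⟨ob_lgs (f4 {e | (pvx e, true) ∈ _ ∧ (plq e, false) ∈ _} fun m hm j => ?_)
        fun _ he => he, ?_⟩
      · rw [f3] at hm
        have c := (hG i m.2).2 (subset_tsupport _ (right_ne_zero_of_mul hm))
        rw [Metric.mem_closedBall, Prod.dist_eq, max_le_iff, Real.dist_eq, Real.dist_eq] at c
        have hx : InB (lo (.inl i)) (hi (.inl i)) (t i) := by
          subst hlo hhi
          exact ⟨le_rfl, le_rfl, le_rfl, le_rfl⟩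
        obtain ⟨d1, d2⟩ := eLoc_lg m j
        have d3 := rpos_cell (lg m j).1 _ (Or.inl rfl)
        have d4 := rpos_cell (lg m j).1 _ (Or.inr rfl)
        rw [abs_le] at d1 d2
        exact ⟨h3 _ _ m.1 _ hx c.1 c.2 (abs_le.2 (by omega)) (abs_le.2 (by omega)),
          h3 _ _ m.1 _ hx c.1 c.2 (abs_le.2 (by omega)) (abs_le.2 (by omega))⟩
      · have := Finset.single_le_sum (f := fun i => |C i|) (fun _ _ => abs_nonneg _)
          (Finset.mem_univ i)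
        linarith [hC i F f2, le_abs_self (C i)]
    · obtain ⟨w1, w2⟩ := hw j
      show Ob _ (ρ l j) ∧ SS E (ρ l j ^ _) ≤ _
      refine ⟨w2.mono fun p hp => ?_, ?_⟩
      · have d := rpos_near p
        refine h3 _ (⌊D l * p.1.1 / r⌋, ⌊D l * p.1.2 / r⌋) p.1 p ?_ (ILoc_floor r0) (ILoc_floor r0)
          (abs_le.2 (by omega)) (abs_le.2 (by omega))
        subst hlo hhi
        exact ⟨Int.floor_mono (div_le_div_of_nonneg_right hp.1.1 r0.le),
          Int.floor_mono (div_le_div_of_nonneg_right hp.2.1 r0.le),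
          Int.floor_mono (div_le_div_of_nonneg_right hp.1.2 r0.le),
          Int.floor_mono (div_le_div_of_nonneg_right hp.2.2 r0.le)⟩
      · have := hS.toS0.mono (w2.univ.pow (2 * Fintype.card (Fin (k + 1) ⊕ κ))) (Ob.one _)
          fun h _ => (le_abs_self _).trans (by
            rw [Pi.pow_apply, abs_pow]; exact pow_le_one₀ (abs_nonneg _) (w1 h))
        rw [hS.one] at this
        linarith
  · intro s hs'
    have h1 := eZero eMom eSamp (eKer eMom) eTay E hE η hη D hD s r r0 ?_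
    · refine h1.congr' ?_
      filter_upwards [eLoc_scale hD r0 0] with l hl
      obtain ⟨F, f1, -⟩ := hM 0 (D l) hl.1 hl.2.1
      have h2 : Loc (Xs (D l) (grd η)) := by rw [← G0, f1]; exact Loc.XX F
      rw [← hR.lnk _ (((h2.mv _).mv _).mul (h2.mv _))]
      refine congrArg (SS E) (funext fun h => ?_)
      simp only [Sum.elim_inl, G0, hmv, Pi.mul_apply, Function.comp_apply, mv_apply, lgs_tr, lgs_fo]
    subst hlo
    filter_upwards [hs', eLoc_scale hD r0 (7 + 2 * |((t 0).1 : ℝ)|)] with l h2 h3 x hx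
    obtain ⟨a1, -, a3, a4, a5, a6⟩ := h3
    have h4 := (abs_le.1 (eLoc_ball a1 a4 a5 s0 hx).1).1
    rw [Sum.elim_inl] at h2
    have h5 : 4 * (⌊r / (2 * D l)⌋₊ : ℤ) - 3 - 2 * |(t 0).1| ≤ x.1 + (s l).1 - 1 := by linarith
    have h6 : 4 * (⌊r / (2 * D l)⌋₊ : ℝ) - 3 - 2 * |((t 0).1 : ℝ)| ≤ x.1 + (s l).1 - 1 := by
      exact_mod_cast h5
    linarith

end Vale.Agent.P145.Ib
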