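import Vale.Agent.P145.IBas
import Vale.Agent.P152.FMU

/-! P145, block I: the weighted limit moments. -/

open Filter Topology

namespace Vale.Agent.P145.Ib

open Vale.Agent.P152

variable {E : Fn} {w : ℝ → Cfg → ℝ} {U : Ultrafilter ℝ}

theorem IMW_cs (h : St0 E) {u P : Cfg → ℝ} (hu : Loc u ∧ ∀ ζ, |u ζ| ≤ 1) (hP : Loc P) :
    E ∅ (u * P) ^ 2 ≤ E ∅ (P ^ 2) := by
  have h2 : E ∅ (u ^ 2) ≤ 1 :=
    (le_abs_self _).trans (h.abs_le_const ∅ (hu.1.pow 2) zero_le_one fun ζ _ => by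
      rw [Pi.pow_apply, abs_pow]
      exact pow_le_one₀ (abs_nonneg _) (hu.2 ζ))
  exact (h.cs ∅ hu.1 hP).trans (mul_le_of_le_one_left (h.sq_nonneg ∅ hP) h2)

theorem IMW_nn {F : ℝ → Cfg → ℝ} {b : ℝ} (h : FMU_Rp F b) : 0 ≤ b := by
  obtain ⟨a, β, h1, h2⟩ := h
  exact ge_of_tendsto h1 (h2.mono fun δ hδ => (Real.sqrt_nonneg _).trans hδ.2.2)

theorem IMW_key (h : St E) (hw : Wt w) : ∃ C : ℕ → ℝ, (∀ n, 0 ≤ C n) ∧
    ∀ {ι : Type} (v : Multiset ι) (F : ι → ℝ → Cfg → ℝ) (b : ι → ℝ),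
      (∀ i ∈ v, FMU_Rp (F i) (b i)) → ∃ β : ℝ → ℝ,
        Tendsto β (𝓝[>] 0) (𝓝 (C (Multiset.card v) * (v.map b).prod)) ∧
          ∀ᶠ δ in 𝓝[>] (0 : ℝ), |E ∅ (w δ * (v.map fun i => F i δ).prod)| ≤ β δ := by
  obtain ⟨C, hC0, hC⟩ := FMU_key h
  refine ⟨fun n => √(C (n + n)), fun n => Real.sqrt_nonneg _, fun v F b hv => ?_⟩
  obtain ⟨β, h1, h2⟩ := hC (v + v) F b fun i hi => hv i ((Multiset.mem_add.1 hi).elim id id)
  refine ⟨fun δ => √(β δ), ?_, ?_⟩
  · have h3 := h1.sqrt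
    have h4 : 0 ≤ (v.map b).prod := Multiset.prod_nonneg fun x hx => by
      obtain ⟨i, hi, rfl⟩ := Multiset.mem_map.1 hx
      exact IMW_nn (hv i hi)
    rwa [Multiset.card_add, Multiset.map_add, Multiset.prod_add, Real.sqrt_mul (hC0 _),
      Real.sqrt_mul_self h4] at h3
  · filter_upwards [h2, hw, FMU_evloc v fun i hi => ⟨_, hv i hi⟩] with δ e1 e2 e3
    refine Real.abs_le_sqrt ((IMW_cs h.toSt0 e2 e3).trans ((le_abs_self _).trans ?_))
    rwa [Multiset.map_add, Multiset.prod_add, ← sq] at e1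

theorem IMW_small (h : St E) (hw : Wt w) {G : ℝ → Cfg → ℝ} (hG : FMU_Rp G 0)
    (v : Multiset (ℝ → Cfg → ℝ)) (hv : ∀ F ∈ v, ∃ b, FMU_Rp F b) :
    Tendsto (fun δ => E ∅ (w δ * (G δ * (v.map fun F => F δ).prod))) (𝓝[>] 0) (𝓝 0) := by
  classical
  obtain ⟨C, -, hC⟩ := IMW_key h hw
  choose! b hb using hv
  obtain ⟨β, h1, h2⟩ := hC (G ::ₘ v) (fun F => F) (Function.update b G 0) fun F hF => by
    by_cases e : F = G
    · rw [e, Function.update_self]
      exact hG
    · rw [Function.update_of_ne e]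
      exact hb F ((Multiset.mem_cons.1 hF).resolve_left e)
  rw [Multiset.map_cons, Multiset.prod_cons, Function.update_self, zero_mul, mul_zero] at h1
  simp only [Multiset.map_cons, Multiset.prod_cons] at h2
  exact squeeze_zero_norm' h2 h1

theorem IMW_tel (h : St E) (hw : Wt w) {ι : Type} (F G : ι → ℝ → Cfg → ℝ) (u : Multiset ι)
    (hu : ∀ i ∈ u, (∃ b, FMU_Rp (F i) b) ∧ (∃ b, FMU_Rp (G i) b) ∧
      FMU_Rp (fun δ => F i δ - G i δ) 0) :
    ∀ v : Multiset (ℝ → Cfg → ℝ), (∀ F ∈ v, ∃ b, FMU_Rp F b) →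
      Tendsto (fun δ => E ∅ (w δ * ((u.map fun i => F i δ).prod * (v.map fun F => F δ).prod)) -
        E ∅ (w δ * ((u.map fun i => G i δ).prod * (v.map fun F => F δ).prod))) (𝓝[>] 0)
        (𝓝 0) := by
  induction u using Multiset.induction_on with
  | empty => simp
  | cons i u ih =>
    intro v hv
    obtain ⟨a1, a2, a3⟩ := hu i (Multiset.mem_cons_self _ _)
    have hu' := fun j hj => hu j (Multiset.mem_cons_of_mem hj)
    have h1 := ih hu' (F i ::ₘ v) fun H hH => by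
      rcases Multiset.mem_cons.1 hH with rfl | hH
      exacts [a1, hv H hH]
    have h2 := IMW_small h hw a3 (u.map G + v) fun H hH => by
      rcases Multiset.mem_add.1 hH with hH | hH
      · obtain ⟨j, hj, rfl⟩ := Multiset.mem_map.1 hH
        exact (hu' j hj).2.1
      · exact hv H hH
    have h3 := h1.add h2
    rw [add_zero] at h3
    refine h3.congr' ?_
    filter_upwards [FMU_evloc {i} (F := F) (by simpa using a1),
      FMU_evloc {i} (F := G) (by simpa using a2), FMU_evloc u fun j hj => (hu' j hj).2.1,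
      FMU_evloc v (F := fun H => H) hv, hw] with δ l1 l2 l3 l4 l5
    simp only [Multiset.map_singleton, Multiset.prod_singleton] at l1 l2
    simp only [Multiset.map_cons, Multiset.prod_cons, Multiset.map_add, Multiset.prod_add,
      Multiset.map_map, Function.comp_def]
    rw [sub_mul, mul_sub, h.toSt0.sub ∅ (l5.1.mul (l1.mul (l3.mul l4)))
      (l5.1.mul (l2.mul (l3.mul l4))), mul_left_comm (u.map fun i => F i δ).prod,
      mul_left_comm (u.map fun i => G i δ).prod, mul_assoc (F i δ), mul_assoc (G i δ)]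
    ring

theorem IMW_tend (h : St E) (hw : Wt w) (hU : (U : Filter ℝ) ≤ 𝓝[>] 0) {s} (hs : Tests s) :
    Tendsto (fun δ => E ∅ (w δ * (s.map (Ys δ)).prod)) U (𝓝 (MW E w U s)) := by
  obtain ⟨C, -, hC⟩ := IMW_key h hw
  choose! b hb using fun f (hf : f ∈ s) => FMU_test (hs f hf)
  obtain ⟨β, h1, h2⟩ := hC s (fun f δ => Ys δ f) b hb
  set B := C (Multiset.card s) * (s.map b).prod + 1
  obtain ⟨a, -, ha⟩ := (isCompact_Icc (a := -B) (b := B)).ultrafilter_le_nhds
    (U.map fun δ => E ∅ (w δ * (s.map (Ys δ)).prod)) (by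
      rw [le_principal_iff, Ultrafilter.coe_map, mem_map]
      filter_upwards [hU h2, hU (h1.eventually (ge_mem_nhds (lt_add_one _)))] with δ e1 e2
      exact abs_le.1 (le_trans e1 e2))
  exact tendsto_nhds_limUnder ⟨a, ha⟩

theorem IMW_lim (h : St E) (hw : Wt w) (hU : (U : Filter ℝ) ≤ 𝓝[>] 0)
    (t : Multiset ((Pl → ℝ) × (ℝ → Vx →₀ ℝ))) (ht : ∀ p ∈ t, IsTest p.1 ∧ Apx p.1 p.2) :
    Tendsto (fun δ => E ∅ (w δ * (t.map fun p => XX (p.2 δ)).prod)) U
      (𝓝 (MW E w U (t.map Prod.fst))) := by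
  have h1 := IMW_tend h hw hU (s := t.map Prod.fst) fun f hf => by
    obtain ⟨p, hp, rfl⟩ := Multiset.mem_map.1 hf
    exact (ht p hp).1
  have h2 := (IMW_tel h hw (fun p δ => Ys δ p.1) (fun p δ => XX (p.2 δ)) t (fun p hp =>
    ⟨FMU_test (ht p hp).1, FMU_apx (ht p hp).1 (ht p hp).2⟩) 0 (by simp)).mono_left hU
  have h3 := h1.sub h2
  rw [sub_zero] at h3
  refine h3.congr fun δ => ?_
  simp [Multiset.map_map]

theorem IMW_dom (h : St E) (hw : Wt w) (hU : (U : Filter ℝ) ≤ 𝓝[>] 0) :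
    Dom (MW E w U) (MU E U) := by
  intro n a s hs
  have h1 : Tendsto (fun δ => ∑ i, ∑ j, a i * a j * E ∅ ((s i + s j).map (Ys δ)).prod) U
      (𝓝 (∑ i, ∑ j, a i * a j * MU E U (s i + s j))) :=
    tendsto_finsetSum _ fun i _ => tendsto_finsetSum _ fun j _ =>
      (mu_tend h hU fun f hf => (Multiset.mem_add.1 hf).elim (hs i f) (hs j f)).const_mul _
  have h0 : Tendsto (fun δ => (∑ i, a i * E ∅ (w δ * ((s i).map (Ys δ)).prod)) ^ 2) U
      (𝓝 ((∑ i, a i * MW E w U (s i)) ^ 2)) :=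
    (tendsto_finsetSum _ fun i _ => (IMW_tend h hw hU (hs i)).const_mul _).pow 2
  refine le_of_tendsto_of_tendsto h0 h1 ?_
  filter_upwards [FMU_pos hU, hU hw] with δ hδ e
  have l : ∀ i, Loc (a i • ((s i).map (Ys δ)).prod) := fun i => (FMU_locs hδ (hs i)).smul _
  have h2 := IMW_cs h.toSt0 e (Loc.sum Finset.univ fun i _ => l i)
  rw [sq (∑ i, a i • ((s i).map (Ys δ)).prod), Finset.sum_mul_sum,
    h.toSt0.sum ∅ _ fun i _ => Loc.sum _ fun j _ => (l i).mul (l j), Finset.mul_sum,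
    h.toSt0.sum ∅ _ fun i _ => e.1.mul (l i)] at h2
  refine le_of_eq_of_le (congrArg (· ^ 2) (Finset.sum_congr rfl fun i _ => ?_))
    (h2.trans_eq (Finset.sum_congr rfl fun i _ => ?_))
  · rw [mul_smul_comm, h.smul _ _ _ (e.1.mul (FMU_locs hδ (hs i)))]
  · rw [h.toSt0.sum ∅ _ fun j _ => (l i).mul (l j)]
    refine Finset.sum_congr rfl fun j _ => ?_
    rw [smul_mul_smul_comm, h.smul _ _ _ ((FMU_locs hδ (hs i)).mul (FMU_locs hδ (hs j))),
      Multiset.map_add, Multiset.prod_add]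

theorem IMW_cl0 (h : St E) (hw : Wt w) (hU : (U : Filter ℝ) ≤ 𝓝[>] 0) {V : Set Pl}
    (h1 : E1W E w V) : Cl0V V (MW E w U) where
  add f g s hf hg hs := by
    refine tendsto_nhds_unique (IMW_tend h hw hU (FMU_cons (hf.add hg) hs))
      (((IMW_tend h hw hU (FMU_cons hf hs)).add (IMW_tend h hw hU (FMU_cons hg hs))).congr' ?_)
    filter_upwards [FMU_pos hU, hU hw] with δ hδ e
    simp only [Multiset.map_cons, Multiset.prod_cons]
    rw [Ys_add hδ hf.sm hg.sm, add_mul, mul_add,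
      h.add _ _ _ (e.1.mul ((floc_Ys hδ hf.sm).mul (FMU_locs hδ hs)))
        (e.1.mul ((floc_Ys hδ hg.sm).mul (FMU_locs hδ hs)))]
  smul a f s hf hs := by
    refine tendsto_nhds_unique (IMW_tend h hw hU (FMU_cons (hf.smul a) hs))
      (((IMW_tend h hw hU (FMU_cons hf hs)).const_mul a).congr' ?_)
    filter_upwards [FMU_pos hU, hU hw] with δ hδ e
    simp only [Multiset.map_cons, Multiset.prod_cons]
    rw [Ys_smul, smul_mul_assoc, mul_smul_comm,
      h.smul _ _ _ (e.1.mul ((floc_Ys hδ hf.sm).mul (FMU_locs hδ hs)))]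
  bdd := by
    obtain ⟨C, hC0, hC⟩ := IMW_key h hw
    refine ⟨fun n => C n * 2 ^ n, fun n => by have := hC0 n; positivity, fun t ht => ?_⟩
    obtain ⟨β, a1, a2⟩ := hC t (fun p δ => Ys δ p.1) (fun p => 2 * p.2) fun p hp => FMU_Ys (ht p hp)
    have a3 := (IMW_tend h hw hU (s := t.map Prod.fst) fun f hf => by
      obtain ⟨p, hp, rfl⟩ := Multiset.mem_map.1 hf
      exact (ht p hp).test).abs
    rw [Multiset.prod_map_mul, Multiset.map_const', Multiset.prod_replicate, ← mul_assoc] at a1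
    refine le_of_tendsto_of_tendsto a3 (a1.mono_left hU) ?_
    filter_upwards [hU a2] with δ hδ
    rw [Multiset.map_map]
    exact hδ
  null0 η t hη hV ht hd := by
    have a1 := IMW_lim h hw hU ((grd η ::ₘ t).map fun g => (dv g, fun δ => -smpl δ g))
      fun p hp => by
        obtain ⟨g, hg, rfl⟩ := Multiset.mem_map.1 hp
        have : SmV g := by
          rcases Multiset.mem_cons.1 hg with rfl | hg
          exacts [sm_grd hη, ht g hg]
        exact ⟨test_dv this, apx_dv this⟩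
    obtain ⟨l, rfl⟩ : ∃ l : List (Bool → Pl → ℝ), t = l := ⟨t.toList, t.coe_toList.symm⟩
    have hm : ∀ j : Fin l.length, l[j.1] ∈ (l : Multiset (Bool → Pl → ℝ)) := fun j => by simp
    have a2 := ((h1 η l.length (fun j => l[j.1]) hη hV (fun j => ht _ (hm j))
      fun j => hd _ (hm j)).mono_left hU).const_mul ((-1) ^ (l.length + 1))
    rw [mul_zero] at a2
    have e : ((grd η ::ₘ (l : Multiset (Bool → Pl → ℝ))).map
        fun g => (dv g, fun δ => -smpl δ g)).map Prod.fst = lap η ::ₘ Multiset.map dv l := by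
      rw [Multiset.map_map, Multiset.map_cons]
      rfl
    rw [e] at a1
    refine tendsto_nhds_unique a1 (a2.congr' ?_)
    filter_upwards [FMU_pos hU, hU hw] with δ hδ e
    have lx : ∀ g, SmV g → Loc (Xs δ g) := fun g hg => XX_smpl hδ hg ▸ floc_XX _
    rw [← h.smul _ _ _
        (e.1.mul ((lx _ (sm_grd hη)).mul (Loc.prod _ fun j _ => lx _ (ht _ (hm j))))),
      Multiset.map_map, Multiset.map_congr rfl (g := Neg.neg ∘ Xs δ) fun g hg => ?_,
      ← Multiset.map_map, Multiset.prod_map_neg, Fin.prod_univ_fun_getElem l (Xs δ)]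
    · congr 1
      funext ζ
      simp [mul_left_comm]
    · have : SmV g := by
        rcases Multiset.mem_cons.1 hg with rfl | hg
        exacts [sm_grd hη, ht g hg]
      simp only [Function.comp_apply, fXX_neg, XX_smpl hδ this]

theorem iMW : MWSt := fun _ _ _ h hw hU =>
  ⟨IMW_lim h hw hU, IMW_dom h hw hU, fun _ h1 => IMW_cl0 h hw hU h1⟩

end Vale.Agent.P145.Ib
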