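import Vale.Agent.P145.IDefs2

/-! P145, block I: the open edges are given by independent marks. -/

open Filter Topology

namespace Vale.Agent.P145.Ib

open Vale.Agent.P152

/-- the law of the marks -/
noncomputable def iMark_p (c : ℝ) (D : Finset Site) (ξ : Finset Vx) : ℝ :=
  (∏ _m ∈ ξ, 1 / c) * ∏ _m ∈ vin D \ ξ, (1 - 1 / c)

theorem iMark_nonneg {c : ℝ} (hc : 1 ≤ c) (D : Finset Site) (ξ : Finset Vx) :
    0 ≤ iMark_p c D ξ := by
  have h1 : 1 / c ≤ 1 := by
    rw [div_le_one (by linarith)]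
    exact hc
  exact mul_nonneg (Finset.prod_nonneg fun _ _ => by positivity)
    (Finset.prod_nonneg fun _ _ => by linarith)

theorem iMark_sum (c : ℝ) (D : Finset Site) : ∑ ξ ∈ (vin D).powerset, iMark_p c D ξ = 1 := by
  unfold iMark_p
  rw [← Finset.prod_add]
  simp

theorem iMark_edge {c : ℝ} (hc : 1 ≤ c) (h : Ht) (ω : Finset Vx) (m : Vx) :
    ow c h ω m = hv c h m *
      (1 / c * (if (m ∈ ω ↔ h (src m, true) = h (tgt m, true)) then 1 else 0) +
        (1 - 1 / c) * if (m ∈ ω ↔ h (src m, true) = h (tgt m, true) ∧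
          h (fa m, false) ≠ h (fb m, false)) then 1 else 0) := by
  have h0 : c ≠ 0 := by linarith
  unfold ow ag hv
  by_cases h1 : m ∈ ω <;> by_cases h2 : h (src m, true) = h (tgt m, true) <;>
    by_cases h3 : h (fa m, false) = h (fb m, false) <;> simp [h1, h2, h3] <;> field_simp

theorem iMark_ind (c : ℝ) (D : Finset Site) (h : Ht) {ω ξ : Finset Vx} (hω : ω ⊆ vin D)
    (hξ : ξ ⊆ vin D) :
    (∏ m ∈ ξ, 1 / c * (if (m ∈ ω ↔ h (src m, true) = h (tgt m, true)) then (1 : ℝ) else 0)) *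
      ∏ m ∈ vin D \ ξ, (1 - 1 / c) * (if (m ∈ ω ↔ h (src m, true) = h (tgt m, true) ∧
          h (fa m, false) ≠ h (fb m, false)) then (1 : ℝ) else 0) =
      if om D h ξ = ω then iMark_p c D ξ else 0 := by
  by_cases k : om D h ξ = ω
  · rw [if_pos k, iMark_p]
    subst k
    refine congrArg₂ (· * ·) (Finset.prod_congr rfl fun m hm => ?_)
      (Finset.prod_congr rfl fun m hm => ?_)
    · rw [if_pos, mul_one]
      simp [om, hm, hξ hm]
    · rw [Finset.mem_sdiff] at hm
      rw [if_pos, mul_one]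
      simp [om, hm.1, hm.2]
  · rw [if_neg k]
    by_contra k1
    obtain ⟨k2, k3⟩ := mul_ne_zero_iff.1 k1
    rw [Finset.prod_ne_zero_iff] at k2 k3
    refine k (Finset.ext fun m => ?_)
    by_cases hm : m ∈ vin D
    · by_cases hx : m ∈ ξ
      · have := (mul_ne_zero_iff.1 (k2 m hx)).2
        rw [ite_ne_right_iff] at this
        rw [this.1]
        simp [om, hm, hx]
      · have := (mul_ne_zero_iff.1 (k3 m (Finset.mem_sdiff.2 ⟨hm, hx⟩))).2
        rw [ite_ne_right_iff] at this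
        rw [this.1]
        simp [om, hm, hx]
    · exact iff_of_false (fun k4 => hm (Finset.mem_filter.1 k4).1) fun k4 => hm (hω k4)

theorem iMark_key {c : ℝ} (hc : 1 ≤ c) (D : Finset Site) (h : Ht) (G : Finset Vx → ℝ) :
    ∑ ω ∈ (vin D).powerset, (∏ m ∈ vin D, ow c h ω m) * G ω =
      ∑ ξ ∈ (vin D).powerset, iMark_p c D ξ * (hwt c D h * G (om D h ξ)) := by
  have h1 : ∀ ω ∈ (vin D).powerset, (∏ m ∈ vin D, ow c h ω m) * G ω =
      ∑ ξ ∈ (vin D).powerset, if om D h ξ = ω then iMark_p c D ξ * (hwt c D h * G ω) else 0 := by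
    intro ω hω
    simp only [iMark_edge hc]
    rw [Finset.prod_mul_distrib, Finset.prod_add, Finset.mul_sum, Finset.sum_mul]
    refine Finset.sum_congr rfl fun ξ hξ => ?_
    rw [iMark_ind c D h (Finset.mem_powerset.1 hω) (Finset.mem_powerset.1 hξ), hwt]
    split_ifs <;> ring
  rw [Finset.sum_congr rfl h1, Finset.sum_comm]
  refine Finset.sum_congr rfl fun ξ _ => ?_
  rw [Finset.sum_ite_eq]
  exact if_pos (Finset.mem_powerset.2 (Finset.filter_subset _ _))

theorem iMark_jn {c : ℝ} (hc : 1 ≤ c) (D : Finset Site) (F : Ht → Finset Vx → ℝ) :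
    jn c D F = ∑ ξ ∈ (vin D).powerset,
      iMark_p c D ξ * ∑ h ∈ hs D, hwt c D h * F h (om D h ξ) := by
  unfold jn
  simp only [iMark_key hc, Finset.mul_sum]
  exact Finset.sum_comm

theorem iMark : MarkSt := by
  intro c D F ε hc hF
  have h1 : jn c D 1 = ∑ h ∈ hs D, hwt c D h := by
    rw [iMark_jn hc]
    simp only [Pi.one_apply, mul_one]
    rw [← Finset.sum_mul, iMark_sum, one_mul]
  have h2 : JH c D F = ∑ ξ ∈ (vin D).powerset,
      iMark_p c D ξ * PH c D fun h => F h (om D h ξ) := by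
    rw [JH, h1, iMark_jn hc, Finset.sum_div]
    refine Finset.sum_congr rfl fun ξ _ => ?_
    rw [PH, mul_div_assoc]
  rw [h2]
  refine (Finset.abs_sum_le_sum_abs _ _).trans ?_
  calc ∑ ξ ∈ (vin D).powerset, |iMark_p c D ξ * PH c D fun h => F h (om D h ξ)|
      ≤ ∑ ξ ∈ (vin D).powerset, iMark_p c D ξ * ε := by
        refine Finset.sum_le_sum fun ξ hξ => ?_
        rw [abs_mul, abs_of_nonneg (iMark_nonneg hc D ξ)]
        exact mul_le_mul_of_nonneg_left (hF ξ (Finset.mem_powerset.1 hξ)) (iMark_nonneg hc D ξ)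
    _ = ε := by rw [← Finset.sum_mul, iMark_sum, one_mul]

end Vale.Agent.P145.Ib
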