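import Vale.Agent.P145.IBas
import Vale.Agent.P152.EMove

/-! P145, block I: Cauchy-Schwarz and one move. -/

open Filter Topology

namespace Vale.Agent.P145.Ib

open Vale.Agent.P152

section

variable {S : HF} {g g' : Pt → Pt} {U V : Set Pt} {F G : Ht → ℝ}

theorem iMove_gg (hi : ∀ p, g (g p) = p) (F : Ht → ℝ) : hmv g (hmv g F) = F := by
  rw [hmv_hmv, show g ∘ g = id from funext hi, hmv_id]

theorem iMove_symm (h0 : S0 S) (hg : Sy2 g) (hi : ∀ p, g (g p) = p) (hF : Ob U F) (hG : Ob V G) :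
    S (hmv g F * G) = S (hmv g G * F) := by
  rw [← h0.inv g hg _ ((hF.hmvu g).mul hG.univ), hmv_mul, iMove_gg hi, mul_comm]

theorem iMove_sq (h0 : S0 S) (hg : Sy2 g) (hF : Ob U F) : S (hmv g F ^ 2) = S (F ^ 2) := by
  rw [← hmv_pow, h0.inv g hg _ (hF.univ.pow 2)]

theorem iMove_bd (h0 : S0 S) (hg : Sy2 g) (hg' : Sy2 g') (hF : Ob U F) (hG : Ob V G) :
    |S (hmv g F * hmv g' G)| ≤ (S (F ^ 2) + S (G ^ 2)) / 2 := by
  have h := h0.abs_mul (hF.hmvu g) (hG.hmvu g')
  rwa [iMove_sq h0 hg hF, iMove_sq h0 hg' hG] at h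

theorem iMove_le (h0 : S0 S) (hg : Sy2 g) (hF : Ob U F) : S (hmv g F * F) ≤ S (F ^ 2) := by
  have h := h0.abs_mul (hF.hmvu g) hF.univ
  rw [iMove_sq h0 hg hF, add_self_div_two] at h
  exact (le_abs_self _).trans h

theorem iMove_tt (s t : Site) (F : Ht → ℝ) :
    hmv (trp s) (hmv (trp t) F) = hmv (trp (s + t)) F := by
  rw [hmv_hmv, trp_comp]

theorem iMove_ti (h0 : S0 S) (s : Site) (hF : Ob Set.univ F) (hG : Ob Set.univ G) :
    S (hmv (trp s) F * hmv (trp s) G) = S (F * G) := by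
  rw [← hmv_mul, h0.inv _ (.tr s) _ (hF.mul hG)]

end

theorem iCS : CS2St := by
  intro S g U h0 hg hi hr F G hF hG
  refine ⟨?_, iMove_le h0 hg hF⟩
  have a1 := (hF.hmvu g).mul hF.univ
  have a2 := (hF.hmvu g).mul hG.univ
  have a3 := (hG.hmvu g).mul hF.univ
  have a4 := (hG.hmvu g).mul hG.univ
  have key : ∀ t : ℝ, 0 ≤ S (hmv g F * F) * (t * t) + 2 * S (hmv g F * G) * t + S (hmv g G * G) := by
    intro t
    have h1 := hr _ ((hF.smul t).add hG)
    have e : hmv g (t • F + G) * (t • F + G) = (t * t) • (hmv g F * F) + t • (hmv g F * G) +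
        t • (hmv g G * F) + hmv g G * G := by
      funext k
      simp only [hmv, Pi.add_apply, Pi.mul_apply, Pi.smul_apply, smul_eq_mul]
      ring
    rw [e, h0.add _ _ (((a1.smul _).add (a2.smul _)).add (a3.smul _)) a4,
      h0.add _ _ ((a1.smul _).add (a2.smul _)) (a3.smul _), h0.add _ _ (a1.smul _) (a2.smul _),
      h0.smul _ _ a1, h0.smul _ _ a2, h0.smul _ _ a3, iMove_symm h0 hg hi hG hF] at h1
    linarith
  have h2 := discrim_le_zero key
  rw [discrim] at h2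
  nlinarith

theorem iMove : Move2St := by
  intro S lam e g h0 hr A B h c K m0 hA hm
  choose s hs using hr.sh
  let X := {F : Ht → ℝ // Ob {p | 1 ≤ lam p} F}
  let k : X → X → ℝ := fun F G => S (hmv g F.1 * G.1)
  let σ : ℕ → X → X := fun n F => ⟨hmv (trp ((h n : ℤ) • e)) F.1,
    F.2.hmv _ fun p hp => le_trans hp (hr.up _ p (by positivity)).1⟩
  have σ1 : ∀ n (m : ℕ) (F : X), ((σ n)^[m] F).1 = hmv (trp (((m : ℤ) * h n) • e)) F.1 := by
    intro n m F
    induction m with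
    | zero => simp [trp_zero, hmv_id]
    | succ m ih =>
      rw [Function.iterate_succ_apply']
      show hmv _ ((σ n)^[m] F).1 = _
      rw [ih, iMove_tt, ← add_smul]
      congr 3
      push_cast
      ring
  have hv : ∀ n, ∃ v : X, Ob {p | lam p ≤ 2 * c n - 4 * h n - 1} (A n) →
      v.1 = hmv g (hmv (trp (s (c n))) (A n)) := by
    intro n
    by_cases hn : Ob {p | lam p ≤ 2 * c n - 4 * h n - 1} (A n)
    · refine ⟨⟨_, (hn.hmv (V := {p | lam p ≤ -1}) (trp (s (c n))) fun p hp => ?_).hmv g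
        fun p hp => ?_⟩, fun _ => rfl⟩
      · simp only [Set.mem_ofPred_eq, hs] at hp ⊢
        omega
      · simp only [Set.mem_ofPred_eq, hr.refl] at hp ⊢
        omega
    · exact ⟨⟨0, Ob.zero _⟩, fun a => absurd a hn⟩
  have hw : ∀ n, ∃ w : X, Ob {p | 2 * c n + 12 * h n + 1 ≤ lam p} (B n) →
      w.1 = hmv (trp (s (c n) - (2 * (h n : ℤ)) • e)) (B n) := by
    intro n
    by_cases hn : Ob {p | 2 * c n + 12 * h n + 1 ≤ lam p} (B n)
    · refine ⟨⟨_, hn.hmv _ fun p hp => ?_⟩, fun _ => rfl⟩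
      have h1 := (hr.up (2 * (h n : ℤ)) (trp (s (c n) - (2 * (h n : ℤ)) • e) p) (by positivity)).2
      rw [trp_trp, add_sub_cancel, hs] at h1
      simp only [Set.mem_ofPred_eq] at hp ⊢
      omega
    · exact ⟨⟨0, Ob.zero _⟩, fun a => absurd a hn⟩
  choose v hv using hv
  choose w hw using hw
  have key : ∀ m : ℕ, ∀ᶠ n in atTop, S (A n * hmv (trp ((2 * (h n : ℤ) * m) • e)) (B n)) =
      k (v n) ((σ n)^[2 * (m + 1)] (w n)) := by
    intro m
    filter_upwards [hA] with n hn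
    simp only [k]
    rw [σ1, hv n hn.2.1, hw n hn.2.2.1, iMove_gg hr.inv, iMove_tt,
      ← iMove_ti h0 (s (c n)) hn.2.1.univ (hn.2.2.1.hmvu _), iMove_tt]
    congr 4
    push_cast
    module
  have := eMove_ker k (fun F G => iMove_symm h0 hr.sy hr.inv F.2 G.2) (fun n x a => ?_) σ
    (fun n F G => ?_) (fun n F G => ⟨(S (F.1 ^ 2) + S (G.1 ^ 2)) / 2, fun m => ?_⟩)
    v w K ?_ (m0 + 1) fun m hm' => by
      obtain ⟨m, rfl⟩ : ∃ j, m = j + 1 := ⟨m - 1, by omega⟩
      exact (hm m (by omega)).congr' (key m)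
  · refine this.congr' ((key 0).mono fun n hn => ?_)
    simp only [Nat.cast_zero, mul_zero, zero_smul, trp_zero, hmv_id, zero_add, mul_one] at hn
    exact hn.symm
  · have o : ∀ i j, Ob Set.univ (hmv g (x i).1 * (x j).1) :=
      fun i j => ((x i).2.hmvu g).mul (x j).2.univ
    have h1 := hr.pos _ (Ob.sum Finset.univ fun i _ => (x i).2.smul (a i))
    simp only [hmv_sum, hmv_smul, Finset.sum_mul_sum, smul_mul_smul_comm] at h1
    rw [h0.sum _ fun i _ => Ob.sum _ fun j _ => (o i j).smul _] at h1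
    refine h1.trans_eq (Finset.sum_congr rfl fun i _ => ?_)
    rw [h0.sum _ fun j _ => (o i j).smul _]
    exact Finset.sum_congr rfl fun j _ => h0.smul _ _ (o i j)
  · simp only [k, σ]
    rw [← iMove_ti h0 ((h n : ℤ) • e) ((F.2.hmvu _).hmvu g) G.2.univ, hmv_hmv, hmv_hmv,
      show (trp ((h n : ℤ) • e) ∘ g) ∘ trp ((h n : ℤ) • e) = g from funext (hr.rev _)]
  · simp only [k, σ1]
    exact iMove_bd h0 (hr.sy.comp (.tr _)) (.tr _) F.2 G.2
  · filter_upwards [hA] with n hn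
    refine ⟨(iMove_le h0 hr.sy (v n).2).trans ?_, (iMove_le h0 hr.sy (w n).2).trans ?_⟩
    · rw [hv n hn.2.1, iMove_sq h0 hr.sy (hn.2.1.hmvu _), iMove_sq h0 (.tr _) hn.2.1]
      exact hn.2.2.2.1
    · rw [hw n hn.2.2.1, iMove_sq h0 (.tr _) hn.2.2.1]
      exact hn.2.2.2.2

end Vale.Agent.P145.Ib
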