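import Vale.Agent.P145.IBas
import Vale.Agent.P152.ECS
import Vale.Agent.P152.ESamp
import Vale.Agent.P152.EOne

/-! P145, block I: from the localized null property to the weighted null property. -/

open Filter Topology Metric

namespace Vale.Agent.P145.Ib

open Vale.Agent.P152

theorem IOne_near {κ : Type} {a b : κ → Pl} {W : ℝ} {z z' : Pl} (h : Adm a b W z)
    (hd : dist z' z ≤ W / 4) : Adm a b (W / 2) z' := by
  obtain ⟨Y1, Y2, h1, h2, h3⟩ := h
  have h0 : 0 ≤ W / 4 := dist_nonneg.trans hd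
  rw [Prod.dist_eq, max_le_iff, Real.dist_eq, Real.dist_eq, abs_le, abs_le] at hd
  obtain ⟨⟨d1, d2⟩, d3, d4⟩ := hd
  refine ⟨Y1 + W / 4, Y2 + W / 4, by linarith, by linarith, fun j => ⟨(h3 j).1, ?_⟩⟩
  rcases (h3 j).2 with e | e | ⟨e1, e2, e | e⟩
  · exact Or.inl (by linarith)
  · exact Or.inr (Or.inl (by linarith))
  · exact Or.inr (Or.inr ⟨by linarith, by linarith, Or.inl (by linarith)⟩)
  · exact Or.inr (Or.inr ⟨by linarith, by linarith, Or.inr (by linarith)⟩)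

theorem IOne_anti {κ : Type} {a b : κ → Pl} {W W' : ℝ} {z : Pl} (h : Adm a b W z)
    (hW : W' ≤ W) : Adm a b W' z := by
  obtain ⟨Y1, Y2, h1, h2, h3⟩ := h
  refine ⟨Y1, Y2, h1, h2, fun j => ⟨(h3 j).1, ?_⟩⟩
  rcases (h3 j).2 with e | e | ⟨e1, e2, e | e⟩
  · exact Or.inl (by linarith)
  · exact Or.inr (Or.inl (by linarith))
  · exact Or.inr (Or.inr ⟨e1, e2, Or.inl (by linarith)⟩)
  · exact Or.inr (Or.inr ⟨e1, e2, Or.inr (by linarith)⟩)

theorem IOne_open {κ : Type} (a b : κ → Pl) : IsOpen (AdmV a b) := by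
  refine isOpen_iff_mem_nhds.2 fun z ⟨W, hW, h⟩ => ?_
  exact mem_of_superset (closedBall_mem_nhds z (show 0 < W / 4 by positivity)) fun z' hz' =>
    ⟨W / 2, half_pos hW, IOne_near h hz'⟩

theorem IOne_unif {κ : Type} {a b : κ → Pl} {K : Set Pl} (hK : IsCompact K)
    (h : K ⊆ AdmV a b) : ∃ W > 0, ∀ z ∈ K, Adm a b W z := by
  refine hK.induction_on (p := fun s => ∃ W > 0, ∀ z ∈ s, Adm a b W z)
    ⟨1, one_pos, fun _ hz => hz.elim⟩
    (fun s t hst ⟨W, hW, k⟩ => ⟨W, hW, fun z hz => k z (hst hz)⟩)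
    (fun s t ⟨W, hW, k⟩ ⟨W', hW', k'⟩ => ⟨min W W', lt_min hW hW', fun z hz => hz.elim
      (fun e => IOne_anti (k z e) (min_le_left _ _))
      fun e => IOne_anti (k' z e) (min_le_right _ _)⟩) fun z hz => ?_
  obtain ⟨W, hW, k⟩ := h hz
  exact ⟨_, mem_nhdsWithin_of_mem_nhds (closedBall_mem_nhds z (show 0 < W / 4 by positivity)),
    W / 2, half_pos hW, fun z' hz' => IOne_near k hz'⟩

theorem IOne_scale {D : ℕ → ℝ} (hD : Scale D) :
    (∀ᶠ l in atTop, 0 < D l ∧ D l ≤ 1) ∧ Tendsto D atTop (𝓝[>] 0) := by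
  have h1 : ∀ᶠ l in atTop, 0 < D l ∧ D l ≤ 1 := by
    filter_upwards [eventually_ge_atTop 1] with l hl1
    have l0 : (1 : ℝ) ≤ l := by exact_mod_cast hl1
    exact ⟨lt_trans (by positivity) (hD l hl1).1,
      (hD l hl1).2.trans ((div_le_one (by linarith)).2 l0)⟩
  refine ⟨h1, tendsto_nhdsWithin_iff.2 ⟨?_, h1.mono fun l hl => hl.1⟩⟩
  exact tendsto_of_tendsto_of_tendsto_of_le_of_le' tendsto_const_nhds
    tendsto_one_div_atTop_nhds_zero_nat (h1.mono fun l hl => hl.1.le)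
    ((eventually_ge_atTop 1).mono fun l hl => (hD l hl).2)

theorem iOne (hr : RepSt) (hl : Loc2St) : One2St := by
  intro E h κ _ a b ϱ w hw
  refine ⟨IOne_open a b, fun η k g hη hV hg hd => ?_⟩
  have hs := eSamp
  have hB : IsCompact (⋃ j, ⋃ b, tsupport (g j b)) :=
    isCompact_iUnion fun j => isCompact_iUnion fun b => (hg j b).2
  obtain ⟨d, d0, hd'⟩ := Metric.exists_pos_forall_lt_edist hη.2 hB.isClosed
    (Set.disjoint_iUnion_right.2 fun j => Set.disjoint_iUnion_right.2 fun b => hd j b)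
  obtain ⟨W, W0, hW⟩ := IOne_unif hη.2 hV
  obtain ⟨r, r0, hr'⟩ := exists_pos_mul_lt (lt_min (show (0 : ℝ) < d from d0) W0)
    (2 * (((k : ℝ) + 1) * 13) + 6)
  have k0 : 0 ≤ (k : ℝ) * r := by positivity
  have r1 : (((2 * (((k : ℤ) + 1) * 13) : ℤ) : ℝ) + 2) * r ≤ d := by
    have := (lt_min_iff.1 hr').1
    push_cast
    linarith
  have r2 : (((k : ℝ) + 1) * 13 + 6) * r ≤ W := by
    have := (lt_min_iff.1 hr').2
    linarith
  obtain ⟨ρ, ρ1, ρ2, -, ρ3⟩ := P163.pou r r0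
  obtain ⟨I, hI⟩ := P163.dec_idx r0 hη.2
  obtain ⟨J, hJ⟩ := P163.dec_idx r0 hB
  have s1 : ∀ {f : Pl → ℝ}, Sm f → ∀ p, Sm fun z => f z * ρ p z := fun hf p =>
    ⟨hf.1.mul (ρ1 p).1, hf.2.mul_right⟩
  have s2 : ∀ (f : Pl → ℝ) p, tsupport (fun z => f z * ρ p z) ⊆
      closedBall ((r * p.1, r * p.2) : Pl) r := fun f p =>
    (tsupport_mul_subset_right (f := f)).trans (ρ2 p)
  have s3 : ∀ (f : Pl → ℝ) (L : Finset Site),
      (∀ p, ∀ z ∈ tsupport f, z ∈ closedBall ((r * p.1, r * p.2) : Pl) r → p ∈ L) →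
      ∀ z, f z = ∑ p ∈ L, f z * ρ p z := by
    intro f L hL z
    rw [← Finset.mul_sum]
    by_cases h0 : f z = 0
    · rw [h0, zero_mul]
    · rw [ρ3 z L fun p hp => hL p z (subset_tsupport _ h0) (ρ2 p (subset_tsupport _ hp)), mul_one]
  have e1 : ∀ b z, grd η b z = ∑ p ∈ I, grd (fun z => η z * ρ p z) b z := by
    intro b z
    have e : η = fun z => ∑ p ∈ I, η z * ρ p z :=
      funext (s3 η I fun p z h1 h2 => (hI p).2 ⟨z, h1, h2⟩)
    simp only [grd]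
    rw [← sum_apply,
      ← fderiv_fun_sum fun p _ => (s1 hη p).1.differentiable (by simp) z, ← e]
  have e2 : ∀ j b z, g j b z = ∑ p ∈ J, g j b z * ρ p z := fun j b =>
    s3 _ J fun p z h1 h2 => (hJ p).2 ⟨z, Set.mem_iUnion₂.2 ⟨j, b, h1⟩, h2⟩
  refine eSeq _ fun D hD => ?_
  obtain ⟨D1, D2⟩ := IOne_scale hD
  have hw' := D2.eventually hw
  have main : Tendsto (fun l => ∑ p ∈ I, ∑ q ∈ Fintype.piFinset fun _ : Fin k => J,
      SS E ((∏ j, ϱ (D l) j) * (Xs (D l) (grd fun z => η z * ρ p z) *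
        ∏ j, Xs (D l) fun b z => g j b z * ρ (q j) z) ∘ lgs))
      atTop (𝓝 (∑ p ∈ I, ∑ q ∈ Fintype.piFinset fun _ : Fin k => J, 0)) := by
    refine tendsto_finsetSum _ fun p hp => tendsto_finsetSum _ fun q hq => ?_
    obtain ⟨z, z1, z2⟩ := (hI p).1 hp
    refine hl E h r k _ _ (Fin.cons p q) D κ a b W z (fun l => ϱ (D l)) r0 hD (s1 hη p)
      (fun j b => s1 (hg j b) _) (s2 _ p) (fun j b => s2 _ (q j))
      (fun i => Fin.cases (fun e => absurd rfl e) (fun j _ => ?_) i) z2 (hW z z1) r2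
      (hw'.mono fun l k => k.1)
    obtain ⟨y, y1, y2⟩ := (hJ _).1 (Fintype.mem_piFinset.1 hq j)
    have h3 := hd' z z1 y y1
    rw [edist_nndist, ENNReal.coe_lt_coe] at h3
    exact EOne_far r0 (r1.trans (le_of_lt h3)) z2 y2
  simp only [Finset.sum_const_zero] at main
  refine main.congr' ?_
  filter_upwards [D1, hw'] with l ⟨a0, a1⟩ ⟨_, hR⟩
  have b0 : ∀ p (q : Fin k → Site), Loc (Xs (D l) (grd fun z => η z * ρ p z) *
      ∏ j, Xs (D l) fun b z => g j b z * ρ (q j) z) := fun p q =>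
    (EOne_loc hs (EOne_grd (s1 hη p)) a0 a1).mul
      (Loc.prod _ fun j _ => EOne_loc hs (fun b => s1 (hg j b) _) a0 a1)
  rw [EOne_sum hs (EOne_grd hη) (fun p => EOne_grd (s1 hη p)) e1 a0 a1,
    Finset.prod_congr rfl fun j _ =>
      EOne_sum hs (hg j) (fun p b => s1 (hg j b) p) (e2 j) a0 a1,
    Finset.prod_univ_sum, Finset.sum_mul_sum, Finset.mul_sum,
    h.toSt0.sum _ _ fun p _ => hR.1.mul (Loc.sum _ fun q _ => b0 p q)]
  refine Finset.sum_congr rfl fun p _ => ?_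
  rw [Finset.mul_sum, h.toSt0.sum _ _ fun q _ => hR.1.mul (b0 p q)]
  exact Finset.sum_congr rfl fun q _ => (hr E h.toSt0).eq _ _ (hR.mul (b0 p q))

end Vale.Agent.P145.Ib
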