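import Vale.Agent.P145.IBas

/-! P145, block I: reflection positivity of the spin state and the reflection data. -/

namespace Vale.Agent.P145.Ib

open Vale.Agent.P152

theorem iRP_one {E : Fn} (hE : St0 E) (hr : RepF E)
    (hl : ∀ (U : Set Site) (P : Ht → ℝ) (A : Finset Site), (∀ e ∈ A, e ∈ U) →
      (∀ h k, IsG h → IsG k → (∀ e ∈ A, lgs h (e, true) = lgs k (e, true)) → P h = P k) →
      ∃ G, LocIn U G ∧ (∀ h, IsG h → G (lgs h) = P h) ∧ ∀ B, (∀ h, |P h| ≤ B) → ∀ ζ, |G ζ| ≤ B)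
    {g : Pt → Pt} {gc : Site → Site} {gl : Leg → Leg} {U : Set Site} {V : Set Pt} {q : Pt} (c : ℤ)
    (hq : g q = q) (hc : ∀ h, IsG h → Even (c - h q)) (hm : Mt g gc)
    (hlg : ∀ k, lgs (k ∘ g) = lgs k ∘ gl) (hp : RPos E gc gl U) (hd : ∀ p ∈ V, Det U p q) :
    RP1 (SS E) g V := by
  intro F hF
  have key : ∀ ε : ℤ, ∃ G, LocIn U G ∧ ∀ h, IsG h → G (lgs h) = F (hsh (c - h q + ε) h) := by
    intro ε
    obtain ⟨-, A, hA, hFA⟩ := hF
    choose B hB1 hB2 using hd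
    obtain ⟨G, g1, g2, -⟩ := hl U (fun h => F (hsh (c - h q + ε) h))
      (A.attach.biUnion fun p => B p.1 (hA p.1 p.2)) (fun e he => by
        obtain ⟨p, -, hp⟩ := Finset.mem_biUnion.1 he
        exact hB1 _ _ e hp) fun h k hh hk e => hFA _ _ fun p hp => by
          have := hB2 p (hA p hp) h k hh hk fun x hx =>
            e x (Finset.mem_biUnion.2 ⟨⟨p, hp⟩, Finset.mem_attach _ _, hx⟩)
          simp only [hsh]
          omega
    exact ⟨G, g1, g2⟩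
  have pos : ∀ G, LocIn U G → 0 ≤ E ∅ (mv gl G * G) := fun G hG => by
    simpa using hp 1 (fun _ => ∅) (fun _ => G) (fun _ e he => absurd he (Finset.notMem_empty e))
      fun _ => hG
  obtain ⟨G0, a0, b0⟩ := key 0
  obtain ⟨G2, a2, b2⟩ := key 2
  have l0 : Loc (mv gl G0 * G0) := (a0.loc.mv gl).mul a0.loc
  have l2 : Loc (mv gl G2 * G2) := (a2.loc.mv gl).mul a2.loc
  have hR : Rp (hmv g F * F) ((1 / 2 : ℝ) • (mv gl G0 * G0 + mv gl G2 * G2)) :=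
    ⟨(l0.add l2).smul _, fun h hh => by
      rw [← ((hF.hmvu g).mul hF.univ).av_even (hc h hh)]
      simp only [av, Pi.smul_apply, Pi.add_apply, Pi.mul_apply, mv_apply, ← hlg, smul_eq_mul,
        b0 _ hh, b2 _ hh, b0 _ (hm.isG hh), b2 _ (hm.isG hh), Function.comp_apply, hq, hmv,
        hsh_hsh, hsh_comp, add_zero]
      ring⟩
  rw [hr.eq _ _ hR, hE.smul _ _ _ (l0.add l2), hE.add _ _ _ l0 l2]
  exact mul_nonneg (by norm_num) (add_nonneg (pos _ a0) (pos _ a2))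

theorem iS1 (hg : GeoSt) (hr : RepSt) (h0 : S0St)
    (hl : ∀ (U : Set Site) (P : Ht → ℝ) (A : Finset Site), (∀ e ∈ A, e ∈ U) →
      (∀ h k, IsG h → IsG k → (∀ e ∈ A, lgs h (e, true) = lgs k (e, true)) → P h = P k) →
      ∃ G, LocIn U G ∧ (∀ h, IsG h → G (lgs h) = P h) ∧
        ∀ B, (∀ h, |P h| ≤ B) → ∀ ζ, |G ζ| ≤ B) : S1St := fun E hE =>
  ⟨h0 E hE.toSt0,
    iRP_one hE.toSt0 (hr E hE.toSt0) hl 0 (q := ((0, 0), true)) rfl
      (fun _ hh => Even.zero.sub (hh.1 _)) mt_fl lgs_fl hE.rpf hg.detf,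
    iRP_one hE.toSt0 (hr E hE.toSt0) hl 1 (q := ((0, 0), false)) rfl
      (fun _ hh => odd_one.sub_odd (hh.odd _)) mt_fo lgs_fo hE.rpo hg.deto,
    iRP_one hE.toSt0 (hr E hE.toSt0) hl 0 (q := ((0, 0), true)) rfl
      (fun _ hh => Even.zero.sub (hh.1 _)) mt_sw lgs_sw hE.rps hg.dets⟩

theorem iRP_conj {S : HF} (h0 : S0 S) {g a : Pt → Pt} {U V : Set Pt} (h : RP1 S g U) (ha : Sy2 a)
    (h1 : ∀ p, a (a p) = p) (hV : ∀ p ∈ V, a p ∈ U) : RP1 S (a ∘ g ∘ a) V := by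
  intro F hF
  have k := hF.hmv a hV
  have := h _ k
  rw [← h0.inv a ha _ ((k.hmvu g).mul k.univ), hmv_mul, hmv_hmv, hmv_hmv, hmv_hmv,
    show a ∘ a = id from funext h1, hmv_id] at this
  exact this

theorem iRP_inj {p q : Pt} (h : (rpos p).1 = (rpos q).1 ∧ (rpos p).2 = (rpos q).2) : p = q := by
  obtain ⟨⟨x, y⟩, b⟩ := p
  obtain ⟨⟨x', y'⟩, b'⟩ := q
  cases b <;> cases b' <;>
    simp only [rpos, if_true, Bool.false_eq_true, if_false, Prod.mk.injEq, and_true] at h ⊢ <;>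
    omega

theorem iRD : RD2St := by
  intro S hS lam e h
  have hφ : Sy2 (swp ∘ flp ∘ swp) := Sy2.sw.comp (Sy2.fl.comp Sy2.sw)
  rcases h with ⟨rfl, rfl⟩ | ⟨rfl, rfl⟩ | ⟨rfl, rfl⟩
  · refine ⟨swp ∘ flp ∘ swp, hφ, fun p => iRP_inj ?_,
      iRP_conj hS.toS0 hS.rpf Sy2.sw swp_swp fun p hp => ?_, fun k p => iRP_inj ?_,
      fun p => ?_, fun k p hk => ?_, fun c => ⟨(0, -c), fun p => ?_⟩⟩
    all_goals simp only [Function.comp_apply, rpos_swp, rpos_flp, rpos_trp, Set.mem_ofPred_eq,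
      Prod.smul_mk, smul_eq_mul, true_and] at *
    all_goals omega
  · refine ⟨(swp ∘ flp ∘ swp) ∘ swp ∘ (swp ∘ flp ∘ swp), hφ.comp (Sy2.sw.comp hφ),
      fun p => iRP_inj ?_, iRP_conj hS.toS0 hS.rps hφ (fun p => iRP_inj ?_) fun p hp => ?_,
      fun k p => iRP_inj ?_, fun p => ?_, fun k p hk => ?_, fun c => ⟨(-c, 0), fun p => ?_⟩⟩
    all_goals simp only [Function.comp_apply, rpos_swp, rpos_flp, rpos_trp, Set.mem_ofPred_eq,
      Prod.smul_mk, smul_eq_mul, true_and] at *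
    all_goals omega
  · refine ⟨swp, Sy2.sw, swp_swp, fun F hF => hS.rps F (hF.mono fun p hp => ?_),
      fun k p => iRP_inj ?_, fun p => ?_, fun k p hk => ?_, fun c => ⟨(-c, 0), fun p => ?_⟩⟩
    all_goals simp only [Function.comp_apply, rpos_swp, rpos_trp, Set.mem_ofPred_eq,
      Prod.smul_mk, smul_eq_mul] at *
    all_goals omega

end Vale.Agent.P145.Ib
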