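import Vale.Agent.P145.IBas
import Vale.Agent.P152.ESy

/-! P145, block I: representation of the symmetric spin state. -/

open Filter Topology

namespace Vale.Agent.P145.Ib

open Vale.Agent.P152

theorem iLift (U : Set Site) (P : Ht → ℝ) (A : Finset Site) (hA : ∀ e ∈ A, e ∈ U)
    (hP : ∀ h k, IsG h → IsG k → (∀ e ∈ A, lgs h (e, true) = lgs k (e, true)) → P h = P k) :
    ∃ G, LocIn U G ∧ (∀ h, IsG h → G (lgs h) = P h) ∧
      ∀ B, (∀ h, |P h| ≤ B) → ∀ ζ, |G ζ| ≤ B := by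
  classical
  let G0 : (A → Bool) → ℝ := fun τ =>
    if H : ∃ h, IsG h ∧ ∀ e : A, lgs h (e, true) = τ e then P H.choose else 0
  refine ⟨fun ζ => G0 fun e => ζ (e, true), ⟨A.image fun e => (e, true), fun l hl => ?_,
    fun ζ ζ' e => congrArg G0 (funext fun x => e _ ?_)⟩, fun h hh => ?_, fun B hB ζ => ?_⟩
  · obtain ⟨x, hx, rfl⟩ := Finset.mem_image.1 hl
    exact hA x hx
  · exact Finset.mem_coe.2 (Finset.mem_image_of_mem (fun e : Site => (e, true)) x.2)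
  · have H : ∃ k, IsG k ∧ ∀ e : A, lgs k (e, true) = lgs h (e, true) := ⟨h, hh, fun _ => rfl⟩
    exact (dif_pos H).trans (hP _ _ H.choose_spec.1 hh fun e he => H.choose_spec.2 ⟨e, he⟩)
  · simp only [G0]
    split_ifs
    · exact hB _
    · rw [abs_zero]
      exact (abs_nonneg _).trans (hB 0)

theorem iRep_ex (hg : Geo) {F : Ht → ℝ} (hF : Ob Set.univ F) :
    ∃ G, Rp F G ∧ ∀ B, (∀ h, |F h| ≤ B) → ∀ ζ, |G ζ| ≤ B := by
  classical
  obtain ⟨A, -, hA⟩ := hF.2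
  choose D _ hD using hg.detu
  obtain ⟨G, g1, g2, g3⟩ := iLift Set.univ (av F) (A.biUnion D) (fun _ _ => trivial)
    fun h k hh hk e => by
      have e1 : ∀ p ∈ A, h p = hsh (h ((0, 0), true) - k ((0, 0), true)) k p := fun p hp => by
        have := hD p h k hh hk fun x hx => e x (Finset.mem_biUnion.2 ⟨p, hp, hx⟩)
        simp only [hsh]
        omega
      rw [← hF.av_even ((hh.1 (0, 0)).sub (hk.1 (0, 0))) k, av, av, hA _ _ e1,
        hA (hsh 2 h) (hsh 2 (hsh (h ((0, 0), true) - k ((0, 0), true)) k)) fun p hp =>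
          congrArg (· + 2) (e1 p hp)]
  refine ⟨G, ⟨g1.loc, g2⟩, fun B hB => g3 B fun h => ?_⟩
  have h1 := abs_le.1 (hB h)
  have h2 := abs_le.1 (hB (hsh 2 h))
  rw [av, abs_le]
  constructor <;> linarith [h1.1, h1.2, h2.1, h2.2]

theorem iRep_eq (hg : Geo) {E : Fn} (hE : St0 E) {F : Ht → ℝ} {G : Cfg → ℝ} (hG : Rp F G) :
    SS E F = E ∅ G := by
  have H : ∃ G, Rp F G := ⟨G, hG⟩
  refine (dif_pos H).trans (hE.congr ∅ H.choose_spec.1 hG.1 fun ζ hζ => ?_)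
  obtain ⟨h, hh, rfl⟩ := hg.surj ζ hζ
  rw [H.choose_spec.2 h hh, hG.2 h hh]

theorem iRep (hg : GeoSt) : RepSt := fun _ hE =>
  ⟨fun _ hF => iRep_ex hg hF, fun _ _ hG => iRep_eq hg hE hG, fun G hG =>
    iRep_eq hg hE ⟨hG, fun h _ => by simp [av, lgs_hsh]⟩⟩

theorem iRep_neg {h : Ht} (hh : IsG h) : IsG (-h) ∧ lgs (-h) = neg (lgs h) := by
  refine ⟨⟨fun v => (hh.1 v).neg, fun e => ?_⟩, funext fun l => ?_⟩
  · rw [← hh.2 e, ← abs_neg, Pi.neg_apply, Pi.neg_apply]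
    congr 1
    ring
  · have := (abs_eq zero_le_one).1 (hh.2 l.1)
    simp only [lgs, neg, Pi.neg_apply, ← decide_not, decide_eq_decide]
    omega

theorem iS0 (hg : GeoSt) (hr : RepSt) : S0St := by
  intro E hE
  have R := hr E hE
  refine ⟨fun F G hF hG => ?_, fun a F hF => ?_, fun F hF e => ?_, ?_, fun g s F hF => ?_,
    fun F hF => ?_, fun F hF => ?_⟩
  · obtain ⟨G1, h1, -⟩ := R.ex F hF
    obtain ⟨G2, h2, -⟩ := R.ex G hG
    rw [R.eq _ _ h1, R.eq _ _ h2, ← hE.add _ _ _ h1.1 h2.1]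
    refine R.eq _ _ ⟨h1.1.add h2.1, fun h hh => ?_⟩
    simp only [Pi.add_apply, h1.2 h hh, h2.2 h hh, av]
    ring
  · obtain ⟨G1, h1, -⟩ := R.ex F hF
    rw [R.eq _ _ h1, ← hE.smul _ _ _ h1.1]
    refine R.eq _ _ ⟨h1.1.smul a, fun h hh => ?_⟩
    simp only [Pi.smul_apply, h1.2 h hh, av, smul_eq_mul]
    ring
  · obtain ⟨G1, h1, -⟩ := R.ex F hF
    rw [R.eq _ _ h1]
    refine hE.pos ∅ _ h1.1 fun ζ hζ => ?_
    obtain ⟨h, hh, rfl⟩ := Geo.surj hg ζ hζ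
    rw [h1.2 h hh]
    exact div_nonneg (add_nonneg (e h hh) (e _ (hh.hsh even_two))) zero_le_two
  · rw [R.eq 1 1 ⟨Loc.one, fun h _ => by simp [av]⟩, hE.one]
  · obtain ⟨G1, h1, -⟩ := R.ex F hF
    obtain ⟨gc, gl, sy, m, hl⟩ := s.legs
    have k : E ∅ (mv gl G1) = E ∅ G1 := by simpa [ev, pmv] using ESy_inv hE sy (∅, G1) h1.1
    rw [R.eq _ _ h1, ← k]
    refine R.eq _ _ ⟨h1.1.mv gl, fun h hh => ?_⟩
    rw [mv_apply, ← m.lgs hl, h1.2 _ (m.isG hh)]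
    rfl
  · obtain ⟨G1, h1, -⟩ := R.ex F hF
    rw [R.eq _ _ h1]
    refine R.eq _ _ ⟨h1.1, fun h hh => ?_⟩
    rw [h1.2 h hh, ← hF.av_even even_two h]
    rfl
  · obtain ⟨G1, h1, -⟩ := R.ex F hF
    rw [R.eq _ _ h1, ← hE.flip ∅ _ h1.1]
    refine R.eq _ _ ⟨h1.1.flip, fun h hh => ?_⟩
    have e : -hsh 2 h = hsh (4 * -1) (hsh 2 (-h)) := by
      funext p
      simp only [hsh, Pi.neg_apply]
      ring
    rw [Function.comp_apply, ← (iRep_neg hh).2, h1.2 _ (iRep_neg hh).1, av, av, e, hF.per]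

end Vale.Agent.P145.Ib
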