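import Vale.Agent.P145.IApx
import Vale.Agent.P152.EMom

/-! P145, block I: Gaussian integration by parts with a weight. -/

open Filter Topology Metric

namespace Vale.Agent.P145.Ib

open Vale.Agent.P152

theorem IThree_rct (w : Pl) (r ρ : ℝ) :
    rct (w.1 - r) (w.1 + r) (w.2 - r) (w.2 + r) ρ = closedBall w (r + ρ) := by
  ext p
  simp only [rct, Set.mem_prod, Set.mem_Icc, mem_closedBall, Prod.dist_eq, max_le_iff,
    Real.dist_eq, abs_le]
  constructor <;> rintro ⟨⟨h1, h2⟩, h3, h4⟩ <;> refine ⟨⟨?_, ?_⟩, ?_, ?_⟩ <;> linarith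

theorem IThree_rule (hw : W2St) (ha : AlSt) {V : Set Pl} {M M0 : Fun} {K : ℝ} (hM : ClV V M)
    (hd : Dom M M0) (hg : Gau M0 K) : Rule V M K := by
  intro s hs η f w r hη hf hr h1 h2 h3 h4
  have e1 : rct (w.1 - 3 * r) (w.1 + 3 * r) (w.2 - 3 * r) (w.2 + 3 * r) r =
      closedBall w (4 * r) := by rw [IThree_rct]; congr 1; ring
  have e2 : rct (w.1 - 3 * r) (w.1 + 3 * r) (w.2 - 3 * r) (w.2 + 3 * r) 0 =
      closedBall w (3 * r) := by rw [IThree_rct, add_zero]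
  obtain ⟨α, hα⟩ := hw.2 V M hM s hs _ _ _ _ r hr (e1 ▸ h1) (e1 ▸ h4)
  have h5 := ha M M0 K hd hg s hs _ _ _ _ α (by linarith) (by linarith)
    (fun h hh => (h4 h hh).mono_left (e2 ▸ closedBall_subset_closedBall (by linarith))) hα
  rw [hα η f hη hf (e2 ▸ h2) (e2 ▸ h3), h5]
  ring

theorem IThree_rep {V : Set Pl} {M : Fun} {K : ℝ} (hi : IbpSt) (hV : IsOpen V) (hM : ClV V M)
    (hr : Rule V M K) {η f : Pl → ℝ} (hη : Sm η) (h1 : tsupport η ⊆ V) (hf : IsTest f) (n : ℕ) :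
    M (lap η ::ₘ Multiset.replicate n f) =
      n * (-ip η f * (K * M (Multiset.replicate (n - 1) f))) := by
  have h2 := hi V M K hV hM hr (Fin n) Finset.univ (fun _ => f) η (fun _ _ => hf) hη h1
  simp only [Multiset.map_const', Finset.card_val, Finset.card_univ, Fintype.card_fin,
    Finset.card_erase_of_mem (Finset.mem_univ _), Finset.sum_const, nsmul_eq_mul] at h2
  exact h2

theorem iThree (hm : MWSt) (hw : W2St) (ha : AlSt) (hi : IbpSt) (hs : SerSt) : I3St := by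
  intro E K w V hE hg hW hV h1 η f G0 H0 hη hηV hf hG0 hH0
  obtain ⟨G, hG, bG, eG⟩ := apx_bd hf hG0
  obtain ⟨H, hH, ⟨B, bH⟩, eH⟩ := apx_bd (test_lap hη) hH0
  obtain ⟨C, hC, hC'⟩ := (eMom E hE).1
  have h0 := hE.toSt0
  have key : Tendsto (fun δ => E ∅ ((w δ * XX (H δ)) * fun ζ => Real.exp (XX (G δ) ζ)) +
      K * ip η f * E ∅ (w δ * fun ζ => Real.exp (XX (G δ) ζ))) (𝓝[>] 0) (𝓝 0) := by
    refine (tendsto_iff_ultrafilter _ _ _).2 fun U hU => ?_
    obtain ⟨m1, m2, m3⟩ := hm E w U hE hW hU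
    have hM := hw.1 V _ (m3 V h1)
    have hr := IThree_rule hw ha hM m2 (hg U hU)
    have a1 : ∀ᶠ δ in 𝓝[>] (0 : ℝ), Loc (w δ) ∧ E ∅ (w δ ^ 2) ≤ 1 := by
      refine hW.mono fun δ hδ => ⟨hδ.1, ?_⟩
      refine (h0.mono ∅ (hδ.1.pow 2) Loc.one fun ζ _ => ?_).trans h0.one.le
      simpa only [Pi.pow_apply, Pi.one_apply, sq_le_one_iff_abs_le_one] using hδ.2 ζ
    have a2 : ∀ n : ℕ, Tendsto (fun δ => E ∅ (w δ * XX (G δ) ^ n)) U
        (𝓝 (MW E w U (Multiset.replicate n f))) := fun n => by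
      have := m1 (Multiset.replicate n (f, G)) fun p hp => by
        rw [Multiset.eq_of_mem_replicate hp]; exact ⟨hf, hG⟩
      simpa only [Multiset.map_replicate, Multiset.prod_replicate] using this
    have a3 : ∀ᶠ δ in 𝓝[>] (0 : ℝ), Loc (w δ * XX (H δ)) ∧
        E ∅ ((w δ * XX (H δ)) ^ 2) ≤ C * B := by
      filter_upwards [hW, bH] with δ hδ hb
      refine ⟨hδ.1.mul (Loc.XX _), ?_⟩
      refine (h0.mono ∅ ((hδ.1.mul (Loc.XX _)).pow 2) ((Loc.XX _).pow 2) fun ζ _ => ?_).trans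
        ((hC' _).trans (mul_le_mul_of_nonneg_left hb hC))
      simp only [Pi.pow_apply, Pi.mul_apply, mul_pow]
      exact mul_le_of_le_one_left (sq_nonneg _) (sq_le_one_iff_abs_le_one _ |>.2 (hδ.2 ζ))
    have a4 : ∀ n : ℕ, Tendsto (fun δ => E ∅ (w δ * XX (H δ) * XX (G δ) ^ n)) U
        (𝓝 (MW E w U (lap η ::ₘ Multiset.replicate n f))) := fun n => by
      have := m1 ((lap η, H) ::ₘ Multiset.replicate n (f, G)) fun p hp => by
        rcases Multiset.mem_cons.1 hp with rfl | hp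
        · exact ⟨test_lap hη, hH⟩
        · rw [Multiset.eq_of_mem_replicate hp]; exact ⟨hf, hG⟩
      simpa only [Multiset.map_cons, Multiset.prod_cons, Multiset.map_replicate,
        Multiset.prod_replicate, mul_assoc] using this
    obtain ⟨x, x1, x2⟩ := hs E U (fun δ => w δ * XX (H δ)) G (C * B) _ hE hU inferInstance bG a3 a4
    obtain ⟨y, y1, y2⟩ := hs E U w G 1 _ hE hU inferInstance bG a1 a2
    have e0 : MW E w U (lap η ::ₘ Multiset.replicate 0 f) = 0 := by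
      rw [IThree_rep hi hV hM hr hη hηV hf 0, Nat.cast_zero, zero_mul]
    have h2 := (hasSum_nat_add_iff' 1).2 x1
    rw [Finset.sum_range_one, e0, zero_div, sub_zero] at h2
    have e : x = -(K * ip η f * y) := by
      refine h2.unique ((y1.mul_left (K * ip η f)).neg.congr_fun fun n => ?_)
      rw [IThree_rep hi hV hM hr hη hηV hf, Nat.add_sub_cancel, Nat.factorial_succ]
      have : (n.factorial : ℝ) ≠ 0 := by positivity
      push_cast
      field_simp
    have h3 := x2.add (y2.const_mul (K * ip η f))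
    rwa [e, neg_add_cancel] at h3
  refine key.congr' (hW.mono fun δ hδ => ?_)
  have l1 : ∀ g : Vx →₀ ℝ, Loc fun ζ => Real.exp (XX g ζ) := fun g => (Loc.XX g).comp Real.exp
  beta_reduce
  rw [h0.congr ∅ ((hδ.1.mul (Loc.XX _)).mul (l1 _)) (hδ.1.mul ((Loc.XX (H0 δ)).mul (l1 (G0 δ))))
      fun ζ hζ => by simp only [Pi.mul_apply, eG δ ζ hζ, eH δ ζ hζ, mul_assoc],
    h0.congr ∅ (hδ.1.mul (l1 (G δ))) (hδ.1.mul (l1 (G0 δ)))
      fun ζ hζ => by simp only [Pi.mul_apply, eG δ ζ hζ]]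
  rfl

end Vale.Agent.P145.Ib
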