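import Vale.Agent.P145.IBas
import Vale.Agent.P152.FW2

/-! The two point structure near a rectangle, local version. -/

open Filter Topology MeasureTheory Metric

namespace Vale.Agent.P145.Ib

open Vale.Agent.P152 Vale.Agent.P152.FW1

section

variable {M : Fun} {V0 : Set Pl} {s : Multiset (Pl → ℝ)} {η ζ : Pl → ℝ}

theorem IW2_cl (hM : Cl0V V0 M) : ClV V0 M := by
  refine ⟨hM.toCl1, fun η s hη hV hs hd => ?_⟩
  have hU : IsOpen (⋂ h ∈ {h | h ∈ s}, (tsupport h)ᶜ) :=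
    s.finite_toSet.isOpen_biInter fun h _ => (isClosed_tsupport h).isOpen_compl
  obtain ⟨δ, hδ, hδ'⟩ := hη.2.isCompact.exists_cthickening_subset_open hU
    (Set.subset_iInter₂ fun h hh => (hd h hh).subset_compl_right)
  obtain ⟨C, -, H⟩ := pieces hη
  have hr : 0 < min (δ / 5) 1 := by positivity
  have hr' : min (δ / 5) 1 ≤ δ / 5 := min_le_left _ _
  obtain ⟨I, ρ, w, -, p1, -, p2, p3, p4⟩ := H _ hr (min_le_right _ _)
  have sm : ∀ i, Sm (ρ i * η) := fun i => (p1 i).mul_right hη.1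
  rw [p4, lap_sum I _ fun i _ => sm i, hM.toCl1.sum I _ (fun i _ => test_lap (sm i)) hs]
  refine Finset.sum_eq_zero fun i hi => ?_
  obtain ⟨q, hq, hq'⟩ := p3 i hi
  have h0 : ∀ h : Pl → ℝ, ∃ g, h ∈ s → SmV g ∧ dv g = h ∧
      ∀ e, Disjoint (tsupport (g e)) (closedBall (w i) (min (δ / 5) 1)) := fun h => by
    by_cases hh : h ∈ s
    · refine (div_avoid (hs h hh) hr (Set.disjoint_right.2 fun z hz => ?_)).imp fun _ h _ => h
      have z1 : dist z q ≤ δ := by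
        linarith [dist_triangle z (w i) q, mem_closedBall.1 hz]
      exact Set.mem_iInter₂.1 (hδ' (mem_cthickening_of_dist_le z q δ _ hq z1)) h hh
    · exact ⟨0, fun h' => absurd h' hh⟩
  choose G hG using h0
  have e : (s.map G).map dv = s := by
    rw [Multiset.map_map]
    exact (Multiset.map_congr rfl fun h hh => (hG h hh).2.1).trans (Multiset.map_id' s)
  have h1 := hM.null0 (ρ i * η) (s.map G) (sm i) (tsupport_mul_subset_right.trans hV)
    (fun g hg => by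
      obtain ⟨h, hh, rfl⟩ := Multiset.mem_map.1 hg
      exact (hG h hh).1)
    fun g hg b => by
      obtain ⟨h, hh, rfl⟩ := Multiset.mem_map.1 hg
      exact ((hG h hh).2.2 b).symm.mono_left (tsupport_mul_subset_left.trans (p2 i))
  rwa [e] at h1

theorem IW2_piece (hM : ClV V0 M) (hs : Tests s) (hζ : Sm ζ) (h0 : tsupport ζ ⊆ V0) {b : Pl → ℝ} (hb : Sm b)
    (hb1 : ∫ p, b p = 1)
    {V : Set Pl} (hζ1 : ∀ p ∈ V, ζ p = 1) (hζs : ∀ h ∈ s, Disjoint (tsupport ζ) (tsupport h))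
    (hζb : Disjoint (tsupport ζ) (tsupport b)) (hη : Sm η) (hηV : tsupport η ⊆ V) {R a : ℝ}
    (hR : 0 < R) (hbR : tsupport b ⊆ closedBall 0 R) (ha : 0 ≤ a) :
    ∃ K, 0 ≤ K ∧ ∀ (u : Pl → ℝ) (w : Pl) (r : ℝ), Sm u → 0 < r → r ≤ 1 →
      closedBall w (3 * r) ⊆ V → tsupport u ⊆ closedBall w r → tsupport u ⊆ closedBall 0 R →
      (∀ p, |u p| ≤ a) →
      |M (lap η ::ₘ N b u ::ₘ s) - M (lap ζ ::ₘ N b (η * u) ::ₘ s)| ≤ K * (r ^ 2 * √r) := by
  obtain ⟨G, hG, h1⟩ := cut hζ hη hζ1 hηV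
  obtain ⟨C, hC, h2⟩ := hM.toCl1.bd2 hs
  obtain ⟨C', hC', h3⟩ := fl_piece R hR hb hb1 hbR
  obtain ⟨L, hL, h4⟩ := hη.lip
  refine ⟨C * G * C' * a + C * √(en ζ) * C' * L * a, by positivity,
    fun u w r hu hr hr1 hV u1 u2 u3 => ?_⟩
  obtain ⟨α, β, a1, a2, a3, a4, a5, a6⟩ := h1 w r hr hV
  have n1 : IsTest (N b u) := test_neutral hu hb hb1
  have t1 := tests n1 hs
  obtain ⟨v, hv⟩ : ∃ v, v = (η - fun _ => η w) * u := ⟨_, rfl⟩
  have v1 : Sm v := hv ▸ Sm.mul_left (hη.1.sub contDiff_const) hu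
  have v2 : tsupport v ⊆ tsupport u := hv ▸ tsupport_mul_subset_right
  have v3 : ∀ p, |v p| ≤ L * r * a := fun p => by
    by_cases hp : p ∈ tsupport u
    · rw [hv, Pi.mul_apply, abs_mul]
      exact mul_le_mul ((h4 p w).trans (mul_le_mul_of_nonneg_left (u1 hp) hL)) (u3 p)
        (abs_nonneg _) (by positivity)
    · rw [image_eq_zero_of_notMem_tsupport fun h => hp (v2 h), abs_zero]; positivity
  have n2 : IsTest (N b v) := test_neutral v1 hb hb1
  have e1 : M (lap η ::ₘ N b u ::ₘ s) =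
      M (lap α ::ₘ N b u ::ₘ s) + η w * M (lap ζ ::ₘ N b u ::ₘ s) := by
    have e2 : lap η = lap α + lap β + η w • lap ζ := by
      rw [← lap_smul _ hζ.1, ← lap_add a1.1 a2.1, ← lap_add (a1.add a2).1 (hζ.smul _).1, ← a3]
    rw [e2, hM.add _ _ _ ((test_lap a1).add (test_lap a2)) ((test_lap hζ).smul _) t1,
      hM.add _ _ _ (test_lap a1) (test_lap a2) t1, hM.smul _ _ _ (test_lap hζ) t1,
      hM.null β _ a2 (a5.trans h0) t1 fun h hh => ?_, add_zero]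
    rcases Multiset.mem_cons.1 hh with rfl | hh
    · exact (Set.disjoint_union_right.2 ⟨a6.mono_right u1, hζb.mono_left a5⟩).mono_right
        (N_supp b u)
    · exact (hζs h hh).mono_left a5
  have e3 : M (lap ζ ::ₘ N b (η * u) ::ₘ s) =
      M (lap ζ ::ₘ N b v ::ₘ s) + η w * M (lap ζ ::ₘ N b u ::ₘ s) := by
    have e4 : η * u = v + η w • u := by funext p; simp [hv]; ring
    have t2 := tests (test_lap hζ) hs
    rw [e4, N_add _ v1 hu, Multiset.cons_swap, hM.add _ _ _ n2 (n1.smul _) t2,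
      hM.smul _ _ _ n1 t2, Multiset.cons_swap (N b v), Multiset.cons_swap (N b u)]
  have b1 := h2 _ _ _ _ a4 (h3 u w r a hu hr hr1 u1 u2 u3)
  have b2 := h2 _ _ _ _ (fl_lap hζ) (h3 v w r _ v1 hr hr1 (v2.trans u1) (v2.trans u2) v3)
  rw [e1, e3, add_sub_add_right_eq_sub]
  refine (abs_sub _ _).trans ((add_le_add b1 b2).trans (le_of_eq ?_))
  ring

theorem IW2_one (hM : ClV V0 M) (hs : Tests s) {b0 : Pl → ℝ} (hζ : Sm ζ)
    (h0 : tsupport ζ ⊆ V0) (hb : Sm b0)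
    (hb1 : ∫ p, b0 p = 1) {V : Set Pl} (hV : IsOpen V) (hζ1 : ∀ p ∈ V, ζ p = 1)
    (hζs : ∀ h ∈ s, Disjoint (tsupport ζ) (tsupport h))
    (hζb : Disjoint (tsupport ζ) (tsupport b0)) {φ : Pl → ℝ} (hη : Sm η) (hφ : Sm φ)
    (hηV : tsupport η ⊆ V) (hφV : tsupport φ ⊆ V) :
    M (lap η ::ₘ (φ - (∫ p, φ p) • b0) ::ₘ s) =
      M (lap ζ ::ₘ (η * φ - (∫ p, (η * φ) p) • b0) ::ₘ s) := by
  obtain ⟨R, hR, h1⟩ := hφ.rad
  obtain ⟨R', hR', h2⟩ := hb.rad
  obtain ⟨a, ha, h3⟩ := hφ.bdd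
  obtain ⟨K, hK, h4⟩ := IW2_piece hM hs hζ h0 hb hb1 hζ1 hζs hζb hη hηV (R := R + R') (by linarith)
    (h2.trans (closedBall_subset_closedBall (by linarith))) ha
  obtain ⟨C, hC, h5⟩ := pieces hφ
  obtain ⟨δ, hδ, h6⟩ := hφ.2.isCompact.exists_cthickening_subset_open hV hφV
  have h7 : Tendsto (fun r : ℝ => C * K * √r) (𝓝[>] 0) (𝓝 0) := by
    have := (Real.continuous_sqrt.const_mul (C * K)).tendsto 0
    rw [Real.sqrt_zero, mul_zero] at this
    exact this.mono_left nhdsWithin_le_nhds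
  rw [← sub_eq_zero, ← abs_nonpos_iff]
  refine ge_of_tendsto h7 ?_
  filter_upwards [Ioc_mem_nhdsGT (lt_min one_pos (show 0 < δ / 4 by positivity))] with r hr
  have hr1 := hr.2.trans (min_le_left _ _)
  have hr2 := hr.2.trans (min_le_right _ _)
  have hr0 := hr.1
  obtain ⟨I, ρ, w, p1, p2, p3, p4, p5, p6⟩ := h5 r hr0 hr1
  have q1 : ∀ i, Sm (ρ i * φ) := fun i => Sm.mul_left (p2 i).1 hφ
  have q2 : ∀ i, Sm (η * (ρ i * φ)) := fun i => Sm.mul_left hη.1 (q1 i)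
  have e1 : ∀ (f : Pl → ℝ) (u : Site → Pl → ℝ), IsTest f → (∀ i, Sm (u i)) →
      M (f ::ₘ N b0 (∑ i ∈ I, u i) ::ₘ s) = ∑ i ∈ I, M (f ::ₘ N b0 (u i) ::ₘ s) := by
    intro f u hf hu
    rw [N_sum I u fun i _ => hu i, Multiset.cons_swap,
      hM.toCl1.sum I (fun i => N b0 (u i)) (fun i _ => test_neutral (hu i) hb hb1) (tests hf hs)]
    simp only [Multiset.cons_swap f]
  have e2 := e1 _ _ (test_lap hη) q1
  have e3 := e1 _ _ (test_lap hζ) q2
  rw [← Finset.mul_sum, ← p6] at e3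
  rw [← p6] at e2
  refine (congrArg abs (congrArg₂ _ e2 e3)).trans_le ?_
  rw [← Finset.sum_sub_distrib]
  refine (Finset.abs_sum_le_sum_abs _ _).trans
    ((Finset.sum_le_card_nsmul _ _ (K * (r ^ 2 * √r)) fun i hi => ?_).trans ?_)
  · obtain ⟨q, hq, h8⟩ := p5 i hi
    refine h4 _ (w i) r (q1 i) hr0 hr1 (fun p hp => h6 (mem_cthickening_of_dist_le p q δ _ hq ?_))
      (tsupport_mul_subset_left.trans (p4 i)) (tsupport_mul_subset_right.trans
        (h1.trans (closedBall_subset_closedBall (by linarith)))) fun p => ?_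
    · linarith [dist_triangle p (w i) q, mem_closedBall.1 hp]
    · rw [Pi.mul_apply, abs_mul, abs_of_nonneg (p3 i p).1]
      exact (mul_le_mul (p3 i p).2 (h3 p) (abs_nonneg _) zero_le_one).trans (one_mul _).le
  · rw [nsmul_eq_mul]
    refine (mul_le_mul_of_nonneg_right p1 (by positivity)).trans (le_of_eq ?_)
    field_simp

theorem IW2_two (hM : ClV V0 M) (hs : Tests s) {a b c d ρ : ℝ} (hρ : 0 < ρ)
    (h0 : rct a b c d ρ ⊆ V0)
    (hd : ∀ h ∈ s, Disjoint (rct a b c d ρ) (tsupport h)) :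
    ∃ α : ℝ, ∀ η f, Sm η → IsTest f → tsupport η ⊆ rct a b c d 0 → tsupport f ⊆ rct a b c d 0 →
      M (lap η ::ₘ f ::ₘ s) = α * ip η f := by
  obtain ⟨ζ, z1, z2, -, W, -, w2, w3⟩ := cut_one (A := rct a b c d (ρ / 2))
    (V := Set.Ioo (a - ρ) (b + ρ) ×ˢ Set.Ioo (c - ρ) (d + ρ)) (isCompact_Icc.prod isCompact_Icc)
    (isOpen_Ioo.prod isOpen_Ioo) (Set.prod_mono (Set.Icc_subset_Ioo (by linarith) (by linarith))
      (Set.Icc_subset_Ioo (by linarith) (by linarith)))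
  obtain ⟨b0, b1, b2, b3⟩ := bump_one ((b + ρ + 1, 0) : Pl) one_pos
  set V : Set Pl := Set.Ioo (a - ρ / 2) (b + ρ / 2) ×ˢ Set.Ioo (c - ρ / 2) (d + ρ / 2) with hV
  have hVo : IsOpen V := isOpen_Ioo.prod isOpen_Ioo
  have hζ1 : ∀ p ∈ V, ζ p = 1 := fun p hp =>
    w3 p (w2 (Set.prod_mono Set.Ioo_subset_Icc_self Set.Ioo_subset_Icc_self hp))
  have z3 : tsupport ζ ⊆ rct a b c d ρ :=
    z2.trans (Set.prod_mono Set.Ioo_subset_Icc_self Set.Ioo_subset_Icc_self)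
  have z0 := z3.trans h0
  have hζs : ∀ h ∈ s, Disjoint (tsupport ζ) (tsupport h) := fun h hh => (hd h hh).mono_left z3
  have hζb : Disjoint (tsupport ζ) (tsupport b0) := Set.disjoint_left.2 fun p p1 p2 => by
    have a1 := (z2 p1).1.2
    have a2 := (le_max_left _ _).trans_lt (mem_ball.1 (b2 p2))
    rw [Real.dist_eq, abs_lt] at a2
    linarith [a2.1]
  have hT : Tests (lap ζ ::ₘ s) := fun h hh => by
    rcases Multiset.mem_cons.1 hh with rfl | hh
    · exact test_lap z1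
    · exact hs h hh
  have key : ∀ η f, Sm η → IsTest f → tsupport η ⊆ V → tsupport f ⊆ V → M (lap η ::ₘ f ::ₘ s) =
      M ((η * f - (∫ p, (η * f) p) • b0) ::ₘ lap ζ ::ₘ s) := fun η f hη hf s1 s2 => by
    have := IW2_one hM hs z1 z0 b1 b3 hVo hζ1 hζs hζb hη hf.sm s1 s2
    rwa [hf.2.2, zero_smul, sub_zero, Multiset.cons_swap (lap ζ)] at this
  obtain ⟨α, hα⟩ := FW2_lin (fun ψ => M ((ψ - (∫ p, ψ p) • b0) ::ₘ lap ζ ::ₘ s))
    (fun ψ φ h1 h2 => by
      rw [← hM.add _ _ _ (test_neutral h1 b1 b3) (test_neutral h2 b1 b3) hT]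
      congr 2
      have : ∫ p, (ψ + φ) p = (∫ p, ψ p) + ∫ p, φ p := integral_add h1.integrable h2.integrable
      rw [this, add_smul]
      abel)
    (fun t ψ h1 => by
      rw [← hM.smul _ _ _ (test_neutral h1 b1 b3) hT]
      congr 2
      have : ∫ p, (t • ψ) p = t * ∫ p, ψ p := integral_const_mul t ψ
      rw [this, smul_sub, mul_smul])
    (fun η φ h1 h2 s1 s2 => by
      rw [← key η _ h1 (test_lap h2) s1 ((tsupp_lap φ).trans s2),
        ← key φ _ h2 (test_lap h1) s2 ((tsupp_lap η).trans s1), Multiset.cons_swap])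
  have sub : rct a b c d 0 ⊆ V := Set.prod_mono (Set.Icc_subset_Ioo (by linarith) (by linarith))
    (Set.Icc_subset_Ioo (by linarith) (by linarith))
  refine ⟨α, fun η f hη hf s1 s2 => ?_⟩
  rw [key η f hη hf (s1.trans sub) (s2.trans sub)]
  exact hα _ (hη.mul_right hf.1) (tsupport_mul_subset_left.trans (s1.trans sub))

end

theorem iW2 : W2St :=
  ⟨fun _ _ => IW2_cl, fun _ _ hM _ hs _ _ _ _ _ hρ h0 hd => IW2_two hM hs hρ h0 hd⟩

end Vale.Agent.P145.Ib
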