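import Vale.Agent.P145.IAl
import Vale.Agent.P145.IAll
import Vale.Agent.P145.IBI
import Vale.Agent.P145.IComb
import Vale.Agent.P145.IExp
import Vale.Agent.P145.IFin
import Vale.Agent.P145.IGeo
import Vale.Agent.P145.IGrp
import Vale.Agent.P145.IIbp
import Vale.Agent.P145.IInd
import Vale.Agent.P145.ILoc
import Vale.Agent.P145.IMW
import Vale.Agent.P145.IMark
import Vale.Agent.P145.IMove
import Vale.Agent.P145.IOne
import Vale.Agent.P145.IRP
import Vale.Agent.P145.IRep
import Vale.Agent.P145.ISer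
import Vale.Agent.P145.IThree
import Vale.Agent.P145.IW2
import Vale.Agent.P152.XMain

/-! P145, block I: assembly. -/

namespace Vale.Agent.P145.Ib

open Vale.Agent.P152

theorem repSt : RepSt := iRep iGeo
theorem s0St : S0St := iS0 iGeo repSt
theorem s1St : S1St := iS1 iGeo repSt s0St iLift
theorem finSt : FinSt := iFin iGeo repSt
theorem all2St : All2St := iAll iRD iCS iMove iComb
theorem one2St : One2St := iOne repSt (iLoc repSt s1St all2St)
theorem i3St : I3St := iThree iMW iW2 iAl iIbp iSer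
theorem indSt : IndSt := iInd iGeo repSt one2St i3St (i4 iDer)

/-- the stiffness is unique -/
theorem kspec_le {E : Fn} {K K' : ℝ} (h : KSpec E K) (h' : KSpec E K') : K ≤ K' := by
  refine le_of_forall_pos_le_add fun ε hε => ?_
  obtain ⟨d, hd⟩ := h.lower (ε / 2) (by positivity)
  obtain ⟨i, hi⟩ := h'.upper (ε / 2) (by positivity)
  linarith [hd i (i + d) le_rfl, hi i (i + d) le_rfl (Nat.le_add_right i d)]

variable {c K : ℝ}

theorem d3_all (h1 : 1 < c) (h2 : c ≤ 2) (hK : KSpec (EE c) K) : D3 (EE c) K := by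
  obtain ⟨K', k1, k2⟩ := blkD _ (st_all h1 h2)
  rwa [le_antisymm (kspec_le hK k1) (kspec_le k1 hK)]

theorem gau_all (h1 : 1 < c) (h2 : c ≤ 2) (hK : KSpec (EE c) K) : GauE (EE c) K :=
  iGau _ K (st_all h1 h2) hK (d3_all h1 h2 hK) (blkE1 _ (st_all h1 h2))

theorem ind_all (h1 : 1 < c) (h2 : c ≤ 2) (hK : KSpec (EE c) K) : Ind (EE c) K :=
  indSt _ K (st_all h1 h2) (gau_all h1 h2 hK)

/-- block I -/
theorem bi (h1 : 1 < c) (h2 : c ≤ 2) (hK : KSpec (EE c) K) : BI c K :=
  iBI iMark iGrp finSt s0St h1 (conv_all h1 h2) (st_all h1 h2).toSt0 (ind_all h1 h2 hK)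

end Vale.Agent.P145.Ib
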