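import Vale.Agent.P145.LLift

/-! P145: heights and spins. -/

open Filter Topology

namespace Vale.Agent.P145

open Vale.Agent.P152

theorem LSpin_prim (a : ℤ → ℤ) : ∃ g : ℤ → ℤ, g 0 = 0 ∧ ∀ x, g (x + 1) = g x + a x := by
  refine ⟨fun x => ∑ i ∈ Finset.range x.toNat, a i - ∑ i ∈ Finset.range (-x).toNat, a (-(i + 1)),
    by simp, fun x => ?_⟩
  beta_reduce
  rcases le_or_gt 0 x with h | h
  · rw [show (x + 1).toNat = x.toNat + 1 by omega, show (-(x + 1)).toNat = (-x).toNat by omega,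
      Finset.sum_range_succ, show ((x.toNat : ℕ) : ℤ) = x by omega]
    ring
  · rw [show (-x).toNat = (-(x + 1)).toNat + 1 by omega, show (x + 1).toNat = x.toNat by omega,
      Finset.sum_range_succ, show -((((-(x + 1)).toNat : ℕ) : ℤ) + 1) = x by omega]
    ring

theorem LSpin_pot (r : Site → Site → ℤ)
    (h : ∀ m, r (fa m) (src m) - r (fa m) (tgt m) = r (fb m) (src m) - r (fb m) (tgt m)) :
    ∃ g : Site → ℤ, ∀ f, ∀ v ∈ cor f, g f + r f f = g v + r f v := by
  have h1 : ∀ x y : ℤ, r (x, y + 1) (x, y + 1) - r (x, y + 1) (x + 1, y + 1) =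
      r (x, y) (x, y + 1) - r (x, y) (x + 1, y + 1) := fun x y => by
    simpa [fa, fb, src, tgt, dir] using h ((x, y + 1), true)
  have h2 : ∀ x y : ℤ, r (x + 1, y) (x + 1, y) - r (x + 1, y) (x + 1, y + 1) =
      r (x, y) (x + 1, y) - r (x, y) (x + 1, y + 1) := fun x y => by
    simpa [fa, fb, src, tgt, dir] using h ((x + 1, y), false)
  obtain ⟨A, -, hA⟩ := LSpin_prim fun x => r (x, 0) (x, 0) - r (x, 0) (x + 1, 0)
  choose B B0 hB using fun x => LSpin_prim fun y => r (x, y) (x, y) - r (x, y) (x, y + 1)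
  have h3 : ∀ x y : ℤ, A (x + 1) + B (x + 1) y =
      A x + B x y + (r (x, y) (x, y) - r (x, y) (x + 1, y)) := fun x y => by
    induction y using Int.induction_on with
    | zero => rw [B0, B0, hA]; ring
    | succ n ih => linarith [hB x n, hB (x + 1) n, h1 x n, h2 x n]
    | pred n ih =>
      have e1 := hB x (-(n : ℤ) - 1)
      have e2 := hB (x + 1) (-(n : ℤ) - 1)
      have e3 := h1 x (-(n : ℤ) - 1)
      have e4 := h2 x (-(n : ℤ) - 1)
      rw [sub_add_cancel] at e1 e2 e3 e4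
      linarith
  refine ⟨fun v => A v.1 + B v.1 v.2, ?_⟩
  rintro ⟨x, y⟩ ⟨x', y'⟩ hv
  obtain ⟨rfl | rfl, rfl | rfl⟩ : (x' = x ∨ x' = x + 1) ∧ (y' = y ∨ y' = y + 1) := mem_cor.1 hv
  · rfl
  · linarith [hB x' y]
  · linarith [h3 x y']
  · linarith [h3 x y, hB (x + 1) y, h2 x y]

/-- the increments in terms of the spins -/
theorem inc_spin {D : Finset Site} {h : Ht} (k : IsH D h) {f v : Site} (hf : f ∈ D)
    (hv : v ∈ cor f) :
    h (f, false) - h (v, true) = if (v ∈ tau D h ↔ f ∈ dag D h) then -1 else 1 := by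
  have h1 := k.2.2 f hf v hv
  have h2 := k.par.1 v
  have h3 : v ∈ tau D h ↔ h (v, true) % 4 = 2 :=
    Finset.mem_filter.trans (and_iff_right_of_imp fun e => by
      by_contra hn
      rw [k.1 v hn] at e
      omega)
  rw [abs_eq (by norm_num)] at h1
  have h4 : f ∈ dag D h ↔ h (f, false) % 4 = 1 := Finset.mem_filter.trans (and_iff_right hf)
  simp only [h3, h4]
  split_ifs <;> omega

theorem LSpin_adm {D : Finset Site} {h : Ht} (k : IsH D h) : Adm D (tau D h) (dag D h) := by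
  intro m hm
  obtain ⟨ha, hb⟩ := mem_vin.1 hm
  have c1 := (sep_self m).cor (end_src m)
  have c2 := (sep_self m).cor (end_tgt m)
  have e1 := inc_spin k ha c1.1
  have e2 := inc_spin k ha c2.1
  have e3 := inc_spin k hb c1.2
  have e4 := inc_spin k hb c2.2
  by_cases p1 : src m ∈ tau D h <;> by_cases p2 : tgt m ∈ tau D h <;>
    by_cases p3 : fa m ∈ dag D h <;> by_cases p4 : fb m ∈ dag D h <;>
    simp only [p1, p2, p3, p4, iff_self, true_or, or_true, iff_false, false_iff, not_true,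
      if_true, if_false] at e1 e2 e3 e4 ⊢ <;> omega

theorem LSpin_surj {D T s : Finset Site} (hD : Cc D) (hT : T ⊆ inn D) (hs : s ⊆ D)
    (ha : Adm D T s) : ∃ h, IsH D h ∧ tau D h = T ∧ dag D h = s := by
  obtain ⟨g, hg⟩ := LSpin_pot (fun f v => if f ∉ s ∧ v ∈ T then 1 else 0) fun m => by
    have : (src m ∈ T ↔ tgt m ∈ T) ∨ (fa m ∈ s ↔ fb m ∈ s) := by
      by_cases hm : m ∈ vin D
      · exact ha m hm
      · exact Or.inl (iff_of_false (fun k => hm (vin_of_src (hT k)))
          fun k => hm (vin_of_tgt (hT k)))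
    rcases this with e | e <;> simp only [e, sub_self]
  obtain ⟨h0, a1, a2⟩ : ∃ h0 : Ht, (∀ v, v ∉ T → h0 (v, true) % 4 = 0) ∧ ∀ f, ∀ v ∈ cor f,
      h0 (f, false) - h0 (v, true) = if (v ∈ T ↔ f ∈ s) then -1 else 1 := by
    refine ⟨fun x => if x.2 then (if x.1 ∈ T then 2 else 0) + 4 * g x.1 else
      (if x.1 ∈ s then 1 else -1) + 4 * (g x.1 + if x.1 ∉ s ∧ x.1 ∈ T then 1 else 0),
      fun v hv => by simp [hv], fun f v hv => ?_⟩
    simp only [if_true, Bool.false_eq_true, if_false]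
    rw [hg f v hv]
    by_cases p1 : v ∈ T <;> by_cases p2 : f ∈ s <;>
      simp only [p1, p2, not_true, not_false_iff, and_self, and_false, false_and, iff_self,
        iff_false, false_iff, if_true, if_false] <;> ring
  obtain ⟨h, k, e⟩ := l_lift D h0 0 hD
    (fun f _ v hv => by rw [a2 f v hv]; split_ifs <;> rfl) fun f _ v _ hv => a1 v fun k => hv (hT k)
  have key : ∀ f ∈ D, ∀ v ∈ cor f, ((v ∈ tau D h ↔ f ∈ dag D h) ↔ (v ∈ T ↔ f ∈ s)) :=
    fun f hf v hv => by
      have := (inc_spin k hf hv).symm.trans ((e f hf v hv).trans (a2 f v hv))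
      split_ifs at this with p1 p2 p2
      · exact iff_of_true p1 p2
      · exact iff_of_false p1 p2
  have h1 : ∀ v, v ∈ tau D h ↔ v ∈ T := left_ind D _
    (fun v hv => iff_of_false (fun k => hv (Finset.mem_filter.1 k).1) fun k => hv (hT k))
    fun v hv ih => by
      have m := (mem_inn.1 hv).2.1
      have e1 := key _ m v (by rw [mem_cor]; simp)
      have e2 := key _ m _ (self_cor _)
      tauto
  refine ⟨h, k, Finset.ext h1, Finset.ext fun f => ?_⟩
  by_cases hf : f ∈ D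
  · have e1 := key f hf f (self_cor f)
    have e2 := h1 f
    tauto
  · exact iff_of_false (fun k => hf (Finset.mem_filter.1 k).1) fun k => hf (hs k)

theorem l_spin : L_spin := by
  classical
  intro D hD Φ
  rw [← Finset.sum_product', ← Finset.sum_filter]
  refine Finset.sum_bij (fun h _ => (tau D h, dag D h)) (fun h hh => ?_)
    (fun h hh h' hh' e => ?_) (fun p hp => ?_) fun _ _ => rfl
  · exact Finset.mem_filter.2 ⟨Finset.mem_product.2
      ⟨Finset.mem_powerset.2 (Finset.filter_subset _ _),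
        Finset.mem_powerset.2 (Finset.filter_subset _ _)⟩, LSpin_adm (mem_hs.1 hh)⟩
  · obtain ⟨e1, e2⟩ := Prod.mk.inj e
    refine lift_uniq (mem_hs.1 hh) (mem_hs.1 hh') fun f hf v hv => ?_
    rw [inc_spin (mem_hs.1 hh) hf hv, inc_spin (mem_hs.1 hh') hf hv, e1, e2]
  · obtain ⟨p1, p2⟩ := Finset.mem_filter.1 hp
    obtain ⟨p3, p4⟩ := Finset.mem_product.1 p1
    obtain ⟨h, k, e1, e2⟩ := LSpin_surj hD (Finset.mem_powerset.1 p3) (Finset.mem_powerset.1 p4) p2
    exact ⟨h, mem_hs.2 k, Prod.ext e1 e2⟩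

end Vale.Agent.P145
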