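import Vale.Agent.P145.LkStm

/-! P145, link: access to the boundary from outside. -/

open Set Filter Topology Metric

namespace Vale.Agent.P145.Lk

open Vale.Agent.P152 Vale.Agent.P145.AT
open Vale.Agent.P153 (IsJordanMap IsTest)
open Vale.Agent.P153.CA (JLoop inside)

namespace XAcc

theorem net {J E : Set ℂ} (hJ : IsCompact J) (hE : J ⊆ closure E) {r : ℝ} (hr : 0 < r) :
    ∃ Y : Set ℂ, Y ⊆ E ∧ Y.Finite ∧ ∀ z ∈ J, ∃ y ∈ Y, dist z y < r := by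
  obtain ⟨Y, h1, h2, h3⟩ := hJ.elim_finite_subcover_image (b := E) (c := fun y => ball y r)
    (fun _ _ => isOpen_ball) fun z hz => by
      obtain ⟨y, hy, h⟩ := Metric.mem_closure_iff.1 (hE hz) r hr
      exact mem_biUnion hy h
  refine ⟨Y, h1, h2, fun z hz => ?_⟩
  obtain ⟨y, hy, h⟩ := mem_iUnion₂.1 (h3 hz)
  exact ⟨y, hy, h⟩

end XAcc

theorem a_out (ho : T_out) (hf : T_fr) (hh : T_hull) (hd : T_dom) : A_out := by
  intro ψ hψ
  obtain ⟨-, d1, d2, d3, d4⟩ := hd ψ hψ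
  have hJ : IsCompact (ψ '' sphere 0 1) :=
    (isCompact_sphere 0 1).image_of_continuousOn (hψ.1.mono sphere_subset_closedBall)
  have hC : IsCompact (ψ '' closedBall 0 1) :=
    (isCompact_closedBall 0 1).image_of_continuousOn hψ.1
  obtain ⟨R, hR0, hR⟩ := hC.isBounded.subset_ball_lt 0 (0 : ℂ)
  obtain ⟨o1, o2, -⟩ := ho _ hJ
  have hcl : ψ '' sphere 0 1 ⊆ closure (outs (ψ '' sphere 0 1)) := by
    have := hf _ (P153.CA.jloop_comp hψ)
    rw [P153.CA.range_comp_circ] at this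
    exact this (d3 ▸ ⟨ψ 0, 0, mem_ball_self one_pos, rfl⟩)
  have e1 : closure (DP ψ) = cx ⁻¹' (ψ '' closedBall 0 1) := by
    rw [DP, ← cxH_eq, ← Homeomorph.preimage_closure, d1]
  have e2 : frontier (DP ψ) = cx ⁻¹' (ψ '' sphere 0 1) := by
    rw [DP, ← cxH_eq, ← Homeomorph.preimage_frontier, d2]
  refine ⟨R, hR0, fun p hp => ?_, fun r hr => ?_⟩
  · rw [e1] at hp
    exact mem_ball_zero_iff.2 ((norm_le_cx p).trans_lt (mem_ball_zero_iff.1 (hR hp)))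
  obtain ⟨Y, y1, y2, y3⟩ := XAcc.net hJ hcl hr
  have hK : IsCompact (Y ∪ cx '' sphere 0 R) :=
    y2.isCompact.union ((isCompact_sphere 0 R).image (cxH_eq ▸ cxH.continuous))
  obtain ⟨g, g1, g2, g3, g4⟩ := hh _ _ o1 o2 hK (union_subset y1 (by
    rintro _ ⟨p, hp, rfl⟩
    rw [d4]
    exact fun h => (mem_ball_zero_iff.1 (hR h)).not_ge
      ((mem_sphere_zero_iff_norm.1 hp).symm.trans_le (norm_le_cx p))))
  refine ⟨cx ⁻¹' g, cxH_eq ▸ cxH.isCompact_preimage.2 g1,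
    cxH_eq ▸ cxH.isPreconnected_preimage.2 g2, fun p hp => g3 (Or.inr ⟨p, hp, rfl⟩), ?_,
    fun z hz => ?_⟩
  · rw [e1]
    exact Set.disjoint_left.2 fun p hp hq => (d4 ▸ g4 hp : cx p ∈ (ψ '' closedBall 0 1)ᶜ) hq
  · rw [e2] at hz
    obtain ⟨y, hy, h⟩ := y3 _ hz
    obtain ⟨q, rfl⟩ := cxH.surjective y
    rw [cxH_eq] at hy h
    exact ⟨q, g3 (Or.inl hy), (dist_le_cx z q).trans h.le⟩

end Vale.Agent.P145.Lk
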