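import Vale.Agent.P145.LkStm

/-! P145, link: polygons give lattice approximations. -/

open Set Filter Topology Metric

namespace Vale.Agent.P145.Lk

open Vale.Agent.P152 Vale.Agent.P145.AT
open Vale.Agent.P153 (IsJordanMap IsTest)
open Vale.Agent.P153.CA (JLoop inside)

namespace XApr

theorem far (hh : T_hull) {C : Set ℂ} (hC : IsCompact C) (hc : IsPreconnected Cᶜ) {ε : ℝ}
    (hε : 0 < ε) : ∃ (S : Set ℂ) (e : ℝ), 0 < e ∧ IsPreconnected S ∧ ¬ Bornology.IsBounded S ∧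
      (∀ y ∈ S, ∀ c ∈ C, e < dist y c) ∧ ∀ w, w ∉ S → ∃ c ∈ C, dist w c < ε := by
  obtain ⟨R, R0, hR⟩ := hC.isBounded.subset_closedBall_lt 0 0
  have h1 : ∀ y : ℂ, R + 1 < ‖y - 0‖ → ∀ c ∈ C, 1 < dist y c := fun y hy c hc => by
    have k1 := mem_closedBall_iff_norm.1 (hR hc)
    have k2 := norm_sub_norm_le y c
    rw [sub_zero] at hy k1
    rw [dist_eq_norm]
    linarith
  have ho := hC.isClosed.isOpen_compl
  obtain ⟨g, g1, g2, g3, g4⟩ := hh _ (closedBall 0 (R + 2) \ thickening (min ε 1) C) ho hc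
    ((isCompact_closedBall _ _).diff isOpen_thickening)
    fun z hz k => hz.2 (self_subset_thickening (lt_min hε one_pos) _ k)
  obtain ⟨e, e0, he⟩ := g1.exists_cthickening_subset_open ho g4
  have h2 : ‖((R + 2 : ℝ) : ℂ) - 0‖ = R + 2 := by
    rw [sub_zero, Complex.norm_real, Real.norm_of_nonneg (by linarith)]
  have h3 : R + 1 < ‖((R + 2 : ℝ) : ℂ) - 0‖ := by linarith
  refine ⟨g ∪ {z | R + 1 < ‖z - 0‖}, min e 1, lt_min e0 one_pos,
    g2.union ((R + 2 : ℝ) : ℂ) (g3 ⟨mem_closedBall_iff_norm.2 h2.le, fun k => ?_⟩) h3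
      (P153.CA.isPathConnected_ext 0 _).isConnected.isPreconnected,
    fun k => P153.CA.not_bounded_ext 0 _ (k.subset subset_union_right), fun y hy c hc => ?_,
    fun w hw => ?_⟩
  · obtain ⟨c, hc, k⟩ := mem_thickening_iff.1 k
    exact absurd ((h1 _ h3 c hc).trans k) (not_lt.2 (min_le_right _ _))
  · rcases hy with hy | hy
    · refine (min_le_left _ _).trans_lt (not_le.1 fun k => he ?_ hc)
      exact mem_cthickening_of_dist_le c y e g hy (dist_comm y c ▸ k)
    · exact (min_le_right _ _).trans_lt (h1 y hy c hc)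
  · have k1 : ‖w - 0‖ ≤ R + 1 := not_lt.1 fun k => hw (Or.inr k)
    have k2 : w ∈ thickening (min ε 1) C := by_contra fun k =>
      hw (Or.inl (g3 ⟨mem_closedBall_iff_norm.2 (by linarith), k⟩))
    obtain ⟨c, hc, k⟩ := mem_thickening_iff.1 k2
    exact ⟨c, hc, k.trans_le (min_le_left _ _)⟩

theorem ctr_le {δ : ℝ} (h : 0 < δ) (f : Site) : dist (δ * ctr f) (cx (pnt δ f)) ≤ δ := by
  rw [cx_pnt, ctr, mul_add, dist_self_add_left, norm_mul, Complex.norm_real,
    Real.norm_of_nonneg h.le]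
  refine mul_le_of_le_one_right h.le ((Complex.norm_le_abs_re_add_abs_im _).trans ?_)
  norm_num [abs_of_pos]

end XApr

theorem p_apr (ho : T_out) (hh : T_hull) (hd : T_dom) : P_apr := by
  intro ψ P δ U hψ ⟨h0, h1, h2, h3⟩ hG
  obtain ⟨d1, d2, -, -, d3⟩ := hd ψ hψ
  have hδ : ∀ n, (δ n : ℂ) ≠ 0 := fun n => Complex.ofReal_ne_zero.2 (h0 n).ne'
  refine ⟨h0, h1, Eventually.of_forall fun n => (hG n).cc, fun K hK hKD => ?_, fun ε hε => ?_⟩
  · have k1 : IsCompact (cx '' K) := hK.image (cxH_eq ▸ cxH.continuous)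
    obtain ⟨r, r0, hr⟩ := k1.exists_cthickening_subset_open (d1 1 le_rfl) (image_subset_iff.2 hKD)
    filter_upwards [h3 _ k1.cthickening hr, h1.eventually (ge_mem_nhds r0)] with n a1 a2 f hf
    have := a1 _ (mem_cthickening_of_dist_le _ _ r _ (mem_image_of_mem cx hf)
      ((XApr.ctr_le (h0 n) f).trans a2))
    rw [mul_div_cancel_left₀ _ (hδ n)] at this
    exact ((hG n).coe f).2 this
  · have k1 : IsCompact (ψ '' closedBall 0 1) :=
      (isCompact_closedBall _ _).image_of_continuousOn hψ.1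
    have k2 := (ho _ ((isCompact_sphere _ _).image_of_continuousOn
      (hψ.1.mono sphere_subset_closedBall))).2.1
    obtain ⟨S, e, e0, s1, s2, s3, s4⟩ := XApr.far hh k1 (d3 ▸ k2) (half_pos hε)
    filter_upwards [h2 e e0, h1.eventually (ge_mem_nhds (half_pos hε))] with n a1 a2 f hf
    have a3 : (δ n : ℂ) * ctr f ∉ S := fun k => by
      have b1 : (fun z => z / (δ n : ℂ)) '' S ⊆ connectedComponentIn (cv (P n))ᶜ (ctr f) := by
        refine (s1.image _ (by fun_prop)).subset_connectedComponentIn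
          ⟨_, k, mul_div_cancel_left₀ _ (hδ n)⟩ ?_
        rintro _ ⟨z, hz, rfl⟩ ⟨t, ht, e1⟩
        obtain ⟨ζ, hζ, b2⟩ := a1 t ht
        rw [e1, mul_div_cancel₀ _ (hδ n)] at b2
        exact absurd (s3 z hz _ ⟨ζ, sphere_subset_closedBall hζ, rfl⟩) (not_lt.2 b2)
      obtain ⟨r, hr⟩ := ((((hG n).coe f).1 hf).2.subset b1).exists_norm_le
      refine s2 (isBounded_iff_forall_norm_le.2 ⟨r * ‖(δ n : ℂ)‖, fun z hz => ?_⟩)
      have := hr _ (mem_image_of_mem _ hz)
      rwa [norm_div, div_le_iff₀ (norm_pos_iff.2 (hδ n))] at this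
    obtain ⟨c, hc, a4⟩ := s4 _ a3
    have a5 : cx (cxH.symm c) = c := cxH_eq ▸ cxH.apply_symm_apply c
    refine ⟨cxH.symm c, ?_, (dist_le_cx _ _).trans ?_⟩
    · rw [DP, ← cxH_eq, ← cxH.preimage_closure, d2, mem_preimage, cxH.apply_symm_apply]
      exact hc
    · rw [a5]
      linarith [dist_triangle_left (cx (pnt (δ n) f)) c (δ n * ctr f), XApr.ctr_le (h0 n) f]

end Vale.Agent.P145.Lk
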