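import Vale.Agent.P145.LkStm

/-! P145: the faces outside a polygon are connected. -/

open Set Filter Topology Metric

namespace Vale.Agent.P145.Lk

open Vale.Agent.P152 Vale.Agent.P145.AT
open Vale.Agent.P153 (IsJordanMap IsTest)
open Vale.Agent.P153.CA (JLoop inside)

namespace XCc

theorem adj {U : Set Site} {f g : Site} (hf : f ∈ U) (hg : g ∈ U)
    (h : (f.1 = g.1 ∧ f.2 ≤ g.2 + 1 ∧ g.2 ≤ f.2 + 1) ∨ (f.2 = g.2 ∧ f.1 ≤ g.1 + 1 ∧ g.1 ≤ f.1 + 1)) :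
    Relation.ReflTransGen (DS ∅ U) f g := by
  obtain ⟨a, b⟩ := f
  obtain ⟨c, d⟩ := g
  have h1 : (a = c ∧ b = d) ∨ (a = c ∧ d = b - 1) ∨ (a = c ∧ b = d - 1) ∨ (b = d ∧ c = a - 1) ∨
      (b = d ∧ a = c - 1) := by
    simp only at h
    omega
  rcases h1 with ⟨rfl, rfl⟩ | ⟨rfl, rfl⟩ | ⟨rfl, rfl⟩ | ⟨rfl, rfl⟩ | ⟨rfl, rfl⟩
  · exact .refl
  · exact .single ⟨hf, hg, ((a, b), true), notMem_empty _, .inl ⟨rfl, by simp [fb, dir]⟩⟩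
  · exact .single ⟨hf, hg, ((a, d), true), notMem_empty _, .inr ⟨rfl, by simp [fb, dir]⟩⟩
  · exact .single ⟨hf, hg, ((a, b), false), notMem_empty _, .inl ⟨rfl, by simp [fb, dir]⟩⟩
  · exact .single ⟨hf, hg, ((c, b), false), notMem_empty _, .inr ⟨rfl, by simp [fb, dir]⟩⟩

theorem loc {U : Set Site} {z : ℂ} (hz : ∀ f, InSq f z → f ∈ U) {f g : Site} (hf : InSq f z)
    (hg : InSq g z) : Relation.ReflTransGen (DS ∅ U) f g := by
  have h1 : InSq (g.1, f.2) z := ⟨hg.1, hg.2.1, hf.2.2⟩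
  have h2 : f.1 ≤ g.1 + 1 := by exact_mod_cast hf.1.trans hg.2.1
  have h3 : g.1 ≤ f.1 + 1 := by exact_mod_cast hg.1.trans hf.2.1
  have h4 : f.2 ≤ g.2 + 1 := by exact_mod_cast hf.2.2.1.trans hg.2.2.2
  have h5 : g.2 ≤ f.2 + 1 := by exact_mod_cast hg.2.2.1.trans hf.2.2.2
  exact (adj (hz f hf) (hz _ h1) (.inr ⟨rfl, h2, h3⟩)).trans
    (adj (hz _ h1) (hz g hg) (.inl ⟨rfl, h4, h5⟩))

/-- the face that contains a point -/
noncomputable def fl (z : ℂ) : Site := (⌊z.re⌋, ⌊z.im⌋)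

theorem near1 {x y : ℝ} (h1 : (⌈x⌉ : ℝ) - 1 < y) (h2 : y < ⌊x⌋ + 1) :
    (⌊y⌋ : ℝ) ≤ x ∧ x ≤ ⌊y⌋ + 1 := by
  have h3 : ⌊y⌋ ≤ ⌊x⌋ := Int.lt_add_one_iff.1 (Int.floor_lt.2 (by exact_mod_cast h2))
  have h4 : ⌈x⌉ - 1 ≤ ⌊y⌋ := Int.le_floor.2 (by exact_mod_cast h1.le)
  have h5 : (⌊y⌋ : ℝ) ≤ ⌊x⌋ := by exact_mod_cast h3
  have h6 : (⌈x⌉ : ℝ) - 1 ≤ ⌊y⌋ := by exact_mod_cast h4
  exact ⟨h5.trans (Int.floor_le x), by linarith [Int.le_ceil x]⟩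

theorem near (z : ℂ) : ∀ᶠ w in 𝓝 z, InSq (fl w) z := by
  have h : ∀ x : ℝ, ∀ᶠ y in 𝓝 x, (⌊y⌋ : ℝ) ≤ x ∧ x ≤ ⌊y⌋ + 1 := fun x =>
    ((eventually_gt_nhds (by linarith [Int.ceil_lt_add_one x])).and
      (eventually_lt_nhds (Int.lt_floor_add_one x))).mono fun _ hy => near1 hy.1 hy.2
  filter_upwards [Complex.continuous_re.continuousAt.eventually (h z.re),
    Complex.continuous_im.continuousAt.eventually (h z.im)] with w h1 h2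
  exact ⟨h1.1, h1.2, h2⟩

theorem in_ctr (f : Site) : InSq f (ctr f) := by
  simp only [InSq, ctr, emb, Complex.add_re, Complex.add_im]
  refine ⟨?_, ?_, ?_, ?_⟩ <;> linarith

end XCc

open XCc in
theorem p_cc (ho : T_out) (hs : P_seg) (hl : P_loc) : P_cc := by
  intro P f hf g hg
  have hK : IsCompact (cv P) := isCompact_Icc.image_of_continuousOn (hs P).1
  have hU : ∀ z ∈ outs (cv P), ∀ f, InSq f z → f ∈ P.faceᶜ := fun z hz f h =>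
    (((hl P).2 f).2 z h hz.1).2.1 hz
  have hc : ∀ f ∈ P.faceᶜ, ctr f ∈ outs (cv P) := fun f hf =>
    (((hl P).2 f).2 _ (in_ctr f) ((hl P).2 f).1).2.2 hf
  have key := (ho _ hK).2.1.induction₂'
    (fun z w => Relation.ReflTransGen (DS ∅ P.faceᶜ) (fl z) (fl w))
    (fun z hz => ((near z).mono fun w hw =>
      ⟨loc (hU z hz) (near z).self_of_nhds hw, loc (hU z hz) hw (near z).self_of_nhds⟩).filter_mono
        nhdsWithin_le_nhds)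
    (fun _ _ _ _ _ _ h1 h2 => h1.trans h2) (hc f hf) (hc g hg)
  exact ⟨hf, (loc (hU _ (hc f hf)) (in_ctr f) (near _).self_of_nhds).trans
    (key.trans (loc (hU _ (hc g hg)) (near _).self_of_nhds (in_ctr g)))⟩

end Vale.Agent.P145.Lk
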