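import Vale.Agent.P145.LkStm
import Vale.Agent.P153.CA.Jct
import Vale.Agent.P153.CA.Wind
import Vale.Agent.P153.CA.Inv
import Vale.Agent.P153.CA.Bdir
import Vale.Agent.P153.CA.Bconv

/-! P145, link: topology of a Jordan domain. -/

open Set Filter Topology Metric

namespace Vale.Agent.P145.Lk

open Vale.Agent.P152 Vale.Agent.P145.AT
open Vale.Agent.P153 (IsJordanMap IsTest)
open Vale.Agent.P153.CA (JLoop inside)

namespace XDom

variable {ψ : ℂ → ℂ}

theorem opn (h : IsJordanMap ψ) {ρ : ℝ} (hρ : ρ ≤ 1) : IsOpen (ψ '' ball 0 ρ) :=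
  (P153.CA.s_inv _ _ isOpen_ball (h.2.2.mono (ball_subset_ball hρ))
    (h.2.1.mono ((ball_subset_ball hρ).trans ball_subset_closedBall))).oV

theorem cpt (h : IsJordanMap ψ) {ρ : ℝ} (hρ : ρ ≤ 1) : IsCompact (ψ '' closedBall 0 ρ) :=
  (isCompact_closedBall 0 ρ).image_of_continuousOn (h.1.mono (closedBall_subset_closedBall hρ))

theorem clo (h : IsJordanMap ψ) : closure (ψ '' ball 0 1) = ψ '' closedBall 0 1 := by
  refine Subset.antisymm (closure_minimal (image_mono ball_subset_closedBall)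
    (cpt h le_rfl).isClosed) ?_
  have h1 := h.1
  rw [← closure_ball (0 : ℂ) one_ne_zero] at h1 ⊢
  exact h1.image_closure

theorem dis (h : IsJordanMap ψ) {ρ : ℝ} (hρ : ρ ≤ 1) :
    Disjoint (ψ '' sphere 0 ρ) (ψ '' ball 0 ρ) := by
  refine disjoint_left.2 ?_
  rintro _ ⟨z, hz, rfl⟩ ⟨w, hw, e⟩
  obtain rfl := h.2.1 (closedBall_subset_closedBall hρ (ball_subset_closedBall hw))
    (closedBall_subset_closedBall hρ (sphere_subset_closedBall hz)) e
  exact (mem_ball.1 hw).ne hz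

theorem uni (ψ : ℂ → ℂ) (ρ : ℝ) : ψ '' closedBall 0 ρ = ψ '' ball 0 ρ ∪ ψ '' sphere 0 ρ := by
  rw [← image_union, ball_union_sphere]

theorem ins (h : IsJordanMap ψ) : inside (ψ '' sphere 0 1) = ψ '' ball 0 1 := by
  obtain ⟨-, -, h3, -⟩ := P153.CA.s_jct P153.CA.s_bconv _ (P153.CA.jloop_comp h)
  have h1 : ψ '' ball 0 1 ⊆ inside (range fun t => ψ (P153.CA.circ t)) := fun w hw => by
    obtain ⟨e, he, k⟩ := P153.CA.s_wind P153.CA.s_bdir P153.CA.s_bconv ψ {w} h isCompact_singleton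
      (singleton_subset_iff.2 hw)
    exact k _ (P153.CA.jloop_comp h).toLoop (fun t => by simpa using he.le) rfl
  have h0 : ψ 0 ∈ ψ '' ball 0 1 := mem_image_of_mem _ (mem_ball_self one_pos)
  rw [P153.CA.range_comp_circ] at h1 h3
  refine Subset.antisymm (h3.subset_of_closure_inter_subset (opn h le_rfl) ⟨_, h1 h0, h0⟩
    fun w hw => ?_) h1
  have h2 := hw.1
  rw [clo h, uni] at h2
  exact h2.resolve_right hw.2.1

end XDom

open XDom

theorem t_dom : T_dom := by
  intro ψ h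
  refine ⟨fun ρ hρ => opn h hρ, clo h, ?_, ins h, ?_⟩
  · rw [(opn h le_rfl).frontier_eq, clo h, uni, union_comm]
    exact union_sdiff_cancel_right (disjoint_iff_inter_eq_empty.1 (dis h le_rfl)).le
  · ext z
    rw [uni, ← ins h]
    exact ⟨fun k a => a.elim (fun b => k.2 b.2) k.1,
      fun k => ⟨fun a => k (Or.inr a), fun a => k (Or.inl ⟨fun b => k (Or.inr b), a⟩)⟩⟩

theorem a_in (_hd : T_dom) : A_in := by
  intro ψ h
  have hc : Continuous cx := cxH_eq ▸ cxH.continuous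
  refine ⟨(opn h le_rfl).preimage hc, fun K hK hD => ?_⟩
  obtain ⟨ρ, hρ⟩ := hK.elim_directed_cover (fun ρ : Ioo (0 : ℝ) 1 => cx ⁻¹' (ψ '' ball 0 ρ))
    (fun ρ => (opn h ρ.2.2.le).preimage hc) (fun p hp => by
      obtain ⟨z, hz, e⟩ := hD hp
      rw [mem_ball_zero_iff] at hz
      have := norm_nonneg z
      exact mem_iUnion.2 ⟨⟨(‖z‖ + 1) / 2, by linarith, by linarith⟩, z,
        mem_ball_zero_iff.2 (show ‖z‖ < (‖z‖ + 1) / 2 by linarith), e⟩)
    (hι := ⟨⟨1 / 2, by norm_num, by norm_num⟩⟩)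
    (Monotone.directed_le fun a b hab => preimage_mono (image_mono (ball_subset_ball hab)))
  obtain ⟨ρ, h0, h1⟩ := ρ
  have cs : ContinuousOn ψ (sphere 0 ρ) :=
    h.1.mono (sphere_subset_closedBall.trans (closedBall_subset_closedBall h1.le))
  refine ⟨cx ⁻¹' (ψ '' sphere 0 ρ), cx ⁻¹' (ψ '' ball 0 ρ), cx ⁻¹' (ψ '' closedBall 0 ρ), ?_, ?_,
    ((dis h h1.le).preimage cx).mono_right hρ, hρ, fun S hS hd hn => ?_, ?_,
    preimage_mono (image_mono (closedBall_subset_ball h1)),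
    preimage_mono (image_mono ball_subset_closedBall)⟩
  · rw [← cxH_eq, cxH.isCompact_preimage]
    exact (isCompact_sphere 0 ρ).image_of_continuousOn cs
  · rw [← cxH_eq, cxH.isPreconnected_preimage]
    exact (isPreconnected_sphere (by rw [Complex.rank_real_complex]; norm_num) 0 ρ).image _ cs
  · refine hS.subset_of_closure_inter_subset ((opn h h1.le).preimage hc) hn fun w hw => ?_
    have h2 := closure_minimal (preimage_mono (image_mono ball_subset_closedBall))
      ((cpt h h1.le).isClosed.preimage hc) hw.1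
    rw [uni] at h2
    exact h2.resolve_right (disjoint_left.1 hd hw.2)
  · rw [← cxH_eq, cxH.isCompact_preimage]
    exact cpt h h1.le

end Vale.Agent.P145.Lk
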