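import Vale.Agent.P145.LkStm
import Vale.Agent.P153.CA.Jct
import Vale.Agent.P153.CA.Arc
import Vale.Agent.P153.CA.Jan
import Vale.Agent.P153.CA.Bc2
import Vale.Agent.P153.CA.Bdir
import Vale.Agent.P153.CA.Bconv

/-! P145, link: a Jordan curve lies in the closure of its exterior. -/

open Set Filter Topology Metric

namespace Vale.Agent.P145.Lk

open Vale.Agent.P152 Vale.Agent.P145.AT
open Vale.Agent.P153 (IsJordanMap IsTest)
open Vale.Agent.P153.CA (JLoop inside)

namespace XFr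

open Vale.Agent.P153.CA

theorem arc : S_arc := s_arc (s_bc2 s_bconv) (s_jan s_bdir (s_bc2 s_bconv))

theorem jct : S_jct := s_jct s_bconv

theorem inj {j : ℝ → ℂ} (hj : JLoop j) {t e : ℝ} (he : 0 < e) :
    InjOn j (Icc (t + e / 2) (t + 1 - e / 2)) := by
  intro s hs u hu e1
  obtain ⟨k, rfl⟩ := hj.eq_iff e1
  have b1 : (k : ℝ) < 1 := by linarith [hs.2, hu.1]
  have b2 : (-1 : ℝ) < k := by linarith [hs.1, hu.2]
  have b3 : k < 1 := by exact_mod_cast b1
  have b4 : -1 < k := by exact_mod_cast b2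
  obtain rfl : k = 0 := by omega
  simp

end XFr

theorem t_fr (ho : T_out) : T_fr := by
  rintro j hj ⟨a, ha⟩ _ ⟨t, rfl⟩
  have hK := hj.toLoop.isCompact
  obtain ⟨o1, -, o3, -⟩ := ho _ hK
  by_contra h
  have h1 : ∀ᶠ s in 𝓝 t, j s ∉ closure (outs (range j)) :=
    hj.cont.continuousAt.eventually (isClosed_closure.isOpen_compl.mem_nhds h)
  obtain ⟨e0, he0, h2⟩ := Metric.eventually_nhds_iff.1 h1
  have he : 0 < min e0 1 := lt_min he0 one_pos
  have he1 : min e0 1 ≤ 1 := min_le_right _ _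
  have he2 : min e0 1 ≤ e0 := min_le_left _ _
  generalize min e0 1 = e at he he1 he2
  have hG := XFr.arc univ j (t + e / 2) (t + 1 - e / 2) isOpen_univ isPreconnected_univ
    (by linarith) hj.cont.continuousOn (XFr.inj hj he) fun _ _ => mem_univ _
  have hA : j '' Icc (t + e / 2) (t + 1 - e / 2) ⊆ range j := image_subset_range _ _
  obtain ⟨R, hR⟩ := hK.isBounded.subset_closedBall 0
  obtain ⟨q, hq⟩ := (Vale.Agent.P153.CA.isPathConnected_ext 0 R).nonempty
  have hq' : q ∈ outs (range j) := o3 R hR q (by simpa using hq)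
  have hsub : univ \ j '' Icc (t + e / 2) (t + 1 - e / 2) ⊆ outs (range j) := by
    refine hG.subset_of_closure_inter_subset o1 ⟨q, ⟨mem_univ _, fun h3 => hq'.1 (hA h3)⟩, hq'⟩ ?_
    rintro z ⟨hz1, -, hz2⟩
    by_cases hzJ : z ∈ range j
    · exfalso
      rw [hj.toLoop.range_Icc (t - e / 2)] at hzJ
      obtain ⟨s, hs, rfl⟩ := hzJ
      refine hz2 ⟨s, ⟨?_, by linarith [hs.2]⟩, rfl⟩
      by_contra h6
      refine h2 (y := s) ?_ hz1
      rw [Real.dist_eq, abs_lt]
      constructor <;> linarith [hs.1, not_le.1 h6]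
    · refine ⟨hzJ, fun hb => ?_⟩
      obtain ⟨w, hw1, hw2⟩ := mem_closure_iff.1 hz1 _ (XFr.jct j hj).1 ⟨hzJ, hb⟩
      exact hw2.2 hw1.2
  exact (hsub ⟨mem_univ a, fun h3 => ha.1 (hA h3)⟩).2 ha.2

end Vale.Agent.P145.Lk
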