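import Vale.Agent.P145.LkStm

/-! P145, link: the height function of a configuration and the tested field. -/

open Set Filter Topology Metric

namespace Vale.Agent.P145.Lk

open Vale.Agent.P152 Vale.Agent.P145.AT
open Vale.Agent.P153 (IsJordanMap IsTest)
open Vale.Agent.P153.CA (JLoop inside)

namespace XHt

theorem cor_iff {f v : Site} :
    v - f ∈ ({(0, 0), (1, 0), (0, 1), (1, 1)} : Set V) ↔ v ∈ cor f := by
  simp only [mem_cor, mem_insert_iff, mem_singleton_iff, Prod.ext_iff, Prod.fst_sub, Prod.snd_sub]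
  omega

theorem fin_sup {δ : ℝ} (hδ : 0 < δ) {φ : ℂ → ℝ} (hφ : HasCompactSupport φ) :
    {v : Site | φ (cx (pnt δ v)) ≠ 0}.Finite := by
  obtain ⟨R, hR⟩ := hφ.isCompact.isBounded.subset_closedBall 0
  have key : ∀ x : ℤ, |δ * x| ≤ R → x ∈ Icc (-⌈R / δ⌉) ⌈R / δ⌉ := fun x hx => by
    rw [abs_mul, abs_of_pos hδ, mul_comm, ← le_div_iff₀ hδ] at hx
    have h1 : |x| ≤ ⌈R / δ⌉ := by
      have := hx.trans (Int.le_ceil _)
      exact_mod_cast this
    exact abs_le.1 h1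
  refine ((finite_Icc (-⌈R / δ⌉) ⌈R / δ⌉).prod (finite_Icc (-⌈R / δ⌉) ⌈R / δ⌉)).subset
    fun v hv => ?_
  have h1 := (norm_le_cx _).trans (mem_closedBall_zero_iff.1 (hR (subset_tsupport _ hv)))
  exact ⟨key _ ((norm_fst_le (pnt δ v)).trans h1), key _ ((norm_snd_le (pnt δ v)).trans h1)⟩

theorem lin_toS {g : Site → ℝ} (hg : (Function.support g).Finite) {D : Finset Site} {h : Ht}
    (k : IsH D h) : lin (toS g) h = ∑ v ∈ inn D, g v * h (v, true) := by
  have e : ⇑(toS g) = g := by rw [toS, dif_pos hg, Finsupp.ofSupportFinite_coe]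
  rw [lin, Finsupp.sum_of_support_subset _ (Finset.subset_union_left (s₂ := inn D)) _
    fun _ _ => zero_mul _, e]
  exact (Finset.sum_subset Finset.subset_union_right fun v _ hv => by
    rw [k.1 v hv, Int.cast_zero, mul_zero]).symm

end XHt

theorem m_ht (hp : M_par) : M_ht := by
  intro P D h hG k
  have inc : ∀ f ∈ D, ∀ v ∈ cor f, (h (f, false) : ℝ) / 2 - (h (v, true) : ℝ) / 2 =
      1 / 2 * ((((spn D h).1 v : ℤ) : ℝ) * (((spn D h).2 f : ℤ) : ℝ)) := fun f hf v hv => by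
    rw [← Int.cast_mul, ← (hp D h k).2.1 f hf v hv]
    push_cast
    ring
  refine ⟨⟨fun i hi => by simp only [k.1 _ (hG.nin i hi), Int.cast_zero, zero_div],
    fun f => (h (f, false) : ℝ) / 2, fun f hf v hv =>
      inc f ((hG.coe f).2 hf) v (XHt.cor_iff.1 hv)⟩, ?_⟩
  rintro H ⟨H0, H', hH⟩ δ φ hδ hφ
  have key : ∀ v, (∃ f ∈ D, v ∈ cor f) → H v = (h (v, true) : ℝ) / 2 := by
    refine left_ind D _ (fun v hv ⟨f, hf, hc⟩ => ?_) fun v hv ih _ => ?_
    · obtain ⟨i, hi, rfl⟩ := hG.bd f hf v hc hv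
      rw [H0 i hi, k.1 _ hv, Int.cast_zero, zero_div]
    · have m := (mem_inn.1 hv).2.1
      have c1 : v ∈ cor (v - (1, 0)) := by rw [mem_cor]; simp
      have c2 : v - (1, 0) ∈ cor (v - (1, 0)) := by rw [mem_cor]; simp
      linarith [ih ⟨_, m, c2⟩, inc _ m _ c1, inc _ m _ c2,
        hH _ ((hG.coe _).1 m) _ (XHt.cor_iff.2 c1), hH _ ((hG.coe _).1 m) _ (XHt.cor_iff.2 c2)]
  rw [smp, XHt.lin_toS ((XHt.fin_sup hδ hφ).subset fun v hv h0 => hv (by simp [h0])) k, Pol.field,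
    finsum_mem_eq_sum_of_inter_support_eq _ (t := inn D), Finset.mul_sum]
  · refine Finset.sum_congr rfl fun v hv => ?_
    rw [key v ⟨v, inn_subset hv, by rw [mem_cor]; simp⟩, Function.comp_apply, cx_pnt]
    ring
  · ext v
    refine and_congr_left fun hv => ⟨fun h1 => h1.elim (hG.inn v).2 ?_,
      fun h1 => Or.inl ((hG.inn v).1 h1)⟩
    rintro ⟨i, hi, rfl⟩
    exact absurd (mul_eq_zero_of_left (H0 i hi) _) hv

end Vale.Agent.P145.Lk
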