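import Vale.Agent.P145.LkStm
import Vale.Agent.P152.NFSym

/-! P145, link: interior vertices of a polygon. -/

open Set Filter Topology Metric

namespace Vale.Agent.P145.Lk

open Vale.Agent.P152 Vale.Agent.P145.AT
open Vale.Agent.P153 (IsJordanMap IsTest)
open Vale.Agent.P153.CA (JLoop inside)

namespace XInn

theorem inSq_cor {f v : Site} (h : v ∈ cor f) : InSq f (emb v) := by
  rw [mem_cor] at h
  obtain ⟨h1, h2⟩ := h
  have a1 : f.1 ≤ v.1 := by omega
  have a2 : v.1 ≤ f.1 + 1 := by omega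
  have a3 : f.2 ≤ v.2 := by omega
  have a4 : v.2 ≤ f.2 + 1 := by omega
  exact ⟨by simp only [emb]; exact_mod_cast a1, by simp only [emb]; exact_mod_cast a2,
    by simp only [emb]; exact_mod_cast a3, by simp only [emb]; exact_mod_cast a4⟩

theorem floor_near {x : ℝ} {n : ℤ} (h : |(n : ℝ) - x| < 1) : n = ⌊x⌋ ∨ n = ⌊x⌋ + 1 := by
  rw [abs_lt] at h
  have a1 : ⌊x⌋ < n + 1 := Int.floor_lt.2 (by push_cast; linarith [h.1])
  have a2 : n - 1 ≤ ⌊x⌋ := Int.le_floor.2 (by push_cast; linarith [h.2])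
  omega

theorem self_mem_cor (v : Site) : v ∈ cor v := by
  rw [mem_cor]
  exact ⟨Or.inl rfl, Or.inl rfl⟩

end XInn

theorem p_inn (hf : T_fr) (hj : P_jl) (hl : P_loc) : P_inn := by
  intro P v
  refine ⟨fun h => ?_, fun h f hv =>
    (((hl P).2 f).2 _ (XInn.inSq_cor hv) h.1).1.1 h⟩
  by_cases hc : emb v ∈ cv P
  · exfalso
    have hne : (inside (range fun t => P.bd (Int.fract t))).Nonempty := by
      rw [(hj P).2]
      exact ⟨ctr v, h v (XInn.self_mem_cor v)⟩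
    have h1 := hf _ (hj P).1 hne
    rw [(hj P).2] at h1
    obtain ⟨z, hz, hd⟩ := Metric.mem_closure_iff.1 (h1 hc) 1 one_pos
    rw [dist_eq_norm] at hd
    have hre : |((v.1 : ℤ) : ℝ) - z.re| < 1 :=
      (Complex.abs_re_le_norm (emb v - z)).trans_lt hd
    have him : |((v.2 : ℤ) : ℝ) - z.im| < 1 :=
      (Complex.abs_im_le_norm (emb v - z)).trans_lt hd
    have hs : InSq (⌊z.re⌋, ⌊z.im⌋) z :=
      ⟨Int.floor_le _, (Int.lt_floor_add_one _).le, Int.floor_le _, (Int.lt_floor_add_one _).le⟩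
    exact (((hl P).2 _).2 z hs hz.1).2.1 hz
      (h _ (mem_cor.2 ⟨XInn.floor_near hre, XInn.floor_near him⟩))
  · exact (((hl P).2 v).2 _ (XInn.inSq_cor (XInn.self_mem_cor v)) hc).1.2
      (h v (XInn.self_mem_cor v))

theorem p_good (hs : P_seg) (hl : P_loc) (hf : P_fin) (hc : P_cc) (hi : P_inn) : P_good := by
  intro P
  have hD : ∀ f, f ∈ (hf P).toFinset ↔ f ∈ P.face := fun f => (hf P).mem_toFinset
  have hin : ∀ v, v ∈ inn (hf P).toFinset ↔ emb v ∈ P.dom := fun v => by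
    rw [mem_inn_cor, ← hi P v]
    simp only [hD]
  refine ⟨(hf P).toFinset, hD, ?_, hin, fun f hfD v hv hn => ?_, fun i hN hv => ?_⟩
  · unfold Cc
    rw [(hf P).coe_toFinset]
    exact hc P
  · refine (hl P).1 v (by_contra fun hcv => hn ((hin v).2 ?_))
    exact (((hl P).2 f).2 _ (XInn.inSq_cor hv) hcv).1.2 ((hD f).1 hfD)
  · exact ((hin _).1 hv).1 ((hs P).2.1 i hN)

end Vale.Agent.P145.Lk
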