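import Vale.Agent.P145.LkStm

/-! P145, link: the boundary polygon is a Jordan curve. -/

open Set Filter Topology Metric

namespace Vale.Agent.P145.Lk

open Vale.Agent.P152 Vale.Agent.P145.AT
open Vale.Agent.P153 (IsJordanMap IsTest)
open Vale.Agent.P153.CA (JLoop inside)

namespace XJl

/-- the polygonal line at unit speed -/
noncomputable def pl (p : ℕ → ℂ) (u : ℝ) : ℂ :=
  p ⌊u⌋₊ + ((Int.fract u : ℝ) : ℂ) * (p (⌊u⌋₊ + 1) - p ⌊u⌋₊)

theorem pl_nat (p : ℕ → ℂ) (i : ℕ) : pl p i = p i := by simp [pl]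

theorem pl_eq (p : ℕ → ℂ) (i : ℕ) {u : ℝ} (hu : u ∈ Icc (i : ℝ) (i + 1)) :
    pl p u = p i + ((u - i : ℝ) : ℂ) * (p (i + 1) - p i) := by
  rcases hu.2.eq_or_lt with h | h
  · have e : u = ((i + 1 : ℕ) : ℝ) := by rw [h, Nat.cast_succ]
    rw [e, pl_nat]
    simp
  · have h0 : (0 : ℝ) ≤ u := (Nat.cast_nonneg i).trans hu.1
    have e1 : ⌊u⌋₊ = i := (Nat.floor_eq_iff h0).2 ⟨hu.1, h⟩
    have e2 : Int.fract u = u - i := by
      rw [Int.fract, ← natCast_floor_eq_intCast_floor h0, e1]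
    rw [pl, e1, e2]

theorem pl_cont (p : ℕ → ℂ) (n : ℕ) : ContinuousOn (pl p) (Icc 0 n) := by
  induction n with
  | zero => simp
  | succ n ih =>
    have h1 : ContinuousOn (pl p) (Icc (n : ℝ) (n + 1)) :=
      ContinuousOn.congr (f := fun u : ℝ => p n + ((u - n : ℝ) : ℂ) * (p (n + 1) - p n))
        (by fun_prop) fun u hu => pl_eq p n hu
    rw [Nat.cast_succ,
      ← Icc_union_Icc_eq_Icc (Nat.cast_nonneg n) (le_add_of_nonneg_right zero_le_one)]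
    exact ih.union_of_isClosed h1 isClosed_Icc isClosed_Icc

theorem piece {n : ℕ} (hn : 0 < n) {u : ℝ} (hu : u ∈ Icc (0 : ℝ) n) :
    ∃ i < n, u ∈ Icc (i : ℝ) (i + 1) := by
  rcases hu.2.eq_or_lt with h | h
  · obtain ⟨m, rfl⟩ := Nat.exists_eq_add_one_of_ne_zero hn.ne'
    refine ⟨m, Nat.lt_succ_self m, ?_⟩
    rw [h, Nat.cast_succ]
    exact ⟨by linarith, le_rfl⟩
  · exact ⟨⌊u⌋₊, (Nat.floor_lt hu.1).2 h, Nat.floor_le hu.1, (Nat.lt_floor_add_one u).le⟩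

/-- A point of an edge. -/
noncomputable def pt (x y : V) (s : ℝ) : ℂ := emb x + (s : ℂ) * (emb y - emb x)

theorem core {m p q : ℤ} {a b : ℝ} (ha : a ∈ Ico (0 : ℝ) 1) (hb : b ∈ Ico (0 : ℝ) 1)
    (hp : p = -1 ∨ p = 0 ∨ p = 1) (hq : q = -1 ∨ q = 0 ∨ q = 1) (h : (m : ℝ) = a * p - b * q) :
    m = 0 ∨ (m = p ∧ q = -p ∧ p ≠ 0) := by
  obtain ⟨a0, a1⟩ := ha
  obtain ⟨b0, b1⟩ := hb
  have h1 : ∀ k : ℤ, (m : ℝ) < k → m < k := fun k hk => by exact_mod_cast hk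
  have h2 : ∀ k : ℤ, (k : ℝ) < m → k < m := fun k hk => by exact_mod_cast hk
  have u1 := h1 1
  have u2 := h1 2
  have l1 := h2 (-1)
  have l2 := h2 (-2)
  push_cast at u1 u2 l1 l2
  rcases hp with rfl | rfl | rfl <;> rcases hq with rfl | rfl | rfl <;> push_cast at h <;>
    first
    | (have := u1 (by linarith); have := l1 (by linarith); omega)
    | (have := u2 (by linarith); have := l1 (by linarith); omega)
    | (have := u1 (by linarith); have := l2 (by linarith); omega)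

variable (P : Pol)

theorem step {i : ℕ} (hi : i < P.N) :
    ((P.β (i + 1)).1 - (P.β i).1 = 1 ∧ (P.β (i + 1)).2 - (P.β i).2 = 0) ∨
    ((P.β (i + 1)).1 - (P.β i).1 = -1 ∧ (P.β (i + 1)).2 - (P.β i).2 = 0) ∨
    ((P.β (i + 1)).1 - (P.β i).1 = 0 ∧ (P.β (i + 1)).2 - (P.β i).2 = 1) ∨
    ((P.β (i + 1)).1 - (P.β i).1 = 0 ∧ (P.β (i + 1)).2 - (P.β i).2 = -1) := by
  simpa only [mem_insert_iff, mem_singleton_iff, Prod.ext_iff, Prod.fst_sub, Prod.snd_sub]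
    using P.adj i hi

theorem pt_inj {i : ℕ} (hi : i < P.N) {s t : ℝ}
    (e : pt (P.β i) (P.β (i + 1)) s = pt (P.β i) (P.β (i + 1)) t) : s = t := by
  have h0 : emb (P.β (i + 1)) - emb (P.β i) ≠ 0 := sub_ne_zero.2 fun h1 => by
    have h2 : (P.β (i + 1)).1 = (P.β i).1 :=
      Int.cast_injective (α := ℝ) (congrArg Complex.re h1)
    have h3 : (P.β (i + 1)).2 = (P.β i).2 :=
      Int.cast_injective (α := ℝ) (congrArg Complex.im h1)
    have := step P hi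
    omega
  exact_mod_cast mul_right_cancel₀ h0 (add_left_cancel e)

theorem nxt {i j : ℕ} (hi : i < P.N) (hj : j < P.N) (h : P.β j = P.β (i + 1)) :
    j = i + 1 ∨ (i + 1 = P.N ∧ j = 0) := by
  rcases (Nat.succ_le_of_lt hi).eq_or_lt with e | e
  · right
    have e' : i + 1 = P.N := e
    rw [e', P.closed] at h
    exact ⟨e', P.inj hj (by omega : 0 < P.N) h⟩
  · exact Or.inl (P.inj hj e h)

theorem idx {i j : ℕ} (hi : i < P.N) (hj : j < P.N) {a b : ℝ} (ha : a ∈ Ico (0 : ℝ) 1)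
    (hb : b ∈ Ico (0 : ℝ) 1) (h : pt (P.β i) (P.β (i + 1)) a = pt (P.β j) (P.β (j + 1)) b) :
    i = j := by
  have s1 := step P hi
  have s2 := step P hj
  have r1 := congrArg Complex.re h
  have r2 := congrArg Complex.im h
  simp only [pt, emb, Complex.add_re, Complex.add_im, Complex.re_ofReal_mul, Complex.im_ofReal_mul,
    Complex.sub_re, Complex.sub_im] at r1 r2
  have c1 := core (m := (P.β j).1 - (P.β i).1) (p := (P.β (i + 1)).1 - (P.β i).1)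
    (q := (P.β (j + 1)).1 - (P.β j).1) ha hb (by omega) (by omega) (by push_cast; linarith)
  have c2 := core (m := (P.β j).2 - (P.β i).2) (p := (P.β (i + 1)).2 - (P.β i).2)
    (q := (P.β (j + 1)).2 - (P.β j).2) ha hb (by omega) (by omega) (by push_cast; linarith)
  have c3 : P.β i = P.β j ∨ (P.β j = P.β (i + 1) ∧ P.β i = P.β (j + 1)) := by
    simp only [Prod.ext_iff]
    omega
  rcases c3 with e | ⟨e1, e2⟩
  · exact P.inj hi hj e
  · have := nxt P hi hj e1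
    have := nxt P hj hi e2
    have := P.three
    omega

theorem N_pos : (0 : ℝ) < P.N := by have := P.three; exact_mod_cast (by omega : 0 < P.N)

theorem inj : InjOn P.bd (Ico 0 1) := by
  have hN := N_pos P
  have fl : ∀ s ∈ Ico (0 : ℝ) 1, ⌊(P.N : ℝ) * s⌋₊ < P.N := fun s hs => by
    rw [Nat.floor_lt (mul_nonneg hN.le hs.1)]
    exact mul_lt_of_lt_one_right hN hs.2
  have fr : ∀ u : ℝ, Int.fract u ∈ Ico (0 : ℝ) 1 := fun u =>
    ⟨Int.fract_nonneg u, Int.fract_lt_one u⟩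
  have de : ∀ s ∈ Ico (0 : ℝ) 1, (⌊(P.N : ℝ) * s⌋₊ : ℝ) + Int.fract ((P.N : ℝ) * s) = P.N * s :=
    fun s hs => by
      rw [natCast_floor_eq_intCast_floor (mul_nonneg hN.le hs.1), Int.floor_add_fract]
  intro s hs t ht e
  have e' : pt (P.β ⌊(P.N : ℝ) * s⌋₊) (P.β (⌊(P.N : ℝ) * s⌋₊ + 1)) (Int.fract ((P.N : ℝ) * s)) =
      pt (P.β ⌊(P.N : ℝ) * t⌋₊) (P.β (⌊(P.N : ℝ) * t⌋₊ + 1)) (Int.fract ((P.N : ℝ) * t)) := e
  have h1 := idx P (fl s hs) (fl t ht) (fr _) (fr _) e'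
  rw [h1] at e'
  have h2 := pt_inj P (fl t ht) e'
  refine mul_left_cancel₀ hN.ne' ?_
  rw [← de s hs, ← de t ht, h1, h2]

theorem ends : P.bd 0 = P.bd 1 := by simp [Pol.bd, P153.poly, P.closed]

theorem bd_eq (t : ℝ) : P.bd t = pl (fun i => emb (P.β i)) (P.N * t) := rfl

end XJl

open XJl

theorem p_seg : P_seg := by
  intro P
  have hN := N_pos P
  have hm : ∀ t ∈ Icc (0 : ℝ) 1, (P.N : ℝ) * t ∈ Icc (0 : ℝ) P.N := fun t ht =>
    ⟨mul_nonneg hN.le ht.1, mul_le_of_le_one_right hN.le ht.2⟩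
  refine ⟨(pl_cont (fun i => emb (P.β i)) P.N).comp (f := fun t : ℝ => P.N * t) (by fun_prop) hm,
    fun i hi => ⟨i / P.N, ⟨by positivity, ?_⟩, ?_⟩, ?_⟩
  · rw [div_le_one hN]
    exact_mod_cast hi.le
  · rw [bd_eq, mul_div_cancel₀ _ hN.ne', pl_nat]
  · rintro _ ⟨t, ht, rfl⟩
    obtain ⟨i, hi, hu⟩ := piece (by exact_mod_cast hN) (hm t ht)
    exact ⟨i, hi, P.N * t - i, ⟨by linarith [hu.1], by linarith [hu.2]⟩,
      pl_eq (fun i => emb (P.β i)) i hu⟩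

theorem p_jl (hs : P_seg) : P_jl := by
  intro P
  have fr : ∀ u : ℝ, Int.fract u ∈ Ico (0 : ℝ) 1 := fun u =>
    ⟨Int.fract_nonneg u, Int.fract_lt_one u⟩
  refine ⟨⟨⟨(hs P).1.comp_fract'' (ends P), fun t => by simp only [Int.fract_add_one]⟩,
    fun s hs t ht e => ?_⟩, ?_⟩
  · simp only [Int.fract_eq_self.2 hs, Int.fract_eq_self.2 ht] at e
    exact inj P hs ht e
  · refine subset_antisymm ?_ ?_
    · rintro _ ⟨t, rfl⟩
      exact ⟨_, Ico_subset_Icc_self (fr t), rfl⟩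
    · rintro _ ⟨t, ht, rfl⟩
      rcases ht.2.eq_or_lt with rfl | h
      · exact ⟨0, by simp only [Int.fract_zero]; exact ends P⟩
      · exact ⟨t, by simp only [Int.fract_eq_self.2 ⟨ht.1, h⟩]⟩

end Vale.Agent.P145.Lk
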