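import Vale.Agent.P145.LkStm

/-! P145, link: local structure of a lattice polygon. -/

open Set Filter Topology Metric

namespace Vale.Agent.P145.Lk

open Vale.Agent.P152 Vale.Agent.P145.AT
open Vale.Agent.P153 (IsJordanMap IsTest)
open Vale.Agent.P153.CA (JLoop inside)

namespace XLoc

theorem pt (hs : P_seg) {P : Pol} {z : ℂ} (hz : z ∈ cv P) :
    ∃ i < P.N, ∃ s ∈ Icc (0 : ℝ) 1, ∃ d ∈ ({(1, 0), (-1, 0), (0, 1), (0, -1)} : Set V),
      P.β (i + 1) = P.β i + d ∧ z.re = (P.β i).1 + s * d.1 ∧ z.im = (P.β i).2 + s * d.2 := by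
  obtain ⟨i, hi, s, h1, rfl⟩ := (hs P).2.2 z hz
  refine ⟨i, hi, s, h1, _, P.adj i hi, (add_sub_cancel _ _).symm, ?_, ?_⟩ <;> simp [emb]

theorem no_int {a k : ℤ} {x : ℝ} (h1 : (a : ℝ) < x) (h2 : x < a + 1) (e : x = k) : False := by
  rw [e] at h1 h2
  have h3 : a < k := by exact_mod_cast h1
  have h4 : k < a + 1 := by exact_mod_cast h2
  omega

theorem notQ (hs : P_seg) (P : Pol) {f : Site} {z : ℂ} (h1 : (f.1 : ℝ) < z.re)
    (h2 : z.re < f.1 + 1) (h3 : (f.2 : ℝ) < z.im) (h4 : z.im < f.2 + 1) : z ∉ cv P := by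
  intro hz
  obtain ⟨i, -, s, -, d, hd, -, e1, e2⟩ := pt hs hz
  rcases hd with rfl | rfl | rfl | rfl
  · exact no_int h3 h4 (k := (P.β i).2) (by simpa using e2)
  · exact no_int h3 h4 (k := (P.β i).2) (by simpa using e2)
  · exact no_int h1 h2 (k := (P.β i).1) (by simpa using e1)
  · exact no_int h1 h2 (k := (P.β i).1) (by simpa using e1)

theorem vert (hs : P_seg) (P : Pol) (v : Site) (hv : emb v ∈ cv P) : ∃ i < P.N, P.β i = v := by
  obtain ⟨i, hi, s, h1, d, hd, e0, e1, e2⟩ := pt hs hv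
  simp only [emb] at e1 e2
  obtain ⟨k, rfl⟩ : ∃ k : ℤ, s = k := by
    rcases hd with rfl | rfl | rfl | rfl
    · exact ⟨v.1 - (P.β i).1, by push_cast at e1 ⊢; linarith⟩
    · exact ⟨(P.β i).1 - v.1, by push_cast at e1 ⊢; linarith⟩
    · exact ⟨v.2 - (P.β i).2, by push_cast at e2 ⊢; linarith⟩
    · exact ⟨(P.β i).2 - v.2, by push_cast at e2 ⊢; linarith⟩
  have k0 : 0 ≤ k := by exact_mod_cast h1.1
  have k1 : k ≤ 1 := by exact_mod_cast h1.2
  have a1 : v.1 = (P.β i).1 + k * d.1 := by exact_mod_cast e1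
  have a2 : v.2 = (P.β i).2 + k * d.2 := by exact_mod_cast e2
  obtain rfl | rfl : k = 0 ∨ k = 1 := by omega
  · exact ⟨i, hi, Prod.ext (by simpa using a1.symm) (by simpa using a2.symm)⟩
  · have e : P.β (i + 1) = v := e0.trans
      (Prod.ext (by simpa using a1.symm) (by simpa using a2.symm))
    rcases (Nat.succ_le_of_lt hi).eq_or_lt with h | h
    · refine ⟨0, by omega, ?_⟩
      rw [← P.closed, ← h]
      exact e
    · exact ⟨i + 1, h, e⟩

theorem ctr_re (f : Site) : (ctr f).re = f.1 + 1 / 2 := by simp [ctr, emb]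

theorem ctr_im (f : Site) : (ctr f).im = f.2 + 1 / 2 := by simp [ctr, emb]

theorem mid {a x t : ℝ} (h1 : a ≤ x) (h2 : x ≤ a + 1) (t0 : 0 < t) (t1 : t ≤ 1) :
    a < x + t * (a + 1 / 2 - x) ∧ x + t * (a + 1 / 2 - x) < a + 1 := by
  have b1 := mul_nonneg (sub_nonneg.2 t1) (sub_nonneg.2 h1)
  have b2 := mul_nonneg (sub_nonneg.2 t1) (sub_nonneg.2 h2)
  constructor <;> linarith

theorem comp_eq (hs : P_seg) (P : Pol) {f : Site} {z : ℂ} (h : InSq f z) (hz : z ∉ cv P) :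
    connectedComponentIn (cv P)ᶜ z = connectedComponentIn (cv P)ᶜ (ctr f) := by
  have hc : IsPreconnected ((fun t : ℝ => z + t * (ctr f - z)) '' Icc 0 1) :=
    isPreconnected_Icc.image _ (Continuous.continuousOn (by fun_prop))
  refine connectedComponentIn_eq (hc.subset_connectedComponentIn ⟨0, by simp, by simp⟩ ?_
    ⟨1, by simp, by simp⟩)
  rintro _ ⟨t, ht, rfl⟩
  rcases ht.1.eq_or_lt with rfl | t0
  · simpa using hz
  · have e1 : (z + t * (ctr f - z)).re = z.re + t * (f.1 + 1 / 2 - z.re) := by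
      rw [← ctr_re]; simp
    have e2 : (z + t * (ctr f - z)).im = z.im + t * (f.2 + 1 / 2 - z.im) := by
      rw [← ctr_im]; simp
    have a1 := mid h.1 h.2.1 t0 ht.2
    have a2 := mid h.2.2.1 h.2.2.2 t0 ht.2
    rw [← e1] at a1
    rw [← e2] at a2
    exact notQ hs P a1.1 a1.2 a2.1 a2.2

end XLoc

theorem p_loc (hs : P_seg) : P_loc := by
  intro P
  refine ⟨XLoc.vert hs P, fun f => ?_⟩
  have h0 : ctr f ∉ cv P := XLoc.notQ hs P (f := f) (by rw [XLoc.ctr_re]; linarith)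
    (by rw [XLoc.ctr_re]; linarith) (by rw [XLoc.ctr_im]; linarith) (by rw [XLoc.ctr_im]; linarith)
  refine ⟨h0, fun z h hz => ?_⟩
  have e := XLoc.comp_eq hs P h hz
  have e1 : z ∈ P.dom ↔ Bornology.IsBounded (connectedComponentIn (cv P)ᶜ z) :=
    and_iff_right hz
  have e2 : f ∈ P.face ↔ Bornology.IsBounded (connectedComponentIn (cv P)ᶜ (ctr f)) :=
    and_iff_right h0
  have e3 : z ∈ outs (cv P) ↔ ¬ Bornology.IsBounded (connectedComponentIn (cv P)ᶜ z) :=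
    and_iff_right hz
  rw [e1, e2, e3, e]
  exact ⟨Iff.rfl, Iff.rfl⟩

theorem p_fin (hs : P_seg) : P_fin := by
  intro P
  have hK : IsCompact (cv P) := isCompact_Icc.image_of_continuousOn (hs P).1
  obtain ⟨R, hR⟩ := hK.isBounded.subset_closedBall 0
  obtain ⟨n, hn⟩ := exists_nat_ge (R + 1)
  refine ((finite_Icc (-(n : ℤ)) n).prod (finite_Icc (-(n : ℤ)) n)).subset fun f hf => ?_
  have h1 : ‖ctr f‖ ≤ R := mem_closedBall_zero_iff.1 (P153.CA.inside_subset hR hf)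
  have h2 := abs_le.1 ((Complex.abs_re_le_norm _).trans h1)
  have h3 := abs_le.1 ((Complex.abs_im_le_norm _).trans h1)
  rw [XLoc.ctr_re] at h2
  rw [XLoc.ctr_im] at h3
  have k : ∀ a : ℤ, -R ≤ (a : ℝ) + 1 / 2 ∧ (a : ℝ) + 1 / 2 ≤ R → a ∈ Icc (-(n : ℤ)) n := by
    intro a ha
    have b1 : -(n : ℝ) ≤ a := by linarith [ha.1]
    have b2 : (a : ℝ) ≤ n := by linarith [ha.2]
    exact ⟨by exact_mod_cast b1, by exact_mod_cast b2⟩
  exact ⟨k _ h2, k _ h3⟩

end Vale.Agent.P145.Lk
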