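import Mathlib

/-! P145: the parameters on the self-dual line. -/

open Real

namespace Vale.Agent.P145.Lk

theorem c_mem {J U : ℝ} (hU : U ≤ J) (h : sinh (2 * J) = exp (-2 * U)) :
    1 < √(1 + exp (4 * U)) ∧ √(1 + exp (4 * U)) ≤ 2 := by
  have h0 := exp_pos (4 * U)
  have h1 : sinh (2 * U) ≤ exp (-2 * U) := h ▸ sinh_le_sinh.2 (by linarith)
  have h2 : exp (2 * U) * exp (2 * U) = exp (4 * U) := by rw [← exp_add]; ring_nf
  have h3 : exp (2 * U) * exp (-2 * U) = 1 := by rw [← exp_add]; simp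
  have h4 := exp_pos (2 * U)
  rw [sinh_eq, show -(2 * U) = -2 * U by ring] at h1
  have h5 : exp (4 * U) ≤ 3 := by nlinarith
  exact ⟨lt_sqrt_of_sq_lt (by linarith), sqrt_le_iff.2 ⟨by norm_num, by linarith⟩⟩

theorem val_eq {a : ℝ} (ha : 0 < a) :
    2 * π / (π * √(8 / π * a)) ^ 2 = 1 / a / 4 := by
  have := pi_pos
  rw [mul_pow, sq_sqrt (by positivity)]
  field_simp
  ring

end Vale.Agent.P145.Lk
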