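import Vale.Agent.P145.LkStm

/-! P145, link block: the unbounded component and compact connected hulls. -/

open Set Filter Topology Metric

namespace Vale.Agent.P145.Lk

open Vale.Agent.P152 Vale.Agent.P145.AT
open Vale.Agent.P153 (IsJordanMap IsTest)
open Vale.Agent.P153.CA (JLoop inside)

namespace XOut

theorem comp_sub {J : Set ℂ} {z : ℂ} (hz : z ∈ outs J) : connectedComponentIn Jᶜ z ⊆ outs J :=
  fun _ hw => ⟨connectedComponentIn_subset _ _ hw, connectedComponentIn_eq hw ▸ hz.2⟩

theorem four {J S : Set ℂ} (hS : IsPreconnected S) (hd : Disjoint S J)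
    (h : (S ∩ outs J).Nonempty ∨ ¬ Bornology.IsBounded S) : S ⊆ outs J := by
  rcases h with ⟨z, hz, hz'⟩ | h
  · exact (hS.subset_connectedComponentIn hz hd.subset_compl_right).trans (comp_sub hz')
  · exact fun z hz => ⟨fun hJ => disjoint_left.1 hd hz hJ, fun hb =>
      h (hb.subset (hS.subset_connectedComponentIn hz hd.subset_compl_right))⟩

theorem ext_disj {J : Set ℂ} {R : ℝ} (h : J ⊆ closedBall 0 R) :
    Disjoint {z : ℂ | R < ‖z - 0‖} J :=
  disjoint_left.2 fun z hz hJ => by
    have h1 : R < ‖z - 0‖ := hz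
    have h2 := mem_closedBall.1 (h hJ)
    rw [dist_eq_norm] at h2
    linarith

theorem three {J : Set ℂ} {R : ℝ} (h : J ⊆ closedBall 0 R) : {z : ℂ | R < ‖z - 0‖} ⊆ outs J :=
  four (P153.CA.isPathConnected_ext 0 R).isConnected.isPreconnected (ext_disj h)
    (Or.inr (P153.CA.not_bounded_ext 0 R))

end XOut

theorem t_out : T_out := by
  intro J hJ
  refine ⟨?_, ?_, fun R hR z hz => XOut.three hR (by simpa using hz),
    fun S hS hd h => XOut.four hS hd h⟩
  · refine isOpen_iff_mem_nhds.2 fun z hz => mem_of_superset ?_ (XOut.comp_sub hz)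
    exact hJ.isClosed.isOpen_compl.connectedComponentIn.mem_nhds (mem_connectedComponentIn hz.1)
  · obtain ⟨R, hR⟩ := hJ.isBounded.subset_closedBall 0
    have hE := (P153.CA.isPathConnected_ext 0 R).isConnected
    obtain ⟨w0, hw0⟩ := hE.nonempty
    have h1 := hE.isPreconnected.subset_connectedComponentIn hw0
      (XOut.ext_disj hR).subset_compl_right
    have h2 : outs J = connectedComponentIn Jᶜ w0 := by
      refine Subset.antisymm (fun z hz => ?_) (XOut.comp_sub (XOut.three hR hw0))
      obtain ⟨w, hw, hw'⟩ := not_subset.1 fun h : connectedComponentIn Jᶜ z ⊆ closedBall 0 R =>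
        hz.2 (isBounded_closedBall.subset h)
      rw [mem_closedBall, dist_eq_norm, not_le] at hw'
      rw [connectedComponentIn_eq (h1 hw'), ← connectedComponentIn_eq hw]
      exact mem_connectedComponentIn hz.1
    rw [h2]
    exact isPreconnected_connectedComponentIn

theorem t_hull : T_hull := by
  intro U K hU hc hK hKU
  rcases U.eq_empty_or_nonempty with rfl | ⟨p, hp⟩
  · exact ⟨∅, isCompact_empty, isPreconnected_empty, hKU, Subset.rfl⟩
  have key : ∃ g, IsCompact g ∧ IsPreconnected g ∧ p ∈ g ∧ K ⊆ g ∧ g ⊆ U := by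
    refine hK.induction_on (p := fun s => ∃ g, IsCompact g ∧ IsPreconnected g ∧ p ∈ g ∧ s ⊆ g ∧
      g ⊆ U) ⟨{p}, isCompact_singleton, isPreconnected_singleton, rfl, empty_subset _,
        singleton_subset_iff.2 hp⟩ ?_ ?_ ?_
    · rintro s t hst ⟨g, h1, h2, h3, h4, h5⟩
      exact ⟨g, h1, h2, h3, hst.trans h4, h5⟩
    · rintro s t ⟨g, h1, h2, h3, h4, h5⟩ ⟨g', k1, k2, k3, k4, k5⟩
      exact ⟨g ∪ g', h1.union k1, h2.union p h3 k3 k2, Or.inl h3, union_subset_union h4 k4,
        union_subset h5 k5⟩
    · intro x hx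
      obtain ⟨r, hr, hrU⟩ := nhds_basis_closedBall.mem_iff.1 (hU.mem_nhds (hKU hx))
      have hj := P153.CA.joinedIn_of_open hU hc hp (hKU hx)
      refine ⟨closedBall x r, mem_nhdsWithin_of_mem_nhds (closedBall_mem_nhds x hr),
        closedBall x r ∪ range hj.somePath, (isCompact_closedBall x r).union
          (isCompact_range hj.somePath.continuous), ?_, Or.inr hj.somePath.source_mem_range,
        subset_union_left, union_subset hrU ?_⟩
      · exact (convex_closedBall x r).isPreconnected.union x (mem_closedBall_self hr.le)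
          hj.somePath.target_mem_range (isPreconnected_range hj.somePath.continuous)
      · rintro _ ⟨t, rfl⟩
        exact hj.somePath_mem t
  obtain ⟨g, h1, h2, -, h4, h5⟩ := key
  exact ⟨g, h1, h2, h4, h5⟩

end Vale.Agent.P145.Lk
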