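import Vale.Agent.P145.LkStm

/-! P145, link: elementary facts on heights. -/

open Set Filter Topology Metric

namespace Vale.Agent.P145.Lk

open Vale.Agent.P152 Vale.Agent.P145.AT
open Vale.Agent.P153 (IsJordanMap IsTest)
open Vale.Agent.P153.CA (JLoop inside)

namespace XPar

theorem one {D : Finset Site} {h : Ht} (hh : IsH D h) (v : Site) :
    (spn D h).1 v = if h (v, true) % 4 = 2 then -1 else 1 := by
  have k : v ∈ tau D h ↔ h (v, true) % 4 = 2 := by
    rw [tau, Finset.mem_filter]
    refine ⟨fun a => a.2, fun a => ⟨?_, a⟩⟩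
    by_contra b
    rw [hh.1 v b] at a
    omega
  simp only [spn, mkS, k]

theorem two {D : Finset Site} (h : Ht) {f : Site} (hf : f ∈ D) :
    (spn D h).2 f = if h (f, false) % 4 = 1 then 1 else -1 := by
  simp only [spn, mkS, dag, Finset.mem_filter, hf, true_and, ite_not]

theorem ne : (-1 : ℤˣ) ≠ 1 := by decide

end XPar

theorem m_par : M_par := by
  intro D h hh
  obtain ⟨p1, p2⟩ := hh.par
  refine ⟨fun v => Int.even_iff.2 (p1 v), fun f hf v hv => ?_, fun m hm => ?_⟩
  · have e := hh.2.2 f hf v hv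
    have a := p1 v
    rw [abs_eq (by norm_num)] at e
    rw [XPar.one hh, XPar.two h hf]
    split_ifs <;> simp only [Units.val_neg, Units.val_one] <;> omega
  · obtain ⟨h1, h2⟩ := mem_vin.1 hm
    obtain ⟨e1, e2, e3, e4⟩ := hh.edge hm
    have a1 := p1 (src m)
    have a2 := p1 (tgt m)
    rw [abs_eq (by norm_num)] at e1 e2 e3 e4
    rw [XPar.one hh, XPar.one hh, XPar.two h h1, XPar.two h h2]
    refine ⟨?_, ?_, by omega⟩
    · split_ifs <;> simp only [XPar.ne, XPar.ne.symm, true_iff, false_iff] <;> omega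
    · split_ifs <;> simp only [XPar.ne, XPar.ne.symm, true_iff, false_iff] <;> omega

end Vale.Agent.P145.Lk
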