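import Vale.Agent.P145.LkStm

/-! P145, link: sums over spin configurations are sums over heights. -/

open Set Filter Topology Metric

namespace Vale.Agent.P145.Lk

open Vale.Agent.P152 Vale.Agent.P145.AT
open Vale.Agent.P153 (IsJordanMap IsTest)
open Vale.Agent.P153.CA (JLoop inside)

namespace XSum

open Classical in
/-- admissible pairs -/
noncomputable def AA (D : Finset Site) : Finset (Finset Site × Finset Site) :=
  ((inn D).powerset ×ˢ D.powerset).filter fun p => Adm D p.1 p.2

theorem mem_AA {D : Finset Site} {p : Finset Site × Finset Site} :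
    p ∈ AA D ↔ p.1 ⊆ inn D ∧ p.2 ⊆ D ∧ Adm D p.1 p.2 := by
  simp only [AA, Finset.mem_filter, Finset.mem_product, Finset.mem_powerset, and_assoc]

theorem prod_zero (a b c d : ℤˣ) : ((a : ℤ) - b) * ((c : ℤ) - d) = 0 ↔ a = b ∨ c = d := by
  rw [mul_eq_zero, sub_eq_zero, sub_eq_zero, Units.val_inj, Units.val_inj]

theorem ite_iff {p q : Prop} [Decidable p] [Decidable q] :
    (if p then (-1 : ℤˣ) else 1) = (if q then -1 else 1) ↔ (p ↔ q) := by
  by_cases hp : p <;> by_cases hq : q <;> simp [hp, hq]

theorem con_iff {P : Pol} {D T s : Finset Site} (h : Good P D) :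
    (∀ e : V × Bool, e.1 ∈ P.face → ot e ∈ P.face →
      (((mkS D T s).1 e.1 : ℤ) - (mkS D T s).1 (tg e)) *
        (((mkS D T s).2 e.1 : ℤ) - (mkS D T s).2 (ot e)) = 0) ↔ Adm D T s := by
  refine forall_congr' fun e => ?_
  rw [mem_vin, ← h.coe, ← h.coe, ot_eq, tg_eq, and_imp]
  refine forall_congr' fun h1 => forall_congr' fun h2 => ?_
  simp only [prod_zero, mkS, ite_iff, h1, h2, true_and, not_iff_not, src, fa]

theorem img {P : Pol} {D : Finset Site} (h : Good P D) :
    (fun p : Finset Site × Finset Site => mkS D p.1 p.2) '' AA D = P.Conf := by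
  classical
  ext s
  constructor
  · rintro ⟨p, hp, rfl⟩
    obtain ⟨h1, -, h3⟩ := mem_AA.1 hp
    exact ⟨fun v hv => if_neg fun h4 => hv ((h.inn v).1 (h1 h4)),
      fun f hf => if_neg fun h4 => hf ((h.coe f).1 h4.1), (con_iff h).2 h3⟩
  · rintro ⟨h1, h2, h3⟩
    have e : mkS D ((inn D).filter fun v => s.1 v = -1) (D.filter fun f => s.2 f = 1) = s := by
      refine Prod.ext (funext fun v => ?_) (funext fun f => ?_)
      · simp only [mkS, Finset.mem_filter]
        split_ifs with h4
        · exact h4.2.symm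
        · rcases Int.units_eq_one_or (s.1 v) with h5 | h5
          · exact h5.symm
          · exact (h1 v fun h6 => h4 ⟨(h.inn v).2 h6, h5⟩).symm
      · simp only [mkS, Finset.mem_filter]
        split_ifs with h4
        · exact ((Int.units_eq_one_or (s.2 f)).resolve_left fun h5 => h4.2 ⟨h4.1, h5⟩).symm
        · by_cases h5 : f ∈ D
          · by_contra h6
            exact h4 ⟨h5, fun h7 => h6 h7.2.symm⟩
          · exact (h2 f fun h6 => h5 ((h.coe f).2 h6)).symm
    rw [← e, con_iff h] at h3
    exact ⟨(_, _), mem_AA.2 ⟨Finset.filter_subset _ _, Finset.filter_subset _ _, h3⟩, e⟩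

theorem inj (D : Finset Site) :
    InjOn (fun p : Finset Site × Finset Site => mkS D p.1 p.2) (AA D) := by
  intro p hp q hq e
  refine Prod.ext (Finset.ext fun v => ite_iff.1 (congrFun (congrArg Prod.fst e) v))
    (Finset.ext fun f => ?_)
  have h1 := ite_iff.1 (congrFun (congrArg Prod.snd e) f)
  have h2 := @(mem_AA.1 hp).2.1 f
  have h3 := @(mem_AA.1 hq).2.1 f
  tauto

theorem sum_eq (hL : L_spin) {P : Pol} {D : Finset Site} (h : Good P D) (G : AT.Spin → ℝ) :
    ∑ᶠ s ∈ P.Conf, G s = ∑ k ∈ hs D, G (spn D k) := by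
  classical
  rw [← img h, finsum_mem_image (inj D), finsum_mem_coe_finset, AA, Finset.sum_filter,
    Finset.sum_product]
  exact (hL D h.cc fun T s => G (mkS D T s)).symm

end XSum

theorem m_sum (hs : L_spin) : M_sum := by
  classical
  intro P D h
  refine ⟨XSum.img h ▸ (Finset.finite_toSet _).image _, fun s hs' => ?_, fun k hk => ?_,
    XSum.sum_eq hs h⟩
  · have h1 := XSum.sum_eq hs h fun t => if t = s then 1 else 0
    rw [finsum_eq_single _ s fun t ht => by simp [ht]] at h1
    by_contra h2
    rw [Finset.sum_eq_zero fun k hk => if_neg fun h3 => h2 ⟨k, hk, h3⟩] at h1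
    simp [hs'] at h1
  · have h1 := XSum.sum_eq hs h fun t => if t ∈ P.Conf then 0 else 1
    rw [finsum_mem_of_eqOn_zero (f := fun t => if t ∈ P.Conf then (0 : ℝ) else 1)
      fun t ht => if_pos ht, eq_comm,
      Finset.sum_eq_zero_iff_of_nonneg fun k _ => by positivity] at h1
    by_contra h2
    simpa [h2] using h1 k hk

end Vale.Agent.P145.Lk
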