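import Vale.Agent.P145.LkStm

/-! P145, link: the weight of the spins of a height function. -/

open Set Filter Topology Metric

namespace Vale.Agent.P145.Lk

open Vale.Agent.P152 Vale.Agent.P145.AT
open Vale.Agent.P153 (IsJordanMap IsTest)
open Vale.Agent.P153.CA (JLoop inside)

namespace XWt

theorem cor_fa (m : Vx) : src m ∈ cor (fa m) ∧ tgt m ∈ cor (fa m) := by
  obtain ⟨x, b⟩ := m
  cases b <;> simp [mem_cor, fa, src, tgt, dir]

theorem vert {P : Pol} {D : Finset Site} (hG : Good P D) {f v : Site} (hf : f ∈ D)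
    (hv : v ∈ cor f) : v ∈ P.vert := by
  by_cases h : v ∈ inn D
  · exact Or.inl ((hG.inn v).1 h)
  · exact Or.inr (hG.bd f hf v hv h)

theorem one {D : Finset Site} {h : Ht} {v : Site} (hv : v ∉ inn D) : (spn D h).1 v = 1 :=
  if_neg fun k => hv (Finset.mem_filter.1 k).1

theorem alg {α : Type} (s : Finset α) (p q : α → Prop) [DecidablePred p] [DecidablePred q]
    (hpq : ∀ m ∈ s, p m ∨ q m) {c : ℝ} (hc : 0 < c) :
    c⁻¹ ^ ((s.filter fun m => ¬ p m).card + (s.filter fun m => ¬ q m).card) * c ^ s.card =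
      ∏ m ∈ s, if p m ∧ q m then c else 1 := by
  rw [pow_add, ← Finset.prod_const, ← Finset.prod_const, ← Finset.prod_const, Finset.prod_filter,
    Finset.prod_filter, ← Finset.prod_mul_distrib, ← Finset.prod_mul_distrib]
  refine Finset.prod_congr rfl fun m hm => ?_
  have h := hpq m hm
  by_cases hp : p m <;> by_cases hq : q m <;> simp_all [hc.ne']

end XWt

theorem m_wt (hp : M_par) : M_wt := by
  intro P D c h hG hc hh
  obtain ⟨-, -, h3⟩ := hp D h hh
  have e1 : {e : AT.V × Bool | e.1 ∈ P.vert ∧ tg e ∈ P.vert ∧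
      (spn D h).1 e.1 ≠ (spn D h).1 (tg e)} =
      ((vin D).filter fun m => ¬ h (src m, true) = h (tgt m, true) : Finset Vx) := by
    ext m
    simp only [mem_ofPred_eq, Finset.coe_filter]
    refine ⟨fun ⟨_, _, k⟩ => ?_, fun ⟨hm, k⟩ => ⟨XWt.vert hG (mem_vin.1 hm).1 (XWt.cor_fa m).1,
      XWt.vert hG (mem_vin.1 hm).1 (XWt.cor_fa m).2, fun k' => k ((h3 m hm).1.1 k')⟩⟩
    have hm : m ∈ vin D := by
      by_contra hm
      exact k ((XWt.one (mt vin_of_src hm)).trans (XWt.one (mt vin_of_tgt hm)).symm)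
    exact ⟨hm, fun k' => k ((h3 m hm).1.2 k')⟩
  have e2 : {e : AT.V × Bool | e.1 ∈ P.face ∧ ot e ∈ P.face ∧
      (spn D h).2 e.1 ≠ (spn D h).2 (ot e)} =
      ((vin D).filter fun m => ¬ h (fa m, false) = h (fb m, false) : Finset Vx) := by
    ext m
    simp only [mem_ofPred_eq, Finset.coe_filter, ot_eq, ← hG.coe]
    refine ⟨fun ⟨a, b, k⟩ => ?_, fun ⟨hm, k⟩ =>
      ⟨(mem_vin.1 hm).1, (mem_vin.1 hm).2, fun k' => k ((h3 m hm).2.1.1 k')⟩⟩
    have hm : m ∈ vin D := mem_vin.2 ⟨a, b⟩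
    exact ⟨hm, fun k' => k ((h3 m hm).2.1.2 k')⟩
  rw [Pol.wt, e1, e2, Set.ncard_coe_finset, Set.ncard_coe_finset]
  exact XWt.alg _ _ _ (fun m hm => (h3 m hm).2.2) hc

end Vale.Agent.P145.Lk
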