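import Vale.Agent.P145.LkLink
import Vale.Agent.P145.LkNum
import Vale.Agent.P145.LkApr
import Vale.Agent.P145.LkSum
import Vale.Agent.P145.LkHt
import Vale.Agent.P145.LkWt
import Vale.Agent.P145.LkPar
import Vale.Agent.P145.LkCc
import Vale.Agent.P145.LkLoc
import Vale.Agent.P145.LkInn
import Vale.Agent.P145.LkJl
import Vale.Agent.P145.LkOut
import Vale.Agent.P145.LkFr
import Vale.Agent.P145.LkDom
import Vale.Agent.P145.LkAcc

/-! P145: the link block, assembled. -/

namespace Vale.Agent.P145.Lk

theorem fr_all : T_fr := t_fr t_out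
theorem a_in_all : A_in := a_in t_dom
theorem a_out_all : A_out := a_out t_out fr_all t_hull t_dom
theorem loc_all : P_loc := p_loc p_seg
theorem good_all : P_good :=
  p_good p_seg loc_all (p_fin p_seg) (p_cc t_out p_seg loc_all) (p_inn fr_all (p_jl p_seg) loc_all)
theorem link_all (hs : L_spin) : Link :=
  link good_all (p_apr t_out t_hull t_dom) (m_sum hs) (m_wt m_par) (m_ht m_par)

end Vale.Agent.P145.Lk
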