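import Vale.Agent.P145.LLift

/-! P145: heights and legs. -/

open Filter Topology

namespace Vale.Agent.P145

open Vale.Agent.P152

theorem LLeg_surj {D : Finset Site} (hD : Cc D) {T : Finset Leg} (hT : T ⊆ legs D)
    (hζ : Valid ∅ (cfg T)) (hb : ∏ m ∈ vx D, bw D (cfg T) m ≠ 0) :
    ∃ h, IsH D h ∧ NFLink_T D h = T := by
  obtain ⟨ζ, eζ⟩ : ∃ ζ, ζ = cfg T := ⟨_, rfl⟩
  have out : ∀ l, l ∉ legs D → ζ l = false := fun l hl =>
    eζ ▸ cfg_false fun h => hl (hT h)
  rw [← eζ] at hζ hb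
  have z : ∀ m, m ∉ vin D → HH (tgt m) ζ = HH (src m) ζ := fun m hm => by
    rw [← sub_eq_zero, ← hζ.inc_eq, (hζ.1 m).inc_eq.1, sub_eq_zero]
    by_cases ha : fa m ∈ D
    · rw [(bw_ne (Finset.prod_ne_zero_iff.1 hb m (mem_vx.2 (Or.inl ha)))).1 ha
        fun h => hm (mem_vin.2 ⟨ha, h⟩)]
    · rw [out _ (mt (lg_mem_legs m).1.1 ha), out _ (mt (lg_mem_legs m).2.1.1 ha)]
  choose k hk using NFLink_int hζ
  have z' : ∀ m, m ∉ vin D → k (tgt m) = k (src m) := fun m hm =>
    Int.cast_injective (α := ℝ) (by rw [hk, hk, z m hm])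
  have crn : ∀ f, f ∉ D → ∀ v ∈ cor f, k v = k f := fun f hf v hv => by
    have a1 : k (f + (1, 0)) = k f := z' (f, true) fun h => hf (mem_vin.1 h).1
    have a2 : k (f + (0, 1)) = k f := z' (f, false) fun h => hf (mem_vin.1 h).1
    have a3 : k (f + (0, 1) + (1, 0)) = k (f + (0, 1)) := z' (f + (0, 1), true) fun h => hf (by
      simpa [fb, dir] using (mem_vin.1 h).2)
    have a4 : f + (0, 1) + (1, 0) = f + (1, 1) := by rw [add_assoc]; rfl
    rw [a4] at a3
    simp only [cor, Finset.mem_insert, Finset.mem_singleton] at hv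
    rcases hv with rfl | rfl | rfl | rfl
    exacts [rfl, a1, a2, a3.trans a2]
  obtain ⟨f0, hf0, -⟩ := exists_out D D
  have g0 : ∀ v, v ∉ inn D → k v = k f0 := fun v hv => by
    rw [mem_inn_cor] at hv
    push Not at hv
    obtain ⟨f, h1, h2⟩ := hv
    rw [crn f h2 v h1]
    refine (hD f0 hf0 f h2).ind (P := fun g => k g = k f0) rfl fun m a b ha hm hb ih => ?_
    obtain ⟨c1, c2⟩ := hm.cor (end_src m)
    rw [← crn b hb _ c2, crn a ha.mem _ c1, ih]
  have cell : ∀ l : Leg, ζ l = ζ (l.1, true) := fun ⟨e, b⟩ => by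
    cases b
    · exact hζ.cell e
    · rfl
  have st : ∀ m, k (tgt m) + NFLink_s (ζ ((lg m 1).1, true)) =
      k (src m) + NFLink_s (ζ ((lg m 0).1, true)) ∧ k (tgt m) + NFLink_s (ζ ((lg m 2).1, true)) =
      k (src m) + NFLink_s (ζ ((lg m 3).1, true)) := fun m => by
    have a1 := hζ.inc_eq m
    obtain ⟨a2, a3⟩ := (hζ.1 m).inc_eq
    rw [← cell, ← cell, ← cell, ← cell]
    constructor <;> refine Int.cast_injective (α := ℝ) ?_ <;>
      rw [Int.cast_add, Int.cast_add, hk, hk, NFLink_cast, NFLink_cast] <;> linarith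
  have key : ∀ e : Site, k (plq e) + NFLink_s (ζ ((2 * (plq e).1, 2 * (plq e).2), true)) =
      k (pvx e) + NFLink_s (ζ (e, true)) := by
    rintro ⟨x, y⟩
    obtain ⟨a, rfl | rfl⟩ : ∃ a, x = 2 * a ∨ x = 2 * a + 1 := ⟨x / 2, by omega⟩ <;>
      obtain ⟨b, rfl | rfl⟩ : ∃ b, y = 2 * b ∨ y = 2 * b + 1 := ⟨y / 2, by omega⟩
    all_goals
      have s1 := (st ((a, b), true)).1
      have s2 := (st ((a, b), false)).1
      have s3 := (st ((a + 1, b), false)).2
      have d1 : ∀ z : ℤ, 2 * z / 2 = z := fun z => by omega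
      have d2 : ∀ z : ℤ, (2 * z + 1) / 2 = z := fun z => by omega
      have d3 : ∀ z : ℤ, (2 * z + 1 + 1) / 2 = z + 1 := fun z => by omega
      have d4 : ∀ z : ℤ, 2 * (z + 1) - 1 = 2 * z + 1 := fun z => by omega
      simp only [lg, src, tgt, dir, if_true, Bool.false_eq_true, if_false, Matrix.cons_val_zero,
        Matrix.cons_val_one, Matrix.cons_val, Prod.mk_add_mk, add_zero, d4] at s1 s2 s3
      simp only [plq, pvx, d1, d2, d3]
    all_goals omega
  obtain ⟨h, h1, h2, h3⟩ : ∃ h : Ht, (∀ v, h (v, true) = k v - k f0) ∧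
      (∀ f, f ∉ D → h (f, false) = 0) ∧ ∀ e, plq e ∈ D →
        h (plq e, false) - h (pvx e, true) = NFLink_s (ζ (e, true)) :=
    ⟨fun x => if x.2 then k x.1 - k f0 else if x.1 ∈ D then
      k x.1 + NFLink_s (ζ ((2 * x.1.1, 2 * x.1.2), true)) - k f0 else 0, fun v => rfl,
      fun f hf => by simp [hf], fun e he => by simp [he, key e]⟩
  refine ⟨h, ⟨fun v hv => by rw [h1, g0 v hv, sub_self], h2, fun f hf v hv => ?_⟩, ?_⟩
  · rw [mem_cor] at hv
    have e1 : plq (f + v) = f := Prod.ext (by simp [plq]; omega) (by simp [plq]; omega)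
    have e2 : pvx (f + v) = v := Prod.ext (by simp [pvx]; omega) (by simp [pvx]; omega)
    have := h3 (f + v) (e1.symm ▸ hf)
    rw [e1, e2] at this
    rw [this]
    cases ζ (f + v, true) <;> rfl
  · ext l
    rw [NFLink_T, Finset.mem_filter, ← cfg_true (T := T), ← eζ]
    by_cases hl : l ∈ legs D
    · rw [h3 _ (mem_legs.1 hl), ← cell]
      cases ζ l <;> simp [hl, NFLink_s]
    · simp [hl, out l hl]

theorem LLeg_wt (c : ℝ) {D : Finset Site} {h : Ht} (hh : IsH D h) :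
    wt c D ∅ (cfg (NFLink_T D h)) = hwt c D h := by
  have e := NFLink_wt hh fun _ a b => if a then (if b then c else 1) else (if b then 1 else 0)
  rw [mul_one] at e
  have e1 : ∀ a b d e : Bool, vw c a b d e = if (a == b) = (e == d) then
      (if (a == b) then (if (a == e) then c else 1) else (if (a == e) then 1 else 0)) else 0 := by
    intro a b d e
    cases a <;> cases b <;> cases d <;> cases e <;> simp [vw]
  rw [wt, Finset.prod_congr rfl fun m _ => e1 _ _ _ _, e, hwt]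
  refine Finset.prod_congr rfl fun m hm => ?_
  obtain ⟨a1, a2, a3, a4⟩ := hh.edge hm
  rw [abs_eq (by norm_num)] at a1 a2 a3 a4
  unfold hv
  by_cases h1 : h (src m, true) = h (tgt m, true) <;>
    by_cases h2 : h (fa m, false) = h (fb m, false)
  · simp [h1, h2]
  · simp [h1, h2]
  · simp [h1, h2]
  · omega

theorem LLeg_num (c : ℝ) {D : Finset Site} (hD : Cc D) (F : Cfg → ℝ) :
    num c D ∅ F = ∑ h ∈ hs D, hwt c D h * F (cfg (NFLink_T D h)) := by
  refine (Finset.sum_of_injOn (NFLink_T D)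
    (fun h hh h' hh' e => NFLink_inj (mem_hs.1 hh) (mem_hs.1 hh') e)
    (fun h _ => Finset.mem_powerset.2 (Finset.filter_subset _ _)) (fun T hT hn => ?_)
    fun h hh => by rw [LLeg_wt c (mem_hs.1 hh)]).symm
  by_contra h0
  have h1 := (mul_ne_zero_iff.1 h0).1
  obtain ⟨h, h5, h6⟩ := LLeg_surj hD (Finset.mem_powerset.1 hT)
    (valid_of_wt (Finset.mem_powerset.1 hT) (Finset.empty_subset _) h1)
    (mul_ne_zero_iff.1 (mul_ne_zero_iff.1 h1).1).2
  exact hn ⟨h, mem_hs.2 h5, h6⟩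

theorem l_leg : L_leg := fun c D hD F => by
  simp only [ED, PH, LLeg_num c hD, Pi.one_apply, mul_one]

theorem LLeg_sg {D : Finset Site} {h : Ht} (k : IsH D h) {l : Leg} (hl : plq l.1 ∈ D) :
    sg (cfg (NFLink_T D h) l) = (h (plq l.1, false) : ℝ) - h (pvx l.1, true) := by
  have a := k.2.2 _ hl _ (NFLink_cor l.1)
  rw [abs_eq (by norm_num)] at a
  rw [NFLink_cfg h hl, ← Int.cast_sub]
  rcases a with a | a <;> rw [a] <;> simp [sg]

theorem inc_T {D : Finset Site} {h : Ht} (k : IsH D h) (m : Vx) :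
    inc (cfg (NFLink_T D h)) m = (h (tgt m, true) : ℝ) - h (src m, true) := by
  obtain ⟨p0, p1, p2, p3⟩ := plq_lg m
  obtain ⟨q0, q1, q2, q3⟩ := pvx_lg m
  have out : ∀ l : Leg, plq l.1 ∉ D → cfg (NFLink_T D h) l = false := fun l hl =>
    cfg_false fun hT => hl (mem_legs.1 (Finset.mem_filter.1 hT).1)
  have z : m ∉ vin D → (h (tgt m, true) : ℝ) = h (src m, true) := fun hm => by
    rw [k.1 _ (mt vin_of_src hm), k.1 _ (mt vin_of_tgt hm)]
  have ea : fa m ∈ D → sg (cfg (NFLink_T D h) (lg m 0)) - sg (cfg (NFLink_T D h) (lg m 1)) =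
      (h (tgt m, true) : ℝ) - h (src m, true) := fun ha => by
    rw [LLeg_sg k (p0 ▸ ha), LLeg_sg k (p1 ▸ ha), p0, p1, q0, q1]; ring
  have eb : fb m ∈ D → sg (cfg (NFLink_T D h) (lg m 3)) - sg (cfg (NFLink_T D h) (lg m 2)) =
      (h (tgt m, true) : ℝ) - h (src m, true) := fun hb => by
    rw [LLeg_sg k (l := lg m 3) (p3 ▸ hb), LLeg_sg k (l := lg m 2) (p2 ▸ hb), p2, p3, q2, q3]; ring
  have ea' : sg (cfg (NFLink_T D h) (lg m 0)) - sg (cfg (NFLink_T D h) (lg m 1)) =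
      (h (tgt m, true) : ℝ) - h (src m, true) := by
    by_cases ha : fa m ∈ D
    · exact ea ha
    · rw [out _ (p0 ▸ ha), out _ (p1 ▸ ha), z fun hm => ha (mem_vin.1 hm).1, sub_self, sub_self]
  have eb' : sg (cfg (NFLink_T D h) (lg m 3)) - sg (cfg (NFLink_T D h) (lg m 2)) =
      (h (tgt m, true) : ℝ) - h (src m, true) := by
    by_cases hb : fb m ∈ D
    · exact eb hb
    · rw [out (lg m 3) (p3 ▸ hb), out (lg m 2) (p2 ▸ hb), z fun hm => hb (mem_vin.1 hm).2,
        sub_self, sub_self]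
  unfold inc
  linarith

theorem XX_T {D : Finset Site} {h : Ht} (k : IsH D h) (g : Vx →₀ ℝ) :
    XX g (cfg (NFLink_T D h)) = XH g h := by
  simp only [XX, XH, inc_T k]

end Vale.Agent.P145
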