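import Vale.Agent.P145.RiDefs

/-! P145, block RI: independent marks. -/

namespace Vale.Agent.P145

open Vale.Agent.P152

namespace RiBernx

variable {W : Finset Vx} {p p' : Vx → ℝ} {G G' : Set Vx → ℝ} {a : Vx}

theorem ins (ha : a ∉ W) (p : Vx → ℝ) (G : Set Vx → ℝ) : bern (insert a W) p G =
    (1 - p a) * bern W p G + p a * bern W p fun O => G (insert a O) := by
  unfold bern
  rw [Finset.sum_powerset_insert ha, Finset.mul_sum, Finset.mul_sum]
  congr 1 <;> refine Finset.sum_congr rfl fun u hu => ?_
  · rw [Finset.prod_insert ha, if_neg fun h => ha (Finset.mem_powerset.1 hu h), mul_assoc]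
  · rw [Finset.prod_insert ha, if_pos (Finset.mem_insert_self a u), mul_assoc, Finset.coe_insert]
    congr 2
    refine Finset.prod_congr rfl fun m hm => ?_
    have : m ≠ a := fun e => ha (e ▸ hm)
    simp only [Finset.mem_insert, this, false_or]

theorem congr (h : ∀ u : Finset Vx, u ⊆ W → G u = G' u) : bern W p G = bern W p G' :=
  Finset.sum_congr rfl fun u hu => by rw [h u (Finset.mem_powerset.1 hu)]

theorem le (hp : ∀ m ∈ W, 0 ≤ p m ∧ p m ≤ 1) (h : ∀ O, G O ≤ G' O) : bern W p G ≤ bern W p G' :=
  Finset.sum_le_sum fun u _ => mul_le_mul_of_nonneg_left (h u) (Finset.prod_nonneg fun m hm => by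
    split_ifs
    exacts [(hp m hm).1, sub_nonneg.2 (hp m hm).2])

theorem mono (W : Finset Vx) : ∀ G : Set Vx → ℝ, (∀ m ∈ W, 0 ≤ p m ∧ p m ≤ p' m ∧ p' m ≤ 1) →
    Monotone G → bern W p G ≤ bern W p' G := by
  induction W using Finset.induction_on with
  | empty => intro G _ _; simp [bern]
  | insert a W ha ih =>
    intro G hp hG
    have hW := fun m hm => hp m (Finset.mem_insert_of_mem hm)
    obtain ⟨h0, h1, h2⟩ := hp a (Finset.mem_insert_self a W)
    have k1 := ih G hW hG
    have k2 := ih (fun O => G (insert a O)) hW fun O O' h => hG (Set.insert_subset_insert h)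
    have k3 : bern W p' G ≤ bern W p' fun O => G (insert a O) :=
      le (fun m hm => ⟨(hW m hm).1.trans (hW m hm).2.1, (hW m hm).2.2⟩)
        fun O => hG (Set.subset_insert a O)
    rw [ins ha, ins ha]
    nlinarith [mul_le_mul_of_nonneg_left k1 (sub_nonneg.2 (h1.trans h2)),
      mul_le_mul_of_nonneg_left k2 h0, mul_le_mul_of_nonneg_left k3 (sub_nonneg.2 h1)]

theorem res (hG : DepE W G) (T : Finset Vx) : bern (T ∪ W) p G = bern W p G := by
  induction T using Finset.induction_on with
  | empty => rw [Finset.empty_union]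
  | insert a T _ ih =>
    rw [Finset.insert_union]
    by_cases ha : a ∈ T ∪ W
    · rw [Finset.insert_eq_of_mem ha, ih]
    have e : (fun O => G (insert a O)) = G := funext fun O => by
      rw [hG (insert a O), Set.insert_inter_of_notMem fun k => ha (Finset.mem_union_right _ k),
        ← hG]
    rw [ins ha, e, ih]
    ring

theorem du_inj : Function.Injective du := by
  rintro ⟨x, b⟩ ⟨y, c⟩ h
  simp only [du, Prod.mk.injEq, Bool.not_inj_iff] at h
  obtain ⟨h, rfl⟩ := h
  rw [add_right_cancel h]

theorem cpl (W : Finset Vx) : ∀ G : Set Vx → ℝ,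
    bern (W.image du) p (fun O => G ({m | du m ∉ O} ∩ W)) = bern W (fun m => 1 - p (du m)) G := by
  induction W using Finset.induction_on with
  | empty => intro G; simp [bern]
  | insert a W ha ih =>
    intro G
    have ha' : du a ∉ W.image du := fun h => ha (du_inj.mem_finset_image.1 h)
    rw [Finset.image_insert, ins ha', ins ha, ← ih, ← ih, add_comm, sub_sub_cancel]
    congr 2
    · refine congr fun u _ => congrArg G ?_
      ext m
      by_cases hm : m = a
      · simp [hm, ha]
      · simp [hm, du_inj.eq_iff]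
    · refine congr fun u hu => ?_
      rw [Finset.coe_insert, Set.inter_insert_of_mem (show a ∈ {m | du m ∉ (u : Set Vx)} from
        fun h => ha' (hu h))]

end RiBernx

theorem r_bern : R_bern :=
  ⟨fun W _ _ G => RiBernx.mono W G, fun _ V _ _ h hG => by
    rw [← RiBernx.res hG V, Finset.union_eq_left.2 h], fun W _ G hG => by
    rw [← RiBernx.cpl W G]
    exact RiBernx.congr fun u _ => hG _⟩

end Vale.Agent.P145
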