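import Vale.Agent.P145.RiDefs

/-! P145, block RI: boxes and their images under symmetries have connected complements. -/

namespace Vale.Agent.P145

open Vale.Agent.P152

namespace RiCcx

variable {U : Set Site} {f g k : Site}

theorem mem_box {ab : Site × Site} {x : Site} :
    x ∈ bx ab ↔ (ab.1.1 ≤ x.1 ∧ x.1 < ab.2.1) ∧ ab.1.2 ≤ x.2 ∧ x.2 < ab.2.2 := by
  simp only [bx, Finset.mem_product, Finset.mem_Ico]

theorem lk_trans (h : Lk U f g) (h' : Lk U g k) : Lk U f k := ⟨h.1, h.2.trans h'.2⟩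

theorem lk_symm (h : Lk U f g) : Lk U g f := by
  obtain ⟨h1, h2⟩ := h
  induction h2 with
  | refl => exact ⟨h1, .refl⟩
  | tail _ s ih =>
    exact ⟨s.2.1, .head ⟨s.2.1, s.1, s.2.2.imp fun _ t => ⟨t.1, t.2.symm⟩⟩ ih.2⟩

theorem lk_seg (p : ℤ → Site) (hp : ∀ t, ∃ m, Sep m (p t) (p (t + 1))) (i j : ℤ)
    (h : ∀ t, min i j ≤ t → t ≤ max i j → p t ∈ U) : Lk U (p i) (p j) := by
  have key : ∀ i j : ℤ, i ≤ j → (∀ t, i ≤ t → t ≤ j → p t ∈ U) → Lk U (p i) (p j) := by
    intro i j hij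
    induction j, hij using Int.leInduction with
    | base => exact fun h => ⟨h i le_rfl le_rfl, .refl⟩
    | succ j hj ih =>
      intro h
      obtain ⟨m, hm⟩ := hp j
      have := ih fun t h1 h2 => h t h1 (by omega)
      exact ⟨this.1, this.2.tail
        ⟨h j hj (by omega), h _ (by omega) le_rfl, m, Set.notMem_empty m, hm⟩⟩
  rcases le_total i j with k | k
  · exact key i j k fun t h1 h2 => h t (by omega) (by omega)
  · exact lk_symm (key j i k fun t h1 h2 => h t (by omega) (by omega))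

theorem lk_row (i j y : ℤ) (h : ∀ t, min i j ≤ t → t ≤ max i j → (t, y) ∈ U) :
    Lk U (i, y) (j, y) :=
  lk_seg (fun t => (t, y)) (fun t => ⟨((t + 1, y), false), Or.inr ⟨rfl, by simp [fb, dir]⟩⟩) i j h

theorem lk_col (x i j : ℤ) (h : ∀ t, min i j ≤ t → t ≤ max i j → (x, t) ∈ U) :
    Lk U (x, i) (x, j) :=
  lk_seg (fun t => (x, t)) (fun t => ⟨((x, t + 1), true), Or.inr ⟨rfl, by simp [fb, dir]⟩⟩) i j h

theorem cn_box (ab : Site × Site) : Cn (bx ab) := by
  rintro ⟨x, y⟩ hf ⟨x', y'⟩ hg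
  simp only [Finset.mem_coe, mem_box] at hf hg
  exact lk_trans (lk_row x x' y fun t h1 h2 => by simp only [Finset.mem_coe, mem_box]; omega)
    (lk_col x' y y' fun t h1 h2 => by simp only [Finset.mem_coe, mem_box]; omega)

theorem cc_box (ab : Site × Site) : Cc (bx ab) := by
  have key : ∀ f ∈ (bx ab : Set Site)ᶜ, Lk (bx ab : Set Site)ᶜ f (ab.1.1 - 1, ab.1.2 - 1) := by
    rintro ⟨x, y⟩ hf
    simp only [Set.mem_compl_iff, Finset.mem_coe, mem_box] at hf
    by_cases h : ab.1.1 ≤ x ∧ x < ab.2.1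
    · exact lk_trans (lk_row x _ y fun t h1 h2 => by
          simp only [Set.mem_compl_iff, Finset.mem_coe, mem_box]; omega)
        (lk_col _ y _ fun t h1 h2 => by
          simp only [Set.mem_compl_iff, Finset.mem_coe, mem_box]; omega)
    · exact lk_trans (lk_col x y _ fun t h1 h2 => by
          simp only [Set.mem_compl_iff, Finset.mem_coe, mem_box]; omega)
        (lk_row x _ _ fun t h1 h2 => by
          simp only [Set.mem_compl_iff, Finset.mem_coe, mem_box]; omega)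
  exact fun f hf g hg => lk_trans (key f hf) (lk_symm (key g hg))

theorem swap_back {α β : Type} (a b : α → β) (gp : β ≃ β) (ge : α ≃ α)
    (h : ∀ m, (a (ge m) = gp (a m) ∧ b (ge m) = gp (b m)) ∨
      (a (ge m) = gp (b m) ∧ b (ge m) = gp (a m))) (m : α) :
    (a (ge.symm m) = gp.symm (a m) ∧ b (ge.symm m) = gp.symm (b m)) ∨
      (a (ge.symm m) = gp.symm (b m) ∧ b (ge.symm m) = gp.symm (a m)) := by
  have := h (ge.symm m)
  rw [ge.apply_symm_apply] at this
  simp only [Equiv.eq_symm_apply]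
  exact this.imp (fun k => ⟨k.1.symm, k.2.symm⟩) fun k => ⟨k.2.symm, k.1.symm⟩

theorem cc_map {gv gp : Site ≃ Site} {ge : Vx ≃ Vx} (h : Iso gv gp ge) {D : Finset Site}
    (hD : Cc D) : Cc (D.map gp.toEmbedding) := by
  have hm : ∀ f, gp f ∈ (D.map gp.toEmbedding : Set Site)ᶜ ↔ f ∈ (D : Set Site)ᶜ := fun f => by
    simp only [Set.mem_compl_iff, Finset.mem_coe, Finset.mem_map_equiv, gp.symm_apply_apply]
  intro f hf g hg
  obtain ⟨f, rfl⟩ := gp.surjective f
  obtain ⟨g, rfl⟩ := gp.surjective g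
  refine ⟨hf, (hD f ((hm f).1 hf) g ((hm g).1 hg)).2.lift gp ?_⟩
  rintro a b ⟨h1, h2, m, -, h3⟩
  refine ⟨(hm a).2 h1, (hm b).2 h2, ge m, Set.notMem_empty _, ?_⟩
  rcases h3 with ⟨rfl, rfl⟩ | ⟨rfl, rfl⟩
  · exact h.faces m
  · exact (h.faces m).symm

end RiCcx

theorem r_cc : R_cc :=
  ⟨fun ab => ⟨RiCcx.cc_box ab, RiCcx.cn_box ab⟩, fun gv gp ge h =>
    ⟨⟨fun f v => by rw [← h.cor, gv.apply_symm_apply, gp.apply_symm_apply],
      RiCcx.swap_back src tgt gv ge h.ends, RiCcx.swap_back fa fb gp ge h.faces⟩,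
      fun _ hD => RiCcx.cc_map h hD⟩⟩

end Vale.Agent.P145
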