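import Vale.Agent.P145.RiDefs
import Vale.Agent.P153.Planar.Hex

/-! P145, block RI: planar duality in a square. -/

namespace Vale.Agent.P145

open Vale.Agent.P152
open Vale.Agent.P153 (Adj Conn adj_iff both rh mem_rh)
open Vale.Agent.P153.RSW (cn_refl cn_trans cn_step cn_symm)

namespace RiHexx

variable {O P : Set Vx} {n : ℕ} {u v w w' : Site}

/-- projection of the refined lattice -/
def ph (w : Site) : Site := (w.1 / 2, w.2 / 2)

/-- black points of the refined lattice -/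
def bl (O : Set Vx) : Set Site :=
  {w | (w.1 % 2 = 1 → w.2 % 2 = 0 ∧ (ph w, true) ∈ O) ∧
    (w.2 % 2 = 1 → w.1 % 2 = 0 ∧ (ph w, false) ∈ O)}

theorem white (h : w ∈ (bl O)ᶜ) : (w.1 % 2 = 0 → w.2 % 2 = 1 ∧ (ph w, false) ∉ O) ∧
    (w.2 % 2 = 0 → w.1 % 2 = 1 ∧ (ph w, true) ∉ O) := by
  refine ⟨fun k => ⟨?_, fun k' => ?_⟩, fun k => ⟨?_, fun k' => ?_⟩⟩
  · by_contra k'
    exact h ⟨fun _ => by omega, fun j => absurd j k'⟩
  · exact h ⟨fun _ => by omega, fun _ => ⟨k, k'⟩⟩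
  · by_contra k'
    exact h ⟨fun j => absurd j k', fun _ => by omega⟩
  · exact h ⟨fun _ => ⟨k, k'⟩, fun _ => by omega⟩

theorem same (h : u.1 = v.1 ∧ u.2 = v.2) : Conn (eo P) (Rs.rc 0 n 0 n) u v :=
  Prod.ext h.1 h.2 ▸ cn_refl

theorem stR (h : (u, true) ∈ P) (k : v.1 = u.1 + 1 ∧ v.2 = u.2 ∧ 0 ≤ u.1 ∧ v.1 ≤ n ∧ 0 ≤ u.2 ∧
    u.2 ≤ n) : Conn (eo P) (Rs.rc 0 n 0 n) u v :=
  have e : eo P u v := eo_iff.2 (Or.inl ⟨h, Prod.ext k.1 k.2.1⟩)
  cn_step (eo_adj e) e (Rs.mem_rc.2 (by omega)) (Rs.mem_rc.2 (by omega))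

theorem stU (h : (u, false) ∈ P) (k : v.1 = u.1 ∧ v.2 = u.2 + 1 ∧ 0 ≤ u.1 ∧ u.1 ≤ n ∧ 0 ≤ u.2 ∧
    v.2 ≤ n) : Conn (eo P) (Rs.rc 0 n 0 n) u v :=
  have e : eo P u v := eo_iff.2 (Or.inr (Or.inl ⟨h, Prod.ext k.1 k.2.1⟩))
  cn_step (eo_adj e) e (Rs.mem_rc.2 (by omega)) (Rs.mem_rc.2 (by omega))

theorem duR (h : (v, false) ∉ O) (k : v.1 = u.1 + 1 ∧ v.2 = u.2) : (u, true) ∈ {m | du m ∉ O} := by
  obtain rfl : v = u + (1, 0) := Prod.ext k.1 (by simpa using k.2)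
  exact h

theorem duU (h : (v, true) ∉ O) (k : v.1 = u.1 ∧ v.2 = u.2 + 1) : (u, false) ∈ {m | du m ∉ O} := by
  obtain rfl : v = u + (0, 1) := Prod.ext (by simpa using k.1) k.2
  exact h

/-- the three forward directions -/
def Fw (w w' : Site) : Prop :=
  (w'.1 = w.1 + 1 ∧ w'.2 = w.2) ∨ (w'.1 = w.1 ∧ w'.2 = w.2 + 1) ∨ (w'.1 = w.1 + 1 ∧ w'.2 = w.2 - 1)

theorem lemA (h : Fw w w') (b : w ∈ bl O) (b' : w' ∈ bl O) (r : w ∈ rh (n, n) n)
    (r' : w' ∈ rh (n, n) n) : Conn (eo O) (Rs.rc 0 n 0 n) (ph w) (ph w') := by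
  rw [mem_rh] at r r'
  dsimp only at r r'
  have p1 : w.1 % 2 = 1 → w.2 % 2 = 0 := fun k => (b.1 k).1
  have p2 : w'.1 % 2 = 1 → w'.2 % 2 = 0 := fun k => (b'.1 k).1
  rcases h with h | h | h
  · rcases Int.emod_two_eq_zero_or_one w.1 with k | k
    · exact same (by dsimp only [ph]; omega)
    · exact stR (b.1 k).2 (by dsimp only [ph]; omega)
  · rcases Int.emod_two_eq_zero_or_one w.2 with k | k
    · exact same (by dsimp only [ph]; omega)
    · exact stU (b.2 k).2 (by dsimp only [ph]; omega)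
  · rcases Int.emod_two_eq_zero_or_one w.1 with k | k
    · exact same (by dsimp only [ph]; omega)
    · exact cn_trans (stR (v := (w'.1 / 2, w.2 / 2)) (b.1 k).2 (by dsimp only [ph]; omega))
        (cn_symm (eo_symm O) (stU (b'.2 (by omega)).2 (by dsimp only [ph]; omega)))

theorem lemB (h : Fw w w') (b : w ∈ (bl O)ᶜ) (b' : w' ∈ (bl O)ᶜ) (r : w ∈ rh (n, n) n)
    (r' : w' ∈ rh (n, n) n) : Conn (eo {m | du m ∉ O}) (Rs.rc 0 n 0 n) (ph w) (ph w') := by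
  rw [mem_rh] at r r'
  dsimp only at r r'
  have c := white b
  have c' := white b'
  have p1 : w.1 % 2 = 0 → w.2 % 2 = 1 := fun k => (c.1 k).1
  have p2 : w'.1 % 2 = 0 → w'.2 % 2 = 1 := fun k => (c'.1 k).1
  rcases h with h | h | h
  · rcases Int.emod_two_eq_zero_or_one w.1 with k | k
    · exact same (by dsimp only [ph]; omega)
    · exact stR (duR (c'.1 (by omega)).2 (by dsimp only [ph]; omega)) (by dsimp only [ph]; omega)
  · rcases Int.emod_two_eq_zero_or_one w.2 with k | k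
    · exact same (by dsimp only [ph]; omega)
    · exact stU (duU (c'.2 (by omega)).2 (by dsimp only [ph]; omega)) (by dsimp only [ph]; omega)
  · rcases Int.emod_two_eq_zero_or_one w.1 with k | k
    · exact same (by dsimp only [ph]; omega)
    · exact cn_trans (cn_symm (eo_symm _) (stU (u := (w.1 / 2, w'.2 / 2))
        (duU (c.2 (by omega)).2 (by dsimp only [ph]; omega)) (by dsimp only [ph]; omega)))
        (stR (duR (c'.1 (by omega)).2 (by dsimp only [ph]; omega)) (by dsimp only [ph]; omega))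

theorem path {S : Set Site} (H : ∀ w w', Fw w w' → w ∈ S → w' ∈ S → w ∈ rh (n, n) n →
    w' ∈ rh (n, n) n → Conn (eo P) (Rs.rc 0 n 0 n) (ph w) (ph w'))
    (h : Conn (both S) (rh (n, n) n) w w') : Conn (eo P) (Rs.rc 0 n 0 n) (ph w) (ph w') := by
  induction h with
  | refl => exact cn_refl
  | @tail a b _ k ih =>
    obtain ⟨k1, ⟨k2, k3⟩, k4, k5⟩ := k
    have : Fw a b ∨ Fw b a := by
      rw [adj_iff] at k1
      unfold Fw
      omega
    exact cn_trans ih (this.elim (fun f => H _ _ f k2 k3 k4 k5)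
      fun f => cn_symm (eo_symm _) (H _ _ f k3 k2 k5 k4))

theorem ph_mem (r : w ∈ rh (n, n) n) : ph w ∈ Rs.rc 0 n 0 n := by
  rw [mem_rh] at r
  simp only [Rs.mem_rc, ph] at r ⊢
  omega

end RiHexx

open RiHexx

theorem r_hex : R_hex := by
  intro O n
  refine (em (P153.HCr (both (bl O)) (n, n) n)).imp ?_ fun h => ?_
  · rintro ⟨a, b, h1, h2, h3, h4⟩
    simp only [Prod.fst_sub] at h1 h2
    exact ⟨ph a, show a.1 / 2 = 0 by omega, ph b, show b.1 / 2 = n by omega, ph_mem h3,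
      path (fun _ _ => lemA) h4⟩
  · obtain ⟨a, b, h1, h2, h3, h4⟩ := P153.vcr_of_not_hcr h
    simp only [Prod.snd_sub] at h1 h2
    exact ⟨ph a, show a.2 / 2 = 0 by omega, ph b, show b.2 / 2 = n by omega, ph_mem h3,
      path (fun _ _ => lemB) h4⟩

end Vale.Agent.P145
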