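import Vale.Agent.P145.RiDefs

/-! P145, block RI: elementary properties of the joint law. -/

namespace Vale.Agent.P145

open Vale.Agent.P152

namespace RiJhx

theorem one_of {D : Finset Site} {h : Ht} (hh : IsH D h) {m : Vx} (hm : m ∈ vin D)
    (h1 : ¬ h (src m, true) = h (tgt m, true)) : h (fa m, false) = h (fb m, false) := by
  obtain ⟨a1, a2, a3, a4⟩ := hh.edge hm
  rw [abs_eq (by norm_num)] at a1 a2 a3 a4
  omega

theorem ow_eq {c : ℝ} (hc : 0 < c) {D : Finset Site} {h : Ht} (hh : IsH D h) (ω : Finset Vx)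
    {m : Vx} (hm : m ∈ vin D) :
    ow c h ω m = hv c h m * if m ∈ ω then rr c (bt h m) else 1 - rr c (bt h m) := by
  by_cases h1 : h (src m, true) = h (tgt m, true)
  · by_cases h2 : h (fa m, false) = h (fb m, false)
    · by_cases h3 : m ∈ ω <;> simp [ow, hv, ag, rr, bt, h1, h2, h3, hc.ne', mul_sub]
    · by_cases h3 : m ∈ ω <;> simp [ow, hv, ag, rr, bt, h1, h2, h3]
  · have h2 := one_of hh hm h1
    by_cases h3 : m ∈ ω <;> simp [ow, hv, ag, rr, bt, h1, h2, h3]

theorem jn_eq {c : ℝ} (hc : 0 < c) (D : Finset Site) (G : Set Vx → ℝ) :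
    (jn c D fun _ ω => G ω) =
      ∑ h ∈ hs D, hwt c D h * bern (vin D) (fun m => rr c (bt h m)) G := by
  refine Finset.sum_congr rfl fun h hh => ?_
  rw [bern, Finset.mul_sum]
  refine Finset.sum_congr rfl fun ω _ => ?_
  rw [hwt, ← mul_assoc, ← Finset.prod_mul_distrib,
    Finset.prod_congr rfl fun m hm => ow_eq hc (mem_hs.1 hh) ω hm]

theorem bern_one (W : Finset Vx) (p : Vx → ℝ) : bern W p (fun _ => 1) = 1 := by
  have h := Finset.prod_add p (fun m => 1 - p m) W
  simp only [add_sub_cancel, Finset.prod_const_one] at h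
  refine Eq.trans (Finset.sum_congr rfl fun u hu => ?_) h.symm
  rw [mul_one, Finset.prod_ite, Finset.filter_mem_eq_inter,
    Finset.inter_eq_right.2 (Finset.mem_powerset.1 hu), Finset.sdiff_eq_filter]

theorem jn_one {c : ℝ} (hc : 0 < c) (D : Finset Site) : jn c D 1 = ∑ h ∈ hs D, hwt c D h := by
  have h := jn_eq hc D fun _ => 1
  simp only [bern_one, mul_one] at h
  exact h

theorem ow_nonneg {c : ℝ} (hc : 1 ≤ c) (h : Ht) (ω : Finset Vx) (m : Vx) : 0 ≤ ow c h ω m := by
  unfold ow hv ag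
  split_ifs <;> linarith

theorem ok_of {c : ℝ} {D : Finset Site} {h : Ht} (hh : IsH D h) {ω : Finset Vx} (hω : ω ⊆ vin D)
    (h0 : ∏ m ∈ vin D, ow c h ω m ≠ 0) : Ok D h ω := by
  rw [Finset.prod_ne_zero_iff] at h0
  refine ⟨hh, hω, fun m hm => ?_, fun m hm hm' => ?_⟩
  · by_contra h1
    exact h0 m (hω hm) (by simp [ow, ag, hm, h1])
  · by_contra h2
    by_cases h1 : h (src m, true) = h (tgt m, true)
    · exact h0 m hm (by simp [ow, ag, hv, hm', h1, h2])
    · exact h2 (one_of hh hm h1)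

end RiJhx

open RiJhx

theorem r_mark : R_mark := fun c hc D G => by
  rw [JH, PH, jn_eq hc, jn_one hc]

theorem r_jh : R_jh := by
  intro c hc D
  have hc0 : 0 < c := by linarith
  have hZ : 0 < jn c D 1 := by rw [jn_one hc0]; exact hZ_pos hc0 D
  refine ⟨fun F G => ?_, div_self hZ.ne', fun F G hFG => ?_⟩
  · simp only [JH, jn, mul_add, Finset.sum_add_distrib, add_div]
  · refine div_le_div_of_nonneg_right (Finset.sum_le_sum fun h hh =>
      Finset.sum_le_sum fun ω hω => ?_) hZ.le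
    by_cases h0 : ∏ m ∈ vin D, ow c h ω m = 0
    · rw [h0, zero_mul, zero_mul]
    · exact mul_le_mul_of_nonneg_left
        (hFG h ω (ok_of (mem_hs.1 hh) (Finset.mem_powerset.1 hω) h0))
        (Finset.prod_nonneg fun m _ => ow_nonneg hc h ω m)

end Vale.Agent.P145
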