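import Vale.Agent.P145.RiDefs
import Vale.Agent.P152.CBas

/-! P145, block RI: dictionary with orientations, splitting of open paths. -/

namespace Vale.Agent.P145

open Vale.Agent.P152
open Vale.Agent.P153.RSW (Ev)

namespace RiOrix

theorem one (D : Finset Site) (h : Ht) (hh : IsH D h) (m : Vx) (hm : m ∈ vin D) :
    ab (toOri (cfg (NFLink_T D h))) m = bt h m := by
  obtain ⟨p0, p1, p2, p3⟩ := plq_lg m
  obtain ⟨q0, q1, q2, q3⟩ := pvx_lg m
  obtain ⟨ha, hb⟩ := mem_vin.1 hm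
  obtain ⟨a1, a2, a3, a4⟩ := hh.edge hm
  rw [abs_eq (by norm_num)] at a1 a2 a3 a4
  have k : ∀ p q r : Prop, ∀ [Decidable p] [Decidable q] [Decidable r], ((p ↔ q) ↔ r) →
      (decide p == decide q) = decide r := fun p q r _ _ _ h => by
    by_cases hp : p <;> by_cases hq : q <;> by_cases hr : r <;> simp_all
  have hD : ∀ i, plq (lg m i).1 ∈ D := fun i => by
    fin_cases i
    exacts [p0 ▸ ha, p1 ▸ ha, p2 ▸ hb, p3 ▸ hb]
  have key := cbas_dict (cfg (NFLink_T D h)) m (fun i => by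
    rw [NFLink_cfg h (l := ((lg m i).1, true)) (hD i),
      NFLink_cfg h (l := ((lg m i).1, false)) (hD i)])
    fun a b => if (a, b) = bt h m then 1 else 0
  rw [NFLink_cfg h (hD 0), NFLink_cfg h (hD 1), NFLink_cfg h (hD 2), NFLink_cfg h (hD 3),
    p0, p1, p2, p3, q0, q1, q2, q3,
    k _ _ (h (src m, true) = h (tgt m, true)) (by omega),
    k _ _ (h (src m, true) = h (tgt m, true)) (by omega),
    k _ _ (h (fa m, false) = h (fb m, false)) (by omega), if_pos rfl, ← bt, if_pos rfl,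
    w8c] at key
  by_contra hne
  split_ifs at key with h1 h2
  · exact hne h2
  · exact zero_ne_one key
  · exact zero_ne_one key

theorem two (o : Ori) (m : Vx) : ab (osh (1, 0) o) m = (ab o (du m)).swap := by
  have e : v6 (du m) = v6 m + (1, 0) := by
    obtain ⟨⟨x, y⟩, b⟩ := m
    cases b <;> simp [v6, du, dir, Prod.ext_iff] <;> omega
  have s : ∀ e W E S, ab4 e W E S = (ab4 (!e) W E S).swap := fun e W E S => by cases e <;> rfl
  have e1 : ((v6 m).1 - 1, (v6 m).2) + (1, 0) = ((v6 m + (1, 0)).1 - 1, (v6 m + (1, 0)).2) := by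
    simp
  have e2 : ((v6 m).1, (v6 m).2 - 1) + (1, 0) = ((v6 m + (1, 0)).1, (v6 m + (1, 0)).2 - 1) := by
    simp
  rw [ab, ab, e, s]
  simp only [osh, e1, e2]
  rfl

theorem three (c : ℝ) (W : Finset Vx) (G : Set Vx → ℝ) : IsLocal (qo c W G) := by
  refine ⟨W.biUnion fun m => {(((v6 m).1 - 1, (v6 m).2), true), (v6 m, true),
    (((v6 m).1, (v6 m).2 - 1), false)}, fun o o' h => Finset.sum_congr rfl fun u _ => ?_⟩
  congr 1
  refine Finset.prod_congr rfl fun m hm => ?_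
  have : ab o m = ab o' m := by
    unfold ab
    rw [h _ (Finset.mem_biUnion.2 ⟨m, hm, by simp⟩), h (v6 m, true)
      (Finset.mem_biUnion.2 ⟨m, hm, by simp⟩), h (_, false) (Finset.mem_biUnion.2 ⟨m, hm, by simp⟩)]
  simp only [this]

theorem path {h : Ht} {ω : Finset Vx} (ho : ∀ m ∈ ω, h (src m, true) = h (tgt m, true))
    (p : ℤ → Prop) {S : Set Site} {a b : Site} (ha : p (h (a, true)))
    (k : P153.Conn (eo (ω : Set Vx)) S a b) :
    h (b, true) = h (a, true) ∧ P153.Conn (eo (op p h ω)) S a b := by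
  induction k with
  | refl => exact ⟨rfl, P153.RSW.cn_refl⟩
  | @tail u v _ k ih =>
    obtain ⟨m, hm, hj⟩ := k.2.1
    have h1 := ho m hm
    have h2 : h (src m, true) = h (a, true) ∧ h (v, true) = h (a, true) := by
      rcases hj with ⟨e1, e2⟩ | ⟨e1, e2⟩
      · rw [← e2, ← h1, e1]
        exact ⟨ih.1, ih.1⟩
      · rw [← e1, h1, e2]
        exact ⟨ih.1, ih.1⟩
    exact ⟨h2.2, ih.2.tail ⟨k.1, ⟨m, ⟨hm, h2.1 ▸ ha⟩, hj⟩, k.2.2⟩⟩

theorem loc {O W : Set Vx} {S : Set Site} (hW : ∀ m, src m ∈ S → m ∈ W) {a b : Site}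
    (k : P153.Conn (eo O) S a b) : P153.Conn (eo (O ∩ W)) S a b := by
  induction k with
  | refl => exact P153.RSW.cn_refl
  | @tail u v _ k ih =>
    obtain ⟨m, hm, hj⟩ := k.2.1
    refine ih.tail ⟨k.1, ⟨m, ⟨hm, hW m ?_⟩, hj⟩, k.2.2⟩
    rcases hj with ⟨e, -⟩ | ⟨e, -⟩
    · exact e ▸ k.2.2.1
    · exact e ▸ k.2.2.2

end RiOrix

theorem r_ori : R_ori := ⟨RiOrix.one, RiOrix.two, RiOrix.three⟩

theorem r_split : R_split := by
  refine ⟨?_, fun S A B hS => ⟨hS.toFinset ×ˢ Finset.univ, fun O => ?_⟩⟩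
  · rintro D h ω S A B hO ⟨a, ha, b, hb, haS, k⟩
    have hp := hO.1.par.1 a
    by_cases h0 : h (a, true) % 4 = 0
    · exact Or.inl ⟨a, ha, b, hb, haS, P153.RSW.cn_mono (eo_mono Set.subset_union_right) le_rfl
        (RiOrix.path hO.2.2.1 (fun z => z % 4 = 0) h0 k).2⟩
    · exact Or.inr ⟨a, ha, b, hb, haS,
        (RiOrix.path hO.2.2.1 (fun z => z % 4 = 2) (by omega) k).2⟩
  · refine congrArg pi (propext ⟨?_, P153.RSW.up_ev _ _ (eo_mono Set.inter_subset_left)⟩)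
    rintro ⟨a, ha, b, hb, haS, k⟩
    exact ⟨a, ha, b, hb, haS, RiOrix.loc (fun m hm => by simpa [src] using hm) k⟩

end Vale.Agent.P145
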