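import Vale.Agent.P145.RiDefs

/-! P145, block RI: elementary properties and symmetry of the limit law. -/

open Filter Topology

namespace Vale.Agent.P145

open Vale.Agent.P152
open Vale.Agent.P153.RSW (Ev up_ev cn_refl)
open Vale.Agent.P153 (Conn)

namespace RiStx

theorem pi_nonneg (p : Prop) : 0 ≤ pi p := by
  unfold pi
  split_ifs
  · exact zero_le_one
  · exact le_rfl

theorem pi_le (p : Prop) : pi p ≤ 1 := by
  unfold pi
  split_ifs
  · exact le_rfl
  · exact zero_le_one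

theorem pi_and (p q : Prop) : pi (p ∧ q) = pi p * pi q := by
  unfold pi
  by_cases h1 : p <;> by_cases h2 : q <;> simp [h1, h2]

theorem pi_or {p q : Prop} (h : ¬ (p ∧ q)) : pi (p ∨ q) = pi p + pi q := by
  unfold pi
  by_cases h1 : p <;> by_cases h2 : q <;> simp_all

theorem pa_mem (h1 : R_jh) {c : ℝ} (hc : 1 ≤ c) (D : Finset Site) (A : Set (Set Vx)) :
    PA c D A ∈ Set.Icc (0 : ℝ) 1 := by
  obtain ⟨k1, k2, k3⟩ := h1 c hc D
  have k0 := k1 (fun _ _ => 0) fun _ _ => 0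
  simp only [add_zero] at k0
  have k4 := k3 (fun _ _ => 0) (fun h ω => pi (ox D h ω ∈ A)) fun _ _ _ => pi_nonneg _
  have k5 := k3 (fun h ω => pi (ox D h ω ∈ A)) (fun _ _ => 1) fun _ _ _ => pi_le _
  exact ⟨by unfold PA PG; linarith, by unfold PA PG; linarith⟩

theorem lim (h1 : R_jh) {c : ℝ} (hc : 1 ≤ c) (A : Set (Set Vx)) :
    Tendsto (fun ab => PA c (bx ab) A) uf (𝓝 (PL c A)) := by
  obtain ⟨x, -, hx⟩ := isCompact_Icc.ultrafilter_le_nhds (uf.map fun ab => PA c (bx ab) A)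
    (le_principal_iff.2 (mem_map.2 (Eventually.of_forall fun ab => pa_mem h1 hc (bx ab) A)))
  exact tendsto_nhds_limUnder ⟨x, hx⟩

variable {gv gp : Site ≃ Site} {ge : Vx ≃ Vx}

theorem eo_map (I : Iso gv gp ge) {P : Set Vx} {a b : Site} (h : eo P a b) :
    eo (ge '' P) (gv a) (gv b) := by
  obtain ⟨m, hm, k⟩ := h
  refine ⟨ge m, Set.mem_image_of_mem _ hm, ?_⟩
  rcases k with ⟨rfl, rfl⟩ | ⟨rfl, rfl⟩
  · exact (I.ends m).imp id id
  · exact (I.ends m).symm.imp id id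

theorem ev_map (I : Iso gv gp ge) {P : Set Vx} {S A B : Set Site}
    (h : P ∈ Ev eo (gv ⁻¹' S) (gv ⁻¹' A) (gv ⁻¹' B)) : ge '' P ∈ Ev eo S A B := by
  obtain ⟨a, ha, b, hb, h1, h2⟩ := h
  refine ⟨gv a, ha, gv b, hb, h1, ?_⟩
  clear hb
  induction h2 with
  | refl => exact cn_refl
  | tail _ k ih =>
    exact ih.tail ⟨eo_adj (eo_map I k.2.1), eo_map I k.2.1, k.2.2.1, k.2.2.2⟩

theorem ev_iff (I : Iso gv gp ge) (I' : Iso gv.symm gp.symm ge.symm) {P : Set Vx}
    {S A B : Set Site} :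
    ge '' P ∈ Ev eo S A B ↔ P ∈ Ev eo (gv ⁻¹' S) (gv ⁻¹' A) (gv ⁻¹' B) := by
  refine ⟨fun h => ?_, ev_map I⟩
  have k := ev_map I' (P := ge '' P) (S := gv ⁻¹' S) (A := gv ⁻¹' A) (B := gv ⁻¹' B)
    (by simpa only [Equiv.symm_preimage_preimage] using h)
  rwa [Equiv.symm_image_image] at k

theorem le_sym (h2 : R_cc) (hM : M_iso) {c : ℝ} (h : RSt c) (I : Iso gv gp ge)
    (S A B : Set Site) :
    PL c (Ev eo (gv ⁻¹' S) (gv ⁻¹' A) (gv ⁻¹' B)) ≤ PL c (Ev eo S A B) := by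
  have I' := (h2.2 gv gp ge I).1
  refine ge_of_tendsto' (h.lim _) fun ab => ?_
  have k := h.le _ (inc_of_up (up_ev (S := gv ⁻¹' S) (A := gv ⁻¹' A) (B := gv ⁻¹' B))) _
    ((h2.2 _ _ _ I').2 _ (h2.1 ab).1)
  have e : ((bx ab).map gp.symm.toEmbedding).map gp.toEmbedding = bx ab := by
    ext x
    simp only [Finset.mem_map_equiv, Equiv.symm_symm, Equiv.apply_symm_apply]
  refine k.trans (le_of_eq ?_)
  unfold PA
  conv_rhs => rw [← e, hM gv gp ge I]
  simp only [ev_iff I I']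

end RiStx

open RiStx

theorem r_st (h1 : R_jh) (h2 : R_cc) : R_st := by
  intro hpa hdom c hc
  refine ⟨lim h1 hc, fun A => ge_of_tendsto' (lim h1 hc A) fun ab => (pa_mem h1 hc _ A).1, ?_,
    fun A B hAB => ?_, fun A B hA hB => ?_, fun A hA D hD => ?_⟩
  · refine tendsto_nhds_unique (lim h1 hc _) (tendsto_const_nhds.congr fun ab => ?_)
    unfold PA PG
    simp only [Set.mem_univ, pi, if_true, (h1 c hc _).2.1]
  · refine tendsto_nhds_unique (lim h1 hc _) (((lim h1 hc A).add (lim h1 hc B)).congr fun ab => ?_)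
    unfold PA PG
    rw [← (h1 c hc _).1]
    refine congrArg _ (funext fun h => funext fun ω => ?_)
    exact (pi_or fun k => Set.disjoint_left.1 hAB k.1 k.2).symm
  · refine le_of_tendsto_of_tendsto' ((lim h1 hc A).mul (lim h1 hc B)) (lim h1 hc _) fun ab => ?_
    refine (hpa c hc _ _ _ (h2.1 ab).1 hA.up hB.up).trans (le_of_eq ?_)
    refine congrArg _ (funext fun P => funext fun Q => ?_)
    exact (pi_and _ _).symm
  · refine le_of_tendsto (lim h1 hc A) (((ev_subset D).filter_mono uf_le).mono fun ab k => ?_)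
    exact hdom c hc _ _ _ (h2.1 ab).1 hD k hA.up

theorem r_sym (h2 : R_cc) : R_sym := by
  intro hM c h gv gp ge I S A B
  refine le_antisymm (le_sym h2 hM h I S A B) ?_
  have k := le_sym h2 hM h (h2.2 gv gp ge I).1 (gv ⁻¹' S) (gv ⁻¹' A) (gv ⁻¹' B)
  simpa only [Equiv.symm_preimage_preimage] using k

end Vale.Agent.P145
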