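import Vale.Agent.P145.RiAsm
import Vale.Agent.P145.RiHex
import Vale.Agent.P145.RiBern
import Vale.Agent.P145.RiJh
import Vale.Agent.P145.RiSt
import Vale.Agent.P145.RiCc
import Vale.Agent.P145.RiOri
import Vale.Agent.P152.XMain

/-! P145, block RI: the result. -/

namespace Vale.Agent.P145

open Vale.Agent.P152

theorem ri_of (g1 : G_pa) (g2 : G_dom) (g3 : G_pm) (g4 : M_iso) (g5 : L_leg) {c : ℝ} (h1 : 1 < c)
    (h2 : c ≤ 2) : RI c :=
  ri_asm r_jh r_cc (r_st r_jh r_cc) (r_sym r_cc) r_hex r_bern r_mark r_ori r_split g1 g2 g3 g4 g5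
    h1.le h2 (conv_all h1 h2) (blkU c (cyl_all h1 h2))

end Vale.Agent.P145
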