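import Vale.Agent.P145.RsAll

/-! From long crossings to enclosures and arms. -/

open Set

namespace Vale.Agent.P145

open Vale.Agent.P152
open Vale.Agent.P153 (Adj Conn adj_iff)
open Vale.Agent.P153.RSW (all cn_exit cn_mono cn_symm cn_trans cn_refl cn_step all_symm)

theorem ds_symm {O : Set Vx} {U : Set Site} {f g : Site} (h : DS O U f g) : DS O U g f := by
  obtain ⟨h1, h2, m, h3, h4⟩ := h
  exact ⟨h2, h1, m, h3, h4.symm⟩

theorem ds_rev {O : Set Vx} {U : Set Site} {f g : Site}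
    (h : Relation.ReflTransGen (DS O U) f g) : Relation.ReflTransGen (DS O U) g f := by
  induction h with
  | refl => exact .refl
  | tail _ k ih => exact .head (ds_symm k) ih

theorem ds_row {U : Set Site} {i i' j : ℤ} (h : ∀ k, min i i' ≤ k → k ≤ max i i' → (k, j) ∈ U) :
    Relation.ReflTransGen (DS ∅ U) (i, j) (i', j) := by
  have key : ∀ a b : ℤ, a ≤ b → (∀ k, a ≤ k → k ≤ b → (k, j) ∈ U) →
      Relation.ReflTransGen (DS ∅ U) (a, j) (b, j) := fun a b hab => by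
    induction b, hab using Int.leInduction with
    | base => exact fun _ => .refl
    | succ k hk ih =>
      exact fun hU => (ih fun l h1 h2 => hU l h1 (by omega)).tail ⟨hU k hk (by omega),
        hU _ (by omega) le_rfl, ((k + 1, j), false), id, Or.inr ⟨rfl, by simp [fb, dir]⟩⟩
  rcases le_total i i' with k | k
  · exact key _ _ k fun l h1 h2 => h l (by omega) (by omega)
  · exact ds_rev (key _ _ k fun l h1 h2 => h l (by omega) (by omega))

theorem ds_col {U : Set Site} {i j j' : ℤ} (h : ∀ k, min j j' ≤ k → k ≤ max j j' → (i, k) ∈ U) :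
    Relation.ReflTransGen (DS ∅ U) (i, j) (i, j') := by
  have key : ∀ a b : ℤ, a ≤ b → (∀ k, a ≤ k → k ≤ b → (i, k) ∈ U) →
      Relation.ReflTransGen (DS ∅ U) (i, a) (i, b) := fun a b hab => by
    induction b, hab using Int.leInduction with
    | base => exact fun _ => .refl
    | succ k hk ih =>
      exact fun hU => (ih fun l h1 h2 => hU l h1 (by omega)).tail ⟨hU k hk (by omega),
        hU _ (by omega) le_rfl, ((i, k + 1), true), id, Or.inr ⟨rfl, by simp [fb, dir]⟩⟩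
  rcases le_total j j' with k | k
  · exact key _ _ k fun l h1 h2 => h l (by omega) (by omega)
  · exact ds_rev (key _ _ k fun l h1 h2 => h l (by omega) (by omega))

theorem enc_cn_bx (ab : Site × Site) : Cn (bx ab : Set Site) := by
  rintro ⟨a, b⟩ hf ⟨c, d⟩ hg
  have h1 := mem_bx.1 hf
  have h2 := mem_bx.1 hg
  simp only at h1 h2
  exact ⟨hf, (ds_row (i' := c) fun k _ _ => mem_bx.2 (by simp only; omega)).trans
    (ds_col fun k _ _ => mem_bx.2 (by simp only; omega))⟩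

theorem enc_cc_bx (ab : Site × Site) : Cc (bx ab) := by
  have key : ∀ f ∈ (bx ab : Set Site)ᶜ,
      Relation.ReflTransGen (DS ∅ (bx ab : Set Site)ᶜ) f (ab.1.1 - 1, ab.1.2 - 1) := by
    rintro ⟨a, b⟩ hf
    have h1 := mt mem_bx.2 hf
    simp only at h1
    by_cases h : a < ab.1.1 ∨ ab.2.1 ≤ a
    · refine Relation.ReflTransGen.trans (b := (a, ab.1.2 - 1)) (ds_col fun k _ _ h' => ?_)
        (ds_row fun k _ _ h' => ?_) <;> have := mem_bx.1 h' <;> simp only at this <;> omega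
    · refine Relation.ReflTransGen.trans (b := (ab.1.1 - 1, b)) (ds_row fun k _ _ h' => ?_)
        (ds_col fun k _ _ h' => ?_) <;> have := mem_bx.1 h' <;> simp only at this <;> omega
  exact fun f hf g hg => ⟨hf, (key f hf).trans (ds_rev (key g hg))⟩

/-- vertices and midpoints of open edges in the refined lattice -/
def rPr (O : Set Vx) : Set Site :=
  {x | (x.1 % 2 = 0 ∧ x.2 % 2 = 0) ∨ ∃ m ∈ O, x = (2 * m.1.1 + (dir m.2).1, 2 * m.1.2 + (dir m.2).2)}

theorem enc_pr {O : Set Vx} {a b c d : ℤ} {x y : Site} (h : Conn (eO O) (Rs.rc a b c d) x y) :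
    Conn all (rPr O ∩ Rs.rc (2 * a) (2 * b) (2 * c) (2 * d)) (2 * x.1, 2 * x.2)
      (2 * y.1, 2 * y.2) := by
  induction h with
  | refl => exact cn_refl
  | @tail u v _ k ih =>
    obtain ⟨-, ⟨⟨⟨i, j⟩, t⟩, hm, k1⟩, k2, k3⟩ := k
    have e : ∀ w : Site, w ∈ Rs.rc a b c d →
        ((2 * w.1, 2 * w.2) : Site) ∈ rPr O ∩ Rs.rc (2 * a) (2 * b) (2 * c) (2 * d) := fun w hw =>
      ⟨Or.inl (by simp only; omega), by simp only [Rs.mem_rc] at hw ⊢; omega⟩
    have k4 := Rs.mem_rc.1 k2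
    have k5 := Rs.mem_rc.1 k3
    have m : ((2 * i + (dir t).1, 2 * j + (dir t).2) : Site) ∈
        rPr O ∩ Rs.rc (2 * a) (2 * b) (2 * c) (2 * d) := ⟨Or.inr ⟨_, hm, rfl⟩, by
      cases t <;> simp [Joi, src, tgt, dir, Prod.ext_iff, Rs.mem_rc] at k1 ⊢ <;> omega⟩
    refine cn_trans ih (cn_trans (cn_step ?_ trivial (e u k2) m) (cn_step ?_ trivial m (e v k3))) <;>
      cases t <;> simp [Joi, src, tgt, dir, Prod.ext_iff, adj_iff] at k1 ⊢ <;> omega

theorem enc_du {O : Set Vx} {f g : Site} (h : Relation.ReflTransGen (DS O univ) f g) :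
    Conn all (rPr O)ᶜ (2 * f.1 + 1, 2 * f.2 + 1) (2 * g.1 + 1, 2 * g.2 + 1) := by
  have e : ∀ w : Site, ((2 * w.1 + 1, 2 * w.2 + 1) : Site) ∈ (rPr O)ᶜ := by
    rintro w (h | ⟨⟨⟨i, j⟩, t⟩, -, h⟩)
    · simp only at h; omega
    · cases t <;> simp [dir, Prod.ext_iff] at h <;> omega
  induction h with
  | refl => exact cn_refl
  | @tail u v _ k ih =>
    obtain ⟨-, -, ⟨⟨i, j⟩, t⟩, hm, k1⟩ := k
    have m : ((2 * i + (dir t).1, 2 * j + (dir t).2) : Site) ∈ (rPr O)ᶜ := by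
      rintro (h | ⟨⟨⟨i', j'⟩, t'⟩, h0, h⟩)
      · cases t <;> simp [dir] at h
      · refine hm ?_
        cases t <;> cases t' <;> simp [dir, Prod.ext_iff] at h
        · obtain ⟨rfl, rfl⟩ : i = i' ∧ j = j' := by omega
          exact h0
        · omega
        · omega
        · obtain ⟨rfl, rfl⟩ : i = i' ∧ j = j' := by omega
          exact h0
    refine cn_trans ih (cn_trans (cn_step ?_ trivial (e u) m) (cn_step ?_ trivial m (e v))) <;>
      cases t <;> simp [Sep, fa, fb, dir, Prod.ext_iff, adj_iff] at k1 ⊢ <;> omega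

theorem mem_sq' {z f : Site} {n : ℕ} : f ∈ sq z n ↔
    z.1 - n ≤ f.1 ∧ f.1 < z.1 + n ∧ z.2 - n ≤ f.2 ∧ f.2 < z.2 + n := by
  simp only [sq, mem_bx, Prod.fst_sub, Prod.snd_sub, Prod.fst_add, Prod.snd_add]

theorem enc_cir (hp : P_enc) {O : Set Vx} {z : Site} {n N : ℕ} (hn : n ≤ N)
    (h : O ∈ Rs.Cir eO z (n - 1) N) : Enc O (sq z n) (sq z N) := by
  refine hp O _ _ (enc_cn_bx _) (enc_cc_bx _) ?_
  rintro f hf ⟨g, hg, k⟩
  have h1 := mem_sq'.1 hf
  have h2 := mt mem_sq'.2 hg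
  have k1 := enc_du (ds_rev k)
  have e0 : ((2 * f.1 + 1, 2 * f.2 + 1) : Site) ∈ (rPr O)ᶜ := by
    rintro (h | ⟨⟨⟨i, j⟩, t⟩, -, h⟩)
    · simp only at h; omega
    · cases t <;> simp [dir, Prod.ext_iff] at h <;> omega
  obtain ⟨T, t1, t2, t3, c, t4, t5⟩ := Rs.rsRing_exit (z := (2 * z.1, 2 * z.2)) (N := 2 * N)
    (by simp only [Rs.mem_sq]; omega) (by simp only [Rs.mem_sq]; omega) e0 k1
  have t6 := Vale.Agent.P153.RSW.cn_mem t4 t3
  have t7 := cn_symm all_symm t4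
  simp only [Set.subset_def, Rs.mem_sq] at t2
  have ev : ∀ (w : Site) a b c d, w ∈ Rs.rc a b c d →
      ((2 * w.1, 2 * w.2) : Site) ∈ rPr O ∩ Rs.rc (2 * a) (2 * b) (2 * c) (2 * d) :=
    fun w a b c d hw => ⟨Or.inl (by simp only; omega), by simp only [Rs.mem_rc] at hw ⊢; omega⟩
  obtain ⟨⟨⟨⟨x1, a1, y1, b1, c1, d1⟩, x2, a2, y2, b2, c2, d2⟩, x3, a3, y3, b3, c3, d3⟩,
    x4, a4, y4, b4, c4, d4⟩ := h
  simp only [mem_ofPred_eq] at a1 b1 a2 b2 a3 b3 a4 b4 t5
  rcases t5 with t5 | t5 | t5 | t5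
  · obtain ⟨s, s1, s2⟩ := Rs.rsRing_meet Rs.s_p1 _ _ _ _ (fun t ht => ht.2.2.2)
      (fun t ht => ⟨(t2 t ht).1, (t2 t ht).2.1⟩) (by omega) (by omega) (ev _ _ _ _ _ c1) (enc_pr d1)
      (by simp only; omega) (by simp only; omega) t3 t4 (by simp only; omega) (by omega)
    exact t1 s2 s1.1
  · obtain ⟨s, s1, s2⟩ := Rs.rsRing_meet Rs.s_p1 _ _ _ _ (fun t ht => ht.2.2.2)
      (fun t ht => ⟨(t2 t ht).1, (t2 t ht).2.1⟩) (by omega) (by omega) (ev _ _ _ _ _ c2) (enc_pr d2)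
      (by simp only; omega) (by simp only; omega) t6 t7 (by omega) (by simp only; omega)
    exact t1 s2 s1.1
  · obtain ⟨s, s1, s2⟩ := Rs.rsRing_meet Rs.s_p1 _ _ _ _ (fun t ht => (t2 t ht).2.2)
      (fun t ht => ⟨ht.2.1, ht.2.2.1⟩) (by omega) (by omega) t6 t7 (by omega) (by simp only; omega)
      (ev _ _ _ _ _ c3) (enc_pr d3) (by simp only; omega) (by simp only; omega)
    exact t1 s1 s2.1
  · obtain ⟨s, s1, s2⟩ := Rs.rsRing_meet Rs.s_p1 _ _ _ _ (fun t ht => (t2 t ht).2.2)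
      (fun t ht => ⟨ht.2.1, ht.2.2.1⟩) (by omega) (by omega) t3 t4 (by simp only; omega) (by omega)
      (ev _ _ _ _ _ c4) (enc_pr d4) (by simp only; omega) (by simp only; omega)
    exact t1 s1 s2.1

theorem enc_arm {O : Set Vx} {z : Site} {n N : ℕ} (hn : n ≤ N) (h0 : 1 ≤ n)
    (h : O ∈ Rs.HC eO z.1 (z.1 + N) (z.2 - n + 1) (z.2 + n - 1)) : Arm O z n N := by
  obtain ⟨x, a, y, b, c, d⟩ := h
  simp only [mem_ofPred_eq] at a b
  have st : ∀ u v : Site, eO O u v → u ∈ Rs.rc z.1 (z.1 + N) (z.2 - n + 1) (z.2 + n - 1) →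
      v ∈ Rs.rc z.1 (z.1 + N) (z.2 - n + 1) (z.2 + n - 1) → u.1 < z.1 + N →
      ∃ m ∈ O ∩ vin (sq z N), Joi m u v := by
    rintro u v ⟨⟨⟨i, j⟩, t⟩, hm, k⟩ hu hv h
    refine ⟨_, ⟨hm, Finset.mem_coe.2 (mem_vin.2 ?_)⟩, k⟩
    simp only [Rs.mem_rc] at hu hv
    cases t <;> simp [Joi, src, tgt, dir, Prod.ext_iff, fa, fb, mem_sq'] at k ⊢ <;> omega
  obtain ⟨u, v, u1, v1, u2, v2, -, uv, c1, -⟩ :=
    (cn_exit {v | v.1 < z.1 + N} d (show x.1 < z.1 + N by omega)).resolve_left fun k => by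
      have := k.1
      simp only [mem_ofPred_eq] at this
      omega
  have c2 := Rs.mem_rc.1 c
  simp only [mem_ofPred_eq] at v1
  refine ⟨x, v, ?_, ?_, Relation.ReflTransGen.tail ?_ (st u v uv u2 v2 u1)⟩
  · simp only [sd, max_lt_iff, abs_lt]; omega
  · simp only [sd, le_max_iff, le_abs]; omega
  · clear uv u1 u2
    induction c1 with
    | refl => exact .refl
    | tail _ k ih => exact ih.tail (st _ _ k.2.1 k.2.2.1.1 k.2.2.2.1 k.2.2.1.2)

theorem up_eO {A : Set (Set Vx)} (h : ∀ O O', O ⊆ O' → O ∈ A → O' ∈ A) :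
    Vale.Agent.P153.RSW.Up eO A := fun O O' k => h O O' fun m hm => by
  obtain ⟨m', h1, h2⟩ := k (src m) (tgt m) ⟨m, hm, Or.inl ⟨rfl, rfl⟩⟩
  obtain rfl : m' = m := by
    obtain ⟨⟨i, j⟩, t⟩ := m
    obtain ⟨⟨i', j'⟩, t'⟩ := m'
    cases t <;> cases t' <;> simp [Joi, src, tgt, dir, Prod.ext_iff] at h2 ⊢ <;> omega
  exact h1

theorem wr_of (hp : P_enc) {c : ℝ} (h : RI c) : WR c := by
  obtain ⟨p, p0, P, H, hP⟩ := h
  obtain ⟨x, x0, hx⟩ := Rs.rsw p 8 p0
  refine ⟨x ^ 4, by positivity, 72, by norm_num, fun n hn z D hD => ?_⟩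
  have k := hx _ eO P H n (by omega)
  push_cast at k
  constructor
  · refine le_trans ?_ (hP {O | Enc O (sq z n) (sq z (2 * n))} (up_eO ?_) D hD)
    · exact (H.cir x0.le (n := n - 1) (N := (2 * n : ℕ)) (by omega) (by omega) (by omega) k z).trans
        (H.mono fun O hO => enc_cir hp (by omega) hO)
    · rintro O O' hO ⟨E, h1, h2, h3, h4, h5⟩
      exact ⟨E, h1, h2, h3, h4, h5.trans hO⟩
  · refine le_trans ?_ (hP {O | Arm O z n (8 * n)} (up_eO ?_) D hD)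
    · exact (pow_le_of_le_one x0.le (k.trans (H.le_one _)) (by norm_num)).trans (k.trans
        ((H.hc (by omega) (by omega) (by omega)).trans
          (H.mono fun O hO => enc_arm (by omega) (by omega) hO)))
    · rintro O O' hO ⟨v, w, h1, h2, h3⟩
      refine ⟨v, w, h1, h2, ?_⟩
      clear h2
      induction h3 with
      | refl => exact .refl
      | tail _ k ih =>
        obtain ⟨m, k1, k2⟩ := k
        exact ih.tail ⟨m, ⟨hO k1.1, k1.2⟩, k2⟩

end Vale.Agent.P145
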