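import Vale.Agent.P145.LLift

/-! P145: Markov property. -/

open Filter Topology

namespace Vale.Agent.P145

open Vale.Agent.P152

section

variable {D D' : Finset Site} {h ho hi : Ht} {ω ωo ωi : Finset Vx} {m : Vx} {f : Site} {j : ℤ}

theorem MMk_in (hf : f ∈ D') (ho hi : Ht) :
    glue D' ho hi (f, false) = ho (f, false) - 1 + hi (f, false) := by simp [glue, flat, hf]

theorem MMk_out (k : IsH D' hi) (hf : f ∉ D') (ho : Ht) :
    glue D' ho hi (f, false) = ho (f, false) := by simp [glue, flat, hf, k.2.1 f hf]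

theorem MMk_off (h1 : m ∉ vin D') (h2 : m ∉ bd D') : fa m ∉ D' ∧ fb m ∉ D' := by
  rw [mem_vin] at h1
  rw [mem_bd] at h2
  tauto

/-- the weight factorises -/
theorem MMk_wt (c : ℝ) (hD : D' ⊆ D) (k : Out D D' j ho ωo) (k' : IsH D' hi) (hω : ωi ⊆ vin D') :
    ∏ m ∈ vin D, ow c (glue D' ho hi) (ωo ∪ ωi) m =
      (∏ m ∈ vin D \ vin D', ow c ho ωo m) * ∏ m ∈ vin D', ow c hi ωi m := by
  rw [← Finset.prod_sdiff (vin_mono hD)]
  refine congrArg₂ _ (Finset.prod_congr rfl fun m hm => ?_) (Finset.prod_congr rfl fun m hm => ?_)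
  · obtain ⟨h1, h2⟩ := Finset.mem_sdiff.1 hm
    have e0 : m ∈ ωo ∪ ωi ↔ m ∈ ωo := Finset.mem_union.trans (or_iff_left fun a => h2 (hω a))
    have e1 := glue_out (ho := ho) k' fun a => h2 (vin_of_src a)
    have e2 := glue_out (ho := ho) k' fun a => h2 (vin_of_tgt a)
    simp only [ow, ag, hv, e0, e1, e2]
    by_cases a : m ∈ ωo
    · rw [if_pos a, if_pos a]
    · obtain ⟨a1, a2⟩ := MMk_off h2 fun b => a (k.2.2.2.1 m h1 b)
      rw [if_neg a, if_neg a, MMk_out k' a1, MMk_out k' a2]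
  · have e0 : m ∈ ωo ∪ ωi ↔ m ∈ ωi :=
      Finset.mem_union.trans (or_iff_right fun a => (Finset.mem_sdiff.1 (k.2.2.1 a)).2 hm)
    obtain ⟨a1, a2⟩ := mem_vin.1 hm
    have b1 := (k.2.1 _ a1 _ ((sep_self m).cor (end_src m)).1).1
    have b2 := (k.2.1 _ a1 _ ((sep_self m).cor (end_tgt m)).1).1
    have b3 := (k.2.1 _ a2 _ ((sep_self m).cor (end_src m)).2).1
    have e1 : glue D' ho hi (src m, true) = glue D' ho hi (tgt m, true) ↔
        hi (src m, true) = hi (tgt m, true) := by rw [glue_true, glue_true]; omega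
    have e2 : glue D' ho hi (fa m, false) = glue D' ho hi (fb m, false) ↔
        hi (fa m, false) = hi (fb m, false) := by rw [MMk_in a1, MMk_in a2]; omega
    simp only [ow, ag, hv, e0, e1, e2]

/-- every configuration with an open ring is glued -/
theorem MMk_sur (hD : D' ⊆ D) (hc : Cc D') (k : Ok D h ω) (r : Ring D D' j h ω) :
    ∃ ho hi, IsH D' hi ∧ glue D' ho hi = h ∧ Out D D' j ho (ω \ vin D') := by
  obtain ⟨hi, k', e⟩ := l_lift D' h j hc (fun f hf => k.1.2.2 f (hD hf)) r.2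
  obtain ⟨ho, g⟩ : ∃ ho, glue D' ho hi = h := ⟨h - hi + flat D', by simp [glue]⟩
  subst g
  have a1 : ∀ f ∈ D', ∀ v ∈ cor f, ho (f, false) = ho (v, true) + 1 := fun f hf v hv => by
    have := e f hf v hv
    rw [MMk_in hf, glue_true] at this
    omega
  have a2 : ∀ v, (∃ f ∈ D', v ∈ cor f) → ho (v, true) % 4 = j := by
    refine left_ind D' _ (fun v hv ⟨f, hf, h'⟩ => ?_) fun v hv ih _ => ?_
    · rw [← glue_out (ho := ho) k' hv]
      exact r.2 f hf v h' hv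
    · have m := (mem_inn.1 hv).2.1
      have b1 := a1 _ m v (by rw [mem_cor]; simp)
      have b2 := a1 _ m _ (self_cor _)
      have := ih ⟨_, m, self_cor _⟩
      omega
  refine ⟨ho, hi, k', rfl, ⟨fun v hv => ?_, fun f hf => ?_, fun f hf v hv => ?_⟩,
    fun f hf v hv => ⟨a1 f hf v hv, a2 v ⟨f, hf, hv⟩⟩, Finset.sdiff_subset_sdiff k.2.1 le_rfl,
    fun m h1 h2 => Finset.mem_sdiff.2 ⟨r.1 m h1 h2, (Finset.mem_sdiff.1 h2).2⟩, fun m hm => ?_,
    fun m hm h2 => ?_⟩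
  · rw [← glue_out (ho := ho) k' fun a => hv (inn_mono hD a)]
    exact k.1.1 v hv
  · rw [← MMk_out k' (fun a => hf (hD a)) ho]
    exact k.1.2.1 f hf
  · by_cases a : f ∈ D'
    · rw [a1 f a v hv, add_sub_cancel_left, abs_one]
    · rw [← MMk_out k' a ho, ← glue_out (ho := ho) k' fun b => a (mem_inn_cor.1 b f hv)]
      exact k.1.2.2 f hf v hv
  · obtain ⟨h1, h2⟩ := Finset.mem_sdiff.1 hm
    rw [← glue_out (ho := ho) k' fun a => h2 (vin_of_src a), ← glue_out (ho := ho) k' fun a => h2 (vin_of_tgt a)]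
    exact k.2.2.1 m h1
  · obtain ⟨h1, h3⟩ := Finset.mem_sdiff.1 hm
    have h4 : m ∉ ω := fun a => h2 (Finset.mem_sdiff.2 ⟨a, h3⟩)
    obtain ⟨b1, b2⟩ := MMk_off h3 fun b => h4 (r.1 m h1 b)
    rw [← MMk_out k' b1 ho, ← MMk_out k' b2 ho]
    exact k.2.2.2 m h1 h4

theorem MMk_ne {p : Prop} (h : pi p ≠ 0) : p := by_contra fun n => h (pi_neg n)

end

open Classical in
/-- the sum over configurations with an open ring splits -/
theorem jn_ring (c : ℝ) {D D' : Finset Site} (j : ℤ) (hD : D' ⊆ D) (hc : Cc D')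
    (Φ : Ht → Finset Vx → ℝ) : jn c D (fun h ω => pi (Ring D D' j h ω) * Φ h ω) =
      ∑ ho ∈ hs D, ∑ ωo ∈ (vin D \ vin D').powerset, pi (Out D D' j ho ωo) *
        (∏ m ∈ vin D \ vin D', ow c ho ωo m) *
          jn c D' fun hi ωi => Φ (glue D' ho hi) (ωo ∪ ωi) := by
  simp only [jn, ← Finset.sum_product', Finset.mul_sum]
  have k : ∀ a : Ht × Finset Vx × Ht × Finset Vx,
      a ∈ hs D ×ˢ (vin D \ vin D').powerset ×ˢ hs D' ×ˢ (vin D').powerset →
      pi (Out D D' j a.1 a.2.1) * (∏ m ∈ vin D \ vin D', ow c a.1 a.2.1 m) *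
        ((∏ m ∈ vin D', ow c a.2.2.1 a.2.2.2 m) * Φ (glue D' a.1 a.2.2.1) (a.2.1 ∪ a.2.2.2)) ≠ 0 →
      Out D D' j a.1 a.2.1 ∧ Ok D' a.2.2.1 a.2.2.2 := fun a h1 h2 => by
    have h3 := Finset.mem_product.1 (Finset.mem_product.1 (Finset.mem_product.1 h1).2).2
    exact ⟨MMk_ne (left_ne_zero_of_mul (left_ne_zero_of_mul h2)), ok_of_ne (mem_hs.1 h3.1)
      (Finset.mem_powerset.1 h3.2) (left_ne_zero_of_mul (right_ne_zero_of_mul h2))⟩
  refine (Finset.sum_bij_ne_zero (fun a _ _ => (glue D' a.1 a.2.2.1, a.2.1 ∪ a.2.2.2))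
    (fun a h1 h2 => ?_) (fun a h1 h2 b h3 h4 e => ?_) (fun b hb h => ?_) fun a h1 h2 => ?_).symm
  · have := ok_glue hD (k a h1 h2).1 (k a h1 h2).2
    exact Finset.mem_product.2 ⟨mem_hs.2 this.1, Finset.mem_powerset.2 this.2.1⟩
  · obtain ⟨a1, a2⟩ := k a h1 h2
    obtain ⟨b1, b2⟩ := k b h3 h4
    obtain ⟨e1, e2⟩ := Prod.mk.inj e
    have e3 : a.2.2.1 = b.2.2.1 := lift_uniq a2.1 b2.1 fun f hf v hv => by
      have c1 := congrFun e1 (f, false)
      have c2 := congrFun e1 (v, true)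
      have c3 := (a1.2.1 f hf v hv).1
      have c4 := (b1.2.1 f hf v hv).1
      rw [MMk_in hf, MMk_in hf] at c1
      rw [glue_true, glue_true] at c2
      omega
    have e4 : ∀ m, (m ∈ a.2.1 ↔ m ∈ b.2.1) ∧ (m ∈ a.2.2.2 ↔ m ∈ b.2.2.2) := fun m => by
      have c1 := Finset.ext_iff.1 e2 m
      have c2 := fun h => (Finset.mem_sdiff.1 (@a1.2.2.1 m h)).2
      have c3 := fun h => (Finset.mem_sdiff.1 (@b1.2.2.1 m h)).2
      have c4 := @a2.2.1 m
      have c5 := @b2.2.1 m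
      rw [Finset.mem_union, Finset.mem_union] at c1
      tauto
    rw [e3] at e1
    exact Prod.ext (sub_left_inj.1 (add_right_cancel e1)) (Prod.ext (Finset.ext fun m => (e4 m).1)
      (Prod.ext e3 (Finset.ext fun m => (e4 m).2)))
  · obtain ⟨x, ω⟩ := b
    obtain ⟨h1, h2⟩ := Finset.mem_product.1 hb
    have r := MMk_ne (left_ne_zero_of_mul (right_ne_zero_of_mul h))
    obtain ⟨ho, hi, a1, rfl, a3⟩ := MMk_sur hD hc (ok_of_ne (mem_hs.1 h1) (Finset.mem_powerset.1 h2)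
      (left_ne_zero_of_mul h)) r
    have e := Finset.sdiff_union_inter ω (vin D')
    refine ⟨(ho, ω \ vin D', hi, ω ∩ vin D'), Finset.mem_product.2 ⟨mem_hs.2 a3.1,
      Finset.mem_product.2 ⟨Finset.mem_powerset.2 a3.2.2.1, Finset.mem_product.2 ⟨mem_hs.2 a1,
        Finset.mem_powerset.2 Finset.inter_subset_right⟩⟩⟩, ?_, Prod.ext rfl e⟩
    dsimp only at h ⊢
    rw [pi_pos r, one_mul] at h
    rwa [pi_pos a3, one_mul, ← mul_assoc, ← MMk_wt c hD a3 a1 Finset.inter_subset_right, e]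
  · obtain ⟨a1, a2⟩ := k a h1 h2
    dsimp only
    rw [pi_pos a1, pi_pos (ring_glue a1 a2), one_mul, one_mul, MMk_wt c hD a1 a2.1 a2.2.1, mul_assoc]

theorem m_mk : M_mk := by
  intro c hc D D' j Φ Ψ hD hC h
  have h0 : 0 < c := one_pos.trans_le hc
  refine div_le_div_of_nonneg_right ?_ (jn_pos h0 D).le
  rw [jn_ring c j hD hC, jn_ring c j hD hC]
  refine Finset.sum_le_sum fun ho _ => Finset.sum_le_sum fun ωo _ => ?_
  by_cases k : Out D D' j ho ωo
  · exact mul_le_mul_of_nonneg_left ((div_le_div_iff_of_pos_right (jn_pos h0 D')).1 (h ho ωo k))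
      (mul_nonneg (pi_nonneg _) (Finset.prod_nonneg fun m _ => ow_nonneg hc _ _ m))
  · simp only [pi_neg k, zero_mul, le_refl]

end Vale.Agent.P145
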