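import Vale.Agent.P145.GFour
import Vale.Agent.P145.MMk

/-! P145: positive association and domination. -/

open Filter Topology

namespace Vale.Agent.P145

open Vale.Agent.P152

theorem GDom_up {G : Set Vx → Set Vx → ℝ} (hG : Up G) (V : Set Vx) :
    Up fun P Q => G (P ∪ Vᶜ) (Q ∩ V) := fun _ _ _ _ h1 h2 =>
  hG _ _ _ _ (Set.union_subset_union_left _ h1) (Set.inter_subset_inter_left _ h2)

theorem g_pa : G_pa := by
  intro c hc D G G' hD hG hG'
  have hc0 : 0 < c := by linarith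
  set V : Set Vx := (vin D : Set Vx) with hV
  have e : ∀ h ω, Ok D h ω → ox D h ω ∪ Vᶜ = ox D h ω ∧ o2 h ω ∩ V = o2 h ω := fun h ω k =>
    ⟨Set.union_eq_left.2 Set.subset_union_left, Set.inter_eq_left.2 (o2_subset k)⟩
  have n : ∀ G : Set Vx → Set Vx → ℝ, Up G → ∀ P Q, 0 ≤ G (P ∪ Vᶜ) (Q ∩ V) - G Vᶜ V :=
    fun G hG P Q => sub_nonneg.2 (hG _ _ _ _ Set.subset_union_right Set.inter_subset_right)
  have k := g_four c hc D (fun P Q => G (P ∪ Vᶜ) (Q ∩ V) - G Vᶜ V)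
    (fun P Q => G' (P ∪ Vᶜ) (Q ∩ V) - G' Vᶜ V) (fun _ _ => 1)
    (fun P Q => (G (P ∪ Vᶜ) (Q ∩ V) - G Vᶜ V) * (G' (P ∪ Vᶜ) (Q ∩ V) - G' Vᶜ V)) hD
    (fun P Q => ⟨n G hG P Q, n G' hG' P Q, zero_le_one, mul_nonneg (n G hG P Q) (n G' hG' P Q)⟩)
    fun P Q P' Q' B _ => by
      rw [one_mul]
      refine mul_le_mul (sub_le_sub_right (GDom_up hG V _ _ _ _ ?_ Set.inter_subset_left) _)
        (sub_le_sub_right (GDom_up hG' V _ _ _ _ ?_ Set.inter_subset_right) _) (n G' hG' _ _)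
        (n G hG _ _)
      · exact Set.subset_union_left.trans Set.subset_union_left
      · exact Set.subset_union_right.trans Set.subset_union_left
  have a : ∀ G : Set Vx → Set Vx → ℝ,
      PG c D (fun P Q => G (P ∪ Vᶜ) (Q ∩ V) - G Vᶜ V) = PG c D G - G Vᶜ V := fun G => by
    rw [PG, JH_sub, JH_const hc0, PG]
    congr 1
    exact JH_congr fun h ω k => by rw [(e h ω k).1, (e h ω k).2]
  have b : PG c D (fun P Q => (G (P ∪ Vᶜ) (Q ∩ V) - G Vᶜ V) * (G' (P ∪ Vᶜ) (Q ∩ V) - G' Vᶜ V)) =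
      PG c D (G * G') - G Vᶜ V * PG c D G' - G' Vᶜ V * PG c D G + G Vᶜ V * G' Vᶜ V := by
    rw [PG, PG, PG, PG, ← JH_mul, ← JH_mul, ← JH_sub, ← JH_sub,
      ← JH_const (D := D) hc0 (G Vᶜ V * G' Vᶜ V), ← JH_add]
    exact JH_congr fun h ω k => by
      rw [(e h ω k).1, (e h ω k).2]
      simp only [Pi.mul_apply]
      ring
  rw [a, a, b, show PG c D (fun _ _ => 1) = 1 from JH_const hc0 1] at k
  linarith

theorem GDom_core {c : ℝ} (hc : 1 ≤ c) {D D' : Finset Site} {j : ℤ} (hD : D' ⊆ D) (hD' : Cc D')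
    {Φ Ψ : Ht → Finset Vx → ℝ} {M : Ht → Finset Vx → Prop}
    (h1 : ∀ h ω, Ok D h ω → M h ω → Ring D D' j h ω)
    (h2 : ∀ ho ωo hi ωi, Out D D' j ho ωo → Ok D' hi ωi →
      (M (glue D' ho hi) (ωo ∪ ωi) ↔ M (glue D' ho (flat D')) (ωo ∪ vin D')) ∧
        Φ (glue D' ho hi) (ωo ∪ ωi) = Ψ hi ωi) :
    JH c D (fun h ω => Φ h ω * pi (M h ω)) ≤ JH c D' Ψ * JH c D fun h ω => pi (M h ω) := by
  have r : ∀ F : Ht → Finset Vx → ℝ, JH c D (fun h ω => F h ω * pi (M h ω)) =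
      JH c D fun h ω => pi (Ring D D' j h ω) * (F h ω * pi (M h ω)) := fun F =>
    JH_congr fun h ω k => by
      by_cases hM : M h ω
      · rw [pi_pos (h1 h ω k hM), one_mul]
      · rw [pi_neg hM, mul_zero, mul_zero]
  rw [← JH_mul, r, r fun _ _ => JH c D' Ψ]
  refine m_mk c hc D D' j _ _ hD hD' fun ho ωo k => le_of_eq ?_
  rw [Inn, Inn, JH_congr (G := fun hi ωi => pi (M (glue D' ho (flat D')) (ωo ∪ vin D')) * Ψ hi ωi)
    fun hi ωi k' => by rw [(h2 ho ωo hi ωi k k').2, pi_congr (h2 ho ωo hi ωi k k').1, mul_comm],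
    JH_mul, ← JH_const (D := D') (show 0 < c by linarith) (_ * JH c D' Ψ)]
  exact JH_congr fun hi ωi k' => by rw [pi_congr (h2 ho ωo hi ωi k k').1, mul_comm]

theorem GDom_out {D D' : Finset Site} {j : ℤ} {ho hi : Ht} {ωo ωi : Finset Vx} (p : ℤ → Prop)
    (k : Out D D' j ho ωo) (k' : Ok D' hi ωi) {m : Vx} (hm : m ∉ vin D') :
    m ∈ op p (glue D' ho hi) (ωo ∪ ωi) ↔ m ∈ op p (glue D' ho (flat D')) (ωo ∪ vin D') := by
  have a := Set.ext_iff.1 ((op_glue_out p k k').trans (op_glue_out p k (ok_flat D')).symm) m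
  simpa [hm] using a

theorem g_dom : G_dom := by
  intro c hc D D' G hD hD' hs hG
  have hv : (vin D' : Set Vx) ⊆ vin D := Finset.coe_subset.2 (vin_mono hs)
  have a := g_pa c hc D _ (fun P _ => pi ((vin D' : Set Vx)ᶜ ⊆ P)) hD (GDom_up hG (vin D'))
    fun _ _ _ _ h _ => pi_mono fun k => k.trans h
  have b := GDom_core hc (j := 0) hs hD'
    (Φ := fun h ω => G (ox D h ω ∪ (vin D' : Set Vx)ᶜ) (o2 h ω ∩ vin D'))
    (Ψ := fun h ω => G (ox D' h ω) (o2 h ω)) (M := fun h ω => (vin D' : Set Vx)ᶜ ⊆ ox D h ω)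
    (fun h ω k hM => ⟨fun m h1 h2 => ((hM (Finset.mem_sdiff.1 h2).2).resolve_left
        fun h3 => h3 h1).1, fun f h1 v h2 h3 => by
      obtain ⟨m, h4, h5⟩ := exists_bd h1 h2 h3
      exact k.ox (hM (Finset.mem_sdiff.1 h4).2) h5⟩)
    fun ho ωo hi ωi k k' => ⟨forall₂_congr fun m hm => or_congr_right (GDom_out _ k k' hm), by
      rw [(o0_glue0 k k').2, ox, ox, ← (o0_glue0 k k').1]
      congr 1
      ext m
      have := @hv m
      simp only [Set.mem_union, Set.mem_compl_iff, Set.mem_inter_iff]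
      tauto⟩
  have p : 0 < JH c D fun h ω => pi ((vin D' : Set Vx)ᶜ ⊆ ox D h ω) :=
    JH_pos hc (fun _ _ _ => pi_nonneg _) (ok_flat D).1 subset_rfl
      (Finset.prod_pos fun m hm => by simp [ow, ag, hm, flat]) (by
        rw [pi_pos]
        · exact one_pos
        · intro m _
          by_cases hm : m ∈ vin D
          · exact Or.inr ⟨hm, by simp [flat]⟩
          · exact Or.inl hm)
  have d : PG c D G ≤ PG c D fun P Q => G (P ∪ (vin D' : Set Vx)ᶜ) (Q ∩ vin D') :=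
    JH_mono hc fun _ _ _ => hG _ _ _ _ Set.subset_union_left Set.inter_subset_left
  exact d.trans (le_of_mul_le_mul_right (a.trans b) p)

theorem g_pm : G_pm := by
  classical
  intro c hc D D' G hD hD' hi hG
  have hs : D' ⊆ D := fun f hf => inn_subset (hi f hf f (self_cor f))
  have hv : (vin D' : Set Vx) ⊆ vin D := Finset.coe_subset.2 (vin_mono hs)
  have a := g_pa c hc D (fun P Q => -1 * G (Q ∪ (vin D' : Set Vx)ᶜ) (P ∩ vin D'))
    (fun _ Q => -1 * pi ((bd D' : Set Vx) ⊆ Q)) hD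
    (fun _ _ _ _ h1 h2 => by linarith [GDom_up hG (vin D') _ _ _ _ h2 h1])
    fun _ Q _ Q' _ h => by
      linarith [pi_mono (p := (bd D' : Set Vx) ⊆ Q') (q := (bd D' : Set Vx) ⊆ _) fun k => k.trans h]
  have b := GDom_core hc (j := 2) hs hD'
    (Φ := fun h ω => G (o2 h ω ∪ (vin D' : Set Vx)ᶜ) (ox D h ω ∩ vin D'))
    (Ψ := fun h ω => G (ox D' h ω) (o2 h ω)) (M := fun h ω => (bd D' : Set Vx) ⊆ o2 h ω)
    (fun h ω k hM => ⟨fun m _ h2 => (hM h2).1, fun f h1 v h2 h3 => by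
      obtain ⟨m, h4, h5⟩ := exists_bd h1 h2 h3
      exact k.o2 (hM h4) h5⟩)
    fun ho ωo hi ωi k k' =>
      ⟨forall₂_congr fun m hm => GDom_out _ k k' (Finset.mem_sdiff.1 hm).2, by
        rw [← (o0_glue2 k k').1, ox, ox, ← (o0_glue2 k k').2]
        congr 1 <;> ext m <;> have := @hv m <;>
          simp only [Set.mem_union, Set.mem_compl_iff, Set.mem_inter_iff] <;> tauto⟩
  let h0 : Ht := fun x => if x.2 then (if x.1 ∈ inn D then 2 else 0) else if x.1 ∈ D then 1 else 0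
  have p : 0 < JH c D fun h ω => pi ((bd D' : Set Vx) ⊆ o2 h ω) :=
    JH_pos hc (h := h0) (ω := (vin D).filter fun m => h0 (src m, true) = h0 (tgt m, true))
      (fun _ _ _ => pi_nonneg _)
      ⟨fun v h => by simp [h0, h], fun v h => by simp [h0, h], fun f h v _ => by
        by_cases k : v ∈ inn D <;> simp [h0, h, k]⟩ (Finset.filter_subset _ _)
      (Finset.prod_pos fun m hm => by
        by_cases k : h0 (src m, true) = h0 (tgt m, true) <;> simp [ow, ag, hm, k, P152.hv]) (by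
        rw [pi_pos]
        · exact one_pos
        · intro m hm
          obtain ⟨-, f, h1, h2⟩ := bd_end hm (end_src m)
          obtain ⟨-, g, h3, h4⟩ := bd_end hm (end_tgt m)
          have h5 := hi f h1 _ h2
          have h6 := hi g h3 _ h4
          exact ⟨Finset.mem_filter.2 ⟨vin_of_src h5, by simp [h0, h5, h6]⟩, by simp [h0, h5]⟩)
  have d : PG c D (fun P Q => G Q P) ≤
      JH c D fun h ω => G (o2 h ω ∪ (vin D' : Set Vx)ᶜ) (ox D h ω ∩ vin D') :=
    JH_mono hc fun _ _ _ => hG _ _ _ _ Set.subset_union_left Set.inter_subset_left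
  rw [PG, PG, JH_mul, JH_mul, neg_one_mul, neg_one_mul, neg_mul_neg] at a
  refine d.trans (le_of_mul_le_mul_right ((a.trans_eq ?_).trans b) p)
  exact JH_congr fun h ω _ => by simp

end Vale.Agent.P145
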