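import Vale.Agent.P145.PBas

/-! P145: basic lemmas on the joint law. -/

open Filter Topology

namespace Vale.Agent.P145

open Vale.Agent.P152

variable {c : ℝ} {D D' : Finset Site} {h ho hi : Ht} {ω ωo ωi : Finset Vx} {m : Vx} {v : Site}
  {F G : Ht → Finset Vx → ℝ} {p q : Prop} {j : ℤ}

theorem pi_pos (h : p) : pi p = 1 := by simp [pi, h]

theorem pi_neg (h : ¬ p) : pi p = 0 := by simp [pi, h]

theorem pi_nonneg (p : Prop) : 0 ≤ pi p := by
  by_cases h : p <;> simp [pi, h]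

theorem pi_le_one (p : Prop) : pi p ≤ 1 := by
  by_cases h : p <;> simp [pi, h]

theorem pi_mono (h : p → q) : pi p ≤ pi q := by
  by_cases k : p
  · rw [pi_pos k, pi_pos (h k)]
  · rw [pi_neg k]
    exact pi_nonneg q

theorem pi_congr (h : p ↔ q) : pi p = pi q := by rw [propext h]

theorem pi_and (p q : Prop) : pi (p ∧ q) = pi p * pi q := by
  by_cases h : p <;> by_cases k : q <;> simp [pi, h, k]

theorem pi_not (p : Prop) : pi (¬ p) = 1 - pi p := by
  by_cases h : p <;> simp [pi, h]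

theorem ow_nonneg (hc : 1 ≤ c) (h : Ht) (ω : Finset Vx) (m : Vx) : 0 ≤ ow c h ω m := by
  unfold ow hv ag
  split_ifs with h1 h2 h3 h4 h5
  exacts [zero_le_one, le_rfl, by linarith, absurd h3.1 h4, by linarith, by linarith]

theorem ok_of_ne (hh : IsH D h) (hω : ω ⊆ vin D) (h0 : ∏ m ∈ vin D, ow c h ω m ≠ 0) :
    Ok D h ω := by
  rw [Finset.prod_ne_zero_iff] at h0
  refine ⟨hh, hω, fun m hm => ?_, fun m hm hn => ?_⟩
  · have k := h0 m (hω hm)
    by_contra e
    simp [ow, ag, hm, e] at k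
  · have k := h0 m hm
    obtain ⟨a1, a2, a3, a4⟩ := hh.edge hm
    rw [abs_eq (by norm_num)] at a1 a2 a3 a4
    by_contra e
    have e' : h (src m, true) = h (tgt m, true) := by omega
    simp [ow, ag, hv, hn, e, e'] at k

theorem ok_flat (D : Finset Site) : Ok D (flat D) (vin D) :=
  ⟨isH_flat D, le_rfl, fun m _ => by simp [flat], fun _ hm hn => absurd hm hn⟩

theorem sum_ow (c : ℝ) (D : Finset Site) (h : Ht) :
    ∑ ω ∈ (vin D).powerset, ∏ m ∈ vin D, ow c h ω m = hwt c D h := by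
  simp only [ow]
  rw [sum_prod_ite]
  exact Finset.prod_congr rfl fun m _ => by ring

theorem jn_one (c : ℝ) (D : Finset Site) : jn c D 1 = ∑ h ∈ hs D, hwt c D h := by
  simp only [jn, Pi.one_apply, mul_one, sum_ow]

theorem jn_pos (hc : 0 < c) (D : Finset Site) : 0 < jn c D 1 := by
  rw [jn_one]
  exact hZ_pos hc D

theorem JH_PH (c : ℝ) (D : Finset Site) (F : Ht → ℝ) : JH c D (fun h _ => F h) = PH c D F := by
  rw [JH, jn_one, PH]
  simp only [jn, ← Finset.sum_mul, sum_ow]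

theorem jn_congr (e : ∀ h ω, Ok D h ω → F h ω = G h ω) : jn c D F = jn c D G := by
  refine Finset.sum_congr rfl fun h hh => Finset.sum_congr rfl fun ω hω => ?_
  by_cases h0 : ∏ m ∈ vin D, ow c h ω m = 0
  · rw [h0, zero_mul, zero_mul]
  · rw [e h ω (ok_of_ne (mem_hs.1 hh) (Finset.mem_powerset.1 hω) h0)]

theorem JH_congr (e : ∀ h ω, Ok D h ω → F h ω = G h ω) : JH c D F = JH c D G := by
  rw [JH, JH, jn_congr e]

theorem JBas_term (hc : 1 ≤ c) (e : ∀ h ω, Ok D h ω → F h ω ≤ G h ω) (hh : h ∈ hs D)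
    (hω : ω ∈ (vin D).powerset) :
    (∏ m ∈ vin D, ow c h ω m) * F h ω ≤ (∏ m ∈ vin D, ow c h ω m) * G h ω := by
  by_cases h0 : ∏ m ∈ vin D, ow c h ω m = 0
  · rw [h0, zero_mul, zero_mul]
  · exact mul_le_mul_of_nonneg_left (e h ω (ok_of_ne (mem_hs.1 hh) (Finset.mem_powerset.1 hω) h0))
      (Finset.prod_nonneg fun m _ => ow_nonneg hc h ω m)

theorem JH_mono (hc : 1 ≤ c) (e : ∀ h ω, Ok D h ω → F h ω ≤ G h ω) : JH c D F ≤ JH c D G :=
  div_le_div_of_nonneg_right
    (Finset.sum_le_sum fun _ hh => Finset.sum_le_sum fun _ hω => JBas_term hc e hh hω)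
    (jn_pos (by linarith) D).le

theorem JH_nonneg (hc : 1 ≤ c) (e : ∀ h ω, Ok D h ω → 0 ≤ F h ω) : 0 ≤ JH c D F := by
  have k := JH_mono (F := fun _ _ => 0) hc e
  simpa [JH, jn] using k

theorem JH_add (F G : Ht → Finset Vx → ℝ) :
    JH c D (fun h ω => F h ω + G h ω) = JH c D F + JH c D G := by
  simp only [JH, jn, mul_add, Finset.sum_add_distrib, add_div]

theorem JH_sub (F G : Ht → Finset Vx → ℝ) :
    JH c D (fun h ω => F h ω - G h ω) = JH c D F - JH c D G := by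
  simp only [JH, jn, mul_sub, Finset.sum_sub_distrib, sub_div]

theorem JH_mul (a : ℝ) (F : Ht → Finset Vx → ℝ) :
    JH c D (fun h ω => a * F h ω) = a * JH c D F := by
  simp only [JH, jn, ← mul_div_assoc, Finset.mul_sum, mul_left_comm a]

theorem JH_const (hc : 0 < c) (a : ℝ) : JH c D (fun _ _ => a) = a := by
  have k := JH_mul (c := c) (D := D) a 1
  simp only [Pi.one_apply, mul_one] at k
  rw [k, JH, div_self (jn_pos hc D).ne', mul_one]

theorem JH_sum {ι : Type*} (s : Finset ι) (F : ι → Ht → Finset Vx → ℝ) :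
    JH c D (fun h ω => ∑ i ∈ s, F i h ω) = ∑ i ∈ s, JH c D (F i) := by
  classical
  induction s using Finset.induction_on with
  | empty => simp [JH, jn]
  | insert i s hi ih =>
    simp only [Finset.sum_insert hi]
    rw [JH_add, ih]

theorem JH_abs (hc : 1 ≤ c) (F : Ht → Finset Vx → ℝ) :
    |JH c D F| ≤ JH c D fun h ω => |F h ω| := by
  refine abs_le.2 ⟨?_, JH_mono hc fun h ω _ => le_abs_self _⟩
  have k := JH_mono (D := D) (F := fun h ω => (-1) * |F h ω|) (G := F) hc fun h ω _ => by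
    linarith [neg_abs_le (F h ω)]
  rw [JH_mul] at k
  linarith

theorem JH_cs (hc : 1 ≤ c) (F G : Ht → Finset Vx → ℝ) :
    JH c D (fun h ω => F h ω * G h ω) ^ 2 ≤
      JH c D (fun h ω => F h ω ^ 2) * JH c D fun h ω => G h ω ^ 2 := by
  have k : ∀ t : ℝ, 0 ≤ (JH c D fun h ω => G h ω ^ 2) * (t * t) +
      (-2 * JH c D fun h ω => F h ω * G h ω) * t + JH c D fun h ω => F h ω ^ 2 := by
    intro t
    have k1 := JH_nonneg (D := D) (F := fun h ω => (t * t) * G h ω ^ 2 +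
      (-2 * t) * (F h ω * G h ω) + F h ω ^ 2) hc fun h ω _ => by
        nlinarith [sq_nonneg (F h ω - t * G h ω)]
    rw [JH_add, JH_add, JH_mul, JH_mul] at k1
    linarith
  have k2 := discrim_le_zero k
  rw [discrim] at k2
  nlinarith

/-- one configuration bounds the probability from below -/
theorem JH_pos (hc : 1 ≤ c) (e : ∀ h ω, Ok D h ω → 0 ≤ F h ω) (hh : IsH D h) (hω : ω ⊆ vin D)
    (h0 : 0 < ∏ m ∈ vin D, ow c h ω m) (h1 : 0 < F h ω) : 0 < JH c D F := by
  have k : ∀ h ∈ hs D, ∀ ω ∈ (vin D).powerset, 0 ≤ (∏ m ∈ vin D, ow c h ω m) * F h ω :=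
    fun h hh ω hω => by
      simpa only [mul_zero] using JBas_term (F := fun _ _ => 0) hc e hh hω
  refine div_pos (Finset.sum_pos' (fun h hh => Finset.sum_nonneg (k h hh)) ⟨h, mem_hs.2 hh,
    Finset.sum_pos' (k h (mem_hs.2 hh)) ⟨ω, Finset.mem_powerset.2 hω, mul_pos h0 h1⟩⟩)
    (jn_pos (by linarith) D)

/-- global reflection -/
theorem JH_neg (F : Ht → Finset Vx → ℝ) : JH c D F = JH c D fun h ω => F (-h) ω := by
  unfold JH
  congr 1
  refine Finset.sum_nbij' (fun h => -h) (fun h => -h) (fun h hh => mem_hs.2 (mem_hs.1 hh).neg)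
    (fun h hh => mem_hs.2 (mem_hs.1 hh).neg) (fun h _ => neg_neg h) (fun h _ => neg_neg h)
    fun h _ => ?_
  simp [ow, ag, hv]

theorem Ok.end_eq (k : Ok D h ω) (hm : m ∈ ω) (hv : End m v) :
    h (v, true) = h (src m, true) := by
  rcases hv with rfl | rfl
  · rfl
  · exact (k.2.2.1 m hm).symm

theorem Ok.ox (k : Ok D h ω) (hm : m ∈ ox D h ω) (hv : End m v) : h (v, true) % 4 = 0 := by
  rcases hm with hm | hm
  · rw [k.1.1 v fun e => hm (hv.vin e)]
    rfl
  · rw [k.end_eq hm.1 hv]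
    exact hm.2

theorem Ok.o2 (k : Ok D h ω) (hm : m ∈ o2 h ω) (hv : End m v) : h (v, true) % 4 = 2 := by
  rw [k.end_eq hm.1 hv]
  exact hm.2

theorem o2_subset (k : Ok D h ω) : o2 h ω ⊆ vin D := fun _ hm => k.2.1 hm.1

/-- a flat height is constant along connected sets -/
theorem Flat.eq (k : Flat D' j ho) {f g v w : Site} (h : Lk D' f g) (hv : v ∈ cor f)
    (hw : w ∈ cor g) : ho (v, true) = ho (w, true) := by
  have e : ho (g, false) = ho (f, false) := by
    refine h.ind (P := fun a => ho (a, false) = ho (f, false)) rfl fun m a b ha hm hb ih => ?_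
    have k1 := (k a ha.mem _ (hm.cor (end_src m)).1).1
    have k2 := (k b hb _ (hm.cor (end_src m)).2).1
    omega
  have k1 := (k f h.1 v hv).1
  have k2 := (k g h.mem w hw).1
  omega

theorem glue_true (D' : Finset Site) (ho hi : Ht) (v : Site) :
    glue D' ho hi (v, true) = ho (v, true) + hi (v, true) := by
  simp [glue, flat]

theorem glue_out (k : IsH D' hi) (hv : v ∉ inn D') : glue D' ho hi (v, true) = ho (v, true) := by
  rw [glue_true, k.1 v hv, add_zero]

theorem glue_flat (D' : Finset Site) (ho : Ht) : glue D' ho (flat D') = ho := by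
  simp [glue]

theorem JBas_in {f : Site} (hf : f ∈ D') :
    glue D' ho hi (f, false) = ho (f, false) - 1 + hi (f, false) := by
  simp [glue, flat, hf]

theorem JBas_out {f : Site} (k : IsH D' hi) (hf : f ∉ D') :
    glue D' ho hi (f, false) = ho (f, false) := by
  simp [glue, flat, hf, k.2.1 f hf]

theorem JBas_vin (hD : D' ⊆ D) : vin D' ⊆ vin D := fun _ hm =>
  mem_vin.2 ⟨hD (mem_vin.1 hm).1, hD (mem_vin.1 hm).2⟩

theorem JBas_src (k : Flat D' j ho) (hm : m ∈ vin D') :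
    ho (fa m, false) = ho (src m, true) + 1 ∧ ho (fa m, false) = ho (tgt m, true) + 1 ∧
      ho (fb m, false) = ho (src m, true) + 1 ∧ ho (src m, true) % 4 = j :=
  ⟨(k _ (mem_vin.1 hm).1 _ ((sep_self m).cor (end_src m)).1).1,
    (k _ (mem_vin.1 hm).1 _ ((sep_self m).cor (end_tgt m)).1).1,
    (k _ (mem_vin.1 hm).2 _ ((sep_self m).cor (end_src m)).2).1,
    (k _ (mem_vin.1 hm).1 _ ((sep_self m).cor (end_src m)).1).2⟩

theorem ok_glue (hD : D' ⊆ D) (k : Out D D' j ho ωo) (k' : Ok D' hi ωi) :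
    Ok D (glue D' ho hi) (ωo ∪ ωi) := by
  obtain ⟨k1, k2, k3, k4, k5, k6⟩ := k
  obtain ⟨l1, l2, l3, l4⟩ := k'
  refine ⟨⟨fun v hv => ?_, fun f hf => ?_, fun f hf v hv => ?_⟩, ?_, fun m hm => ?_,
    fun m hm hn => ?_⟩
  · rw [glue_out l1 fun e => hv (mem_inn_cor.2 fun f hf => hD (mem_inn_cor.1 e f hf)), k1.1 v hv]
  · rw [JBas_out l1 fun e => hf (hD e), k1.2.1 f hf]
  · by_cases e : f ∈ D'
    · rw [JBas_in e, glue_true, (k2 f e v hv).1, ← l1.2.2 f e v hv]
      congr 1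
      ring
    · rw [JBas_out l1 e, glue_out l1 fun e' => e (mem_inn_cor.1 e' f hv)]
      exact k1.2.2 f hf v hv
  · exact Finset.union_subset (k3.trans Finset.sdiff_subset) (l2.trans (JBas_vin hD))
  · rcases Finset.mem_union.1 hm with e | e
    · have e' := (Finset.mem_sdiff.1 (k3 e)).2
      rw [glue_out l1 fun a => e' (vin_of_src a), glue_out l1 fun a => e' (vin_of_tgt a)]
      exact k5 m e
    · obtain ⟨a1, a2, -, -⟩ := JBas_src k2 (l2 e)
      have a3 := l3 m e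
      rw [glue_true, glue_true]
      omega
  · rw [Finset.mem_union, not_or] at hn
    by_cases e : m ∈ vin D'
    · obtain ⟨a1, -, a2, -⟩ := JBas_src k2 e
      have a3 := l4 m e hn.2
      rw [JBas_in (mem_vin.1 e).1, JBas_in (mem_vin.1 e).2]
      omega
    · have a1 : fa m ∈ D' ↔ fb m ∈ D' := by
        by_contra a
        exact hn.1 (k4 m hm (mem_bd.2 a))
      rw [mem_vin] at e
      rw [JBas_out l1 (by tauto), JBas_out l1 (by tauto)]
      exact k6 m (Finset.mem_sdiff.2 ⟨hm, fun a => e (mem_vin.1 a)⟩) hn.1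

theorem ring_glue (k : Out D D' j ho ωo) (k' : Ok D' hi ωi) :
    Ring D D' j (glue D' ho hi) (ωo ∪ ωi) := by
  refine ⟨fun m hm hb => Finset.mem_union_left _ (k.2.2.2.1 m hm hb), fun f hf v hv hn => ?_⟩
  rw [glue_out k'.1 hn]
  exact (k.2.1 f hf v hv).2

/-- open edges outside -/
theorem op_glue_out (p : ℤ → Prop) (k : Out D D' j ho ωo) (k' : Ok D' hi ωi) :
    op p (glue D' ho hi) (ωo ∪ ωi) \ vin D' = op p ho ωo := by
  ext m
  constructor
  · rintro ⟨⟨h1, h2⟩, h3⟩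
    rw [glue_out k'.1 fun a => h3 (vin_of_src a)] at h2
    exact ⟨(Finset.mem_union.1 h1).resolve_right fun a => h3 (k'.2.1 a), h2⟩
  · rintro ⟨h1, h2⟩
    have h3 := (Finset.mem_sdiff.1 (k.2.2.1 h1)).2
    refine ⟨⟨Finset.mem_union_left _ h1, ?_⟩, h3⟩
    rw [glue_out k'.1 fun a => h3 (vin_of_src a)]
    exact h2

/-- open edges inside -/
theorem op_glue_in (p : ℤ → Prop) (k : Out D D' j ho ωo) (k' : Ok D' hi ωi) (hm : m ∈ vin D') :
    m ∈ op p (glue D' ho hi) (ωo ∪ ωi) ↔ m ∈ ωi ∧ p (ho (src m, true) + hi (src m, true)) := by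
  have _ := k'
  rw [← glue_true D']
  refine and_congr_left fun _ => ⟨fun h1 => ?_, Finset.mem_union_right _⟩
  exact (Finset.mem_union.1 h1).resolve_left fun a => (Finset.mem_sdiff.1 (k.2.2.1 a)).2 hm

theorem JBas_op (p q : ℤ → Prop) (k : Out D D' j ho ωo) (k' : Ok D' hi ωi)
    (e : ∀ a b : ℤ, a % 4 = j → (p (a + b) ↔ q b)) :
    op p (glue D' ho hi) (ωo ∪ ωi) ∩ vin D' = op q hi ωi := by
  ext m
  constructor
  · rintro ⟨h1, h2⟩
    have h3 := (op_glue_in p k k' h2).1 h1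
    exact ⟨h3.1, (e _ _ (JBas_src k.2.1 h2).2.2.2).1 h3.2⟩
  · rintro ⟨h1, h2⟩
    have h3 := k'.2.1 h1
    exact ⟨(op_glue_in p k k' h3).2 ⟨h1, (e _ _ (JBas_src k.2.1 h3).2.2.2).2 h2⟩, h3⟩

theorem o0_glue0 (k : Out D D' 0 ho ωo) (k' : Ok D' hi ωi) :
    o0 (glue D' ho hi) (ωo ∪ ωi) ∩ vin D' = o0 hi ωi ∧
      o2 (glue D' ho hi) (ωo ∪ ωi) ∩ vin D' = o2 hi ωi :=
  ⟨JBas_op _ _ k k' fun a b e => by omega, JBas_op _ _ k k' fun a b e => by omega⟩

theorem o0_glue2 (k : Out D D' 2 ho ωo) (k' : Ok D' hi ωi) :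
    o0 (glue D' ho hi) (ωo ∪ ωi) ∩ vin D' = o2 hi ωi ∧
      o2 (glue D' ho hi) (ωo ∪ ωi) ∩ vin D' = o0 hi ωi :=
  ⟨JBas_op _ _ k k' fun a b e => by omega, JBas_op _ _ k k' fun a b e => by omega⟩

/-- reflections inside do not change the classes -/
theorem o_glue_flp (s : Finset Site) (k : Out D D' j ho ωo) (k' : IsH D' hi) (ω : Finset Vx) :
    ox D (glue D' ho (flp s hi)) ω = ox D (glue D' ho hi) ω ∧
      o2 (glue D' ho (flp s hi)) ω = o2 (glue D' ho hi) ω := by
  have _ := k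
  have e : ∀ v, glue D' ho (flp s hi) (v, true) % 4 = glue D' ho hi (v, true) % 4 := by
    intro v
    have a := k'.par.1 v
    rw [glue_true, glue_true, flp]
    split_ifs <;> omega
  simp only [ox, o0, o2, op, e, and_self]

theorem flp_self (k : IsH D h) : flp D h = -h := by
  funext ⟨x, b⟩
  rw [flp, Pi.neg_apply]
  split_ifs with e
  · rfl
  · cases b
    · rw [k.2.1 x e, neg_zero]
    · rw [k.1 x fun a => e (inn_subset a), neg_zero]

end Vale.Agent.P145
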