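import Vale.Agent.P145.MMk

/-! P145: exploration. -/

open Filter Topology

namespace Vale.Agent.P145

open Vale.Agent.P152

theorem MExp_split (c : ℝ) (D : Finset Site) (X : Ht → Finset Vx → Finset Site)
    (hX : ∀ h ω, X h ω ⊆ D) (Φ : Ht → Finset Vx → ℝ) :
    JH c D Φ = ∑ D' ∈ D.powerset, JH c D fun h ω => pi (X h ω = D') * Φ h ω := by
  rw [← JH_sum]
  refine JH_congr fun h ω _ => ?_
  rw [Finset.sum_eq_single_of_mem (X h ω) (Finset.mem_powerset.2 (hX h ω))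
    fun D' _ hD' => by rw [pi_neg hD'.symm, zero_mul], pi_pos rfl, one_mul]

theorem MExp_ring {D : Finset Site} {j : ℤ} {A : Set Site} {Of S : Set Vx} {p : ℤ → Prop}
    (hOf : Disjoint Of (vin D)) (hp : ∀ z, p z → z % 4 = j)
    (hj : j = 0 ∨ (Of = ∅ ∧ (D : Set Site)ᶜ ⊆ A)) {h : Ht} {ω : Finset Vx} (k : Ok D h ω) :
    Ring D (exd D (Of ∪ op p h ω ∩ S) A) j h ω := by
  have h1 : ∀ m ∈ vin D, m ∈ bd (exd D (Of ∪ op p h ω ∩ S) A) → m ∈ op p h ω := by
    intro m hm hb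
    rcases bd_exd hb hm with h2 | h2
    · exact absurd hm (Set.disjoint_left.1 hOf h2)
    · exact h2.1
  refine ⟨fun m hm hb => (h1 m hm hb).1, fun f hf v hv hi => ?_⟩
  obtain ⟨m, hb, he⟩ := exists_bd hf hv hi
  by_cases hm : m ∈ vin D
  · rw [k.end_eq (h1 m hm hb).1 he]
    exact hp _ (h1 m hm hb).2
  · rcases hj with rfl | ⟨rfl, hA⟩
    · rw [k.1.1 v fun h2 => hm (he.vin h2)]
      rfl
    · rcases bd_exd' hA hb with h2 | h2
      · exact h2.elim
      · exact absurd (k.2.1 h2.1.1) hm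

theorem MExp_rch {D D' : Finset Site} {A : Set Site} {O O' : Set Vx}
    (h : ∀ m, m ∉ vin D' → (m ∈ O ↔ m ∈ O')) (e : exd D O A = D') : Rch O' A = Rch O A := by
  refine rch_congr fun m hm => h m fun h1 => ?_
  rw [← e, mem_vin, mem_exd, mem_exd] at h1
  exact hm.elim h1.1.2 h1.2.2

theorem MExp_exd {D : Finset Site} {A : Set Site} {O O' : Set Vx} (h : Rch O' A = Rch O A) :
    exd D O' A = exd D O A := by
  ext f
  rw [mem_exd, mem_exd, h]

theorem m_exp : M_exp := by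
  intro c hc D j A Of S p Φ Ψ hA hOf hp hj H
  rw [MExp_split c D (fun h ω => exd D (Of ∪ op p h ω ∩ S) A) (fun _ _ => exd_subset) Φ,
    MExp_split c D (fun h ω => exd D (Of ∪ op p h ω ∩ S) A) (fun _ _ => exd_subset) Ψ]
  refine Finset.sum_le_sum fun D' hD' => ?_
  rw [Finset.mem_powerset] at hD'
  by_cases hcc : Cc D'
  swap
  · refine le_of_eq (JH_congr fun h ω _ => ?_)
    rw [pi_neg (p := exd D (Of ∪ op p h ω ∩ S) A = D') fun e => hcc (e ▸ cc_exd hA), zero_mul,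
      zero_mul]
  have e1 : ∀ F : Ht → Finset Vx → ℝ,
      JH c D (fun h ω => pi (exd D (Of ∪ op p h ω ∩ S) A = D') * F h ω) =
        JH c D fun h ω => pi (Ring D D' j h ω) *
          (pi (exd D (Of ∪ op p h ω ∩ S) A = D') * F h ω) := by
    intro F
    refine JH_congr fun h ω k => ?_
    by_cases e : exd D (Of ∪ op p h ω ∩ S) A = D'
    · rw [pi_pos (p := Ring D D' j h ω) (e ▸ MExp_ring hOf hp hj k), one_mul]
    · rw [pi_neg e, zero_mul, mul_zero]
  rw [e1 Φ, e1 Ψ]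
  refine m_mk c hc D D' j _ _ hD' hcc fun ho ωo k => ?_
  have e2 : ∀ hi ωi, Ok D' hi ωi → ∀ m, m ∉ vin D' →
      (m ∈ Of ∪ op p ho ωo ∩ S ↔ m ∈ Of ∪ op p (glue D' ho hi) (ωo ∪ ωi) ∩ S) := by
    intro hi ωi k' m hm
    rw [← op_glue_out p k k']
    exact or_congr_right (and_congr_left' (and_iff_left hm))
  by_cases e : exd D (Of ∪ op p ho ωo ∩ S) A = D'
  · have e3 := fun hi ωi k' => MExp_rch (e2 hi ωi k') e
    have e4 : ∀ F : Ht → Finset Vx → ℝ, Inn c D' ho ωo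
        (fun h ω => pi (exd D (Of ∪ op p h ω ∩ S) A = D') * F h ω) = Inn c D' ho ωo F :=
      fun F => JH_congr fun hi ωi k' => by
        beta_reduce
        rw [pi_pos ((MExp_exd (e3 hi ωi k')).trans e), one_mul]
    rw [e4 Φ, e4 Ψ]
    exact H D' ho ωo hD' hcc k e e3
  · refine le_of_eq (JH_congr fun hi ωi k' => ?_)
    beta_reduce
    rw [pi_neg fun e' => e ((MExp_exd (MExp_rch (fun m hm => (e2 hi ωi k' m hm).symm) e')).trans e'),
      zero_mul, zero_mul]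

end Vale.Agent.P145
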