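import Vale.Agent.P145.PBas

/-! P145: boxes, components, explored sets. -/

open Filter Topology

namespace Vale.Agent.P145

open Vale.Agent.P152

variable {O : Set Vx} {A U : Set Site} {D E : Finset Site} {f g v x z : Site} {m : Vx} {n N : ℕ}

theorem PBox_le (a b : Site) : a.1 - b.1 ≤ sd a b ∧ b.1 - a.1 ≤ sd a b ∧ a.2 - b.2 ≤ sd a b ∧
    b.2 - a.2 ≤ sd a b := by
  have h1 := abs_le.1 (le_max_left |a.1 - b.1| |a.2 - b.2|)
  have h2 := abs_le.1 (le_max_right |a.1 - b.1| |a.2 - b.2|)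
  unfold sd
  omega

theorem PBox_line (φ : ℤ → Site) (hφ : ∀ k, ∃ m, Sep m (φ k) (φ (k + 1))) (i j : ℤ)
    (h : ∀ k, min i j ≤ k → k ≤ max i j → φ k ∈ U) : Lk U (φ i) (φ j) := by
  have key : ∀ i j : ℤ, i ≤ j → (∀ k, i ≤ k → k ≤ j → φ k ∈ U) → Lk U (φ i) (φ j) := by
    intro i j hij
    induction j, hij using Int.leInduction with
    | base => exact fun h => Lk.refl (h i le_rfl le_rfl)
    | succ j hj ih =>
      intro h
      obtain ⟨m, hm⟩ := hφ j
      exact (ih fun k h1 h2 => h k h1 (by omega)).tail hm (h _ (by omega) le_rfl)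
  rcases le_total i j with k | k
  · exact key i j k fun k h1 h2 => h k (by omega) (by omega)
  · exact (key j i k fun k h1 h2 => h k (by omega) (by omega)).symm

theorem PBox_row (i j y : ℤ) (h : ∀ k, min i j ≤ k → k ≤ max i j → (k, y) ∈ U) :
    Lk U (i, y) (j, y) :=
  PBox_line (fun k => (k, y)) (fun _ => exists_sep (Or.inl (by simp))) i j h

theorem PBox_col (y i j : ℤ) (h : ∀ k, min i j ≤ k → k ≤ max i j → (y, k) ∈ U) :
    Lk U (y, i) (y, j) :=
  PBox_line (fun k => (y, k)) (fun _ => exists_sep (Or.inr (Or.inr (Or.inl (by simp))))) i j h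

theorem mem_sq : f ∈ sq z n ↔ z.1 - n ≤ f.1 ∧ f.1 < z.1 + n ∧ z.2 - n ≤ f.2 ∧ f.2 < z.2 + n := by
  simp only [sq, mem_bx, Prod.fst_sub, Prod.snd_sub, Prod.fst_add, Prod.snd_add]

theorem mem_inn_sq : v ∈ inn (sq z n) ↔ sd v z < n := by
  simp only [sq, mem_inn_bx, Prod.fst_sub, Prod.snd_sub, Prod.fst_add, Prod.snd_add, sd, max_lt_iff,
    abs_lt]
  omega

theorem sq_mono (h : n ≤ N) : sq z n ⊆ sq z N := fun f hf => by
  rw [mem_sq] at hf ⊢
  omega

theorem sq_subset {z' : Site} (h : sd z z' + n ≤ N) : sq z n ⊆ sq z' N := fun f hf => by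
  have := PBox_le z z'
  rw [mem_sq] at hf ⊢
  omega

theorem self_mem_sq (h : 1 ≤ n) : z ∈ sq z n := by
  rw [mem_sq]
  omega

theorem mem_sq_of_sd (h : sd f z < n) : f ∈ sq z n := inn_subset (mem_inn_sq.2 h)

theorem sd_le_of_mem_sq (h : f ∈ sq z n) : sd f z ≤ n := by
  rw [mem_sq] at h
  simp only [sd, max_le_iff, abs_le]
  omega

theorem exists_sq (D : Finset Site) (z : Site) : ∃ n, D ⊆ sq z n :=
  ⟨D.sup (fun f => (sd f z).toNat) + 1, fun f hf => mem_sq_of_sd (by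
    have := Finset.le_sup (f := fun f => (sd f z).toNat) hf
    omega)⟩

theorem cn_univ : Cn Set.univ := fun f _ g _ =>
  (PBox_row f.1 g.1 f.2 fun _ _ _ => Set.mem_univ _).trans
    (PBox_col g.1 f.2 g.2 fun _ _ _ => Set.mem_univ _)

theorem cn_bx (ab : Site × Site) : Cn (bx ab : Set Site) := fun f hf g hg => by
  rw [Finset.mem_coe, mem_bx] at hf hg
  refine (PBox_row f.1 g.1 f.2 fun k _ _ => ?_).trans (PBox_col g.1 f.2 g.2 fun k _ _ => ?_) <;>
  · rw [Finset.mem_coe, mem_bx]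
    simp only
    omega

theorem cc_bx (ab : Site × Site) : Cc (bx ab) := by
  refine cn_of_base (f := (ab.1.1 - 1, ab.1.2 - 1)) fun g hg => ?_
  have h : ∀ x y : ℤ, (x, y) ∈ (bx ab : Set Site)ᶜ ↔
      ¬ (ab.1.1 ≤ x ∧ x < ab.2.1 ∧ ab.1.2 ≤ y ∧ y < ab.2.2) := fun x y => not_congr mem_bx
  have hg' := (h g.1 g.2).1 hg
  by_cases h1 : ab.1.1 ≤ g.1 ∧ g.1 < ab.2.1
  · exact (PBox_col _ _ g.2 fun k _ _ => (h _ _).2 (by omega)).trans
      (PBox_row _ g.1 g.2 fun k _ _ => (h _ _).2 (by omega))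
  · exact (PBox_row _ g.1 _ fun k _ _ => (h _ _).2 (by omega)).trans
      (PBox_col g.1 _ g.2 fun k _ _ => (h _ _).2 (by omega))

theorem cn_sq (z : Site) (n : ℕ) : Cn (sq z n : Set Site) := cn_bx _

theorem cc_sq (z : Site) (n : ℕ) : Cc (sq z n) := cc_bx _

theorem cc_empty : Cc ∅ := by
  rw [Cc, Finset.coe_empty, Set.compl_empty]
  exact cn_univ

/-- a point outside two finite sets -/
theorem exists_out (D E : Finset Site) : ∃ f, f ∉ D ∧ f ∉ E :=
  (Infinite.exists_notMem_finset (D ∪ E)).imp fun _ h => Finset.notMem_union.1 h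

theorem Cc.union_compl (h : Cc D) (h' : Cc E) : Cn ((D : Set Site)ᶜ ∪ (E : Set Site)ᶜ) := by
  obtain ⟨f, h1, h2⟩ := exists_out D E
  exact Cn.union h h' h1 h2

theorem Cc.inter (h : Cc D) (h' : Cc E) : Cc (D ∩ E) := by
  rw [Cc, Finset.coe_inter, Set.compl_inter]
  exact h.union_compl h'

/-- a finite set whose boundary edges are interior edges of `D` lies in `D` -/
theorem Cc.subset_of_bd (h : Cc D) (hE : bd E ⊆ vin D) : E ⊆ D := fun f hf => by
  by_contra hn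
  obtain ⟨g, h1, h2⟩ := exists_out D E
  exact h2 ((Cn.iff h (fun m hm k => k.1 (mem_vin.1 (hE hm)).1) hn h1).1 hf)

/-- walking to the left one leaves a finite set -/
theorem exit_left (hf : f ∈ D) : ∃ g, Lk D f g ∧ g - (1, 0) ∉ D := by
  obtain ⟨B, hB⟩ : ∃ B : ℤ, ∀ x ∈ D, B ≤ x.1 :=
    ((D.finite_toSet.image Prod.fst).bddBelow).imp fun B hB x hx => hB ⟨x, hx, rfl⟩
  suffices H : ∀ n : ℕ, ∀ f ∈ D, f.1 < B + n → ∃ g, Lk D f g ∧ g - (1, 0) ∉ D from
    H (f.1 - B + 1).toNat f hf (by omega)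
  intro n
  induction n with
  | zero => exact fun f hf h => absurd (hB f hf) (by omega)
  | succ n ih =>
    intro f hf h
    by_cases k : f - (1, 0) ∈ D
    · obtain ⟨g, h1, h2⟩ := ih _ k (by simp only [Prod.fst_sub]; omega)
      exact ⟨g, ((Lk.refl hf).tail (sep_left f) k).trans h1, h2⟩
    · exact ⟨f, Lk.refl hf, k⟩

open Classical in
/-- the component of `x` -/
noncomputable def cmp (D : Finset Site) (x : Site) : Finset Site := D.filter (Lk D x ·)

theorem mem_cmp : f ∈ cmp D x ↔ Lk D x f := by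
  classical
  rw [cmp, Finset.mem_filter]
  exact ⟨fun h => h.2, fun h => ⟨h.mem, h⟩⟩

theorem cmp_subset : cmp D x ⊆ D := fun _ h => (mem_cmp.1 h).mem

theorem cn_cmp (D : Finset Site) (x : Site) : Cn (cmp D x : Set Site) :=
  cn_of_base (f := x) fun _ hg => (mem_cmp.1 hg).ind (P := fun a => Lk (cmp D x) x a)
    (Lk.refl (mem_cmp.2 (Lk.refl (mem_cmp.1 hg).1)))
    fun _ _ _ h1 h2 h3 h4 => h4.tail h2 (mem_cmp.2 (h1.tail h2 h3))

theorem cmp_iff (hm : m ∈ vin D) : fa m ∈ cmp D x ↔ fb m ∈ cmp D x := by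
  rw [mem_cmp, mem_cmp]
  exact ⟨fun h => h.tail (sep_self m) (mem_vin.1 hm).2,
    fun h => h.tail (sep_self m).symm (mem_vin.1 hm).1⟩

theorem bd_cmp : bd (cmp D x) ⊆ bd D := fun m hm => by
  rw [mem_bd] at hm ⊢
  intro h
  by_cases k : fa m ∈ D
  · exact hm (cmp_iff (mem_vin.2 ⟨k, h.1 k⟩))
  · exact hm ⟨fun a => absurd (cmp_subset a) k, fun a => absurd (h.2 (cmp_subset a)) k⟩

theorem Cc.cmp (h : Cc D) (x : Site) : Cc (cmp D x) := by
  have hs : (D : Set Site)ᶜ ⊆ (P145.cmp D x : Set Site)ᶜ := fun _ hf k => hf (cmp_subset k)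
  refine Cn.of_sub h hs fun g hg => ?_
  by_cases k : g ∈ D
  · obtain ⟨g', h1, h2⟩ := exit_left k
    refine ⟨_, h2, ((h1.ind (P := fun a => Lk (P145.cmp D x : Set Site)ᶜ g a) (Lk.refl hg)
      fun _ _ _ a1 a2 a3 a4 => a4.tail a2 fun a5 => hg ?_).tail (sep_left g') (hs h2)).symm⟩
    exact mem_cmp.2 ((mem_cmp.1 a5).trans (a1.tail a2 a3).symm)
  · exact ⟨g, k, Lk.refl hg⟩

theorem Cn.subset_cmp (h : Cn U) (hU : U ⊆ D) (hx : x ∈ U) : U ⊆ cmp D x :=
  fun f hf => mem_cmp.2 ((h x hx f hf).mono hU)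

theorem mem_exd : f ∈ exd D O A ↔ f ∈ D ∧ f ∉ Rch O A := by
  classical
  rw [exd, Finset.mem_filter]

theorem exd_subset : exd D O A ⊆ D := fun _ h => (mem_exd.1 h).1

theorem cc_exd (h : Cn ((D : Set Site)ᶜ ∪ A)) : Cc (exd D O A) := by
  have hs : Rch O A ⊆ (exd D O A : Set Site)ᶜ := fun _ hf k => (mem_exd.1 k).2 hf
  refine Cn.of_sub h (Set.union_subset (fun _ hf k => hf (exd_subset k)) (subset_rch.trans hs))
    fun g hg => ?_
  by_cases k : g ∈ Rch O A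
  · obtain ⟨f, h1, h2⟩ := rch_lk k
    exact ⟨f, Or.inr h1, h2.mono hs⟩
  · exact ⟨g, Or.inl fun a => hg (mem_exd.2 ⟨a, k⟩), Lk.refl hg⟩

/-- interior edges on the boundary of the explored set are blocked -/
theorem bd_exd (hm : m ∈ bd (exd D O A)) (h : m ∈ vin D) : m ∈ O := by
  by_contra hO
  refine mem_bd.1 hm ?_
  rw [mem_exd, mem_exd]
  exact ⟨fun k => ⟨(mem_vin.1 h).2, fun a => k.2 (rch_step a (sep_self m).symm hO)⟩,
    fun k => ⟨(mem_vin.1 h).1, fun a => k.2 (rch_step a (sep_self m) hO)⟩⟩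

theorem bd_exd' (hA : (D : Set Site)ᶜ ⊆ A) : (bd (exd D O A) : Set Vx) ⊆ O := fun m hm => by
  by_contra hO
  have h : ∀ f, f ∈ exd D O A ↔ f ∉ Rch O A := fun f =>
    mem_exd.trans ⟨fun k => k.2, fun k => ⟨by_contra fun a => k (subset_rch (hA a)), k⟩⟩
  refine mem_bd.1 hm ?_
  rw [h, h]
  exact not_congr ⟨fun a => rch_step a (sep_self m) hO, fun a => rch_step a (sep_self m).symm hO⟩

theorem exd_ssubset (hO : O ⊆ vin D) (hA : (D : Set Site)ᶜ ⊆ A) (hD : D.Nonempty) :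
    exd D O A ⊂ D := by
  obtain ⟨f, hf⟩ := hD
  obtain ⟨g, h1, h2⟩ := exit_left hf
  refine (Finset.ssubset_iff_of_subset exd_subset).2 ⟨g, h1.mem, fun k => (mem_exd.1 k).2 ?_⟩
  exact rch_step (subset_rch (hA h2)) (sep_left g).symm
    fun a => h2 ((sep_left g).vin.1 (hO a)).2

theorem p_enc : P_enc := by
  intro O A B hA hB h
  rcases A.eq_empty_or_nonempty with rfl | ⟨x, hx⟩
  · exact ⟨∅, Set.empty_subset _, by simp, fun f hf => by simp at hf, cc_empty,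
      fun m hm => absurd (by simp) (mem_bd.1 hm)⟩
  · refine ⟨cmp (exd B O (B : Set Site)ᶜ) x, hA.subset_cmp (fun f hf => mem_exd.2
      ⟨by_contra fun a => h f hf (subset_rch a), h f hf⟩) hx,
      fun f hf => exd_subset (cmp_subset hf), cn_cmp _ _, (cc_exd ?_).cmp x,
      fun m hm => bd_exd' le_rfl (bd_cmp hm)⟩
    rw [Set.union_self]
    exact hB

end Vale.Agent.P145
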