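import Vale.Agent.P145.SDefs
import Vale.Agent.P145.JBas
import Vale.Agent.P145.PBox
import Vale.Agent.P145.MExp
import Vale.Agent.P145.GDom

/-! P145, block SR: minus circuits under plus boundary conditions. -/

open Filter Topology

namespace Vale.Agent.P145

open Vale.Agent.P152

/-- strong crossing estimate with adverse boundary conditions -/
def ADV (c : ℝ) : Prop := ∀ ε > 0, ∃ μ n1 : ℕ, 1 ≤ μ ∧ 1 ≤ n1 ∧ ∀ n ≥ n1, ∀ N ≥ μ * n,
  ∀ (z : Site) (D : Finset Site), Cc D → sq z N ⊆ D →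
    PG c D (fun _ Q => pi (¬ Enc Q (sq z n) (sq z N))) ≤ ε

/-- behind a plus circuit the law of the minus edges is below the law in the outer set -/
theorem adv_cut {c : ℝ} (hc : 1 ≤ c) {D A B : Finset Site} (hB : Cc B) (hD : vx B ⊆ vin D)
    {G : Set Vx → ℝ} (hG : Antitone G) (h0 : ∀ Q, 0 ≤ G Q) (hl : ∀ Q, G Q = G (Q ∩ vin A)) :
    PG c B (fun _ Q => G Q) * PG c D (fun P _ => pi (Enc P A B)) ≤ PG c D fun _ Q => G Q := by
  have hBD : B ⊆ D := fun f hf => (mem_vin.1 (hD (mem_vx.2 (Or.inl hf : fa (f, true) ∈ B ∨ _)))).1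
  set x := PG c B fun _ Q => G Q
  have hx : 0 ≤ x := JH_nonneg hc fun _ _ _ => h0 _
  unfold PG
  rw [← JH_mul]
  refine le_trans (JH_mono hc (G := fun h ω => x * pi (Enc (o0 h ω) A B)) fun h ω _ =>
    mul_le_mul_of_nonneg_left (pi_mono fun ⟨E, h1, h2, h3, h4, h5⟩ => ⟨E, h1, h2, h3, h4,
      fun m hm => (h5 hm).resolve_left fun k => k (hD (vx_mono (Finset.coe_subset.1 h2)
        (Finset.mem_sdiff.1 hm).1))⟩) hx) ?_
  refine m_exp c hc D 0 (B : Set Site)ᶜ ∅ Set.univ (fun z => z % 4 = 0) _ _ ?_ (by simp)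
    (fun _ h => h) (Or.inl rfl) fun D' ho ωo _ hD' hO hE hS => ?_
  · rwa [Set.union_eq_right.2 (Set.compl_subset_compl.2 (Finset.coe_subset.2 hBD))]
  simp only [Set.empty_union, Set.inter_univ] at hE hS
  have hm : ∀ f, f ∈ D' ↔ f ∈ D ∧ f ∉ Rch (op (fun z => z % 4 = 0) ho ωo) (B : Set Site)ᶜ :=
    fun f => by simp only [← hE, exd, Finset.mem_filter]
  have hDB : D' ⊆ B := fun f hf => by_contra fun e => ((hm f).1 hf).2 (subset_rch e)
  unfold Inn
  beta_reduce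
  by_cases hAD : A ⊆ D'
  · refine (JH_mono hc (G := fun _ _ => x) fun _ _ _ => mul_le_of_le_one_right hx
      (pi_le_one _)).trans ?_
    rw [JH_const (by linarith)]
    refine (g_dom c hc B D' _ hB hD' hDB fun _ _ _ _ _ k => hG k).trans
      (JH_mono hc fun hi ωi hI => ?_)
    show G (o2 hi ωi) ≤ _
    rw [hl (o2 hi ωi), ← (o0_glue0 hO hI).2, Set.inter_assoc,
      Set.inter_eq_right.2 (Finset.coe_subset.2 (vin_mono hAD)), ← hl]
  · obtain ⟨f, hf, hn⟩ := Finset.not_subset.1 hAD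
    refine JH_mono hc fun hi ωi hI => ?_
    rw [pi_neg, mul_zero]
    · exact h0 _
    intro hZ
    obtain ⟨E, h1, h2, -⟩ := id hZ
    refine hn ((hm f).2 ⟨hBD (h2 (h1 hf)), ?_⟩)
    rw [← hS hi ωi hI]
    exact hZ.not_rch hf

theorem adv_of {c : ℝ} (hc : 1 ≤ c) (h : SR c) : ADV c := by
  intro ε hε
  obtain ⟨μ, n1, h1, h2, h⟩ := h (min (ε / 2) (1 / 2)) (by positivity)
  refine ⟨μ * (μ + 1), n1, by nlinarith, h2, fun n hn N hN z D hD hz => ?_⟩
  have k1 : n ≤ μ * n := Nat.le_mul_of_pos_left _ h1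
  have k2 : μ * (μ * n + 1) ≤ N := le_trans (by rw [mul_assoc]; gcongr; nlinarith) hN
  have k3 : μ * n + 1 ≤ N := (Nat.le_mul_of_pos_left _ h1).trans k2
  obtain ⟨ab, e1, e2⟩ := ((h n hn (μ * n) le_rfl z).2.and (ev_subset (sq z (N + 1)))).exists
  have e3 := (h (μ * n + 1) (by omega) N k2 z).1 _ (cc_bx ab)
  have an : Antitone fun Q => pi (¬ Enc Q (sq z n) (sq z (μ * n))) :=
    fun _ _ k => pi_mono (mt fun e => e.mono k subset_rfl subset_rfl)
  have e4 := adv_cut hc (A := sq z (μ * n + 1)) (cc_sq z N) (Sr.vx_sq e2) an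
    (fun _ => pi_nonneg _) fun Q => pi_congr (not_congr ⟨fun ⟨E, a1, a2, a3, a4, a5⟩ =>
      ⟨E, a1, a2, a3, a4, fun m hm => ⟨a5 hm, Sr.vx_sq subset_rfl
        (vx_mono (Finset.coe_subset.1 a2) (Finset.mem_sdiff.1 hm).1)⟩⟩,
      fun e => e.mono Set.inter_subset_left subset_rfl subset_rfl⟩)
  rw [Sr.PG_not hc] at e3
  have e5 := g_dom c hc D _ _ hD (cc_sq z N) hz (Sr.up_arm z n (μ * n))
  have e6 : PG c D (fun _ Q => pi (¬ Enc Q (sq z n) (sq z N))) ≤ PG c D (Sr.arm z n (μ * n)) :=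
    Sr.PG_mono hc fun _ _ => pi_mono (mt fun e =>
      e.mono subset_rfl subset_rfl (Finset.coe_subset.2 (sq_mono (by omega))))
  have e7 : 0 ≤ PG c (sq z N) (Sr.arm z n (μ * n)) := Sr.PG_nonneg hc fun _ _ => pi_nonneg _
  have m1 := min_le_left (ε / 2) (1 / 2)
  have m2 := min_le_right (ε / 2) (1 / 2)
  unfold Sr.arm at e5 e6 e7
  nlinarith

end Vale.Agent.P145
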