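import Vale.Agent.P145.SMain
import Vale.Agent.P145.SAdv
import Vale.Agent.P145.RiMain
import Vale.Agent.P145.RsEnc
import Vale.Agent.P145.LLeg

/-! P145: the crossing estimates for `1 < c ≤ 2`. -/

namespace Vale.Agent.P145

variable {c : ℝ}

theorem wr_all (h1 : 1 < c) (h2 : c ≤ 2) : WR c :=
  wr_of p_enc (ri_of g_pa g_dom g_pm m_iso l_leg h1 h2)

theorem sr_all (h1 : 1 < c) (h2 : c ≤ 2) : SR c := sr_of h1 h2 (wr_all h1 h2)

theorem adv_all (h1 : 1 < c) (h2 : c ≤ 2) : ADV c := adv_of h1.le (sr_all h1 h2)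

end Vale.Agent.P145
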