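import Vale.Agent.P145.PEx
import Vale.Agent.P145.PBox

/-! P145: connected boundaries and nesting. -/

open Filter Topology

namespace Vale.Agent.P145

open Vale.Agent.P152

theorem PTim_end {O : Set Vx} {m : Vx} {v : Site} (hm : m ∈ O) (hv : End m v) :
    Pth O (src m) v := by
  rcases hv with rfl | h
  · exact Relation.ReflTransGen.refl
  · exact Relation.ReflTransGen.single ⟨m, hm, Or.inl ⟨rfl, h⟩⟩

theorem p_tim : P_tim := by
  classical
  intro E hE hE' m hm m' hm'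
  obtain ⟨t, ht⟩ := bd_part E ((bd E).filter fun k => Pth (bd E) (src m) (src k))
    (Finset.filter_subset _ _) fun a ha b hb v hav hbv => by
      rw [Finset.mem_filter] at ha ⊢
      exact ⟨hb, (Relation.ReflTransGen.trans ha.2 (PTim_end ha.1 hav)).trans
        (PTim_end hb hbv).symm⟩
  have h1 : ∀ k ∈ bd t, ¬ (fa k ∈ E ↔ fb k ∈ E) := fun k hk =>
    mem_bd.1 (Finset.filter_subset _ _ (ht ▸ hk))
  have h2 : t ⊆ E := fun f hf => by
    by_contra h
    obtain ⟨g, hg, hg'⟩ := exists_out E t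
    refine hg' ((Cn.iff hE' (fun k hk h3 => h1 k hk ?_) h hg).1 hf)
    exact iff_of_false h3.1 h3.2
  have h3 : ∃ p, p ∈ t := by
    have h4 : m ∈ bd t := ht ▸ Finset.mem_filter.2 ⟨hm, Relation.ReflTransGen.refl⟩
    by_contra h5
    exact mem_bd.1 h4 (iff_of_false (fun h => h5 ⟨_, h⟩) fun h => h5 ⟨_, h⟩)
  obtain ⟨p, hp⟩ := h3
  have h6 : E ⊆ t := fun f hf =>
    (Cn.iff hE (fun k hk h3 => h1 k hk (iff_of_true h3.1 h3.2)) (h2 hp) hf).1 hp
  have h7 : m' ∈ bd t := by rwa [Finset.Subset.antisymm h2 h6]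
  rw [ht, Finset.mem_filter] at h7
  exact h7.2

theorem p_nest : P_nest := by
  intro E C hE hE' hC hC' H
  have hA : ∀ m ∈ bd E, ∀ v f, End m v → v ∈ cor f → (f ∈ C ↔ fa m ∈ C) := fun m hm v f hv hf =>
    cor_iff hf ((sep_self m).cor hv).1 fun m' hm' => H m hm m' hm' v hv
  by_cases h : bd E ⊆ vin C
  · exact Or.inl (hC'.subset_of_bd h)
  obtain ⟨m, hm, h1⟩ := Finset.not_subset.1 h
  have h2 : fa m ∉ C := fun h2 => h1 (mem_vin.2
    ⟨h2, (hA m hm _ _ (end_src m) ((sep_self m).cor (end_src m)).2).2 h2⟩)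
  have h3 : ∀ w, Pth (bd E) (src m) w → ∀ f, w ∈ cor f → f ∉ C := fun w hw => by
    induction hw with
    | refl => exact fun f hf h4 => h2 ((hA m hm _ f (end_src m) hf).1 h4)
    | tail _ hk ih =>
      obtain ⟨k, hk, hj⟩ := hk
      exact fun f hf h4 => ih _ ((sep_self k).cor hj.ends.1).1 ((hA k hk _ f hj.ends.2 hf).1 h4)
  have h5 : ∀ k ∈ bd E, ¬ (fa k ∈ (C : Set Site) ∧ fb k ∈ (C : Set Site)) := fun k hk h6 =>
    h3 _ (p_tim E hE hE' m hm k hk) _ ((sep_self k).cor (end_src k)).1 h6.1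
  by_cases h7 : C ⊆ E
  · exact Or.inr (Or.inl h7)
  obtain ⟨g, hg, hg'⟩ := Finset.not_subset.1 h7
  exact Or.inr (Or.inr (Finset.disjoint_left.2 fun f hf hf' => hg' ((hC.iff h5 hf' hg).1 hf)))

end Vale.Agent.P145
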