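import Vale.Agent.P145.SRec
import Vale.Agent.P145.PTim
import Vale.Agent.P145.GDom

/-! P145: logarithmic bound. -/

open Filter Topology

namespace Vale.Agent.P145

open Vale.Agent.P152

theorem VOne_excl {D : Finset Site} {h : Ht} {ω : Finset Vx} {v : Site} {n : ℕ} (hn : 1 ≤ n)
    (k : Ok D h ω) (hD : Cc D) (h2 : ¬ sq v (2 * n) ⊆ D)
    (h1 : sq v n ⊆ exd D (o2 h ω) (D : Set Site)ᶜ)
    (g1 : Enc (ox D h ω) (sq v (2 * n)) (sq v (2 * (2 * n))))
    (g2 : Arm (ox D h ω) v n (8 * n)) : False := by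
  obtain ⟨C, c1, c2, c3, c4, c5⟩ := p_enc (o2 h ω) (sq v n) D (cn_sq v n) hD
    fun f hf => (mem_exd.1 (h1 hf)).2
  obtain ⟨E, e1, e2, e3, e4, e5⟩ := g1
  have key : ∀ m ∈ ox D h ω, ∀ m' ∈ bd C, ∀ x, End m x → ¬ End m' x := fun m hm m' hm' x a1 a2 => by
    have b1 := k.ox hm a1
    have b2 := k.o2 (c5 hm') a2
    omega
  rcases p_nest E C e3 e4 c3 c4 fun m hm => key m (e5 hm) with h3 | h3 | h3
  · exact h2 fun f hf => c2 (h3 (e1 hf))
  · obtain ⟨a, b, a1, a2, a3⟩ := g2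
    have h4 : C ⊆ sq v (2 * (2 * n)) := fun f hf => e2 (h3 hf)
    have h5 : sq v n ⊆ C := fun f hf => c1 hf
    obtain ⟨x, -, ⟨m, hm, x1⟩, m', hm', x2⟩ := a3.exit (E := C) (inn_mono h5 (mem_inn_sq.2 a1))
      fun hb => by
        have := mem_inn_sq.1 (inn_mono h4 hb)
        omega
    exact key m hm.1 m' hm' x x1 x2
  · exact Finset.disjoint_left.1 h3 (e1 (self_mem_sq (by omega))) (c1 (self_mem_sq hn))

theorem VOne_up1 (A B : Set Site) : Up fun P _ => pi (Enc P A B) :=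
  fun _ _ _ _ h _ => pi_mono fun k => k.mono h le_rfl le_rfl

theorem VOne_up2 (z : Site) (n N : ℕ) : Up fun P _ => pi (Arm P z n N) :=
  fun _ _ _ _ h _ => pi_mono fun ⟨a, b, a1, a2, a3⟩ =>
    ⟨a, b, a1, a2, a3.mono (Set.inter_subset_inter_left _ h)⟩

/-- halving the distance to the boundary costs a constant -/
theorem v_half {c : ℝ} (hc : 1 ≤ c) (h : WR c) : ∃ C : ℝ, 0 ≤ C ∧ ∃ n0 : ℕ, 1 ≤ n0 ∧ ∀ n ≥ n0,
    ∀ (v w : Site) (b : ℝ), 0 ≤ b → (∀ D, Cc D → ¬ sq v n ⊆ D → VV c D v w ≤ b) →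
    ∀ D, Cc D → ¬ sq v (2 * n) ⊆ D → VV c D v w ≤ b + C := by
  classical
  obtain ⟨c0, hc0, n0, hn0, h⟩ := h
  have hC : 0 ≤ 4 / c0 ^ 2 := by positivity
  have hc' : 0 < c := by linarith
  refine ⟨4 / c0 ^ 2, hC, n0, hn0, fun n hn v w b hb hyp D => ?_⟩
  induction D using Finset.strongInduction with
  | H D ih =>
  intro hD h2
  have h1 := s_rec c hc D v w (fun _ _ => True)
    (fun D' => if sq v n ⊆ D' then b + 4 / c0 ^ 2 else b) hD
    (fun D' => by split_ifs <;> linarith)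
    (fun D' k1 k2 => by
      split_ifs with k3
      · exact ih D' k1 k2 fun k4 => h2 (k4.trans k1.subset)
      · exact hyp D' k2 k3) fun _ _ _ _ => trivial
  have h3 : VV c D v w =
      JH c D fun h _ => pi True * ((h (v, true) : ℝ) * h (w, true)) := by
    simp only [pi_pos trivial, one_mul]
    exact (JH_PH c D _).symm
  have p1 := (h (2 * n) (by omega) v D hD).1
  have p2 := (h n hn v D hD).2
  have p3 := (mul_le_mul p1 p2 hc0.le (hc0.le.trans p1)).trans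
    (g_pa c hc D _ _ hD (VOne_up1 _ _) (VOne_up2 _ _ _))
  have h4 := JH_mono (D := D) hc
    (F := fun h ω => 4 * pi True + pi (Enc (o2 h ω) {v, w} Set.univ) *
      (if sq v n ⊆ exd D (o2 h ω) (D : Set Site)ᶜ then b + 4 / c0 ^ 2 else b))
    (G := fun h ω => (4 + b + 4 / c0 ^ 2) - 4 / c0 ^ 2 *
      (pi (Enc (ox D h ω) (sq v (2 * n)) (sq v (2 * (2 * n)))) *
        pi (Arm (ox D h ω) v n (8 * n)))) fun h ω k => by
      have a1 := pi_le_one (Enc (o2 h ω) {v, w} Set.univ)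
      rw [pi_pos trivial, ← pi_and]
      split_ifs with k3
      · rw [pi_neg (p := _ ∧ _) fun k4 => VOne_excl (by omega) k hD h2 k3 k4.1 k4.2]
        nlinarith
      · have a2 := mul_le_mul_of_nonneg_left (pi_le_one
          (Enc (ox D h ω) (sq v (2 * n)) (sq v (2 * (2 * n))) ∧ Arm (ox D h ω) v n (8 * n))) hC
        nlinarith
  rw [JH_sub, JH_const hc', JH_mul] at h4
  have h5 := mul_le_mul_of_nonneg_left p3 hC
  have h6 : 4 / c0 ^ 2 * (c0 * c0) = 4 := by field_simp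
  rw [h6] at h5
  rw [h3]
  exact h1.trans (h4.trans (by
    change 4 ≤ 4 / c0 ^ 2 * JH c D fun h ω =>
      pi (Enc (ox D h ω) (sq v (2 * n)) (sq v (2 * (2 * n)))) *
        pi (Arm (ox D h ω) v n (8 * n)) at h5
    linarith))

theorem VOne_edge {D : Finset Site} {h : Ht} (hh : IsH D h) (m : Vx) :
    |h (tgt m, true) - h (src m, true)| ≤ 2 := by
  by_cases hm : m ∈ vin D
  · obtain ⟨a1, a2, -⟩ := hh.edge hm
    rw [abs_eq (by norm_num)] at a1 a2
    rw [abs_le]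
    omega
  · rw [hh.1 _ fun k => hm (vin_of_src k), hh.1 _ fun k => hm (vin_of_tgt k)]
    norm_num

theorem VOne_line {g : ℤ → ℤ} (hg : ∀ a, |g (a + 1) - g a| ≤ 2) (a b : ℤ) :
    |g a - g b| ≤ 2 * |a - b| := by
  have key : ∀ (k : ℕ) (a : ℤ), |g (a + k) - g a| ≤ 2 * k := fun k a => by
    induction k with
    | zero => simp
    | succ k ih =>
      have := hg (a + k)
      rw [Nat.cast_succ, ← add_assoc]
      rw [abs_le] at this ih ⊢
      omega
  rcases le_total a b with k | k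
  · obtain ⟨j, rfl⟩ := Int.le.dest k
    have := key j a
    rw [abs_sub_comm (g a), abs_sub_comm a, add_sub_cancel_left, Nat.abs_cast]
    exact this
  · obtain ⟨j, rfl⟩ := Int.le.dest k
    have := key j b
    rw [add_sub_cancel_left, Nat.abs_cast]
    exact this

theorem VOne_lip {D : Finset Site} {h : Ht} (hh : IsH D h) (x y : Site) :
    |h (x, true) - h (y, true)| ≤ 4 * sd x y := by
  have h1 := VOne_line (g := fun a => h ((a, x.2), true)) (fun a => by
    simpa [src, tgt, dir] using VOne_edge hh ((a, x.2), true)) x.1 y.1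
  have h2 := VOne_line (g := fun a => h ((y.1, a), true)) (fun a => by
    simpa [src, tgt, dir] using VOne_edge hh ((y.1, a), false)) x.2 y.2
  have h3 : |x.1 - y.1| ≤ sd x y := le_max_left _ _
  have h4 : |x.2 - y.2| ≤ sd x y := le_max_right _ _
  simp only [Prod.mk.eta] at h1 h2
  rw [abs_le] at h1 h2 ⊢
  omega

/-- deterministic bound -/
theorem v_det {c : ℝ} (hc : 1 ≤ c) {D : Finset Site} {v w : Site} {r : ℕ} (hr : ¬ sq v r ⊆ D) :
    VV c D v w ≤ 4 * r * (4 * r + 4 * sd v w) := by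
  have hc' : 0 < c := by linarith
  obtain ⟨u, u1, u2⟩ := Finset.not_subset.1 hr
  rw [← JH_const (D := D) hc' (4 * r * (4 * r + 4 * sd v w)), JH_PH c D fun _ => _]
  refine PH_mono hc' fun h hh => ?_
  have a1 := VOne_lip hh u v
  have a2 := VOne_lip hh v w
  have a3 := sd_le_of_mem_sq u1
  rw [hh.1 u fun k => u2 (inn_subset k), zero_sub, abs_neg] at a1
  have a4 : |h (v, true)| ≤ 4 * r := by omega
  have a5 : |h (w, true)| ≤ 4 * r + 4 * sd v w := by
    rw [abs_le] at a2 a4 ⊢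
    omega
  have a6 : h (v, true) * h (w, true) ≤ 4 * r * (4 * r + 4 * sd v w) :=
    (le_abs_self _).trans (by
      rw [abs_mul]
      exact mul_le_mul a4 a5 (abs_nonneg _) (by positivity))
  exact_mod_cast a6

theorem v1_of {c : ℝ} (hc : 1 ≤ c) (h : WR c) (h2 : V2 c) : V1 c := by
  obtain ⟨C, hC, n0, hn0, h⟩ := v_half hc h
  obtain ⟨M, n1, hn1, h2⟩ := h2 1 one_pos
  obtain ⟨n2, k0, k1⟩ : ∃ n2, n0 ≤ n2 ∧ n1 ≤ n2 := ⟨max n0 n1, le_max_left _ _, le_max_right _ _⟩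
  obtain ⟨b0, hb⟩ : ∃ b0 : ℝ, b0 = 4 * n2 * (4 * n2 + 4 * ((M + 1) * n2)) + 1 := ⟨_, rfl⟩
  have hb0 : 1 ≤ b0 := by
    rw [hb]
    exact le_add_of_nonneg_left (by positivity)
  refine ⟨b0 + (2 * (M + 1) : ℕ) * C + C, by positivity, fun k r D v w hD hr hk => ?_⟩
  obtain ⟨d, hd⟩ : ∃ d : ℕ, sd v w = d :=
    Int.eq_ofNat_of_zero_le ((abs_nonneg _).trans (le_max_left _ _))
  obtain ⟨r0, r1, r2, r3⟩ : ∃ r0, n2 ≤ r0 ∧ d / (M + 1) ≤ r0 ∧
      ∀ D, Cc D → ¬ sq v r0 ⊆ D → VV c D v w ≤ b0 := by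
    rcases le_or_gt n2 (d / (M + 1)) with k | k
    · refine ⟨d / (M + 1), k, le_rfl, fun D a1 a2 => (h2 _ (k1.trans k) D v w a1 a2 ?_).trans hb0⟩
      rw [hd]
      exact_mod_cast (Nat.mul_le_mul_right _ M.le_succ).trans (Nat.mul_div_le d (M + 1))
    · refine ⟨n2, le_rfl, k.le, fun D _ a2 => (v_det hc a2).trans ?_⟩
      have a3 : (d : ℝ) ≤ (M + 1) * n2 := by
        exact_mod_cast (Nat.lt_mul_of_div_lt k M.succ_pos).le.trans_eq (mul_comm _ _)
      rw [hd, hb, Int.cast_natCast]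
      have := mul_le_mul_of_nonneg_left a3 (by positivity : (0 : ℝ) ≤ 4 * n2 * 4)
      linarith
  have it : ∀ (j : ℕ) D, Cc D → ¬ sq v (2 ^ j * r0) ⊆ D → VV c D v w ≤ b0 + j * C := fun j => by
    induction j with
    | zero => simpa using r3
    | succ j ih =>
      intro D a1 a2
      have a3 : n0 ≤ 2 ^ j * r0 := (k0.trans r1).trans (Nat.le_mul_of_pos_left _ (by positivity))
      rw [pow_succ', mul_assoc] at a2
      have := h _ a3 v w _ (by positivity) ih D a1 a2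
      push_cast
      linarith
  have a1 : max 1 d ≤ 2 ^ (2 * (M + 1)) * r0 := by
    have b1 := Nat.lt_mul_div_succ d M.succ_pos
    have b2 : 2 * (M + 1) ≤ 2 ^ (2 * (M + 1)) := Nat.lt_two_pow_self.le
    have b3 : (M + 1) * (d / (M + 1) + 1) ≤ (M + 1) * (2 * r0) := Nat.mul_le_mul_left _ (by omega)
    have b4 := Nat.mul_le_mul_right r0 b2
    have b5 : 2 * (M + 1) * r0 = (M + 1) * (2 * r0) := by ring
    simp only [Nat.succ_eq_add_one] at b1
    omega
  have a2 : r ≤ 2 ^ (k + 2 * (M + 1)) * r0 := by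
    rw [hd] at hk
    have b1 : r ≤ 2 ^ k * max 1 d := by exact_mod_cast hk
    rw [pow_add, mul_assoc]
    exact b1.trans (Nat.mul_le_mul_left _ a1)
  have a3 := it _ D hD fun k => hr ((sq_mono a2).trans k)
  have a4 : 0 ≤ (b0 + (2 * (M + 1) : ℕ) * C) * k := by positivity
  rw [Nat.cast_add] at a3
  nlinarith

end Vale.Agent.P145
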