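import Vale.Agent.P145.SRec
import Vale.Agent.P145.PTim

/-! P145: decoupling near the boundary. -/

open Filter Topology

namespace Vale.Agent.P145

open Vale.Agent.P152

theorem VTwo_sd (v w : Site) : sd v w = sd w v := by
  unfold sd
  rw [abs_sub_comm v.1, abs_sub_comm v.2]

theorem VTwo_pos {D : Finset Site} {v : Site} {r : ℕ} (hr : ¬ sq v r ⊆ D) : 1 ≤ r := by
  obtain ⟨g, hg, -⟩ := Finset.not_subset.1 hr
  rw [mem_sq] at hg
  omega

/-- the flat height vanishes at the centre -/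
theorem VTwo_zero {D D' : Finset Site} {v : Site} {r : ℕ} {ho : Ht} {ωo : Finset Vx}
    (hr : ¬ sq v r ⊆ D) (k : Out D D' 0 ho ωo) (hs : ∀ f ∈ sq v r, f ∈ D → f ∈ D') :
    ho (v, true) = 0 := by
  by_cases hv : v ∈ D
  · obtain ⟨g, hg, hg'⟩ := Finset.not_subset.1 hr
    obtain ⟨m, a, b, h1, h2, -, h4⟩ := Lk.exit (A := (D : Set Site))
      (cn_sq v r v (self_mem_sq (VTwo_pos hr)) g hg) hv hg'
    have h5 : m ∈ bd D := h2.bd.2 fun e => h4 (e.1 h1.mem.2)
    rw [Flat.eq k.2.1 (h1.mono fun f hf => hs f hf.1 hf.2) (self_cor v) (h2.cor (end_src m)).1]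
    exact k.1.1 _ (bd_end h5 (end_src m)).1
  · exact k.1.1 v fun h => hv (mem_inn.1 h).1

theorem VTwo_inn {c : ℝ} {D D' : Finset Site} {v w : Site} {r N : ℕ} {ho : Ht} {ωo : Finset Vx}
    (hr : ¬ sq v r ⊆ D) (hw : (N : ℤ) ≤ sd v w) (k : Out D D' 0 ho ωo)
    (he : exd D (ox D ho ωo) (sq v N : Set Site)ᶜ = D')
    (hR : ∀ hi ωi, Ok D' hi ωi → Rch (ox D (glue D' ho hi) (ωo ∪ ωi)) (sq v N : Set Site)ᶜ =
      Rch (ox D ho ωo) (sq v N : Set Site)ᶜ) :
    Inn c D' ho ωo (fun h ω => pi (Enc (ox D h ω) (sq v r) (sq v N)) *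
      ((h (v, true) : ℝ) * h (w, true))) = 0 := by
  have h1 : ∀ f ∈ D', f ∈ sq v N := fun f hf => by
    rw [← he, mem_exd] at hf
    by_contra h
    exact hf.2 (subset_rch h)
  have h2 : w ∉ inn D' := fun h => by
    have h3 : w ∈ inn (sq v N) := mem_inn_cor.2 fun f hf => h1 f (mem_inn_cor.1 h f hf)
    rw [mem_inn_sq, VTwo_sd] at h3
    omega
  have h3 : Inn c D' ho ωo (fun h ω => pi (Enc (ox D h ω) (sq v r) (sq v N)) *
      ((h (v, true) : ℝ) * h (w, true))) = JH c D' fun hi ωi =>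
        pi (Enc (ox D (glue D' ho hi) (ωo ∪ ωi)) (sq v r) (sq v N)) *
          ((hi (v, true) : ℝ) * ho (w, true)) := by
    refine JH_congr fun hi ωi ok => ?_
    by_cases h : Enc (ox D (glue D' ho hi) (ωo ∪ ωi)) (sq v r) (sq v N)
    · have h4 : ho (v, true) = 0 := VTwo_zero hr k fun f hf hf' => by
        rw [← he, mem_exd, ← hR hi ωi ok]
        exact ⟨hf', h.not_rch hf⟩
      simp only [glue_out ok.1 h2, glue_true, h4, zero_add]
    · simp only [pi_neg h, zero_mul]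
  have h4 : (JH c D' fun hi ωi => pi (Enc (ox D (glue D' ho hi) (ωo ∪ ωi)) (sq v r) (sq v N)) *
        ((hi (v, true) : ℝ) * ho (w, true))) =
      -1 * JH c D' fun hi ωi => pi (Enc (ox D (glue D' ho hi) (ωo ∪ ωi)) (sq v r) (sq v N)) *
        ((hi (v, true) : ℝ) * ho (w, true)) := by
    rw [← JH_mul]
    refine (JH_neg _).trans (JH_congr fun hi ωi ok => ?_)
    have h5 := (o_glue_flp D' k ok.1 (ωo ∪ ωi)).1
    rw [flp_self ok.1] at h5
    simp only [h5, Pi.neg_apply, Int.cast_neg]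
    ring
  rw [h3]
  linarith

/-- no correlation across a plus circuit attached to the boundary -/
theorem v_cut {c : ℝ} (hc : 1 ≤ c) {D : Finset Site} (hD : Cc D) {v w : Site} {r N : ℕ}
    (hr : ¬ sq v r ⊆ D) (hw : (N : ℤ) ≤ sd v w) :
    JH c D (fun h ω => pi (Enc (ox D h ω) (sq v r) (sq v N)) *
      ((h (v, true) : ℝ) * h (w, true))) = 0 := by
  have h0 : 0 < c := by linarith
  have h1 : ∀ D' ho ωo, Inn c D' ho ωo (fun _ _ => 0) = 0 := fun D' ho ωo => JH_const h0 0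
  refine le_antisymm ?_ ?_
  · rw [← JH_const (D := D) h0 0]
    refine m_exp c hc D 0 (sq v N : Set Site)ᶜ (vin D : Set Vx)ᶜ Set.univ (fun z => z % 4 = 0) _ _
      (hD.union_compl (cc_sq v N)) disjoint_compl_left (fun _ h => h) (Or.inl rfl)
      fun D' ho ωo _ _ k he hR => ?_
    simp only [Set.inter_univ] at he hR
    rw [h1, VTwo_inn hr hw k he hR]
  · rw [← JH_const (D := D) h0 0]
    refine m_exp c hc D 0 (sq v N : Set Site)ᶜ (vin D : Set Vx)ᶜ Set.univ (fun z => z % 4 = 0) _ _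
      (hD.union_compl (cc_sq v N)) disjoint_compl_left (fun _ h => h) (Or.inl rfl)
      fun D' ho ωo _ _ k he hR => ?_
    simp only [Set.inter_univ] at he hR
    rw [h1, VTwo_inn hr hw k he hR]

/-- a minus circuit round both points excludes the plus circuit -/
theorem VTwo_nest {D : Finset Site} (hD : Cc D) {v w : Site} {r N : ℕ} (hr : ¬ sq v r ⊆ D)
    (hw : (N : ℤ) < sd v w) {h : Ht} {ω : Finset Vx} (ok : Ok D h ω)
    (h2 : Enc (o2 h ω) {v, w} Set.univ) : ¬ Enc (ox D h ω) (sq v r) (sq v N) := by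
  rintro ⟨E, e1, e2, e3, e4, e5⟩
  obtain ⟨C, c1, -, c3, c4, c5⟩ := h2
  have h3 : C ⊆ D := hD.subset_of_bd fun m hm => o2_subset ok (c5 hm)
  rcases p_nest E C e3 e4 c3 c4 (fun m hm m' hm' x hx hx' => by
    have a := ok.ox (e5 hm) hx
    have b := ok.o2 (c5 hm') hx'
    omega) with k | k | k
  · exact hr fun f hf => h3 (k (e1 hf))
  · have a := sd_le_of_mem_sq (e2 (k (c1 (Set.mem_insert_of_mem v rfl))))
    rw [VTwo_sd] at a
    omega
  · exact Finset.disjoint_left.1 k (e1 (self_mem_sq (VTwo_pos hr))) (c1 (Set.mem_insert v _))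

theorem VTwo_ind {c q : ℝ} (hc : 1 ≤ c) (hq : 0 ≤ q) (hq' : q ≤ 1 / 2) {v w : Site} {r N : ℕ}
    (hw : (N : ℤ) < sd v w)
    (hS : ∀ D, Cc D → PG c D (fun P _ => pi (¬ Enc P (sq v r) (sq v N))) ≤ q)
    (D : Finset Site) : Cc D → ¬ sq v r ⊆ D → VV c D v w ≤ 8 * q := by
  induction D using Finset.strongInductionOn with
  | _ D ih =>
  intro hD hr
  have h1 : VV c D v w = JH c D fun h ω => pi (¬ Enc (ox D h ω) (sq v r) (sq v N)) *
      ((h (v, true) : ℝ) * h (w, true)) := by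
    rw [VV, ← JH_PH, ← zero_add (JH c D fun h ω => pi (¬ Enc (ox D h ω) (sq v r) (sq v N)) * _),
      ← v_cut hc hD hr hw.le, ← JH_add]
    refine JH_congr fun h ω _ => ?_
    rw [pi_not]
    ring
  have h2 := s_rec c hc D v w (fun P _ => ¬ Enc P (sq v r) (sq v N)) (fun _ => 8 * q) hD
    (fun _ => by positivity) (fun D' h h' => ih D' h h' fun k => hr (k.trans h.subset))
    fun h ω ok k => VTwo_nest hD hr hw ok k
  have h3 : (JH c D fun h ω => 4 * pi (¬ Enc (ox D h ω) (sq v r) (sq v N)) +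
      pi (Enc (o2 h ω) {v, w} Set.univ) * (8 * q)) ≤
      JH c D fun h ω => (4 + 8 * q) * pi (¬ Enc (ox D h ω) (sq v r) (sq v N)) := by
    refine JH_mono hc fun h ω ok => ?_
    have := mul_le_mul_of_nonneg_right (pi_mono (VTwo_nest hD hr hw ok))
      (show 0 ≤ 8 * q by positivity)
    linarith
  rw [JH_mul] at h3
  have h4 : (JH c D fun h ω => pi (¬ Enc (ox D h ω) (sq v r) (sq v N))) ≤ q := hS D hD
  have h5 := mul_le_mul_of_nonneg_left h4 (show 0 ≤ 4 + 8 * q by positivity)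
  rw [h1]
  nlinarith [h2.trans h3]

theorem v2_of {c : ℝ} (hc : 1 ≤ c) (h : SR c) : V2 c := by
  intro ε hε
  have hq : 0 < min (ε / 8) (1 / 2) := lt_min (by positivity) (by norm_num)
  obtain ⟨μ, n1, -, h1, h2⟩ := h _ hq
  refine ⟨μ + 1, n1, h1, fun r hr D v w hD hs hw => ?_⟩
  have hr1 : (1 : ℤ) ≤ r := by exact_mod_cast h1.trans hr
  have h3 : (μ : ℤ) * r + r ≤ sd v w := by
    push_cast at hw
    linarith
  have h4 : (0 : ℤ) ≤ (μ : ℤ) * r := by positivity
  have h5 : (((sd v w - 1).toNat : ℕ) : ℤ) = sd v w - 1 := Int.toNat_of_nonneg (by omega)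
  have h6 : (sd v w - 1).toNat ≥ μ * r := by
    have : ((μ * r : ℕ) : ℤ) ≤ (((sd v w - 1).toNat : ℕ) : ℤ) := by
      rw [h5]
      push_cast
      omega
    exact_mod_cast this
  have h7 := VTwo_ind hc hq.le (min_le_right _ _) (v := v) (w := w) (r := r)
    (N := (sd v w - 1).toNat) (by omega) (h2 r hr _ h6 v).1 D hD hs
  have h8 := min_le_left (ε / 8) (1 / 2)
  linarith

end Vale.Agent.P145
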