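import Vale.Agent.P145.JBas

/-! P145: thinning. -/

open Filter Topology

namespace Vale.Agent.P145

open Vale.Agent.P152

theorem HThin_pr {ι : Type*} [DecidableEq ι] {E t : Finset ι} {a : ι} (ha : a ∉ E) (ht : t ⊆ E)
    (p q : ι → ℝ) :
    (∏ m ∈ insert a E, if m ∈ t then p m else q m) = q a * (∏ m ∈ E, if m ∈ t then p m else q m) ∧
    (∏ m ∈ insert a E, if m ∈ insert a t then p m else q m) =
      p a * ∏ m ∈ E, if m ∈ t then p m else q m := by
  refine ⟨by rw [Finset.prod_insert ha, if_neg fun h => ha (ht h)], ?_⟩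
  rw [Finset.prod_insert ha, if_pos (Finset.mem_insert_self _ _)]
  refine congrArg _ (Finset.prod_congr rfl fun m hm => if_congr ?_ rfl rfl)
  rw [Finset.mem_insert]
  exact or_iff_right fun h => ha (h ▸ hm)

theorem HThin_gen {ι : Type*} [DecidableEq ι] (z : ι → Prop) [DecidablePred z] (a0 a1 : ι → ℝ)
    (E : Finset ι) : ∀ φ : Finset ι → ℝ,
    ∑ ω ∈ E.powerset, (∏ m ∈ E, if m ∈ ω then a1 m else a0 m) * φ (ω.filter z) =
      ∑ u ∈ E.powerset, (∏ m ∈ E, if m ∈ u then (if z m then a0 m else a0 m + a1 m)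
        else (if z m then a1 m else 0)) * φ (E \ u) := by
  induction E using Finset.induction_on with
  | empty => intro φ; simp
  | insert a E ha ih =>
    intro φ
    rw [Finset.sum_powerset_insert ha, Finset.sum_powerset_insert ha]
    have e1 : ∀ u ∈ E.powerset, insert a E \ u = insert a (E \ u) := fun u hu =>
      Finset.insert_sdiff_of_notMem _ fun h => ha (Finset.mem_powerset.1 hu h)
    have e2 : ∀ u : Finset ι, insert a E \ insert a u = E \ u := fun u => by
      rw [Finset.insert_sdiff_insert, Finset.sdiff_insert_of_notMem ha]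
    rw [Finset.sum_congr rfl fun t ht => by
        rw [(HThin_pr ha (Finset.mem_powerset.1 ht) a1 a0).1, mul_assoc],
      Finset.sum_congr (s₁ := E.powerset) (f := fun t => _ * φ ((insert a t).filter z)) rfl
        fun t ht => by rw [(HThin_pr ha (Finset.mem_powerset.1 ht) a1 a0).2, mul_assoc],
      Finset.sum_congr (s₁ := E.powerset) (f := fun t => _ * φ (insert a E \ t)) rfl
        fun t ht => by rw [(HThin_pr ha (Finset.mem_powerset.1 ht) _ _).1, mul_assoc, e1 t ht],
      Finset.sum_congr (s₁ := E.powerset) (f := fun t => _ * φ (insert a E \ insert a t)) rfl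
        fun t ht => by rw [(HThin_pr ha (Finset.mem_powerset.1 ht) _ _).2, mul_assoc, e2 t]]
    simp only [← Finset.mul_sum]
    rw [← ih φ, ← ih fun t => φ (insert a t)]
    by_cases hz : z a
    · simp only [Finset.filter_insert, if_pos hz]
      ring
    · simp only [Finset.filter_insert, if_neg hz]
      ring

theorem HThin_one (c : ℝ) (D : Finset Site) (h : Ht) (b : Set Vx → ℝ) :
    ∑ ω ∈ (vin D).powerset, (∏ m ∈ vin D, ow c h ω m) * b (op (· = 0) h ω) =
      ∑ u ∈ (vin D).powerset, (∏ m ∈ vin D, ew c h u m) * b ((vin D \ u : Finset Vx) : Set Vx) := by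
  have k := HThin_gen (fun m : Vx => h (src m, true) = 0) (fun m => hv c h m - ag h m) (ag h)
    (vin D) fun t => b (t : Set Vx)
  refine (Finset.sum_congr rfl fun ω _ => ?_).trans (k.trans (Finset.sum_congr rfl fun u _ => ?_))
  · refine congrArg₂ _ rfl (congrArg b (Set.ext fun m => ?_))
    simp [op]
  · refine congrArg (· * _) (Finset.prod_congr rfl fun m _ => ?_)
    unfold ew
    by_cases hz : h (src m, true) = 0
    · have e : iz h m = ag h m := if_congr (by rw [hz]; simp [eq_comm]) rfl rfl
      rw [if_pos hz, if_pos hz, e]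
    · have e : iz h m = 0 := if_neg fun h => hz h.1
      rw [if_neg hz, if_neg hz, e, sub_add_cancel, sub_zero]

theorem h_thin : H_thin := by
  classical
  intro c D F b
  unfold jn hu
  have e : ∀ h ∈ hs D, ∑ ω ∈ (vin D).powerset,
      (∏ m ∈ vin D, ow c h ω m) * (b (op (· = 0) h ω) * F h) =
      ∑ u ∈ (vin D).powerset, (∏ m ∈ vin D, ew c h u m) *
        (b ((vin D \ u : Finset Vx) : Set Vx) *
          F (NFDec_inv (fun x => |h x|) (D.filter fun f => 0 < h (f, false)))) := fun h hh => by
    rw [NFDec_left (mem_hs.1 hh)]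
    simp only [← mul_assoc, ← Finset.sum_mul, HThin_one]
  rw [Finset.sum_congr rfl e, Finset.sum_comm, Finset.sum_comm (s := (hs D).filter _)]
  refine Finset.sum_congr rfl fun u hu => ?_
  rw [decomp' c D (Finset.mem_powerset.1 hu)
    fun H s => b ((vin D \ u : Finset Vx) : Set Vx) * F (NFDec_inv H s)]
  refine Finset.sum_congr rfl fun H _ => congrArg _ ?_
  simp only [← Finset.mul_sum, sav, Finset.inter_eq_left.2 (Finset.mem_powerset.1 hu)]
  rw [mul_left_comm, mul_div_cancel₀ _ (Nat.cast_pos.2 (KK_pos D u)).ne']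

end Vale.Agent.P145
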