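import Vale.Agent.P145.HFour
import Vale.Agent.P145.HThin

/-! P145: correlation inequalities for absolute values. -/

open Filter Topology

namespace Vale.Agent.P145

open Vale.Agent.P152

open Classical in
theorem HNeg_Y (c : ℝ) {D D' : Finset Site} (hD : D ⊆ D') {u : Finset Vx} (hu : u ⊆ vin D)
    (G : Ht → ℝ) :
    ∑ H ∈ (hs D).filter (0 ≤ ·), (∏ m ∈ vin D, ew c H u m) * G (H + flat (D' \ D)) =
      ∑ H ∈ (hs D').filter (0 ≤ ·), (∏ m ∈ vin D', ew c H u m) * G H := by
  refine Finset.sum_of_injOn (fun H => H + flat (D' \ D)) (fun a _ b _ h => add_right_cancel h)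
    (fun H hH => ?_) (fun H hH hn => ?_) fun H hH => ?_
  · simp only [Finset.coe_filter, mem_hs, Set.mem_setOf_eq] at hH ⊢
    refine ⟨NFMk_up hD hH.1, add_nonneg hH.2 fun x => ?_⟩
    simp only [flat, Pi.zero_apply]
    split_ifs <;> norm_num
  · by_contra hne
    simp only [Finset.mem_filter, mem_hs] at hH
    refine hn ⟨H - flat (D' \ D), ?_, sub_add_cancel _ _⟩
    simp only [Finset.coe_filter, mem_hs, Set.mem_setOf_eq]
    exact NFMk_down hD hu hH.1 hH.2 (left_ne_zero_of_mul hne)
  · simp only [Finset.mem_filter, mem_hs] at hH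
    refine congrArg (· * _) ?_
    rw [← Finset.prod_subset (vin_mono hD) fun m _ hm => ?_]
    · refine Finset.prod_congr rfl fun m hm => ?_
      have := mem_vin.1 hm
      simp [ew, hv, iz, NFMk_true, NFMk_false, this.1, this.2]
    · rw [ew, if_neg fun h => hm (hu h), iz, if_pos]
      simp [NFMk_true, hH.1.1 _ fun h => hm (vin_of_src h), hH.1.1 _ fun h => hm (vin_of_tgt h)]

theorem HNeg_K {D D' : Finset Site} (hD : D ⊆ D') {u : Finset Vx} (hu : u ⊆ vin D)
    (G : Finset Site → ℝ) :
    ∑ s ∈ KK D' u, G (s ∩ D) = 2 ^ (D' \ D).card * ∑ s ∈ KK D u, G s := by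
  have e : (2 : ℝ) ^ (D' \ D).card * ∑ s ∈ KK D u, G s =
      ∑ p ∈ (D' \ D).powerset ×ˢ KK D u, G p.2 := by
    rw [Finset.sum_product' (f := fun _ s => G s), Finset.sum_const, Finset.card_powerset,
      nsmul_eq_mul]
    push_cast
    rfl
  rw [e]
  refine Finset.sum_nbij' (fun s => (s \ D, s ∩ D)) (fun p => p.1 ∪ p.2) (fun s hs => ?_)
    (fun p hp => ?_) (fun s _ => Finset.sdiff_union_inter s D) (fun p hp => ?_) fun _ _ => rfl
  · simp only [Finset.mem_product, mem_KK, Finset.mem_powerset] at hs ⊢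
    refine ⟨Finset.sdiff_subset_sdiff hs.1 le_rfl, Finset.inter_subset_right, fun m hm => ?_⟩
    have := mem_vin.1 (hu hm)
    simp [this.1, this.2, hs.2 m hm]
  · simp only [Finset.mem_product, mem_KK, Finset.mem_powerset] at hp ⊢
    refine ⟨Finset.union_subset (hp.1.trans Finset.sdiff_subset) (hp.2.1.trans hD),
      fun m hm => ?_⟩
    have := mem_vin.1 (hu hm)
    have a : fa m ∉ p.1 := fun h => (Finset.mem_sdiff.1 (hp.1 h)).2 this.1
    have b : fb m ∉ p.1 := fun h => (Finset.mem_sdiff.1 (hp.1 h)).2 this.2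
    simp [a, b, hp.2.2 m hm]
  · simp only [Finset.mem_product, mem_KK, Finset.mem_powerset] at hp
    have a : ∀ x ∈ p.1, x ∉ D := fun x h => (Finset.mem_sdiff.1 (hp.1 h)).2
    have b : ∀ x ∈ p.2, x ∈ D := fun x h => hp.2.1 h
    refine Prod.ext ?_ ?_ <;> ext x <;> have := a x <;> have := b x <;>
      simp only [Finset.mem_sdiff, Finset.mem_inter, Finset.mem_union] <;> tauto

theorem HNeg_sav (D : Finset Site) (F : Ht → ℝ) (H : Ht) {u : Finset Vx} (hu : u ⊆ vin D) :
    (KK D u).card * sav D F H u = ∑ s ∈ KK D u, F (NFDec_inv H s) := by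
  rw [sav, Finset.inter_eq_left.2 hu]
  exact mul_div_cancel₀ _ (Nat.cast_pos.2 (KK_pos D u)).ne'

theorem HNeg_one (D : Finset Site) (H : Ht) (u : Finset Vx) : sav D (fun _ => 1) H u = 1 := by
  rw [sav, Finset.sum_const, nsmul_eq_mul, mul_one]
  exact div_self (Nat.cast_pos.2 (KK_pos D _)).ne'

open Classical in
/-- Markov property when all edges outside `D'` are open at height zero -/
theorem hu_markov (c : ℝ) {D D' : Finset Site} (hD : D' ⊆ D) {F : Ht → ℝ} (hF : DepV Set.univ F) :
    hu c D (fun H u => pi (u ⊆ vin D') * sav D F H u) =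
      2 ^ (D \ D').card * hu c D' fun H u => sav D' F H u := by
  unfold hu
  rw [Finset.sum_comm, Finset.sum_comm (s := (hs D').filter (0 ≤ ·)), Finset.mul_sum,
    ← Finset.sum_subset (Finset.powerset_mono.2 (vin_mono hD)) fun u _ hu => ?_]
  · refine Finset.sum_congr rfl fun u hu => ?_
    have hu := Finset.mem_powerset.1 hu
    simp only [pi_pos hu, one_mul, HNeg_sav _ _ _ hu, HNeg_sav _ _ _ (hu.trans (vin_mono hD))]
    rw [← HNeg_Y c hD hu fun H => ∑ s ∈ KK D u, F (NFDec_inv H s), Finset.mul_sum]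
    refine Finset.sum_congr rfl fun H hH => ?_
    have hH := mem_hs.1 (Finset.mem_filter.1 hH).1
    rw [mul_left_comm, ← HNeg_K hD hu fun s => F (NFDec_inv H s)]
    refine congrArg _ (Finset.sum_congr rfl fun s _ => hF _ _ fun v _ => ?_)
    by_cases hv : v ∈ D'
    · simp [NFDec_inv, NFMk_true, hv]
    · simp [NFDec_inv, NFMk_true, hH.1 v fun h => hv (inn_subset h)]
  · simp [pi_neg (mt Finset.mem_powerset.2 hu)]

theorem HNeg_b (c : ℝ) (D : Finset Site) (b : Set Vx → ℝ) :
    jn c D (fun h ω => b (op (· = 0) h ω)) =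
      hu c D fun _ u => b ((vin D \ u : Finset Vx) : Set Vx) := by
  have k := h_thin c D (fun _ => 1) b
  simpa only [mul_one, HNeg_one] using k

theorem HNeg_Z (c : ℝ) (D : Finset Site) : jn c D 1 = hu c D fun _ _ => 1 :=
  HNeg_b c D fun _ => 1

theorem HNeg_PH (c : ℝ) (D : Finset Site) (F : Ht → ℝ) :
    PH c D F = hu c D (fun H u => sav D F H u) / jn c D 1 := by
  have k := h_thin c D F fun _ => 1
  simp only [one_mul] at k
  rw [← JH_PH, JH, k]

theorem h_neg : H_neg := by
  intro c hc D F b hF hb h0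
  have Z := jn_pos (zero_lt_one.trans_le hc) D
  have k := h_four c hc D (fun _ _ => 1)
    (fun H u => b ((vin D \ u : Finset Vx) : Set Vx) * sav D F H u)
    (fun _ u => b ((vin D \ u : Finset Vx) : Set Vx)) (fun H u => sav D F H u)
    (fun H u h1 h2 => by
      have := (hF.2 D H H u u h1 h1 h2 le_rfl subset_rfl).1
      exact ⟨zero_le_one, mul_nonneg (h0 _) this, h0 _, this⟩)
    fun H H' u u' u'' h1 h2 _ h4 h5 => by
      have := hF.2 D H' (H ⊔ H') u' (u ∪ u') h2 (h1.sup h2) h4 le_sup_right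
        Finset.subset_union_right
      rw [one_mul]
      exact mul_le_mul (hb (Finset.coe_subset.2 (Finset.sdiff_subset_sdiff subset_rfl
        (h5.trans Finset.inter_subset_right)))) this.2 this.1 (h0 _)
  rw [JH, JH, HNeg_PH, h_thin, HNeg_b, div_mul_div_comm, div_le_div_iff₀ Z (mul_pos Z Z),
    ← mul_assoc]
  rw [← HNeg_Z, mul_comm] at k
  exact mul_le_mul_of_nonneg_right k Z.le

theorem h_out : H_out := by
  intro c hc D D' F b hF hD h0
  have Z := jn_pos (zero_lt_one.trans_le hc) D
  have Z' := jn_pos (zero_lt_one.trans_le hc) D'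
  have k := h_four c hc D (fun H u => pi (u ⊆ vin D') * sav D F H u)
    (fun _ u => b (((vin D \ u : Finset Vx) : Set Vx) \ vin D'))
    (fun H u => pi (u ⊆ vin D') * sav D (fun _ => 1) H u)
    (fun H u => b (((vin D \ u : Finset Vx) : Set Vx) \ vin D') * sav D F H u)
    (fun H u h1 h2 => by
      have := (hF.2 D H H u u h1 h1 h2 le_rfl subset_rfl).1
      rw [HNeg_one, mul_one]
      exact ⟨mul_nonneg (pi_nonneg _) this, h0 _, pi_nonneg _, mul_nonneg (h0 _) this⟩)
    fun H H' u u' u'' h1 h2 h3 _ h5 => by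
      have k1 := hF.2 D H (H ⊔ H') u (u ∪ u') h1 (h1.sup h2) h3 le_sup_left
        Finset.subset_union_left
      rw [HNeg_one, mul_one]
      by_cases hu : u ⊆ vin D'
      · have e : ((vin D \ (u ∪ u') : Finset Vx) : Set Vx) \ vin D' =
            ((vin D \ u' : Finset Vx) : Set Vx) \ vin D' := by
          ext m
          have := @hu m
          simp only [Set.mem_diff, Finset.mem_coe, Finset.mem_sdiff, Finset.mem_union]
          tauto
        rw [pi_pos hu, pi_pos ((h5.trans Finset.inter_subset_left).trans hu), one_mul, one_mul, e,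
          mul_comm]
        exact mul_le_mul_of_nonneg_left k1.2 (h0 _)
      · rw [pi_neg hu, zero_mul, zero_mul]
        exact mul_nonneg (pi_nonneg _) (mul_nonneg (h0 _) (k1.1.trans k1.2))
  rw [hu_markov c hD hF.1, hu_markov c hD (F := fun _ => 1) fun _ _ _ => rfl] at k
  simp only [HNeg_one] at k
  rw [← HNeg_Z, mul_assoc, mul_assoc, mul_le_mul_iff_right₀ (by positivity)] at k
  rw [JH, JH, HNeg_PH, h_thin c D F fun O => b (O \ vin D'), HNeg_b c D fun O => b (O \ vin D'),
    div_mul_div_comm, div_le_div_iff₀ (mul_pos Z Z') Z]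
  have := mul_le_mul_of_nonneg_right k Z.le
  linarith

theorem h_mono : H_mono := by
  intro c hc D D' F hF hD
  have k := h_out c hc D D' F (fun _ => 1) hF hD fun _ => zero_le_one
  simp only [one_mul] at k
  rwa [JH_const (zero_lt_one.trans_le hc), one_mul, JH_PH] at k

end Vale.Agent.P145
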