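import Vale.Agent.P145.Core

/-! P145: functions that increase with the absolute value. -/

open Filter Topology

namespace Vale.Agent.P145

open Vale.Agent.P152

/-- characters of the group of sign configurations -/
def HSp_Ch (D : Finset Site) (e : Finset Site → ℝ) : Prop :=
  (∀ s, e s = 1 ∨ e s = -1) ∧ ∀ s t, e (D \ symmDiff s t) = e s * e t

/-- the sign at a site -/
def HSp_eps (D : Finset Site) (v : Site) (s : Finset Site) : ℝ := if v ∈ s ∨ v ∉ D then 1 else -1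

theorem HSp_ch_eps (D : Finset Site) (v : Site) : HSp_Ch D (HSp_eps D v) := by
  refine ⟨fun s => by unfold HSp_eps; split_ifs <;> simp, fun s t => ?_⟩
  by_cases h1 : v ∈ D <;> by_cases h2 : v ∈ s <;> by_cases h3 : v ∈ t <;>
    simp [HSp_eps, Finset.mem_symmDiff, h1, h2, h3]

theorem HSp_ch_mul {D : Finset Site} {e e' : Finset Site → ℝ} (h : HSp_Ch D e)
    (h' : HSp_Ch D e') : HSp_Ch D fun s => e s * e' s := by
  refine ⟨fun s => ?_, fun s t => by simp only [h.2, h'.2]; ring⟩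
  rcases h.1 s with k | k <;> rcases h'.1 s with k' | k' <;> simp [k, k']

theorem HSp_ch_prod (D A : Finset Site) : HSp_Ch D fun s => ∏ v ∈ A, HSp_eps D v s := by
  induction A using Finset.induction_on with
  | empty => exact ⟨fun s => Or.inl (by simp), fun s t => by simp⟩
  | insert v A hv ih =>
    simp only [Finset.prod_insert hv]
    exact HSp_ch_mul (HSp_ch_eps D v) ih

theorem HSp_zero {D : Finset Site} {u : Finset Vx} (hu : u ⊆ vin D) {e : Finset Site → ℝ}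
    (h : HSp_Ch D e) {t : Finset Site} (ht : t ∈ KK D u) (he : e t = -1) :
    ∑ s ∈ KK D u, e s = 0 := by
  refine Finset.sum_involution (fun s _ => D \ symmDiff s t) (fun s _ => by rw [h.2, he]; ring)
    (fun s _ h0 k => h0 ?_) (fun s hs => ?_) fun s hs => ?_
  · have := h.2 s t
    rw [k, he] at this
    linarith
  · refine mem_KK.2 ⟨Finset.sdiff_subset, fun m hm => ?_⟩
    have h1 := mem_vin.1 (hu hm)
    simp only [Finset.mem_sdiff, Finset.mem_symmDiff, h1.1, h1.2, (mem_KK.1 hs).2 m hm,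
      (mem_KK.1 ht).2 m hm]
  · ext v
    have h1 := @(mem_KK.1 hs).1 v
    have h2 := @(mem_KK.1 ht).1 v
    simp only [Finset.mem_sdiff, Finset.mem_symmDiff]
    tauto

theorem HSp_av {D : Finset Site} {u u' : Finset Vx} (huu : u ⊆ u') (hu : u' ⊆ vin D)
    {e : Finset Site → ℝ} (h : HSp_Ch D e) : 0 ≤ (∑ s ∈ KK D u, e s) / (KK D u).card ∧
      (∑ s ∈ KK D u, e s) / (KK D u).card ≤ (∑ s ∈ KK D u', e s) / (KK D u').card := by
  have one : ∀ w, (∀ s ∈ KK D w, e s = 1) → (∑ s ∈ KK D w, e s) / (KK D w).card = 1 := by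
    intro w hw
    rw [Finset.sum_congr rfl hw, Finset.sum_const, nsmul_eq_mul, mul_one,
      div_self (Nat.cast_ne_zero.2 (KK_pos D w).ne')]
  have zero : ∀ w, w ⊆ vin D → ¬ (∀ s ∈ KK D w, e s = 1) →
      (∑ s ∈ KK D w, e s) / (KK D w).card = 0 := by
    intro w hw k
    push Not at k
    obtain ⟨t, ht, k⟩ := k
    rw [HSp_zero hw h ht ((h.1 t).resolve_left k), zero_div]
  by_cases h1 : ∀ s ∈ KK D u, e s = 1
  · rw [one u h1, one u' fun s hs => h1 s (KK_anti huu hs)]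
    exact ⟨zero_le_one, le_rfl⟩
  · rw [zero u (huu.trans hu) h1]
    refine ⟨le_rfl, ?_⟩
    by_cases h2 : ∀ s ∈ KK D u', e s = 1
    · rw [one u' h2]
      exact zero_le_one
    · rw [zero u' hu h2]

theorem HSp_exp {ι : Type} (I : Finset ι) {D : Finset Site} {u u' : Finset Vx} (h2 : u ⊆ u')
    {F : Ht → ℝ} {H H' : Ht} {e : ι → Finset Site → ℝ} (h : ∀ i, HSp_Ch D (e i))
    {c c' : ι → ℝ} (h0 : ∀ i ∈ I, 0 ≤ c i) (h1 : ∀ i ∈ I, c i ≤ c' i)
    (hF : ∀ s, F (NFDec_inv H s) = ∑ i ∈ I, c i * e i s)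
    (hF' : ∀ s, F (NFDec_inv H' s) = ∑ i ∈ I, c' i * e i s) :
    0 ≤ sav D F H u ∧ sav D F H u ≤ sav D F H' u' := by
  have huu : u ∩ vin D ⊆ u' ∩ vin D := Finset.inter_subset_inter_right h2
  have hu : u' ∩ vin D ⊆ vin D := Finset.inter_subset_right
  simp only [sav, hF, hF']
  rw [Finset.sum_comm, Finset.sum_comm (s := KK D (u' ∩ vin D)), Finset.sum_div, Finset.sum_div]
  simp only [← Finset.mul_sum, mul_div_assoc]
  exact ⟨Finset.sum_nonneg fun i hi => mul_nonneg (h0 i hi) (HSp_av huu hu (h i)).1,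
    Finset.sum_le_sum fun i hi => mul_le_mul (h1 i hi) (HSp_av huu hu (h i)).2
      (HSp_av huu hu (h i)).1 ((h0 i hi).trans (h1 i hi))⟩

theorem HSp_lin {D : Finset Site} {H : Ht} (hH : IsH D H) (a : Site →₀ ℝ) (s : Finset Site) :
    lin a (NFDec_inv H s) = ∑ v ∈ a.support, a v * H (v, true) * HSp_eps D v s := by
  refine Finset.sum_congr rfl fun v _ => ?_
  by_cases h1 : v ∈ s
  · simp [NFDec_inv, HSp_eps, h1]
  · by_cases h2 : v ∈ D
    · simp [NFDec_inv, HSp_eps, h1, h2]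
    · simp [NFDec_inv, HSp_eps, h1, hH.1 v fun k => h2 (inn_subset k)]

theorem HSp_e (D : Finset Site) (v : Site) (s : Finset Site) (x : ℝ) :
    Real.exp (x * HSp_eps D v s) = Real.sinh x * HSp_eps D v s + Real.cosh x := by
  rcases (HSp_ch_eps D v).1 s with k | k <;> rw [k]
  · rw [mul_one, mul_one, Real.sinh_add_cosh]
  · rw [mul_neg_one, mul_neg_one, ← Real.cosh_sub_sinh]
    ring

theorem HSp_main (a : Site →₀ ℝ) (ha : ∀ v, 0 ≤ a v) {D : Finset Site} {H H' : Ht}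
    {u u' : Finset Vx} (hH : IsH D H) (hH' : IsH D H') (h0 : 0 ≤ H) (h1 : H ≤ H') (huu : u ⊆ u') :
    (0 ≤ sav D (fun h => Real.exp (lin a h)) H u ∧
      sav D (fun h => Real.exp (lin a h)) H u ≤ sav D (fun h => Real.exp (lin a h)) H' u') ∧
    0 ≤ sav D (fun h => lin a h ^ 2) H u ∧
      sav D (fun h => lin a h ^ 2) H u ≤ sav D (fun h => lin a h ^ 2) H' u' := by
  have k0 : ∀ v, 0 ≤ a v * H (v, true) := fun v => mul_nonneg (ha v) (Int.cast_nonneg (h0 _))
  have k1 : ∀ v, a v * H (v, true) ≤ a v * H' (v, true) := fun v =>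
    mul_le_mul_of_nonneg_left (Int.cast_le.2 (h1 _)) (ha v)
  have e1 : ∀ K : Ht, IsH D K → ∀ s, Real.exp (lin a (NFDec_inv K s)) =
      ∑ t ∈ a.support.powerset, ((∏ v ∈ t, Real.sinh (a v * K (v, true))) *
        ∏ v ∈ a.support \ t, Real.cosh (a v * K (v, true))) * ∏ v ∈ t, HSp_eps D v s := by
    intro K hK s
    rw [HSp_lin hK, Real.exp_sum]
    simp only [HSp_e]
    rw [Finset.prod_add]
    refine Finset.sum_congr rfl fun t _ => ?_
    rw [Finset.prod_mul_distrib]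
    ring
  have e2 : ∀ K : Ht, IsH D K → ∀ s, lin a (NFDec_inv K s) ^ 2 =
      ∑ p ∈ a.support ×ˢ a.support, (a p.1 * K (p.1, true) * (a p.2 * K (p.2, true))) *
        (HSp_eps D p.1 s * HSp_eps D p.2 s) := by
    intro K hK s
    rw [HSp_lin hK, pow_two, Finset.sum_mul_sum, Finset.sum_product]
    exact Finset.sum_congr rfl fun v _ => Finset.sum_congr rfl fun w _ => by ring
  have s0 : ∀ v, 0 ≤ Real.sinh (a v * H (v, true)) := fun v => Real.sinh_nonneg_iff.2 (k0 v)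
  refine ⟨HSp_exp _ huu (fun t => HSp_ch_prod D t) (fun t _ => mul_nonneg
      (Finset.prod_nonneg fun v _ => s0 v) (Finset.prod_nonneg fun v _ => (Real.cosh_pos _).le))
      (fun t _ => ?_) (e1 H hH) (e1 H' hH'),
    HSp_exp _ huu (fun p : Site × Site => HSp_ch_mul (HSp_ch_eps D p.1) (HSp_ch_eps D p.2))
      (fun p _ => mul_nonneg (k0 _) (k0 _))
      (fun p _ => mul_le_mul (k1 _) (k1 _) (k0 _) ((k0 _).trans (k1 _))) (e2 H hH) (e2 H' hH')⟩
  refine mul_le_mul (Finset.prod_le_prod (fun v _ => s0 v) fun v _ => Real.sinh_le_sinh.2 (k1 v))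
    (Finset.prod_le_prod (fun v _ => (Real.cosh_pos _).le) fun v _ => Real.cosh_le_cosh.2 ?_)
    (Finset.prod_nonneg fun v _ => (Real.cosh_pos _).le)
    (Finset.prod_nonneg fun v _ => Real.sinh_nonneg_iff.2 ((k0 v).trans (k1 v)))
  rw [abs_of_nonneg (k0 v), abs_of_nonneg ((k0 v).trans (k1 v))]
  exact k1 v

theorem HSp_dep (a : Site →₀ ℝ) {h h' : Ht} (e : ∀ v ∈ Set.univ, h (v, true) = h' (v, true)) :
    lin a h = lin a h' :=
  Finset.sum_congr rfl fun v _ => by simp only [e v trivial]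

theorem h_sp : H_sp := fun a ha =>
  ⟨⟨fun _ _ e => congrArg Real.exp (HSp_dep a e), fun _ _ _ _ _ h1 h2 h3 h4 h5 =>
      (HSp_main a ha h1 h2 h3 h4 h5).1⟩,
    fun _ _ e => congrArg (· ^ 2) (HSp_dep a e), fun _ _ _ _ _ h1 h2 h3 h4 h5 =>
      (HSp_main a ha h1 h2 h3 h4 h5).2⟩

end Vale.Agent.P145
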