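import Vale.Agent.P145.JBas

/-! P145: symmetries. -/

open Filter Topology

namespace Vale.Agent.P145

open Vale.Agent.P152

theorem MSym_cor {D s : Finset Site} (hs : ∀ m ∈ vin D, fa m ∈ s ↔ fb m ∈ s) {v f : Site}
    (hv : v ∈ inn D) (hf : v ∈ cor f) : v ∈ s ↔ f ∈ s := by
  obtain ⟨h1, h2, h3, h4⟩ := mem_inn.1 hv
  have e : v - (0, 1) - (1, 0) = v - (1, 1) := by
    rw [sub_sub]
    rfl
  have k1 : v ∈ s ↔ v - (1, 0) ∈ s := hs (v, false) (mem_vin.2 ⟨h1, h2⟩)
  have k2 : v ∈ s ↔ v - (0, 1) ∈ s := hs (v, true) (mem_vin.2 ⟨h1, h3⟩)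
  have k3 : v - (0, 1) ∈ s ↔ v - (0, 1) - (1, 0) ∈ s :=
    hs (v - (0, 1), false) (mem_vin.2 ⟨h3, (e ▸ h4 : v - (0, 1) - (1, 0) ∈ D)⟩)
  rw [e] at k3
  simp only [cor, Finset.mem_insert, Finset.mem_singleton] at hf
  rcases hf with rfl | rfl | rfl | rfl
  · rfl
  · simpa using k1
  · simpa using k2
  · simpa using k2.trans k3

theorem MSym_v {D s : Finset Site} (hs : ∀ m ∈ vin D, fa m ∈ s ↔ fb m ∈ s) {h : Ht}
    (hh : IsH D h) {v f : Site} (hf : v ∈ cor f) :
    flp s h (v, true) = if f ∈ s then -h (v, true) else h (v, true) := by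
  by_cases hv : v ∈ inn D
  · simp only [flp, MSym_cor hs hv hf]
  · simp [flp, hh.1 v hv]

theorem MSym_isH {D s : Finset Site} (hs : ∀ m ∈ vin D, fa m ∈ s ↔ fb m ∈ s) {h : Ht}
    (hh : IsH D h) : IsH D (flp s h) := by
  refine ⟨fun v hv => by simp [flp, hh.1 v hv], fun f hf => by simp [flp, hh.2.1 f hf],
    fun f hf v hv => ?_⟩
  rw [MSym_v hs hh hv]
  have k := hh.2.2 f hf v hv
  by_cases h1 : f ∈ s
  · simp only [flp, if_pos h1]
    rw [← k, ← abs_neg]
    congr 1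
    ring
  · simp only [flp, if_neg h1]
    exact k

theorem MSym_flp (s : Finset Site) (h : Ht) : flp s (flp s h) = h := by
  funext x
  by_cases h1 : x.1 ∈ s <;> simp [flp, h1]

theorem MSym_ow {D s : Finset Site} (hs : ∀ m ∈ vin D, fa m ∈ s ↔ fb m ∈ s) {h : Ht}
    (hh : IsH D h) (c : ℝ) (ω : Finset Vx) {m : Vx} (hm : m ∈ vin D) :
    ow c (flp s h) ω m = ow c h ω m := by
  have k1 := MSym_v hs hh ((sep_self m).cor (end_src m)).1
  have k2 := MSym_v hs hh ((sep_self m).cor (end_tgt m)).1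
  have k3 : flp s h (fa m, false) = if fa m ∈ s then -h (fa m, false) else h (fa m, false) := rfl
  have k4 : flp s h (fb m, false) = if fa m ∈ s then -h (fb m, false) else h (fb m, false) := by
    simp only [flp, hs m hm]
  by_cases h1 : fa m ∈ s
  · simp only [ow, ag, hv, k1, k2, k3, k4, if_pos h1, neg_inj]
  · simp only [ow, ag, hv, k1, k2, k3, k4, if_neg h1]

theorem m_flip : M_flip := by
  intro c D s Φ hs
  unfold JH
  congr 1
  unfold jn
  refine Finset.sum_nbij' (flp s) (flp s) (fun h hh => mem_hs.2 (MSym_isH hs (mem_hs.1 hh)))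
    (fun h hh => mem_hs.2 (MSym_isH hs (mem_hs.1 hh))) (fun h _ => MSym_flp s h)
    (fun h _ => MSym_flp s h) fun h hh => Finset.sum_congr rfl fun ω _ => ?_
  beta_reduce
  rw [MSym_flp, Finset.prod_congr rfl fun m hm => MSym_ow hs (mem_hs.1 hh) c ω hm]

variable {gv gp : Site ≃ Site} {ge : Vx ≃ Vx}

theorem MSym_ag (I : Iso gv gp ge) (h : Ht) (m : Vx) : ag (hmap gv gp h) (ge m) = ag h m := by
  rcases I.ends m with ⟨h1, h2⟩ | ⟨h1, h2⟩ <;> simp only [ag, h1, h2, NFSym_v, eq_comm]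

theorem MSym_jn (I : Iso gv gp ge) (c : ℝ) (D : Finset Site) (F : Ht → Finset Vx → ℝ) :
    jn c (D.map gp.toEmbedding) F =
      jn c D fun h ω => F (hmap gv gp h) (ω.map ge.toEmbedding) := by
  have e : ∀ u, u ∈ (vin D).powerset ↔ ge.finsetCongr u ∈ (vin (D.map gp.toEmbedding)).powerset :=
    fun u => by
      simp only [I.vin_map, Finset.mem_powerset, Equiv.finsetCongr_apply, Finset.map_subset_map]
  unfold jn
  symm
  refine Finset.sum_equiv (NFSym_e gv gp) (NFSym_isH I D) fun h _ =>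
    Finset.sum_equiv ge.finsetCongr e fun u _ => ?_
  change _ = (∏ m ∈ _, ow c (hmap gv gp h) _ m) * F (hmap gv gp h) _
  simp only [I.vin_map, Finset.prod_map, Equiv.coe_toEmbedding, ow, NFSym_hv I, MSym_ag I,
    Equiv.finsetCongr_apply, Finset.mem_map_equiv, Equiv.symm_apply_apply]

theorem MSym_op (I : Iso gv gp ge) {D : Finset Site} {h : Ht} {ω : Finset Vx} (k : Ok D h ω)
    (p : ℤ → Prop) : op p (hmap gv gp h) (ω.map ge.toEmbedding) = ge '' op p h ω := by
  ext m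
  obtain ⟨m, rfl⟩ := ge.surjective m
  rw [ge.injective.mem_set_image]
  simp only [op, Set.mem_ofPred_eq, Finset.mem_map_equiv, Equiv.symm_apply_apply]
  refine and_congr_right fun hm => ?_
  rcases I.ends m with ⟨h1, -⟩ | ⟨h1, -⟩
  · rw [h1, NFSym_v]
  · rw [h1, NFSym_v, k.2.2.1 m hm]

theorem m_iso : M_iso := by
  intro gv gp ge I c D G
  have e : JH c (D.map gp.toEmbedding) (fun h ω => G (ox (D.map gp.toEmbedding) h ω) (o2 h ω)) =
      JH c D fun h ω => G (ox (D.map gp.toEmbedding) (hmap gv gp h) (ω.map ge.toEmbedding))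
        (o2 (hmap gv gp h) (ω.map ge.toEmbedding)) := by
    unfold JH
    rw [MSym_jn I, MSym_jn I c D 1]
    rfl
  unfold PG
  rw [e]
  refine JH_congr fun h ω k => ?_
  beta_reduce
  rw [ox, o0, o2, MSym_op I k, MSym_op I k, ox, Set.image_union, I.vin_map, Finset.coe_map,
    Set.image_compl_eq ge.bijective]
  rfl

end Vale.Agent.P145
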