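import Vale.Agent.P145.WBas

/-! P145, block W: exponential moments in bounded domains. -/

open Filter Topology

namespace Vale.Agent.P145

open Vale.Agent.P152

variable {c : ℝ} {ι : Type} {J : Finset ι} {A B : ι → Finset Site} {R0 R1 D : Finset Site}

theorem wbx_lev (l : W_lev) (hc : 1 ≤ c) (w : Wall J A B R0 R1) (X : Ht → ℝ) :
    WM c D J A B (fun _ => X) = NN c D J A B X := by
  rw [WM, ← wj_sum]
  exact wj_congr hc fun h ω k => by rw [← Finset.sum_mul, l ι J A B R0 R1 D h ω w k]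

theorem wbx_two (hc : 1 ≤ c) {X : Ht → ℝ} (hX : ∀ h, 0 ≤ X h) :
    NN c D J A B X ≤ 2 * PH c D X := by
  rw [← wj_PH, ← wj_mul]
  exact wj_mono hc fun h ω _ => mul_le_mul_of_nonneg_right
    (by linarith [wpi_le (CG J A B (o0 h ω)), wpi_le (CG J A B (o2 h ω))]) (hX h)

theorem wbx_flp {h : Ht} (hh : IsH D h) : flp D h = -h := by
  funext ⟨v, b⟩
  by_cases k : v ∈ D
  · exact if_pos k
  · refine (if_neg k).trans ?_
    cases b
    · simp [hh.2.1 v k]
    · simp [hh.1 v fun e => k (inn_subset e)]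

theorem wbx_lv {k : ℤ} (hk : k ∈ lv D) : -k ∈ lv D := by
  obtain ⟨h, h1, h2⟩ := Finset.mem_biUnion.1 hk
  refine Finset.mem_biUnion.2 ⟨-h, mem_hs.2 (mem_hs.1 h1).neg, ?_⟩
  rcases Finset.mem_insert.1 h2 with rfl | h2
  · exact Finset.mem_insert_self _ _
  · obtain ⟨v, h3, rfl⟩ := Finset.mem_image.1 h2
    exact Finset.mem_insert_of_mem (Finset.mem_image.2 ⟨v, h3, rfl⟩)

theorem wbx_flip (fp : M_flip) (hc : 1 ≤ c) (Φ : ℤ → Ht → ℝ) :
    WM c D J A B Φ = WM c D J A B fun k h => Φ (-k) (-h) := by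
  refine Finset.sum_nbij' (fun k => -k) (fun k => -k) (fun _ => wbx_lv) (fun _ => wbx_lv)
    (fun _ _ => neg_neg _) (fun _ _ => neg_neg _) fun k _ => ?_
  rw [fp c D D _ fun m hm => iff_of_true (mem_vin.1 hm).1 (mem_vin.1 hm).2]
  refine wj_congr hc fun h ω o => ?_
  have e : op (· = k) (-h) ω = op (· = -k) h ω :=
    Set.ext fun m => and_congr_right fun _ => neg_eq_iff_eq_neg
  simp only [wbx_flp o.1, neg_neg, e]

theorem wbx_neg (a : Site →₀ ℝ) (h : Ht) (k : ℤ) :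
    lin a (-h - fun _ => -k) = -lin a (h - fun _ => k) := by
  rw [wlin_sub, wlin_sub, Finsupp.sum, Finsupp.sum, ← Finset.sum_neg_distrib]
  refine Finset.sum_congr rfl fun v _ => ?_
  simp only [Pi.neg_apply, Int.cast_neg]
  ring

theorem wbx_low (fp : M_flip) (hc : 1 ≤ c) (a : Site →₀ ℝ) :
    WM c D J A B (fun _ => 1) ≤
      WM c D J A B fun k h => Real.exp (-lin a (h - fun _ => k)) := by
  have e := wbx_flip (D := D) (J := J) (A := A) (B := B) fp hc
    fun k h => Real.exp (-lin a (h - fun _ => k))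
  simp only [wbx_neg, neg_neg] at e
  have k : 2 * WM c D J A B (fun _ => 1) ≤
      (WM c D J A B fun k h => Real.exp (-lin a (h - fun _ => k))) +
        WM c D J A B fun k h => Real.exp (lin a (h - fun _ => k)) := by
    simp only [WM, Finset.mul_sum, ← Finset.sum_add_distrib, ← wj_add, ← wj_mul]
    refine Finset.sum_le_sum fun k _ => wj_mono hc fun h ω _ => ?_
    have h1 := Real.add_one_le_exp (lin a (h - fun _ => k))
    have h2 := Real.add_one_le_exp (-lin a (h - fun _ => k))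
    have h3 := wpi_nonneg (CG J A B (op (· = k) h ω))
    simp only [Pi.one_apply]
    nlinarith
  linarith

/-- centres of the two links -/
def wbx_z (N : ℕ) (i : Bool) : Site := if i then (3 * N, 0) else (-3 * N, 0)

theorem wbx_wall {N : ℕ} (hN : 1 ≤ N) : Wall Finset.univ (fun i => sq (wbx_z N i) (4 * N))
    (fun i => sq (wbx_z N i) (2 * (4 * N))) (sq 0 N) (sq 0 (11 * N)) := by
  have h0 : ∀ i, ((0, 0) : Site) ∈ sq (wbx_z N i) (4 * N) := fun i => by
    cases i <;> simp [wmem_sq, wbx_z] <;> omega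
  have h1 : ((-7 * N, 0) : Site) ∈ sq (wbx_z N false) (4 * N) := by
    simp [wmem_sq, wbx_z]; omega
  have h2 : ((-7 * N, 0) : Site) ∉ sq (wbx_z N true) (2 * (4 * N)) := by
    simp [wmem_sq, wbx_z]; omega
  have h3 : ((6 * N, 0) : Site) ∈ sq (wbx_z N true) (4 * N) := by
    simp [wmem_sq, wbx_z]; omega
  have h4 : ((6 * N, 0) : Site) ∉ sq (wbx_z N false) (2 * (4 * N)) := by
    simp [wmem_sq, wbx_z]; omega
  have h5 : ∀ i, sq (wbx_z N i) (2 * (4 * N)) ⊆ sq 0 (11 * N) := fun i f => by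
    cases i <;> simp [wmem_sq, wbx_z] <;> omega
  refine ⟨fun ⟨v, b⟩ hm => ?_, fun f => by simp [wmem_sq]; omega, fun E lev hE h => ?_,
    false, Finset.mem_univ _, true, Finset.mem_univ _,
    ⟨_, Finset.mem_inter.2 ⟨h0 false, h0 true⟩⟩, fun e => h2 (e h1), fun e => h4 (e h3)⟩
  · refine ⟨decide (0 ≤ v.1), Finset.mem_univ _, ?_⟩
    refine and_assoc.1 ⟨?_, h5 _⟩
    by_cases k : 0 ≤ v.1 <;> cases b <;> simp [wmem_sq, wbx_z, fa, fb, dir, k] at hm ⊢ <;> omega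
  · have u := fun i => hE i (Finset.mem_univ i)
    have e := h false (Finset.mem_univ _) true (Finset.mem_univ _)
      ⟨_, Finset.mem_inter.2 ⟨(u false).1 (h0 false), (u true).1 (h0 true)⟩⟩
      (fun e => h2 ((u true).2 (e ((u false).1 h1)))) fun e => h4 ((u false).2 (e ((u true).1 h3)))
    intro i _ j _
    cases i <;> cases j <;> simp only [e]

theorem wbx_pt {d R : ℝ} (hd : 0 < d) {v : Site} (h : ‖pnt d v‖ ≤ R) :
    |v.1| ≤ ⌈|R| / d⌉₊ ∧ |v.2| ≤ ⌈|R| / d⌉₊ := by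
  have k : ∀ x : ℤ, ‖d * x‖ ≤ R → |x| ≤ ⌈|R| / d⌉₊ := fun x hx => by
    rw [Real.norm_eq_abs, abs_mul, abs_of_pos hd, mul_comm, ← le_div_iff₀ hd] at hx
    have := (hx.trans (div_le_div_of_nonneg_right (le_abs_self R) hd.le)).trans (Nat.le_ceil _)
    exact_mod_cast this
  exact ⟨k _ ((norm_fst_le _).trans h), k _ ((norm_snd_le _).trans h)⟩

theorem wbx_box (l : W_lev) (s : W_sand) (cl : W_cl) (fl : W_flow) (sp : H_sp) (fp : M_flip)
    (hb : ∀ ab, Cc (bx ab)) (hc : 1 ≤ c) {c0 C τ : ℝ} {N : ℕ} (h0 : 0 ≤ c0) (hC : 0 ≤ C)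
    (hN : 1 ≤ N) (wr : ∀ (z : Site) (D : Finset Site), Cc D →
      c0 ≤ PG c D fun P _ => pi (Enc P (sq z (4 * N)) (sq z (2 * (4 * N)))))
    (gd : ∀ g : Vx →₀ ℝ, ∀ᶠ ab in exh,
      PH c (bx ab) (fun h => Real.exp (XH g h)) ≤ Real.exp (C * nsq g) + 1)
    {a : Site →₀ ℝ} (ha : ∀ v, 0 ≤ a v ∧ a v ≤ τ) (hs : ∀ v, a v ≠ 0 → |v.1| < N ∧ |v.2| < N) :
    c0 ^ 2 * PH c (sq 0 N) (fun h => Real.exp (lin a h)) ≤
      2 * (Real.exp (C * (1000 * τ ^ 2 * N ^ 4)) + 1) := by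
  obtain ⟨g, a', g1, g2, g3⟩ := fl a N τ hN ha fun v hv => by
    have := hs v hv
    simp only [sd, Prod.fst_zero, Prod.snd_zero, sub_zero]
    omega
  obtain ⟨ab, ⟨b1, b2⟩, b3⟩ := (((ev_subset (sq 0 (12 * N))).and
    (eventually_all.2 fun i => ev_vin (vx (sq (wbx_z N i) (2 * (4 * N)))))).and (gd g)).exists
  have w := wbx_wall hN
  have k1 := (s c hc _ _ _ _ _ _ (bx ab) (sq 0 (12 * N)) (fun h => Real.exp (lin a h))
    (fun (k : ℤ) (h : Ht) => Real.exp (-lin a' (h - fun _ : Site × Bool => k))) w (hb ab) (hb _) b1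
    (fun ⟨v, b⟩ hm => by
      cases b <;> simp [mem_vx, mem_vin, wmem_sq, fa, fb, dir] at hm ⊢ <;> omega)
    (sp a fun v => (ha v).1).1
    (fun h h' e => congrArg Real.exp (wlin_dep (fun v hv => by
      by_contra k
      have := hs v k
      simp only [abs_lt] at this
      exact hv (Finset.mem_coe.2 (mem_inn_bx.2 (by simp; omega)))) h h' e))
    (fun _ _ => (Real.exp_pos _).le)
    (fun k h h' e => congrArg (fun x => Real.exp (-x)) (wlin_dep (U := (inn (sq 0 (12 * N)))ᶜ)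
      (fun v hv => by
        by_contra k
        have h1 := g2 v k
        have h2 := mem_inn_bx.1 (Finset.mem_coe.1 (not_not.1 hv))
        simp at h2
        omega) (h - fun _ => k) (h' - fun _ => k) fun v hv => by
          simp only [Pi.sub_apply, e v hv]))).1 (sq 0 N) le_rfl
    fun i _ m _ hm => vin_mono (D := sq 0 N)
      (fun f => by cases i <;> simp [wmem_sq, wbx_z] <;> omega) hm
  have k2 := (cl c hc _ Finset.univ ∅ _ _ (bx ab) (hb ab) fun i _ => b2 i).1 c0 h0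
    fun i _ => wr (wbx_z N i) _ (hb ab)
  have e : ∀ (k : ℤ) (h : Ht), Real.exp (-lin a' (h - fun _ => k)) *
      Real.exp (lin a (h - fun _ => k)) = Real.exp (XH g h) := fun k h => by
    rw [← Real.exp_add, g3 h k, neg_add_eq_sub]
  simp only [e] at k1
  rw [wbx_lev l hc w fun h => Real.exp (XH g h)] at k1
  rw [← wbx_lev l hc w 1, Finset.card_univ, Fintype.card_bool] at k2
  have k3 : 0 ≤ PH c (sq 0 N) fun h => Real.exp (lin a h) := by
    rw [← wj_PH]
    exact wj_nonneg hc fun _ _ _ => (Real.exp_pos _).le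
  have k4 := Real.exp_le_exp.2 (mul_le_mul_of_nonneg_left g1 hC)
  have k5 := mul_le_mul_of_nonneg_right (k2.trans (wbx_low fp hc a')) k3
  have k6 := k1.trans (wbx_two hc fun _ => (Real.exp_pos _).le)
  linarith

theorem w_bx (l : W_lev) (s : W_sand) (cl : W_cl) (fl : W_flow) (sp : H_sp) (mo : H_mono)
    (fp : M_flip) (hb : ∀ ab, Cc (bx ab)) {c : ℝ} (hc : 1 ≤ c) (wr : WR c) (gd : GDB c) :
    BX c := by
  obtain ⟨c0, h0, n0, h1, wr⟩ := wr
  obtain ⟨C, hC, gd⟩ := gd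
  intro t R
  refine ⟨2 * (Real.exp (C * (1000 * t ^ 2 * (|R| + 1 + n0) ^ 4)) + 1) / c0 ^ 2, by positivity, ?_⟩
  filter_upwards [Ioo_mem_nhdsGT one_pos] with d hd a V ha hs hV
  have k1 := wbx_box l s cl fl sp fp hb hc (N := ⌈|R| / d⌉₊ + n0) h0.le hC (by omega)
    (fun z D hD => (wr _ (by omega) z D hD).1) gd ha fun v hv => by
      have := wbx_pt hd.1 (hs v hv)
      omega
  have k2 := mo c hc (sq 0 (⌈|R| / d⌉₊ + n0)) V _ (sp a fun v => (ha v).1).1 fun f hf => by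
    have := wbx_pt hd.1 (hV f hf)
    simp only [abs_le] at this
    simp only [wmem_sq, Prod.fst_zero, Prod.snd_zero]
    omega
  have k3 : ((⌈|R| / d⌉₊ + n0 : ℕ) : ℝ) * d ≤ |R| + 1 + n0 := by
    have e1 := mul_le_mul_of_nonneg_right
      (Nat.ceil_lt_add_one (div_nonneg (abs_nonneg R) hd.1.le)).le hd.1.le
    rw [add_mul, div_mul_cancel₀ _ hd.1.ne'] at e1
    have e2 := mul_le_mul_of_nonneg_left hd.2.le (Nat.cast_nonneg (α := ℝ) n0)
    push_cast
    linarith [hd.2]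
  have k4 : 1000 * (t * d ^ 2) ^ 2 * ((⌈|R| / d⌉₊ + n0 : ℕ) : ℝ) ^ 4 ≤
      1000 * t ^ 2 * (|R| + 1 + n0) ^ 4 := by
    have e := mul_le_mul_of_nonneg_left
      (pow_le_pow_left₀ (mul_nonneg (Nat.cast_nonneg _) hd.1.le) k3 4)
      (show 0 ≤ 1000 * t ^ 2 by positivity)
    exact le_trans (le_of_eq (by ring)) e
  have k5 := Real.exp_le_exp.2 (mul_le_mul_of_nonneg_left k4 hC)
  rw [le_div_iff₀ (by positivity)]
  nlinarith [mul_le_mul_of_nonneg_left k2 (sq_nonneg c0)]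

end Vale.Agent.P145
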