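import Vale.Agent.P145.WBas

/-! P145, block W: lower bound for the links and closing of the windows. -/

namespace Vale.Agent.P145

open Vale.Agent.P152

variable {c : ℝ} {ι : Type} {J J' : Finset ι} {A B : ι → Finset Site} {Λ : Finset Site}

theorem wcl_enc {A B : Finset Site} (hB : vx B ⊆ vin Λ) (h : Ht) (ω : Finset Vx) :
    Enc (ox Λ h ω) A B ↔ Enc (o0 h ω) A B :=
  ⟨fun k => wenc_mono (fun _ hm => hm.1.resolve_left fun e => e hm.2)
    (wenc_loc (S := vin Λ) (fun _ hm _ => hB hm) k), wenc_mono Set.subset_union_right⟩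

theorem wcl_cg {O O' : Set Vx} (h : O ⊆ O') (k : CG J A B O) : CG J A B O' :=
  fun i hi => wenc_mono h (k i hi)

theorem wcl_NN (hB : ∀ i ∈ J, vx (B i) ⊆ vin Λ) :
    NN c Λ J A B 1 =
      PG c Λ (fun P _ => pi (CG J A B P)) + PG c Λ fun _ Q => pi (CG J A B Q) := by
  unfold NN PG
  rw [← wj_add]
  refine congrArg _ (funext fun h => funext fun ω => ?_)
  have e : CG J A B (ox Λ h ω) ↔ CG J A B (o0 h ω) :=
    forall₂_congr fun i hi => wcl_enc (hB i hi) h ω
  rw [Pi.one_apply, mul_one, ← wpi_congr e]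

theorem wcl_neg (g : G_pa) (hc : 1 ≤ c) (hΛ : Cc Λ) {G H : Set Vx → Set Vx → ℝ} (hG : Up G)
    (hH : Up fun P Q => -1 * H P Q) :
    PG c Λ (fun P Q => G P Q * H P Q) ≤ PG c Λ G * PG c Λ H := by
  have h1 := g c hc Λ _ _ hΛ hG hH
  have h2 : PG c Λ (G * fun P Q => -1 * H P Q) = -1 * PG c Λ fun P Q => G P Q * H P Q := by
    unfold PG
    rw [← wj_mul]
    exact congrArg _ (funext fun h => funext fun ω => mul_left_comm _ _ _)
  have h3 : PG c Λ (fun P Q => -1 * H P Q) = -1 * PG c Λ H := wj_mul _ _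
  rw [h2, h3] at h1
  linarith

theorem wcl_low (g : G_pa) (hc : 1 ≤ c) (hΛ : Cc Λ) {c0 : ℝ} (h0 : 0 ≤ c0)
    (h : ∀ i ∈ J, c0 ≤ PG c Λ fun P _ => pi (Enc P (A i) (B i))) :
    c0 ^ J.card ≤ PG c Λ fun P _ => pi (CG J A B P) := by
  classical
  induction J using Finset.induction_on with
  | empty =>
    refine (pow_zero c0).le.trans ((wj_const hc Λ 1).ge.trans (wj_mono hc fun x ω _ => ?_))
    exact (wpi_of fun i hi => absurd hi (Finset.notMem_empty i)).ge
  | insert i s hi ih =>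
    have h1 := ih fun j hj => h j (Finset.mem_insert_of_mem hj)
    have h2 := h i (Finset.mem_insert_self i s)
    have h3 := g c hc Λ (fun P _ => pi (CG s A B P)) (fun P _ => pi (Enc P (A i) (B i))) hΛ
      (fun _ _ _ _ e _ => wpi_mono (wcl_cg e)) fun _ _ _ _ e _ => wpi_mono (wenc_mono e)
    rw [Finset.card_insert_of_notMem hi, pow_succ]
    refine ((mul_le_mul h1 h2 h0 ((pow_nonneg h0 _).trans h1)).trans h3).trans
      (wj_mono hc fun x ω _ => ?_)
    exact (wpi_and _ _).ge.trans (wpi_mono fun k => (Finset.forall_mem_insert _ _ _).2 k.symm)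

theorem wcl_pt [DecidableEq ι] (O : Set Vx) :
    pi (CG J A B O) - ∑ i ∈ J', pi (CG J A B O) * pi (¬ Enc O (A i) (B i)) ≤
      pi (CG (J ∪ J') A B O) := by
  have h0 : ∀ i ∈ J', 0 ≤ pi (CG J A B O) * pi (¬ Enc O (A i) (B i)) :=
    fun i _ => mul_nonneg (wpi_nonneg _) (wpi_nonneg _)
  by_cases k : ∀ i ∈ J', Enc O (A i) (B i)
  · exact (sub_le_self _ (Finset.sum_nonneg h0)).trans
      (wpi_mono fun e i hi => (Finset.mem_union.1 hi).elim (e i) (k i))
  · obtain ⟨i, hi⟩ := not_forall.1 k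
    obtain ⟨h1, h2⟩ := Classical.not_imp.1 hi
    have h3 := Finset.single_le_sum h0 h1
    rw [wpi_of h2, mul_one] at h3
    linarith [wpi_nonneg (CG (J ∪ J') A B O)]

theorem wcl_close [DecidableEq ι] (hc : 1 ≤ c) (O : Set Vx → Set Vx → Set Vx) {θ : ℝ}
    (h1 : ∀ i ∈ J', PG c Λ (fun P Q => pi (CG J A B (O P Q)) * pi (¬ Enc (O P Q) (A i) (B i))) ≤
      PG c Λ (fun P Q => pi (CG J A B (O P Q))) *
        PG c Λ fun P Q => pi (¬ Enc (O P Q) (A i) (B i)))
    (h2 : ∑ i ∈ J', PG c Λ (fun P Q => pi (¬ Enc (O P Q) (A i) (B i))) ≤ θ) :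
    (1 - θ) * PG c Λ (fun P Q => pi (CG J A B (O P Q))) ≤
      PG c Λ fun P Q => pi (CG (J ∪ J') A B (O P Q)) := by
  have h0 : 0 ≤ PG c Λ fun P Q => pi (CG J A B (O P Q)) := wj_nonneg hc fun _ _ _ => wpi_nonneg _
  have h3 := wj_mono (D := Λ) hc fun h ω _ =>
    wcl_pt (J := J) (J' := J') (A := A) (B := B) (O (ox Λ h ω) (o2 h ω))
  have h4 := Finset.sum_le_sum h1
  rw [← Finset.mul_sum] at h4
  rw [wj_sub, wj_sum] at h3
  have h5 := mul_le_mul_of_nonneg_left h2 h0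
  unfold PG at *
  linarith

theorem w_cl (g : G_pa) : W_cl := by
  intro c hc ι _ J J' A B Λ hΛ hB
  rw [wcl_NN hB, wcl_NN fun i hi => hB i (Finset.mem_union_left _ hi)]
  refine ⟨fun c0 h0 h => ?_, fun θ h1 h2 => ?_⟩
  · exact (wcl_low g hc hΛ h0 h).trans
      (le_add_of_nonneg_right (wj_nonneg hc fun _ _ _ => wpi_nonneg _))
  · rw [mul_add]
    refine add_le_add (wcl_close hc (fun P _ => P) (fun i _ => ?_) h1)
      (wcl_close hc (fun _ Q => Q) (fun i _ => ?_) h2)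
    · exact wcl_neg g hc hΛ (fun _ _ _ _ e _ => wpi_mono (wcl_cg e)) fun _ _ _ _ e _ =>
        mul_le_mul_of_nonpos_left (wpi_mono (mt (wenc_mono e))) (by norm_num)
    · rw [mul_comm]
      refine le_of_eq_of_le (congrArg _ (funext fun _ => funext fun _ => mul_comm _ _))
        (wcl_neg g hc hΛ (fun _ _ _ _ _ e => wpi_mono (mt (wenc_mono e))) fun _ _ _ _ _ e =>
          mul_le_mul_of_nonpos_left (wpi_mono (wcl_cg e)) (by norm_num))

end Vale.Agent.P145
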