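import Vale.Agent.P145.WDefs

/-! P145, block W: all links of a wall have the same level. -/

namespace Vale.Agent.P145

open Vale.Agent.P152

theorem wcon_meet (c : Site) (b : Bool) {x y r : ℤ} (hr : 0 < r) (h1 : x - r < y + r)
    (h2 : y - r < x + r) : (wq (c + x • dir b) r ∩ wq (c + y • dir b) r).Nonempty := by
  refine ⟨c + (max x y - r) • dir b, ?_⟩
  cases b <;> simp [mem_wq, dir] <;> omega

theorem wcon_sub (c : Site) (b : Bool) {x y r R : ℤ} (h1 : y - R ≤ x - r) (h2 : x + r ≤ y + R) :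
    wq (c + x • dir b) r ⊆ wq (c + y • dir b) R := by
  intro f
  cases b <;> simp [mem_wq, dir] <;> omega

theorem wcon_nsub (c : Site) (b : Bool) {x y r R : ℤ} (hr : 0 < r)
    (h : x - r < y - R ∨ y + R < x + r) : ¬ wq (c + x • dir b) r ⊆ wq (c + y • dir b) R := by
  intro hs
  have h1 := @hs (c + (x - r) • dir b)
  have h2 := @hs (c + (x + r - 1) • dir b)
  cases b <;> simp [mem_wq, dir] at h1 h2 <;> omega

theorem wcon_chain {ι : Type} {J : Finset ι} {A B E : ι → Finset Site} {lev : ι → ℤ}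
    (hE : ∀ i ∈ J, A i ⊆ E i ∧ E i ⊆ B i)
    (hl : ∀ i ∈ J, ∀ j ∈ J, (E i ∩ E j).Nonempty → ¬ E i ⊆ E j → ¬ E j ⊆ E i → lev i = lev j)
    (a : ℕ → ι) (n : ℕ) (q : ι) (hq : q ∈ J) (ha : ∀ k ≤ n, a k ∈ J)
    (h1 : ∀ k, (A (a k) ∩ A (a (k + 1))).Nonempty ∧ ¬ A (a k) ⊆ B (a (k + 1)) ∧
      ¬ A (a (k + 1)) ⊆ B (a k))
    (h2 : B (a n) ⊆ A q) (h3 : ¬ A (a 0) ⊆ B q) (h4 : ∀ k, ¬ A q ⊆ B (a k)) :
    (∀ k ≤ n, lev (a k) = lev (a 0)) ∧ lev q = lev (a 0) := by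
  have key : ∀ k ≤ n, lev (a k) = lev (a 0) ∧ (E (a k) ⊆ E q → lev q = lev (a 0)) := by
    intro k
    induction k with
    | zero =>
      exact fun hk => ⟨rfl, fun h => absurd ((hE _ (ha 0 hk)).1.trans (h.trans (hE q hq).2)) h3⟩
    | succ k ih =>
      intro hk
      have hk' : k ≤ n := by omega
      obtain ⟨u1, u2⟩ := hE _ (ha k hk')
      obtain ⟨v1, v2⟩ := hE _ (ha _ hk)
      obtain ⟨w1, w2, w3⟩ := h1 k
      have e : lev (a k) = lev (a (k + 1)) :=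
        hl _ (ha k hk') _ (ha _ hk) (w1.mono (Finset.inter_subset_inter u1 v1))
          (fun h => w2 (u1.trans (h.trans v2))) fun h => w3 (v1.trans (h.trans u2))
      refine ⟨e ▸ (ih hk').1, fun h => ?_⟩
      by_cases h5 : E (a k) ⊆ E q
      · exact (ih hk').2 h5
      · rw [← (ih hk').1]
        exact (hl _ (ha k hk') q hq (w1.mono (Finset.inter_subset_inter u1 (v1.trans h))) h5
          fun h6 => h4 k ((hE q hq).1.trans (h6.trans u2))).symm
  exact ⟨fun k hk => (key k hk).1,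
    (key n le_rfl).2 ((hE _ (ha n le_rfl)).2.trans (h2.trans (hE q hq).1))⟩

theorem wcon_ept (l ν : ℕ) (m : Vx) (j : ℤ) : (3 * l : ℤ) • ept ν m j =
    (3 * l : ℤ) • (2 * ν : ℤ) • m.1 + (3 * l * j) • dir m.2 := by
  rw [ept, smul_add, mul_smul (3 * l : ℤ) j]

theorem wcon_mem {ν : ℕ} {O : Finset Site} {i : Site × Bool} : i ∈ lkJ ν O ↔ ∃ m ∈ sld O,
    (∃ j : ℤ, ((0 ≤ j ∧ j ≤ ν - 2) ∨ (ν + 2 ≤ j ∧ j ≤ 2 * ν)) ∧ (ept ν m j, false) = i) ∨
      (ept ν m ν, true) = i := by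
  simp only [lkJ, Zs, Qs, Finset.mem_union, Finset.mem_image, Finset.mem_biUnion, Finset.mem_Icc]
  constructor
  · rintro (⟨z, ⟨m, hm, j, hj, rfl⟩, h⟩ | ⟨z, ⟨m, hm, rfl⟩, h⟩)
    · exact ⟨m, hm, .inl ⟨j, hj, h⟩⟩
    · exact ⟨m, hm, .inr h⟩
  · rintro ⟨m, hm, ⟨j, hj, h⟩ | h⟩
    · exact .inl ⟨_, ⟨m, hm, j, hj, rfl⟩, h⟩
    · exact .inr ⟨_, ⟨m, hm, rfl⟩, h⟩

theorem wcon_half {l ν : ℕ} {O : Finset Site} (hl : 1 ≤ l) (hν : 13 ≤ ν)
    {E : Site × Bool → Finset Site} {lev : Site × Bool → ℤ}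
    (hE : ∀ i ∈ lkJ ν O, lkA l i ⊆ E i ∧ E i ⊆ lkB l ν i)
    (hv : ∀ i ∈ lkJ ν O, ∀ j ∈ lkJ ν O, (E i ∩ E j).Nonempty → ¬ E i ⊆ E j → ¬ E j ⊆ E i →
      lev i = lev j) {m : Vx} (hm : m ∈ sld O) {s : ℤ} (hs : s = 1 ∨ s = -1) (k : ℕ)
    (hk : k ≤ ν - 2) : lev (ept ν m (ν + s * (ν - k)), false) = lev (ept ν m ν, true) := by
  have hl' : (1 : ℤ) ≤ l := by exact_mod_cast hl
  have hp : (0 : ℤ) ≤ l * ν := by positivity
  have hn : ((ν - 2 : ℕ) : ℤ) = ν - 2 := by omega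
  have h := wcon_chain hE hv (fun k => (ept ν m (ν + s * (ν - k)), false)) (ν - 2)
    (ept ν m ν, true) (wcon_mem.2 ⟨m, hm, .inr rfl⟩)
    (fun k hk => wcon_mem.2 ⟨m, hm, .inl ⟨_, by rcases hs with rfl | rfl <;> omega, rfl⟩⟩)
    (fun k => ?_) ?_ ?_ fun k => ?_
  · exact (h.1 k hk).trans h.2.symm
  all_goals simp only [lkA, lkB, wcon_ept, Bool.false_eq_true, if_false, if_true]
  · push_cast
    refine ⟨wcon_meet _ _ (by omega) ?_ ?_, wcon_nsub _ _ (by omega) ?_,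
      wcon_nsub _ _ (by omega) ?_⟩
    · rcases hs with rfl | rfl <;> linarith
    · rcases hs with rfl | rfl <;> linarith
    · rcases hs with rfl | rfl
      · right
        linarith
      · left
        linarith
    · rcases hs with rfl | rfl
      · left
        linarith
      · right
        linarith
  · rw [hn]
    refine wcon_sub _ _ ?_ ?_ <;> rcases hs with rfl | rfl <;> linarith
  · refine wcon_nsub _ _ (by omega) ?_
    push_cast
    rcases hs with rfl | rfl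
    · right
      linarith
    · left
      linarith
  · exact wcon_nsub _ _ (by omega) (by omega)

theorem w_con : W_con := by
  intro l ν O hl hν hO E lev hE hv
  have h1 : ∀ m ∈ sld O, ∀ j : ℤ, ((0 ≤ j ∧ j ≤ ν - 2) ∨ (ν + 2 ≤ j ∧ j ≤ 2 * ν)) →
      lev (ept ν m j, false) = lev (ept ν m ν, true) := by
    rintro m hm j (hj | hj)
    · have h := wcon_half hl hν hE hv hm (.inr rfl) j.toNat (by omega)
      rwa [show (ν : ℤ) + -1 * (ν - j.toNat) = j by omega] at h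
    · have h := wcon_half hl hν hE hv hm (.inl rfl) (2 * ν - j).toNat (by omega)
      rwa [show (ν : ℤ) + 1 * (ν - (2 * ν - j).toNat) = j by omega] at h
  have h2 : ∀ m ∈ sld O, lev ((2 * ν : ℤ) • src m, false) = lev (ept ν m ν, true) := by
    intro m hm
    rw [← h1 m hm 0 (by omega), ept, zero_smul, add_zero, src]
  have h3 : ∀ m ∈ sld O,
      lev ((2 * ν : ℤ) • tgt m, false) = lev ((2 * ν : ℤ) • src m, false) := by
    intro m hm
    rw [h2 m hm, ← h1 m hm (2 * ν) (by omega), ept, tgt, smul_add]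
  have h4 : ∀ a ∈ O, ∀ b : Bool, a + dir b ∈ O →
      lev ((2 * ν : ℤ) • (a + dir b), false) = lev ((2 * ν : ℤ) • a, false) :=
    fun a ha b hb => h3 (a, b) (mem_sld.2 ⟨ha, hb⟩)
  have h5 : ∀ p ∈ O, ∀ q ∈ O, lev ((2 * ν : ℤ) • q, false) = lev ((2 * ν : ℤ) • p, false) := by
    intro p hp q hq
    have h := hO p hp q hq
    clear hq
    induction h with
    | refl => rfl
    | @tail a b _ hab ih =>
      rw [← ih]
      obtain ⟨ha, hb, rfl | rfl | rfl | rfl⟩ := hab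
      · exact h4 a ha true hb
      · simpa [dir] using (h4 _ hb true (by simpa [dir] using ha)).symm
      · exact h4 a ha false hb
      · simpa [dir] using (h4 _ hb false (by simpa [dir] using ha)).symm
  have h6 : ∀ i ∈ lkJ ν O, ∃ p ∈ O, lev i = lev ((2 * ν : ℤ) • p, false) := by
    intro i hi
    obtain ⟨m, hm, ⟨j, hj, rfl⟩ | rfl⟩ := wcon_mem.1 hi
    · exact ⟨_, (mem_sld.1 hm).1, (h1 m hm j hj).trans (h2 m hm).symm⟩
    · exact ⟨_, (mem_sld.1 hm).1, (h2 m hm).symm⟩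
  intro i hi j hj
  obtain ⟨p, hp, e1⟩ := h6 i hi
  obtain ⟨q, hq, e2⟩ := h6 j hj
  rw [e1, e2, h5 p hp q hq]

end Vale.Agent.P145
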