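import Vale.Agent.P145.WDefs

/-! P145, block W: the links cover the boundary. -/

namespace Vale.Agent.P145

open Vale.Agent.P152

theorem wcov_div {S a b x : ℤ} (hS : 0 < S) (h1 : S * a ≤ x) (h2 : x < S * b + S) :
    a ≤ x / S ∧ x / S ≤ b := by
  refine ⟨(Int.le_ediv_iff_mul_le hS).2 (by linarith), Int.lt_add_one_iff.1 ?_⟩
  exact (Int.ediv_lt_iff_lt_mul hS).2 (by linarith)

theorem wcov_jump {S : ℤ} (hS : 0 < S) (x : ℤ) :
    (x - 1) / S = x / S ∨ (x = S * (x / S) ∧ (x - 1) / S = x / S - 1) := by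
  have h1 := Int.mul_ediv_add_emod x S
  have h2 := Int.emod_nonneg x hS.ne'
  have h3 := Int.emod_lt_of_pos x hS
  rcases h2.eq_or_lt with h | h
  · have h4 := wcov_div (a := x / S - 1) (b := x / S - 1) (x := x - 1) hS (by linarith)
      (by linarith)
    exact Or.inr ⟨by linarith, le_antisymm h4.2 h4.1⟩
  · have h4 := wcov_div (a := x / S) (b := x / S) (x := x - 1) hS (by linarith) (by linarith)
    exact Or.inl (le_antisymm h4.2 h4.1)

theorem wcov_small {ν : ℕ} {O : Finset Site} {m : Vx} (hm : m ∈ sld O) {k : ℤ}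
    (hk : (0 ≤ k ∧ k ≤ ν - 2) ∨ (ν + 2 ≤ k ∧ k ≤ 2 * ν)) : (ept ν m k, false) ∈ lkJ ν O := by
  refine Finset.mem_union_left _ (Finset.mem_image_of_mem _ (Finset.mem_biUnion.2 ⟨m, hm, ?_⟩))
  exact Finset.mem_image_of_mem _ (by simpa only [Finset.mem_union, Finset.mem_Icc] using hk)

theorem wcov_k {l ν : ℕ} (hl : 1 ≤ l) (hν : 13 ≤ ν) {O : Finset Site} {m : Vx} (hm : m ∈ sld O)
    (x : ℤ) : ∃ (k : ℤ) (c : Bool) (a r z : ℤ), (ept ν m k, c) ∈ lkJ ν O ∧
      a = (if c then 12 * l else 2 * l : ℤ) ∧ r = (if c then ν * l else 4 * l : ℤ) ∧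
      z = 3 * l * (2 * ν * (x / (6 * ν * l)) + k) ∧ 0 < a ∧ r ≤ 6 * ν * l ∧ z - a ≤ x ∧
      x < z + a ∧ 6 * ν * l * (x / (6 * ν * l)) ≤ z ∧
      z ≤ 6 * ν * l * (x / (6 * ν * l)) + 6 * ν * l := by
  have hl' : (1:ℤ) ≤ l := by exact_mod_cast hl
  have hν' : (13:ℤ) ≤ ν := by exact_mod_cast hν
  have hS : (0:ℤ) < 6 * ν * l := by positivity
  have h1 := Int.mul_ediv_add_emod x (6 * ν * l)
  have h2 := Int.emod_nonneg x hS.ne'
  have h3 := Int.emod_lt_of_pos x hS
  generalize x % (6 * ν * l) = t at h1 h2 h3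
  generalize x / (6 * ν * l) = p at h1
  have h4 := Int.mul_ediv_add_emod (t + l) (3 * l)
  have h5 := Int.emod_nonneg (t + l) (show (3 * l : ℤ) ≠ 0 by omega)
  have h6 := Int.emod_lt_of_pos (t + l) (show (0:ℤ) < 3 * l by omega)
  generalize (t + l) % (3 * l) = s at h4 h5 h6
  generalize (t + l) / (3 * l) = k at h4
  have hk0 : 0 ≤ k := by nlinarith
  have hk1 : k ≤ 2 * ν := by nlinarith
  by_cases hk : k ≤ ν - 2 ∨ ν + 2 ≤ k
  · refine ⟨k, false, _, _, _, wcov_small hm (by omega), rfl, rfl, rfl, ?_⟩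
    simp only [Bool.false_eq_true, if_false]
    refine ⟨by omega, by nlinarith, by linarith, by linarith, by nlinarith, by nlinarith⟩
  · refine ⟨ν, true, _, _, _, Finset.mem_union_right _
      (Finset.mem_image_of_mem _ (Finset.mem_image_of_mem _ hm)), rfl, rfl, rfl, ?_⟩
    have h7 : (ν:ℤ) - 1 ≤ k := by omega
    have h8 : k ≤ ν + 1 := by omega
    simp only [if_true]
    refine ⟨by omega, by nlinarith, by nlinarith, by nlinarith, by nlinarith, by nlinarith⟩

theorem w_cov : W_cov := by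
  intro l ν O R hl hν h
  have hl' : (1:ℤ) ≤ l := by exact_mod_cast hl
  have hν' : (13:ℤ) ≤ ν := by exact_mod_cast hν
  have hS : (0:ℤ) < 6 * ν * l := by positivity
  refine ⟨?_, fun f hf => ?_, ?_⟩
  · rintro ⟨⟨x, y⟩, b⟩ hm
    cases b
    · simp only [mem_upS hS, fa, fb, dir, Bool.not_false, if_true, Prod.mk_sub_mk, sub_zero]
        at hm ⊢
      rcases wcov_jump hS x with e | ⟨e1, e2⟩
      · exact absurd (by rw [e]) hm
      rw [e2] at hm
      have hs : ((x / (6 * ν * l), y / (6 * ν * l)), false) ∈ sld O :=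
        mem_sld.2 (h.cut _ (by simpa [fa, fb, dir] using hm))
      obtain ⟨k, c, a, r, z, h1, ha, hr, hz, h2, h3, h4, h5, h6, h7⟩ := wcov_k hl hν hs y
      have e3 : (3 * l : ℤ) • ept ν ((x / (6 * ν * l), y / (6 * ν * l)), false) k = (x, z) := by
        simp only [ept, dir, Prod.smul_mk, Prod.mk_add_mk, smul_eq_mul, Bool.false_eq_true,
          if_false, Prod.mk.injEq]
        constructor <;> linarith
      refine ⟨_, h1, ?_⟩
      simp only [lkA, lkB, e3, ← ha, ← hr, mem_wq]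
      refine ⟨by omega, by omega, fun f hf => ?_⟩
      rw [mem_wq] at hf
      have h8 := wcov_div (a := x / (6 * ν * l) - 1) (b := x / (6 * ν * l)) (x := f.1) hS
        (by linarith [hf.1]) (by linarith [hf.2.1])
      have h9 := wcov_div (a := y / (6 * ν * l) - 1) (b := y / (6 * ν * l) + 1) (x := f.2) hS
        (by linarith [hf.2.2.1]) (by linarith [hf.2.2.2])
      rw [mem_upS hS, mem_kn]
      by_cases h0 : (x / (6 * ν * l), y / (6 * ν * l)) ∈ R
      · exact ⟨_, h0, by simp only; omega⟩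
      · exact ⟨_, (by tauto : (x / (6 * ν * l) - 1, y / (6 * ν * l)) ∈ R), by simp only; omega⟩
    · simp only [mem_upS hS, fa, fb, dir, Bool.not_true, Bool.false_eq_true, if_false,
        Prod.mk_sub_mk, sub_zero] at hm ⊢
      rcases wcov_jump hS y with e | ⟨e1, e2⟩
      · exact absurd (by rw [e]) hm
      rw [e2] at hm
      have hs : ((x / (6 * ν * l), y / (6 * ν * l)), true) ∈ sld O :=
        mem_sld.2 (h.cut _ (by simpa [fa, fb, dir] using hm))
      obtain ⟨k, c, a, r, z, h1, ha, hr, hz, h2, h3, h4, h5, h6, h7⟩ := wcov_k hl hν hs x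
      have e3 : (3 * l : ℤ) • ept ν ((x / (6 * ν * l), y / (6 * ν * l)), true) k = (z, y) := by
        simp only [ept, dir, Prod.smul_mk, Prod.mk_add_mk, smul_eq_mul, if_true, Prod.mk.injEq]
        constructor <;> linarith
      refine ⟨_, h1, ?_⟩
      simp only [lkA, lkB, e3, ← ha, ← hr, mem_wq]
      refine ⟨by omega, by omega, fun f hf => ?_⟩
      rw [mem_wq] at hf
      have h8 := wcov_div (a := x / (6 * ν * l) - 1) (b := x / (6 * ν * l) + 1) (x := f.1) hS
        (by linarith [hf.1]) (by linarith [hf.2.1])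
      have h9 := wcov_div (a := y / (6 * ν * l) - 1) (b := y / (6 * ν * l)) (x := f.2) hS
        (by linarith [hf.2.2.1]) (by linarith [hf.2.2.2])
      rw [mem_upS hS, mem_kn]
      by_cases h0 : (x / (6 * ν * l), y / (6 * ν * l)) ∈ R
      · exact ⟨_, h0, by simp only; omega⟩
      · exact ⟨_, (by tauto : (x / (6 * ν * l), y / (6 * ν * l) - 1) ∈ R), by simp only; omega⟩
  · rw [mem_upS hS] at hf ⊢
    exact mem_kn.2 ⟨_, hf, by omega⟩
  · obtain ⟨⟨p, q⟩, hp, hmax⟩ := Finset.exists_max_image R Prod.fst h.ne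
    have hn : (p + 1, q) ∉ R := fun hh => by
      have := hmax _ hh
      simp only at this
      omega
    have hs : ((p + 1, q), false) ∈ sld O := mem_sld.2 (h.cut _ (by simp [fa, fb, dir, hn, hp]))
    obtain ⟨u, hu⟩ : ∃ u : ℤ, u = 3 * l * (2 * ν * (p + 1)) := ⟨_, rfl⟩
    obtain ⟨v, hv⟩ : ∃ v : ℤ, v = 3 * l * (2 * ν * q) := ⟨_, rfl⟩
    have e0 : (3 * l : ℤ) • ept ν ((p + 1, q), false) 0 = (u, v) := by simp [ept, hu, hv]
    have e1 : (3 * l : ℤ) • ept ν ((p + 1, q), false) 1 = (u, v + 3 * l) := by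
      simp [ept, dir, hu, hv, mul_add]
    refine ⟨_, wcov_small (k := 0) hs (by omega), _, wcov_small (k := 1) hs (by omega), ?_⟩
    simp only [lkA, lkB, e0, e1, Bool.false_eq_true, if_false]
    refine ⟨⟨(u, v + l), ?_⟩, fun hh => ?_, fun hh => ?_⟩
    · simp only [Finset.mem_inter, mem_wq]
      omega
    · have := hh (show (u, v - 2 * l) ∈ _ by simp only [mem_wq]; omega)
      simp only [mem_wq] at this
      omega
    · have := hh (show (u, v + 4 * l) ∈ _ by simp only [mem_wq]; omega)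
      simp only [mem_wq] at this
      omega

end Vale.Agent.P145
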