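import Vale.Agent.P145.WDefs

/-! P145, block W: the coarse region. -/

open Filter Topology

namespace Vale.Agent.P145

open Vale.Agent.P152

theorem wcrs_fin {s : ℝ} (hs : 0 < s) {B : Set Pl} (hB : Bornology.IsBounded B) :
    {p : Site | pnt s p ∈ B}.Finite := by
  obtain ⟨C, hC⟩ := hB.exists_norm_le
  obtain ⟨N, hN⟩ := exists_nat_ge (C / s)
  have k : ∀ a : ℤ, |s * a| ≤ C → a ∈ Set.Icc (-(N : ℤ)) N := fun a ha => by
    rw [abs_mul, abs_of_pos hs] at ha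
    have h1 : |(a : ℝ)| ≤ N := by
      rw [div_le_iff₀ hs] at hN
      nlinarith
    have h2 : |a| ≤ (N : ℤ) := by exact_mod_cast h1
    exact abs_le.1 h2
  refine ((Set.finite_Icc (-(N : ℤ)) N).prod (Set.finite_Icc (-(N : ℤ)) N)).subset ?_
  intro p hp
  have h := hC _ hp
  exact ⟨k _ ((norm_fst_le (pnt s p)).trans h), k _ ((norm_snd_le (pnt s p)).trans h)⟩

/-- the closed square of a face -/
def wcrs_Q (s : ℝ) (p : Site) : Set Pl :=
  Set.Icc (s * p.1) (s * p.1 + s) ×ˢ Set.Icc (s * p.2) (s * p.2 + s)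

theorem wcrs_diam {s : ℝ} {p : Site} {x y : Pl} (hx : x ∈ wcrs_Q s p) (hy : y ∈ wcrs_Q s p) :
    dist x y ≤ s := by
  obtain ⟨⟨a1, a2⟩, a3, a4⟩ := hx
  obtain ⟨⟨b1, b2⟩, b3, b4⟩ := hy
  rw [Prod.dist_eq, Real.dist_eq, Real.dist_eq]
  refine max_le (abs_le.2 ⟨?_, ?_⟩) (abs_le.2 ⟨?_, ?_⟩) <;> linarith

theorem wcrs_self {s : ℝ} (hs : 0 < s) (p : Site) : pnt s p ∈ wcrs_Q s p :=
  ⟨⟨le_rfl, by simp only [pnt]; linarith⟩, le_rfl, by simp only [pnt]; linarith⟩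

theorem wcrs_cor {s : ℝ} (hs : 0 < s) (m : Vx) :
    (pnt s (src m) ∈ wcrs_Q s (fa m) ∧ pnt s (tgt m) ∈ wcrs_Q s (fa m)) ∧
      pnt s (src m) ∈ wcrs_Q s (fb m) ∧ pnt s (tgt m) ∈ wcrs_Q s (fb m) := by
  obtain ⟨⟨a, b⟩, c⟩ := m
  cases c <;>
    simp only [wcrs_Q, pnt, src, tgt, fa, fb, dir, Set.mem_prod, Set.mem_Icc, Bool.not_true,
      Bool.not_false, if_true, Bool.false_eq_true, if_false, Prod.fst_add, Prod.snd_add,
      Prod.fst_sub, Prod.snd_sub] <;>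
    push_cast <;>
    refine ⟨⟨⟨⟨?_, ?_⟩, ?_, ?_⟩, ⟨?_, ?_⟩, ?_, ?_⟩, ⟨⟨?_, ?_⟩, ?_, ?_⟩, ⟨?_, ?_⟩, ?_, ?_⟩ <;>
    linarith

theorem w_crs (h : W_cs) : W_crs := by
  classical
  intro s g Ω K hs hg hgb hΩ hsep hK hne hd
  have hO : {p : Site | ∃ y ∈ g, dist (pnt s p) y < 2 * s}.Finite := by
    refine (wcrs_fin hs (hgb.thickening (δ := 2 * s))).subset ?_
    intro p hp
    exact Metric.mem_thickening_iff.2 hp
  let St : Site → Site → Prop := fun a b => ∃ m : Vx,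
    ¬ (src m ∈ hO.toFinset ∧ tgt m ∈ hO.toFinset) ∧
      ((fa m = a ∧ fb m = b) ∨ (fa m = b ∧ fb m = a))
  have hc : ∀ p : Site, IsPreconnected (wcrs_Q s p) := fun p =>
    ((convex_Icc _ _).prod (convex_Icc _ _)).isPreconnected
  have key : ∀ p0 p, (∃ x ∈ K, dist (pnt s p0) x ≤ 3 * s) → Relation.ReflTransGen St p0 p →
      Disjoint (wcrs_Q s p) g ∧ wcrs_Q s p ⊆ Ω := by
    rintro p0 p ⟨x, hx, hp0⟩ hp
    induction hp with
    | refl =>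
      have h1 : Disjoint (Metric.closedBall x (5 * s)) g := by
        rw [Set.disjoint_left]
        intro y hy hyg
        have := hd x hx y hyg
        rw [Metric.mem_closedBall, dist_comm] at hy
        linarith
      have h2 : wcrs_Q s p0 ⊆ Metric.closedBall x (5 * s) := fun y hy => by
        have := dist_triangle y (pnt s p0) x
        have := wcrs_diam hy (wcrs_self hs p0)
        rw [Metric.mem_closedBall]
        linarith
      exact ⟨h1.mono_left h2, h2.trans (hsep _ (convex_closedBall _ _).isPreconnected h1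
        ⟨x, Metric.mem_closedBall_self (by linarith), hK hx⟩)⟩
    | @tail a b _ hab ih =>
      obtain ⟨m, hm, hab⟩ := hab
      have h0 : pnt s (src m) ∈ wcrs_Q s a ∧ pnt s (src m) ∈ wcrs_Q s b ∧
          pnt s (tgt m) ∈ wcrs_Q s b := by
        obtain ⟨⟨c1, c2⟩, c3, c4⟩ := wcrs_cor hs m
        rcases hab with ⟨rfl, rfl⟩ | ⟨rfl, rfl⟩
        · exact ⟨c1, c3, c4⟩
        · exact ⟨c3, c1, c2⟩
      have h1 : Disjoint (wcrs_Q s b) g := by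
        rw [Set.disjoint_left]
        intro y hy hyg
        refine hm ⟨hO.mem_toFinset.2 ⟨y, hyg, ?_⟩, hO.mem_toFinset.2 ⟨y, hyg, ?_⟩⟩
        · have := wcrs_diam h0.2.1 hy
          linarith
        · have := wcrs_diam h0.2.2 hy
          linarith
      exact ⟨h1, hsep _ (hc b) h1 ⟨_, h0.2.1, ih.2 h0.1⟩⟩
  have hR : {p : Site | ∃ p0, (∃ x ∈ K, dist (pnt s p0) x ≤ 3 * s) ∧
      Relation.ReflTransGen St p0 p}.Finite := by
    refine (wcrs_fin hs hΩ).subset ?_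
    rintro p ⟨p0, h0, hp⟩
    exact (key p0 p h0 hp).2 (wcrs_self hs p)
  refine ⟨hO.toFinset, hR.toFinset, ⟨?_, ?_, ?_⟩, fun p hp => hO.mem_toFinset.1 hp,
    fun p hp => hR.mem_toFinset.2 ⟨p, hp, .refl⟩, fun p hp => ?_⟩
  · rw [hO.coe_toFinset]
    exact h s g hs hg
  · intro m hm
    by_contra hn
    refine hm ⟨fun h1 => ?_, fun h1 => ?_⟩
    · obtain ⟨p0, h0, hp⟩ := hR.mem_toFinset.1 h1
      exact hR.mem_toFinset.2 ⟨p0, h0, hp.tail ⟨m, hn, Or.inl ⟨rfl, rfl⟩⟩⟩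
    · obtain ⟨p0, h0, hp⟩ := hR.mem_toFinset.1 h1
      exact hR.mem_toFinset.2 ⟨p0, h0, hp.tail ⟨m, hn, Or.inr ⟨rfl, rfl⟩⟩⟩
  · obtain ⟨x, hx⟩ := hne
    refine ⟨(⌊x.1 / s⌋, ⌊x.2 / s⌋), hR.mem_toFinset.2 ⟨_, ⟨x, hx, ?_⟩, .refl⟩⟩
    have k : ∀ t : ℝ, t ∈ Set.Icc (s * (⌊t / s⌋ : ℤ)) (s * (⌊t / s⌋ : ℤ) + s) := fun t => by
      have h1 := (le_div_iff₀ hs).1 (Int.floor_le (t / s))
      have h2 := (div_lt_iff₀ hs).1 (Int.lt_floor_add_one (t / s))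
      constructor <;> linarith
    have := wcrs_diam (wcrs_self hs (⌊x.1 / s⌋, ⌊x.2 / s⌋)) (y := x) ⟨k _, k _⟩
    linarith
  · obtain ⟨p0, h0, hp⟩ := hR.mem_toFinset.1 hp
    have := key p0 p h0 hp
    exact ⟨this.2 (wcrs_self hs p), Set.disjoint_left.1 this.1 (wcrs_self hs p)⟩

end Vale.Agent.P145
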