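import Vale.Agent.P145.WDefs

/-! Sites near a connected set are connected. -/

open Filter Topology

namespace Vale.Agent.P145

open Vale.Agent.P152

theorem wcs_line {r : Site → Site → Prop} (P : ℤ → Site) (C : ℤ → Prop)
    (hC : ∀ a b c, C a → C c → a ≤ b → b ≤ c → C b)
    (h : ∀ i, C i → C (i + 1) → r (P i) (P (i + 1)) ∧ r (P (i + 1)) (P i)) {a b : ℤ}
    (ha : C a) (hb : C b) : Relation.ReflTransGen r (P a) (P b) := by
  have k : ∀ a b, a ≤ b → C a → C b →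
      Relation.ReflTransGen r (P a) (P b) ∧ Relation.ReflTransGen r (P b) (P a) := by
    intro a b hab ha
    induction b, hab using Int.leInduction with
    | base => exact fun _ => ⟨.refl, .refl⟩
    | succ b hab ih =>
      intro hb
      have hb' := hC a b _ ha hb hab (by omega)
      exact ⟨(ih hb').1.tail (h b hb' hb).1, (ih hb').2.head (h b hb' hb).2⟩
  rcases le_total a b with e | e
  · exact (k a b e ha hb).1
  · exact (k b a e hb ha).2

theorem wcs_cv {t y : ℝ} (ht : 0 < t) (a b c : ℤ) (ha : dist (t * a) y < 2 * t)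
    (hc : dist (t * c) y < 2 * t) (h1 : a ≤ b) (h2 : b ≤ c) : dist (t * b) y < 2 * t := by
  rw [Real.dist_eq, abs_lt] at *
  have := mul_le_mul_of_nonneg_left (Int.cast_le (R := ℝ).2 h1) ht.le
  have := mul_le_mul_of_nonneg_left (Int.cast_le (R := ℝ).2 h2) ht.le
  constructor <;> linarith [ha.1, hc.2]

theorem wcs_ne {t : ℝ} (ht : 0 < t) (y : ℝ) : dist (t * ⌊y / t⌋) y < 2 * t := by
  have h1 := (le_div_iff₀ ht).1 (Int.floor_le (y / t))
  have h2 := (div_lt_iff₀ ht).1 (Int.lt_floor_add_one (y / t))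
  rw [Real.dist_eq, abs_lt]
  constructor <;> linarith

theorem wcs_box {t : ℝ} (ht : 0 < t) {T : Set Site} {y : Pl}
    (hT : ∀ p, dist (pnt t p) y < 2 * t → p ∈ T) {p q : Site} (hp : dist (pnt t p) y < 2 * t)
    (hq : dist (pnt t q) y < 2 * t) :
    Relation.ReflTransGen (fun a b => a ∈ T ∧ b ∈ T ∧ NNa a b) p q := by
  simp only [Prod.dist_eq, pnt, max_lt_iff] at hT hp hq
  refine (wcs_line (fun i => (i, p.2)) _ (wcs_cv ht) (fun i h h' => ?_) hp.1 hq.1).trans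
    (wcs_line (fun i => (q.1, i)) _ (wcs_cv ht) (fun i h h' => ?_) hp.2 hq.2)
  · have a := hT (i, p.2) ⟨h, hp.2⟩
    have b := hT (i + 1, p.2) ⟨h', hp.2⟩
    exact ⟨⟨a, b, by simp [NNa]⟩, b, a, by simp [NNa]⟩
  · have a := hT (q.1, i) ⟨hq.1, h⟩
    have b := hT (q.1, i + 1) ⟨hq.1, h'⟩
    exact ⟨⟨a, b, by simp [NNa]⟩, b, a, by simp [NNa]⟩

theorem w_cs : W_cs := by
  rintro t g ht hg p ⟨y, hy, hp⟩ q ⟨y', hy', hq⟩
  have ne : ∀ x : Pl, ∃ r, dist (pnt t r) x < 2 * t := fun x =>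
    ⟨(⌊x.1 / t⌋, ⌊x.2 / t⌋), max_lt (wcs_ne ht _) (wcs_ne ht _)⟩
  refine hg.induction₂' (fun x x' => ∀ p q, dist (pnt t p) x < 2 * t → dist (pnt t q) x' < 2 * t →
    Relation.ReflTransGen (fun a b => a ∈ {p | ∃ y ∈ g, dist (pnt t p) y < 2 * t} ∧
      b ∈ {p | ∃ y ∈ g, dist (pnt t p) y < 2 * t} ∧ NNa a b) p q)
    (fun x hx => ?_) (fun a b c _ _ _ h h' p q hp hq => ?_) hy hy' p q hp hq
  · obtain ⟨r, hr⟩ := ne x
    filter_upwards [self_mem_nhdsWithin,
      mem_nhdsWithin_of_mem_nhds (Metric.isOpen_ball.mem_nhds (Metric.mem_ball'.2 hr))]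
      with x' hx' hr'
    rw [Metric.mem_ball'] at hr'
    have k : ∀ z ∈ g, ∀ p, dist (pnt t p) z < 2 * t →
      p ∈ {p | ∃ y ∈ g, dist (pnt t p) y < 2 * t} := fun z hz _ h => ⟨z, hz, h⟩
    exact ⟨fun p q hp hq => (wcs_box ht (k x hx) hp hr).trans (wcs_box ht (k x' hx') hr' hq),
      fun p q hp hq => (wcs_box ht (k x' hx') hp hr').trans (wcs_box ht (k x hx) hr hq)⟩
  · obtain ⟨r, hr⟩ := ne b
    exact (h p r hp hr).trans (h' r q hr hq)

end Vale.Agent.P145
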