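import Vale.Agent.P145.WBas

/-! P145, block W: sandwich behind a wall, with a weight that lives outside. -/

open Filter Topology

namespace Vale.Agent.P145

open Vale.Agent.P152

theorem wex_rt {r p : Site → Site → Prop} (h : ∀ x y, r x y → p x y) {x y : Site}
    (k : Relation.ReflTransGen r x y) : Relation.ReflTransGen p x y := by
  induction k with
  | refl => exact .refl
  | tail _ e ih => exact ih.tail (h _ _ e)

theorem wex_anti {O O' : Set Vx} {A : Set Site} (h : O ⊆ O') : Rch O' A ⊆ Rch O A := by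
  rintro g ⟨f, hf, k⟩
  exact ⟨f, hf, wex_rt (fun _ _ ⟨h1, h2, m, h3, h4⟩ => ⟨h1, h2, m, fun e => h3 (h e), h4⟩) k⟩

theorem wex_out {O : Set Vx} {Λ Dp : Finset Site} (h1 : Cc Dp) (h2 : Dp ⊆ Λ) (h3 : O ⊆ vin Dp)
    {f : Site} (hf : f ∉ Dp) : f ∈ Rch O (Λ : Set Site)ᶜ := by
  obtain ⟨g, hg⟩ := Infinite.exists_notMem_finset Λ
  refine ⟨g, hg, wex_rt ?_ (h1 g (fun e => hg (h2 e)) f hf).2⟩
  rintro x y ⟨hx, -, m, -, hm⟩
  refine ⟨trivial, trivial, m, fun e => hx ?_, hm⟩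
  have := mem_vin.1 (h3 e)
  rcases hm with ⟨rfl, -⟩ | ⟨-, rfl⟩
  · exact this.1
  · exact this.2

theorem wex_bd {O : Set Vx} {A : Set Site} {D : Finset Site} (h : ∀ f, f ∈ D ↔ f ∉ Rch O A)
    {m : Vx} (hm : m ∈ bd D) : m ∈ O := by
  by_contra e
  refine wmem_bd.1 hm ?_
  rw [h, h, not_iff_not]
  constructor
  · rintro ⟨f, hf, k⟩
    exact ⟨f, hf, k.tail ⟨trivial, trivial, m, e, Or.inl ⟨rfl, rfl⟩⟩⟩
  · rintro ⟨f, hf, k⟩
    exact ⟨f, hf, k.tail ⟨trivial, trivial, m, e, Or.inr ⟨rfl, rfl⟩⟩⟩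

theorem wex_end {D : Finset Site} {f v : Site} (hf : f ∈ D) (hv : v ∈ cor f) (h : v ∉ inn D) :
    ∃ m ∈ bd D, End m v := by
  by_contra e
  push Not at e
  have e1 : v ∈ D ↔ v - (0, 1) ∈ D := by
    by_contra k
    exact e (v, true) (wmem_bd.2 k) (Or.inl rfl)
  have e2 : v ∈ D ↔ v - (1, 0) ∈ D := by
    by_contra k
    exact e (v, false) (wmem_bd.2 k) (Or.inl rfl)
  have e3 : v - (1, 0) ∈ D ↔ v - (1, 1) ∈ D := by
    by_contra k
    refine e (v - (1, 0), true) (wmem_bd.2 ?_) (Or.inr (by simp [tgt, dir]))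
    have : fb (v - (1, 0), true) = v - (1, 1) := by simp [fb, dir, sub_sub]
    rw [this]
    exact k
  refine h (mem_inn.2 ?_)
  simp only [cor, Finset.mem_insert, Finset.mem_singleton] at hv
  rcases hv with rfl | rfl | rfl | rfl
  · tauto
  · have : f + (1, 0) - (1, 0) ∈ D := by simpa using hf
    tauto
  · have : f + (0, 1) - (0, 1) ∈ D := by simpa using hf
    tauto
  · have : f + (1, 1) - (1, 1) ∈ D := by simpa using hf
    tauto

theorem wex_lev {D : Finset Site} {j a : ℤ} {h : Ht} (h1 : Flat D j h)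
    (h2 : ∀ m ∈ bd D, h (src m, true) = a ∧ h (tgt m, true) = a) (v : Site) :
    ∀ f ∈ D, v ∈ cor f → h (v, true) = a := by
  refine left_ind D (fun v => ∀ f ∈ D, v ∈ cor f → h (v, true) = a) (fun v hv f hf k => ?_)
    (fun v hv ih _ _ _ => ?_) v
  · obtain ⟨m, hm, rfl | rfl⟩ := wex_end hf k hv
    · exact (h2 m hm).1
    · exact (h2 m hm).2
  · have m := (mem_inn.1 hv).2.1
    have c1 : v ∈ cor (v - (1, 0)) := by rw [mem_cor]; simp
    have c2 : v - (1, 0) ∈ cor (v - (1, 0)) := by rw [mem_cor]; simp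
    have e1 := (h1 _ m _ c1).1
    have e2 := (h1 _ m _ c2).1
    have e3 := ih _ m c2
    omega

theorem wex_glue (D : Finset Site) (ho hi : Ht) (v : Site) :
    glue D ho hi (v, true) = ho (v, true) + hi (v, true) := by
  simp [glue, NFMk_true]

theorem wex_key {Λ Q Dp D : Finset Site} {S S1 : Set Vx} {a : ℤ} {𝒜 : Set Vx → Prop}
    {F G : Ht → ℝ} {ho : Ht} {ωo : Finset Vx}
    (hA : ∀ O ⊆ S, 𝒜 O → ∀ f ∈ Q, f ∉ Rch (O ∩ S1) (Λ : Set Site)ᶜ) (hF : DepV (inn Q) F)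
    (h1 : Cc Dp) (h2 : Dp ⊆ Λ) (h3 : S1 ⊆ vin Dp) (hG : DepV (inn Dp : Set Site)ᶜ G)
    (o : Out Λ D (a % 4) ho ωo) (x : exd Λ (∅ ∪ op (· = a) ho ωo ∩ S1) (Λ : Set Site)ᶜ = D)
    (st : ∀ hi ωi, Ok D hi ωi →
      Rch (∅ ∪ op (· = a) (glue D ho hi) (ωo ∪ ωi) ∩ S1) (Λ : Set Site)ᶜ =
        Rch (∅ ∪ op (· = a) ho ωo ∩ S1) (Λ : Set Site)ᶜ) :
    (∀ hi ωi, Ok D hi ωi → pi (𝒜 (op (· = a) (glue D ho hi) (ωo ∪ ωi) ∩ S)) = 0) ∨
    (Q ⊆ D ∧ D ⊆ Dp ∧ ∀ hi ωi, Ok D hi ωi →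
      op (· = a) (glue D ho hi) (ωo ∪ ωi) = op (· = a) ho ωo ∪ op (· = 0) hi ωi ∧
      G (glue D ho hi) = G ho ∧ F (glue D ho hi - fun _ => a) = F hi) := by
  simp only [Set.empty_union] at x st
  have hD : ∀ f, f ∈ D ↔ f ∉ Rch (op (· = a) ho ωo ∩ S1) (Λ : Set Site)ᶜ := fun f => by
    rw [← x]
    simp only [exd, Finset.mem_filter]
    exact ⟨fun k => k.2, fun k => ⟨by_contra fun e => k ⟨f, e, .refl⟩, k⟩⟩
  by_cases hQ : Q ⊆ D
  · have hp : D ⊆ Dp := fun f hf => by_contra fun e =>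
      (hD f).1 hf (wex_out h1 h2 (Set.inter_subset_right.trans h3) e)
    have lev := wex_lev (a := a) o.2.1 fun m hm => by
      have k := (wex_bd hD hm).1
      exact ⟨k.2, (o.2.2.2.2.1 m k.1).symm.trans k.2⟩
    refine Or.inr ⟨hQ, hp, fun hi ωi k => ⟨?_, hG _ _ fun v hv => ?_, hF _ _ fun v hv => ?_⟩⟩
    · have z1 : ∀ m ∈ ωo, hi (src m, true) = 0 := fun m hm =>
        k.1.1 _ fun e => (Finset.mem_sdiff.1 (o.2.2.1 hm)).2 (vin_of_src e)
      have z2 : ∀ m ∈ ωi, ho (src m, true) = a := fun m hm =>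
        lev _ _ (mem_vin.1 (k.2.1 hm)).1 (by simp [cor, src, fa])
      ext m
      simp only [op, Set.mem_union, Set.mem_ofPred_eq, Finset.mem_union, wex_glue]
      constructor
      · rintro ⟨hm | hm, e⟩
        · exact Or.inl ⟨hm, by have := z1 m hm; omega⟩
        · exact Or.inr ⟨hm, by have := z2 m hm; omega⟩
      · rintro (⟨hm, e⟩ | ⟨hm, e⟩)
        · exact ⟨Or.inl hm, by have := z1 m hm; omega⟩
        · exact ⟨Or.inr hm, by have := z2 m hm; omega⟩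
    · rw [wex_glue, k.1.1 v fun e => hv (inn_mono hp e), add_zero]
    · have := lev v v (hQ (inn_subset hv)) (by simp [cor])
      rw [Pi.sub_apply, wex_glue]
      omega
  · obtain ⟨f, hf, hn⟩ := Finset.not_subset.1 hQ
    refine Or.inl fun hi ωi k => wpi_not fun e => hA _ Set.inter_subset_right e f hf ?_
    refine wex_anti (Set.inter_subset_inter_left _ Set.inter_subset_left) ?_
    rw [st hi ωi k]
    exact by_contra fun e => hn ((hD f).2 e)

theorem h_ex2 (e : M_exp) (n : H_neg) (o : H_out) (mo : H_mono) : H_ex2 := by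
  intro c hc Λ Q Dm Dp S S1 a 𝒜 F G hΛ _ hm hA sF dF h1 h2 h3 G0 dG
  have ex := fun Φ Ψ => e c hc Λ (a % 4) (Λ : Set Site)ᶜ ∅ S1 (· = a) Φ Ψ
    (by rw [Set.union_self]; exact hΛ) (Set.empty_disjoint _) (fun z hz => by rw [hz])
    (Or.inr ⟨rfl, subset_rfl⟩)
  refine ⟨fun hDm hS => ?_, ?_⟩
  · rw [mul_comm, ← wj_mul]
    refine ex _ _ fun D ho ωo _ _ ou x st => ?_
    unfold Inn
    beta_reduce
    rcases wex_key hA dF h1 h2 h3 dG ou x st with k | ⟨hQ, -, k⟩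
    · exact wj_mono hc fun hi ωi z => by rw [k hi ωi z]; simp
    have bb : ∀ O : Set Vx, (op (· = a) ho ωo ∪ O) ∩ S = (op (· = a) ho ωo ∪ O \ vin Dm) ∩ S := by
      intro O
      ext m
      have : m ∈ S → m ∉ (vin Dm : Set Vx) := fun z => Set.disjoint_left.1 hS z
      simp only [Set.mem_inter_iff, Set.mem_union, Set.mem_sdiff]
      tauto
    have t := o c hc D Dm F (fun O => pi (𝒜 ((op (· = a) ho ωo ∪ O) ∩ S))) sF (hDm.trans hQ)
      fun _ => wpi_nonneg _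
    have t2 := mul_le_mul_of_nonneg_left t (G0 ho)
    rw [mul_comm _ (PH c Dm F), ← wj_mul, ← wj_mul, ← wj_mul] at t2
    refine (wj_congr hc fun hi ωi z => ?_).trans_le (t2.trans_eq (wj_congr hc fun hi ωi z => ?_))
    · rw [(k hi ωi z).1, (k hi ωi z).2.1, bb]
      ring
    · rw [(k hi ωi z).1, (k hi ωi z).2.1, (k hi ωi z).2.2, ← bb]
      ring
  · rw [mul_comm, ← wj_mul]
    refine ex _ _ fun D ho ωo _ _ ou x st => ?_
    unfold Inn
    beta_reduce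
    rcases wex_key hA dF h1 h2 h3 dG ou x st with k | ⟨-, hp, k⟩
    · exact wj_mono hc fun hi ωi z => by rw [k hi ωi z]; simp
    have t := n c hc D F (fun O => pi (𝒜 ((op (· = a) ho ωo ∪ O) ∩ S))) sF
      (fun O O' z => wpi_mono (hm _ _
        (Set.inter_subset_inter_left _ (Set.union_subset_union_right _ z)))) fun _ => wpi_nonneg _
    have t1 := t.trans (mul_le_mul_of_nonneg_left (mo c hc Dp D F sF hp)
      (wj_nonneg hc fun _ _ _ => wpi_nonneg _))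
    have t2 := mul_le_mul_of_nonneg_left t1 (G0 ho)
    rw [mul_comm _ (PH c Dp F), ← wj_mul, ← wj_mul, ← wj_mul] at t2
    refine (wj_congr hc fun hi ωi z => ?_).trans_le (t2.trans_eq (wj_congr hc fun hi ωi z => ?_))
    · rw [(k hi ωi z).1, (k hi ωi z).2.1, (k hi ωi z).2.2]
      ring
    · rw [(k hi ωi z).1, (k hi ωi z).2.1]
      ring

end Vale.Agent.P145
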