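import Vale.Agent.P145.WBas

/-! P145, block W: moving a charge far to the right. -/

namespace Vale.Agent.P145

open Vale.Agent.P152

theorem wflow_XH (g : Vx →₀ ℝ) (h : Ht) : XH g h =
    Finsupp.linearCombination ℝ (fun m => ((h (tgt m, true) : ℝ) - h (src m, true))) g := by
  rw [Finsupp.linearCombination_apply]; rfl

/-- the flow -/
noncomputable def wflow_g (a : Site →₀ ℝ) (L : ℕ) : Vx →₀ ℝ :=
  ∑ j ∈ Finset.range L, Finsupp.mapDomain (fun v : Site => ((v + ((j : ℤ), 0), true) : Vx)) (-a)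

theorem wflow_t (a : Site →₀ ℝ) (L : ℕ) (x : Site) :
    wflow_g a L (x, true) = -∑ j ∈ Finset.range L, a (x - ((j : ℤ), 0)) := by
  rw [wflow_g, Finsupp.finsetSum_apply, ← Finset.sum_neg_distrib]
  refine Finset.sum_congr rfl fun j _ => ?_
  have h := Finsupp.mapDomain_apply (f := fun v : Site => ((v + ((j : ℤ), 0), true) : Vx))
    (fun v w e => add_right_cancel (Prod.ext_iff.1 e).1) (-a) (x - ((j : ℤ), 0))
  simp only [sub_add_cancel] at h
  exact h

theorem wflow_f (a : Site →₀ ℝ) (L : ℕ) (x : Site) : wflow_g a L (x, false) = 0 := by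
  rw [wflow_g, Finsupp.finsetSum_apply]
  exact Finset.sum_eq_zero fun j _ => Finsupp.mapDomain_of_notMem_range _ _ (by simp)

theorem wflow_id (a : Site →₀ ℝ) (L : ℕ) (h : Ht) (k : ℤ) :
    XH (wflow_g a L) h = lin a (h - fun _ => k) -
      lin (Finsupp.mapDomain (· + ((L : ℤ), 0)) a) (h - fun _ => k) := by
  rw [wlin_sub, wlin_sub, Finsupp.sum_mapDomain_index (by simp) (by intros; ring), wflow_XH,
    wflow_g, map_sum]
  simp only [Finsupp.linearCombination_mapDomain, map_neg]
  simp only [Finsupp.linearCombination_apply, Finsupp.sum, ← Finset.sum_neg_distrib,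
    ← Finset.sum_sub_distrib]
  rw [Finset.sum_comm]
  refine Finset.sum_congr rfl fun v _ => ?_
  have t := Finset.sum_range_sub (fun j : ℕ => (h (v + ((j : ℤ), 0), true) : ℝ)) L
  have e0 : v + (((0 : ℕ) : ℤ), 0) = v := by simp
  rw [e0] at t
  have e : ∀ j : ℕ, v + ((j : ℤ), 0) + (1, 0) = v + (((j + 1 : ℕ) : ℤ), 0) := fun j => by
    simp [add_assoc]
  simp only [Function.comp, tgt, src, dir, if_true, e, smul_eq_mul, Finset.sum_neg_distrib,
    ← Finset.mul_sum, t]
  ring

theorem w_flow : W_flow := by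
  intro a N τ hN ha hs
  have hτ : 0 ≤ τ := (ha 0).1.trans (ha 0).2
  have hb : ∀ v, a v ≠ 0 → -(N:ℤ) ≤ v.1 ∧ v.1 ≤ N ∧ -(N:ℤ) ≤ v.2 ∧ v.2 ≤ N := fun v hv => by
    have h := hs v hv
    simp only [sd, Prod.fst_zero, Prod.snd_zero, sub_zero, max_le_iff, abs_le] at h
    exact ⟨h.1.1, h.1.2, h.2.1, h.2.2⟩
  refine ⟨wflow_g a (21 * N), Finsupp.mapDomain (· + (((21 * N : ℕ) : ℤ), 0)) a, ?_,
    fun v hv => ?_, wflow_id a _⟩
  · have hN' : (1:ℝ) ≤ N := by exact_mod_cast hN
    have h1 : ∀ m, wflow_g a (21 * N) m ^ 2 ≤ (3 * N * τ) ^ 2 := by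
      rintro ⟨x, _ | _⟩
      · rw [wflow_f]; nlinarith [sq_nonneg (3 * N * τ)]
      rw [wflow_t, neg_sq]
      refine pow_le_pow_left₀ (Finset.sum_nonneg fun j _ => (ha _).1) ?_ 2
      rw [← Finset.sum_filter_ne_zero]
      refine (Finset.sum_le_card_nsmul _ _ τ fun j _ => (ha _).2).trans ?_
      have h2 : ((Finset.range (21 * N)).filter fun j : ℕ => a (x - ((j : ℤ), 0)) ≠ 0).card ≤
          (Finset.Icc (-(N:ℤ)) N).card :=
        Finset.card_le_card_of_injOn (fun j => x.1 - j) (fun j hj => by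
          have := hb _ (Finset.mem_filter.1 hj).2
          simp only [Prod.fst_sub] at this
          exact Finset.mem_coe.2 (Finset.mem_Icc.2 ⟨this.1, this.2.1⟩))
          (fun i _ j _ e => by simpa using e)
      have h3 : (Finset.Icc (-(N:ℤ)) N).card ≤ 3 * N := by rw [Int.card_Icc]; omega
      rw [nsmul_eq_mul]
      refine mul_le_mul_of_nonneg_right ?_ hτ
      exact_mod_cast h2.trans h3
    have h2 : (wflow_g a (21 * N)).support ⊆
        (Finset.Icc (-(N:ℤ)) (22 * N) ×ˢ Finset.Icc (-(N:ℤ)) N) ×ˢ {true} := by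
      rintro ⟨x, _ | _⟩ hm
      · exact absurd (wflow_f a _ x) (Finsupp.mem_support_iff.1 hm)
      have h3 := Finsupp.mem_support_iff.1 hm
      rw [wflow_t, neg_ne_zero] at h3
      obtain ⟨j, hj, h4⟩ := Finset.exists_ne_zero_of_sum_ne_zero h3
      have h5 := hb _ h4
      have h6 := Finset.mem_range.1 hj
      simp only [Prod.fst_sub, Prod.snd_sub] at h5
      simp only [Finset.mem_product, Finset.mem_Icc, Finset.mem_singleton, and_true]
      omega
    have h3 : (wflow_g a (21 * N)).support.card ≤ 24 * N * (3 * N) := by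
      refine (Finset.card_le_card h2).trans ?_
      rw [Finset.card_product, Finset.card_product, Finset.card_singleton, mul_one, Int.card_Icc,
        Int.card_Icc]
      exact Nat.mul_le_mul (by omega) (by omega)
    have h4 : ((wflow_g a (21 * N)).support.card : ℝ) ≤ 24 * N * (3 * N) := by exact_mod_cast h3
    refine (Finset.sum_le_card_nsmul _ _ _ fun m _ => h1 m).trans ?_
    rw [nsmul_eq_mul]
    refine (mul_le_mul_of_nonneg_right h4 (sq_nonneg _)).trans ?_
    nlinarith [sq_nonneg (τ * N ^ 2)]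
  · obtain ⟨u, hu, rfl⟩ := Finset.mem_image.1
      (Finsupp.mapDomain_support (Finsupp.mem_support_iff.2 hv))
    have := hb u (Finsupp.mem_support_iff.1 hu)
    simp only [Prod.fst_add]
    omega

end Vale.Agent.P145
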