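import Vale.Agent.P145.WBas

/-! P145, block W: Gaussian domination for heights in boxes. -/

open Filter Topology

namespace Vale.Agent.P145

open Vale.Agent.P152

theorem wgd_sg {a : ℤ} (h : |a| = 1) : sg (decide (a = 1)) = a := by
  rcases abs_eq (zero_le_one (α := ℤ)) |>.1 h with rfl | rfl <;> simp

theorem wgd_inc {D : Finset Site} {h : Ht} (hh : IsH D h) {m : Vx} (hm : m ∈ vin D) :
    inc (cfg (NFLink_T D h)) m = (h (tgt m, true) : ℝ) - h (src m, true) := by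
  obtain ⟨p0, p1, p2, p3⟩ := plq_lg m
  obtain ⟨q0, q1, q2, q3⟩ := pvx_lg m
  obtain ⟨ha, hb⟩ := mem_vin.1 hm
  obtain ⟨a1, a2, a3, a4⟩ := hh.edge hm
  rw [inc, NFLink_cfg h (p0 ▸ ha), NFLink_cfg h (p1 ▸ ha), NFLink_cfg h (l := lg m 2) (p2 ▸ hb),
    NFLink_cfg h (l := lg m 3) (p3 ▸ hb), p0, p1, p2, p3, q0, q1, q2, q3, wgd_sg a1, wgd_sg a2,
    wgd_sg a3, wgd_sg a4]
  push_cast
  ring

theorem w_gdb (l : L_leg) (hb : ∀ ab, Cc (bx ab)) {c : ℝ} (hc : 1 ≤ c) (hv : Conv c)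
    (hs : St (EE c)) : GDB c := by
  obtain ⟨C, hC, hg⟩ := hs.gd
  refine ⟨C, hC, fun g => ?_⟩
  filter_upwards [(hv ∅ _ ((Loc.XX g).comp Real.exp)).eventually
    (gt_mem_nhds ((hg g).trans_lt (lt_add_one _))), ev_vin g.support] with ab h1 h2
  rw [l c _ (hb ab)] at h1
  refine le_trans (PH_mono (zero_lt_one.trans_le hc) fun h hh => le_of_eq (congrArg Real.exp ?_))
    h1.le
  exact Finset.sum_congr rfl fun m hm => congrArg (g m * ·) (wgd_inc hh (h2 hm)).symm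

end Vale.Agent.P145
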