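import Vale.Agent.P145.WBas

/-! P145, block W: position of the wall at small mesh. -/

open Filter Topology

namespace Vale.Agent.P145

open Vale.Agent.P152

theorem wgeo_ev {u : ℝ} (hu : 0 < u) (C : ℝ) : ∀ᶠ δ : ℝ in 𝓝[>] 0, δ * C ≤ u := by
  have h : Tendsto (fun δ : ℝ => δ * C) (𝓝 0) (𝓝 (0 * C)) := tendsto_id.mul_const C
  rw [zero_mul] at h
  exact (h.eventually (ge_mem_nhds hu)).filter_mono nhdsWithin_le_nhds

/-- the numerical data -/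
structure WGeoN (δ u M : ℝ) (ν l : ℕ) : Prop where
  pos : 0 < δ
  le : δ * l ≤ u
  ge : u - δ ≤ δ * l
  sm : δ * (6 * ν * M) ≤ u
  two : δ * 2 ≤ u

variable {δ u M : ℝ} {ν l : ℕ}

theorem wgeo_key (h : WGeoN δ u M ν l) {x p k : ℤ} (hk : 0 ≤ k) (hp : |(p : ℝ)| ≤ M)
    (hx : |x - 6 * ν * l * p| ≤ k * l) : |δ * x - 6 * ν * u * p| ≤ (k + 1) * u := by
  have e : |(x : ℝ) - 6 * ν * l * p| ≤ k * l := by exact_mod_cast hx
  have hk' : (0 : ℝ) ≤ k := by exact_mod_cast hk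
  have h0 := h.pos
  rw [show δ * x - 6 * ν * u * p = δ * (x - 6 * ν * l * p) + 6 * ν * (δ * l - u) * p by ring]
  refine (abs_add_le _ _).trans ?_
  rw [abs_mul, abs_mul, abs_mul, abs_of_pos h0, abs_of_nonneg (by positivity : (0 : ℝ) ≤ 6 * ν)]
  have a1 : δ * |(x : ℝ) - 6 * ν * l * p| ≤ δ * (k * l) := mul_le_mul_of_nonneg_left e h0.le
  have a2 : (k : ℝ) * (δ * l) ≤ k * u := mul_le_mul_of_nonneg_left h.le hk'
  have a3 : |δ * l - u| ≤ δ := abs_le.2 ⟨by linarith [h.ge], by linarith [h.le]⟩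
  have a4 : 6 * (ν : ℝ) * |δ * l - u| * |(p : ℝ)| ≤ 6 * ν * δ * M :=
    mul_le_mul (mul_le_mul_of_nonneg_left a3 (by positivity)) hp (abs_nonneg _) (by positivity)
  linarith [h.sm]

theorem wgeo_dist (h : WGeoN δ u M ν l) {f p : Site} {k : ℤ} (hk : 0 ≤ k)
    (hp : |(p.1 : ℝ)| ≤ M ∧ |(p.2 : ℝ)| ≤ M) (h1 : |f.1 - 6 * ν * l * p.1| ≤ k * l)
    (h2 : |f.2 - 6 * ν * l * p.2| ≤ k * l) :
    dist (pnt δ f) (pnt (6 * ν * u) p) ≤ (k + 1) * u := by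
  rw [Prod.dist_eq, max_le_iff, Real.dist_eq, Real.dist_eq]
  exact ⟨wgeo_key h hk hp.1 h1, wgeo_key h hk hp.2 h2⟩

theorem wgeo_vx {c : Site} {r : ℤ} {m : Vx} (h : m ∈ vx (wq c r)) :
    |m.1.1 - c.1| ≤ r ∧ |m.1.2 - c.2| ≤ r := by
  obtain ⟨⟨x, y⟩, b⟩ := m
  rw [mem_vx, mem_wq, mem_wq] at h
  rw [abs_le, abs_le]
  cases b <;> simp [fa, fb, dir] at h ⊢ <;> omega

theorem wgeo_tri {x z p a r : ℤ} (h1 : |x - 3 * l * z| ≤ r * l) (h2 : |z - 2 * ν * p| ≤ a) :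
    |x - 6 * ν * l * p| ≤ (r + 3 * a) * l := by
  rw [show x - 6 * ν * l * p = (x - 3 * l * z) + 3 * l * (z - 2 * ν * p) by ring]
  refine (abs_add_le _ _).trans ?_
  rw [abs_mul, abs_of_nonneg (by positivity : (0 : ℤ) ≤ 3 * l)]
  have := mul_le_mul_of_nonneg_left h2 (by positivity : (0 : ℤ) ≤ 3 * l)
  linarith

theorem wgeo_zs {O : Finset Site} {z : Site} (hν : 13 ≤ ν) (h : z ∈ Zs ν O) :
    ∃ p ∈ O, |z.1 - 2 * ν * p.1| ≤ ν - 2 ∧ |z.2 - 2 * ν * p.2| ≤ ν - 2 := by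
  simp only [Zs, Finset.mem_biUnion, Finset.mem_image, Finset.mem_union, Finset.mem_Icc] at h
  obtain ⟨⟨⟨x, y⟩, b⟩, hm, j, hj, rfl⟩ := h
  rw [mem_sld] at hm
  rcases hj with hj | hj
  · refine ⟨_, hm.1, ?_⟩
    rw [abs_le, abs_le]
    cases b <;> simp [ept, src, dir] <;> omega
  · refine ⟨_, hm.2, ?_⟩
    rw [abs_le, abs_le]
    cases b <;> simp [ept, tgt, dir, mul_add] <;> omega

theorem wgeo_qs {O : Finset Site} {z : Site} (h : z ∈ Qs ν O) :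
    ∃ p ∈ O, |z.1 - 2 * ν * p.1| ≤ ν ∧ |z.2 - 2 * ν * p.2| ≤ ν := by
  simp only [Qs, Finset.mem_image] at h
  obtain ⟨⟨⟨x, y⟩, b⟩, hm, rfl⟩ := h
  refine ⟨_, (mem_sld.1 hm).1, ?_⟩
  cases b <;> simp [ept, src, dir]

theorem wgeo_div {S : ℤ} (hS : 0 < S) (x : ℤ) : S * (x / S) ≤ x ∧ x < S * (x / S) + S :=
  ⟨Int.mul_ediv_self_le hS.ne', Int.lt_mul_ediv_self_add hS⟩

theorem wgeo_kn {S x p : ℤ} (hS : 0 < S) (h1 : p - 1 ≤ x / S) (h2 : x / S ≤ p + 1) :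
    S * p - S ≤ x ∧ x < S * p + 2 * S := by
  have a := wgeo_div hS x
  have a1 := mul_le_mul_of_nonneg_left h1 hS.le
  have a2 := mul_le_mul_of_nonneg_left h2 hS.le
  constructor <;> linarith [a.1, a.2]

theorem wgeo_out {S : ℤ} {R : Finset Site} {m : Vx} (hS : 0 < S) (h : m ∈ vx (upS S (kn R))) :
    ∃ p ∈ R, (|(fa m).1 - S * p.1| ≤ 2 * S ∧ |(fa m).2 - S * p.2| ≤ 2 * S) ∧
      |(fb m).1 - S * p.1| ≤ 2 * S ∧ |(fb m).2 - S * p.2| ≤ 2 * S := by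
  obtain ⟨⟨x, y⟩, b⟩ := m
  rw [mem_vx, mem_upS hS, mem_upS hS, mem_kn, mem_kn] at h
  simp only [abs_le]
  rcases h with ⟨p, hp, a1, a2, a3, a4⟩ | ⟨p, hp, a1, a2, a3, a4⟩ <;> refine ⟨p, hp, ?_⟩ <;>
    have b1 := wgeo_kn hS a1 a2 <;> have b2 := wgeo_kn hS a3 a4 <;>
    generalize S * p.1 = A at * <;> generalize S * p.2 = B at * <;> clear a1 a2 a3 a4 <;>
    cases b <;> simp [fa, fb, dir] at b1 b2 ⊢ <;> omega

theorem wgeo_bd (h : WGeoN δ u M ν l) (hν : 13 ≤ ν) (hl : 1 ≤ l) {ρ : ℝ} {x : ℤ}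
    (hx : |δ * x| ≤ ρ) : |((x / (6 * ν * l) : ℤ) : ℝ)| ≤ |ρ| / u + 1 := by
  have hS : (0 : ℤ) < 6 * ν * l := by positivity
  have h0 := h.pos
  have hu : 0 < u := by linarith [h.two]
  obtain ⟨a1, a2⟩ := wgeo_div hS x
  generalize x / (6 * ν * l) = p at *
  have a3 : 6 * ν * l * |p| ≤ |x| + 6 * ν * l := by
    rw [← abs_of_pos hS, ← abs_mul, abs_of_pos hS, abs_le]
    constructor <;> linarith [le_abs_self x, neg_abs_le x]
  have a4 : (6 * ν * l * |(p : ℝ)|) ≤ |(x : ℝ)| + 6 * ν * l := by exact_mod_cast a3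
  have hν' : (13 : ℝ) ≤ ν := by exact_mod_cast hν
  have a5 : u ≤ 6 * ν * (δ * l) := by nlinarith [h.ge, h.two]
  rw [abs_mul, abs_of_pos h0] at hx
  rw [← sub_le_iff_le_add, le_div_iff₀ hu]
  rcases le_total |(p : ℝ)| 1 with k | k
  · nlinarith [abs_nonneg ρ]
  · have a6 := mul_le_mul_of_nonneg_left a4 h0.le
    have a7 := mul_le_mul_of_nonneg_left a5 (sub_nonneg.2 k)
    linarith [le_abs_self ρ]

theorem w_geo : W_geo := by
  intro s ν n0 O R ρ hs hν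
  have hν' : (13 : ℝ) ≤ ν := by exact_mod_cast hν
  obtain ⟨u, hu, rfl⟩ : ∃ u, 0 < u ∧ s = 6 * ν * u :=
    ⟨s / (6 * ν), by positivity, by field_simp⟩
  have eu : 6 * ν * u / (6 * ν) = u := by field_simp
  obtain ⟨M0, hM0⟩ := ((O ∪ R).finite_toSet.image fun p => max |(p.1 : ℝ)| |(p.2 : ℝ)|).bddAbove
  set M := max M0 (|ρ| / u + 1)
  have hM : ∀ p ∈ O ∪ R, |(p.1 : ℝ)| ≤ M ∧ |(p.2 : ℝ)| ≤ M := fun p hp =>
    max_le_iff.1 ((hM0 ⟨p, hp, rfl⟩).trans (le_max_left _ _))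
  filter_upwards [self_mem_nhdsWithin, wgeo_ev hu n0, wgeo_ev hu 2, wgeo_ev hu (6 * ν * M)]
    with δ h0 h1 h2 h3
  have h0 : 0 < δ := h0
  have el : unt (6 * ν * u) ν δ = ⌊u / δ⌋₊ := by rw [unt, ← div_div, eu]
  have hl : 1 ≤ ⌊u / δ⌋₊ := Nat.le_floor (by rw [le_div_iff₀ h0]; push_cast; linarith)
  have h : WGeoN δ u M ν ⌊u / δ⌋₊ := by
    have a1 := Nat.floor_le (div_pos hu h0).le
    have a2 := Nat.lt_floor_add_one (u / δ)
    rw [le_div_iff₀ h0] at a1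
    rw [div_lt_iff₀ h0] at a2
    exact ⟨h0, by linarith, by linarith, h3, h2⟩
  refine ⟨el ▸ Nat.le_floor (by rw [le_div_iff₀ h0]; linarith), ?_⟩
  have hS : (0 : ℤ) < 6 * ν * (⌊u / δ⌋₊ : ℕ) := by positivity
  have band : ∀ z ∈ Zs ν O, ∃ p ∈ O, ∀ m ∈ vx (lkB ⌊u / δ⌋₊ ν (z, false)),
      |δ * m.1.1 - 6 * ν * u * p.1| ≤ (3 * ν - 1) * u ∧
        |δ * m.1.2 - 6 * ν * u * p.2| ≤ (3 * ν - 1) * u := fun z hz => by
    obtain ⟨p, hp, a1, a2⟩ := wgeo_zs hν hz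
    refine ⟨p, hp, fun m hm => ?_⟩
    have b := wgeo_vx hm
    have b1 := wgeo_key h (by omega) (hM p (Finset.mem_union_left _ hp)).1 (wgeo_tri b.1 a1)
    have b2 := wgeo_key h (by omega) (hM p (Finset.mem_union_left _ hp)).2 (wgeo_tri b.2 a2)
    push_cast at b1 b2
    constructor <;> linarith
  constructor
  · intro z hz
    obtain ⟨p, hp, a⟩ := band z hz
    refine ⟨p, hp, fun m hm => ?_⟩
    obtain ⟨a1, a2⟩ := a m (el ▸ hm)
    rw [eu, Prod.dist_eq, max_le_iff, Real.dist_eq, Real.dist_eq]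
    have a3 := abs_le.1 a2
    exact ⟨⟨a1.trans (by nlinarith), a2.trans (by nlinarith)⟩, by linarith [a3.1],
      by linarith [a3.2]⟩
  · intro i hi
    rw [el]
    simp only [lkJ, Finset.mem_union, Finset.mem_image] at hi
    rcases hi with ⟨z, hz, rfl⟩ | ⟨z, hz, rfl⟩
    · obtain ⟨p, hp, a⟩ := band z hz
      refine ⟨p, hp, fun m hm => ?_⟩
      obtain ⟨a1, a2⟩ := a m hm
      rw [Prod.dist_eq, max_le_iff, Real.dist_eq, Real.dist_eq]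
      exact ⟨a1.trans (by nlinarith), a2.trans (by nlinarith)⟩
    · obtain ⟨p, hp, a1, a2⟩ := wgeo_qs hz
      refine ⟨p, hp, fun m hm => ?_⟩
      have b := wgeo_vx hm
      refine (wgeo_dist h (by positivity) (hM p (Finset.mem_union_left _ hp)) (wgeo_tri b.1 a1)
        (wgeo_tri b.2 a2)).trans ?_
      push_cast
      nlinarith
  · intro m hm
    rw [el] at hm
    obtain ⟨p, hp, a, b⟩ := wgeo_out hS hm
    have e : 2 * (6 * (ν : ℤ) * (⌊u / δ⌋₊ : ℕ)) = 12 * ν * (⌊u / δ⌋₊ : ℕ) := by ring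
    rw [e] at a b
    have k : (((12 * ν : ℤ) : ℝ) + 1) * u ≤ 3 * (6 * ν * u) := by
      push_cast
      nlinarith
    have hp' := hM p (Finset.mem_union_right _ hp)
    exact ⟨p, hp, (wgeo_dist h (by positivity) hp' a.1 a.2).trans k,
      (wgeo_dist h (by positivity) hp' b.1 b.2).trans k⟩
  · intro f hf
    rw [el]
    rw [Prod.norm_def, max_le_iff, Real.norm_eq_abs, Real.norm_eq_abs] at hf
    refine ⟨_, ?_, (mem_upS hS).2⟩
    have a1 := wgeo_div hS f.1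
    have a2 := wgeo_div hS f.2
    refine (wgeo_dist h (k := 6 * ν) (by positivity)
      ⟨(wgeo_bd h hν hl hf.1).trans (le_max_right _ _),
        (wgeo_bd h hν hl hf.2).trans (le_max_right _ _)⟩
      (abs_le.2 ⟨by linarith [a1.1], by linarith [a1.2]⟩)
      (abs_le.2 ⟨by linarith [a2.1], by linarith [a2.2]⟩)).trans ?_
    push_cast
    nlinarith

end Vale.Agent.P145
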