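import Vale.Agent.P145.WBas

/-! P145, block W: the height of the wall. -/

open Filter Topology

namespace Vale.Agent.P145

open Vale.Agent.P152

variable {ι : Type} {J : Finset ι} {A B : ι → Finset Site} {R0 R1 Λ : Finset Site} {h : Ht}
  {ω : Finset Vx} {p q : ℤ → Prop}

theorem wlev_pth (hk : Ok Λ h ω) {O : Set Vx} (hO : O ⊆ op p h ω) {v w : Site} (k : Pth O v w) :
    h (v, true) = h (w, true) := by
  induction k with
  | refl => rfl
  | tail _ k ih =>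
    obtain ⟨m, hm, ⟨rfl, rfl⟩ | ⟨rfl, rfl⟩⟩ := k
    exacts [ih.trans (hk.2.2.1 m (hO hm).1), ih.trans (hk.2.2.1 m (hO hm).1).symm]

theorem wlev_end (hk : Ok Λ h ω) {m : Vx} (hm : m ∈ ω) {v : Site} (k : End m v) :
    h (src m, true) = h (v, true) := by
  rcases k with rfl | rfl
  exacts [rfl, hk.2.2.1 m hm]

theorem wlev_meet (n : P_nest) (hk : Ok Λ h ω) {E C : Finset Site} (h1 : Cn E) (h2 : Cc E)
    (h3 : Cn C) (h4 : Cc C) (hE : (bd E : Set Vx) ⊆ op p h ω) (hC : (bd C : Set Vx) ⊆ op q h ω)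
    (k0 : (E ∩ C).Nonempty) (k1 : ¬ E ⊆ C) (k2 : ¬ C ⊆ E) :
    ∃ m ∈ bd E, ∃ m' ∈ bd C, h (src m, true) = h (src m', true) := by
  by_contra hn
  rcases n E C h1 h2 h3 h4 fun m hm m' hm' v a b => hn ⟨m, hm, m', hm',
    (wlev_end hk (hE hm).1 a).trans (wlev_end hk (hC hm').1 b).symm⟩ with k | k | k
  exacts [k1 k, k2 k, k0.ne_empty (Finset.disjoint_iff_inter_eq_empty.1 k)]

theorem wlev_two (n : P_nest) (hw : Wall J A B R0 R1) (hk : Ok Λ h ω)
    (h1 : CG J A B (op p h ω)) (h2 : CG J A B (op q h ω)) :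
    ∃ a, p a ∧ q a ∧ a % 2 = 0 ∧ a ∈ lv Λ := by
  obtain ⟨i, hi, j, hj, k0, k1, k2⟩ := hw.rig
  obtain ⟨E, a1, a2, a3, a4, a5⟩ := h1 i hi
  obtain ⟨C, b1, b2, b3, b4, b5⟩ := h2 j hj
  obtain ⟨m, hm, m', hm', e⟩ := wlev_meet n hk a3 a4 b3 b4 a5 b5
    (k0.mono (Finset.inter_subset_inter (Finset.coe_subset.1 a1) (Finset.coe_subset.1 b1)))
    (fun k => k1 (Finset.coe_subset.1 (a1.trans ((Finset.coe_subset.2 k).trans b2))))
    fun k => k2 (Finset.coe_subset.1 (b1.trans ((Finset.coe_subset.2 k).trans a2)))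
  refine ⟨_, (a5 hm).2, e ▸ (b5 hm').2, hk.1.par.1 _,
    Finset.mem_biUnion.2 ⟨h, mem_hs.2 hk.1, ?_⟩⟩
  by_cases k : src m ∈ inn Λ
  · exact Finset.mem_insert_of_mem (Finset.mem_image_of_mem (fun v => h (v, true)) k)
  · rw [hk.1.1 _ k]
    exact Finset.mem_insert_self _ _

theorem wlev_one (t : P_tim) (n : P_nest) (hw : Wall J A B R0 R1) (hk : Ok Λ h ω)
    (h1 : CG J A B (op p h ω)) : ∃ a, CG J A B (op (· = a) h ω) := by
  choose! E a1 a2 a3 a4 a5 using h1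
  have h2 : ∀ i ∈ J, ∃ a : ℤ, ∀ m ∈ bd (E i), h (src m, true) = a := fun i hi => by
    rcases (bd (E i)).eq_empty_or_nonempty with e | ⟨m, hm⟩
    · exact ⟨0, fun m hm => absurd (e ▸ hm) (Finset.notMem_empty _)⟩
    · exact ⟨_, fun m' hm' => wlev_pth hk (a5 i hi) (t _ (a3 i hi) (a4 i hi) m' hm' m hm)⟩
  choose! lev hl using h2
  have h3 := hw.con E lev
    (fun i hi => ⟨Finset.coe_subset.1 (a1 i hi), Finset.coe_subset.1 (a2 i hi)⟩)
    fun i hi j hj k0 k1 k2 => by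
      obtain ⟨m, hm, m', hm', e⟩ := wlev_meet n hk (a3 i hi) (a4 i hi) (a3 j hj) (a4 j hj)
        (a5 i hi) (a5 j hj) k0 k1 k2
      rw [← hl i hi m hm, ← hl j hj m' hm', e]
  obtain ⟨j, hj, -⟩ := hw.rig
  exact ⟨lev j, fun i hi => ⟨E i, a1 i hi, a2 i hi, a3 i hi, a4 i hi,
    fun m hm => ⟨(a5 i hi hm).1, (hl i hi m hm).trans (h3 i hi j hj)⟩⟩⟩

theorem wlev_mono (hpq : ∀ a, p a → q a) (h1 : CG J A B (op p h ω)) : CG J A B (op q h ω) :=
  fun i hi => wenc_mono (fun _ k => ⟨k.1, hpq _ k.2⟩) (h1 i hi)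

theorem w_lev (t : P_tim) (n : P_nest) : W_lev := by
  intro ι J A B R0 R1 Λ h ω hw hk
  unfold o0 o2
  by_cases hx : ∃ a, CG J A B (op (· = a) h ω)
  · obtain ⟨a, ha⟩ := hx
    obtain ⟨b, hb, -, h2, h3⟩ := wlev_two n hw hk ha ha
    rw [show b = a from hb] at h2 h3
    rw [Finset.sum_eq_single_of_mem a h3 fun b _ hb => wpi_not fun k => by
      obtain ⟨c, e1, e2, -⟩ := wlev_two n hw hk ha k
      exact hb (e2.symm.trans e1), wpi_of ha]
    rcases (by omega : a % 4 = 0 ∨ a % 4 = 2) with e | e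
    · rw [wpi_of (wlev_mono (q := fun z => z % 4 = 0) (fun b (k : b = a) => k ▸ e) ha), wpi_not,
        add_zero]
      intro k
      obtain ⟨c, e1, e2, -⟩ := wlev_two n hw hk ha k
      omega
    · rw [wpi_of (wlev_mono (q := fun z => z % 4 = 2) (fun b (k : b = a) => k ▸ e) ha), wpi_not,
        zero_add]
      intro k
      obtain ⟨c, e1, e2, -⟩ := wlev_two n hw hk ha k
      omega
  · rw [wpi_not fun k => hx (wlev_one t n hw hk k), wpi_not fun k => hx (wlev_one t n hw hk k),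
      Finset.sum_eq_zero fun a _ => wpi_not fun k => hx ⟨a, k⟩, add_zero]

end Vale.Agent.P145
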