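import Vale.Agent.P145.WBas

/-! P145, block W: the final sandwich. -/

open Filter Topology Metric

namespace Vale.Agent.P145

open Vale.Agent.P152

theorem wmain_sep {A B : Set Pl} (hA : IsCompact A) (hB : IsClosed B) (h : Disjoint A B) :
    ∃ d > 0, ∀ x ∈ A, ∀ y ∈ B, d ≤ dist x y := by
  obtain ⟨d, hd, k⟩ := hA.exists_thickening_subset_open hB.isOpen_compl h.subset_compl_right
  refine ⟨d, hd, fun x hx y hy => not_lt.1 fun e => ?_⟩
  exact k (mem_thickening_iff.2 ⟨x, hx, by rwa [dist_comm]⟩) hy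

theorem wmain_up (cr : W_crs) (th : W_thk) {D g : Set Pl} {R0 d : ℝ} (hR : 0 < R0)
    (hD : closure D ⊆ ball 0 R0) (hne : D.Nonempty) (hg : IsCompact g) (hp : IsPreconnected g)
    (hs : sphere 0 R0 ⊆ g) (hd : 0 < d)
    (hsep : ∀ x ∈ closure D, ∀ y ∈ g ∪ (ball 0 R0)ᶜ, d ≤ dist x y) :
    ∃ s > 0, ∃ O R : Finset Site, Crs O R ∧
      (∀ p ∈ O, ∀ x ∈ closure D, 20 * s ≤ dist (pnt s p) x) ∧
      (∀ p, (∃ x ∈ closure D, dist (pnt s p) x ≤ 3 * s) → p ∈ R) ∧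
      ∀ z : Pl, (∃ p ∈ R, dist z (pnt s p) ≤ 3 * s) → ∀ y ∈ g ∪ (ball 0 R0)ᶜ, s ≤ dist z y := by
  have h0 : 0 < d / 100 := by positivity
  obtain ⟨t1, t2, t3⟩ := th (20 * (d / 100)) R0 g (by positivity) hR hp hs
  have far : ∀ x ∈ closure D, ∀ y ∈ thickening (20 * (d / 100)) g, 80 * (d / 100) ≤ dist x y :=
    fun x hx y hy => by
      obtain ⟨z, hz, e⟩ := mem_thickening_iff.1 hy
      have := hsep x hx z (Or.inl hz)
      have := dist_triangle x y z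
      linarith
  obtain ⟨O, R, c1, c2, c3, c4⟩ := cr (d / 100) _ _ (closure D) h0 t1 hg.isBounded.thickening
    (isBounded_ball.subset Set.sdiff_subset) t2
    (fun x hx => ⟨hD hx, fun e => by
      have := far x hx x e
      rw [dist_self] at this
      linarith⟩) hne.closure (fun x hx y hy => by linarith [far x hx y hy])
  refine ⟨d / 100, h0, O, R, c1, fun p hp x hx => ?_, c3, ?_⟩
  · obtain ⟨y, hy, e⟩ := c2 p hp
    have := far x hx y hy
    have := dist_triangle_left x y (pnt (d / 100) p)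
    linarith
  · rintro z ⟨p, hp, e⟩ y hy
    have := t3 _ (c4 p hp).1 y hy
    have := dist_triangle_left (pnt (d / 100) p) y z
    linarith

theorem wmain_lo (cr : W_crs) {D K : Set Pl} (hD : IsOpen D) (ac : AccIn D) (hK : IsCompact K)
    (hKD : K ⊆ D) (hne : K.Nonempty) :
    ∃ s > 0, ∃ O R : Finset Site, Crs O R ∧ (∀ p ∈ O, ∀ x ∈ K, 20 * s ≤ dist (pnt s p) x) ∧
      (∀ p, (∃ x ∈ K, dist (pnt s p) x ≤ 3 * s) → p ∈ R) ∧
      ∃ K1, IsCompact K1 ∧ K1 ⊆ D ∧ ∀ z : Pl, (∃ p ∈ R, dist z (pnt s p) ≤ 3 * s) → z ∈ K1 := by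
  obtain ⟨g, Ω, K', a1, a2, a3, a4, a5, a6, a7, a8⟩ := ac K hK hKD
  obtain ⟨d1, h1, s1⟩ := wmain_sep hK a1.isClosed a3.symm
  obtain ⟨d2, h2, s2⟩ := a6.exists_cthickening_subset_open hD a7
  obtain ⟨s, h0, m1, m2⟩ : ∃ s > 0, s ≤ d1 / 30 ∧ s ≤ d2 / 3 :=
    ⟨min (d1 / 30) (d2 / 3), by positivity, min_le_left _ _, min_le_right _ _⟩
  obtain ⟨O, R, c1, c2, c3, c4⟩ := cr s g Ω K h0 a2 a1.isBounded (a6.isBounded.subset a8) a5 a4 hne
    (fun x hx y hy => by linarith [s1 x hx y hy])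
  refine ⟨s, h0, O, R, c1, fun p hp x hx => ?_, c3, cthickening d2 K', a6.cthickening, s2, ?_⟩
  · obtain ⟨y, hy, e⟩ := c2 p hp
    have := s1 x hx y hy
    have := dist_triangle_left x y (pnt s p)
    linarith
  · rintro z ⟨p, hp, e⟩
    exact mem_cthickening_of_dist_le z _ _ _ (a8 (c4 p hp).1) (by linarith)

theorem wmain_near {δ : ℝ} (hδ : 0 < δ) (y : Pl) : ∃ f, dist (pnt δ f) y ≤ δ := by
  have k : ∀ t : ℝ, dist (δ * (⌊t / δ⌋ : ℤ)) t ≤ δ := fun t => by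
    have h1 := (le_div_iff₀ hδ).1 (Int.floor_le (t / δ))
    have h2 := (div_lt_iff₀ hδ).1 (Int.lt_floor_add_one (t / δ))
    rw [Real.dist_eq, abs_le]
    constructor <;> linarith
  exact ⟨(⌊y.1 / δ⌋, ⌊y.2 / δ⌋), max_le (k _) (k _)⟩

theorem wmain_kap (K Q : ℝ) {b e : ℝ} (hb : 0 ≤ b) (he : 0 < e) :
    ∃ k > 0, k ≤ 1 / 2 ∧ ∀ x, |x - Q| ≤ k ^ 2 →
      |Real.exp (K * x / 2) - Real.exp (K * Q / 2)| < e ∧
        20 * (1 + Real.exp (K * x / 2) + Real.exp (2 * K * x) + b) * k ≤ e := by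
  have hc : ContinuousAt (fun x : ℝ => Real.exp (K * x / 2)) Q := by fun_prop
  obtain ⟨t, ht, h1⟩ := Metric.continuousAt_iff.1 hc e he
  obtain ⟨M, hM, h2⟩ : ∃ M > 0, ∀ x, |x - Q| ≤ 1 →
      1 + Real.exp (K * x / 2) + Real.exp (2 * K * x) + b ≤ M := by
    refine ⟨1 + Real.exp (|K| * (|Q| + 1) / 2) + Real.exp (2 * (|K| * (|Q| + 1))) + b,
      by positivity, fun x hx => ?_⟩
    have e1 : |x| ≤ |Q| + 1 := by linarith [abs_sub_abs_le_abs_sub x Q]
    have e2 : K * x ≤ |K| * (|Q| + 1) := by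
      refine (le_abs_self _).trans ?_
      rw [abs_mul]
      exact mul_le_mul_of_nonneg_left e1 (abs_nonneg _)
    have e3 := Real.exp_le_exp.2 (show K * x / 2 ≤ |K| * (|Q| + 1) / 2 by linarith)
    have e4 := Real.exp_le_exp.2 (show 2 * K * x ≤ 2 * (|K| * (|Q| + 1)) by linarith)
    linarith
  obtain ⟨k, h0, m1, m2, m3⟩ : ∃ k > 0, k ≤ 1 / 2 ∧ k ≤ t ∧ k ≤ e / (20 * M) :=
    ⟨min (1 / 2) (min t (e / (20 * M))), by positivity, min_le_left _ _,
      (min_le_right _ _).trans (min_le_left _ _), (min_le_right _ _).trans (min_le_right _ _)⟩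
  refine ⟨k, h0, m1, fun x hx => ⟨h1 (x := x) ?_, ?_⟩⟩
  · rw [Real.dist_eq]
    nlinarith
  · have := h2 x (by nlinarith)
    rw [le_div_iff₀ (by positivity)] at m3
    nlinarith

theorem w_main (cr : W_crs) (vn : W_vn) (th : W_thk) {c K : ℝ} (as : W_asy c K) : LAP c K := by
  intro D δ U φ Q hD hne ai ao ap hφ hφD hφ0 bv
  obtain ⟨R0, hR, hDR, ao⟩ := ao
  obtain ⟨b, hb, as⟩ := as φ R0 hφ hφ0
  rw [Metric.tendsto_nhds]
  intro e he
  obtain ⟨k, k0, k1, hk⟩ := wmain_kap K Q hb (show 0 < e / 2 by linarith)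
  obtain ⟨η, r, hη, hηD, hr, hQ, bv⟩ := bv (k ^ 2) (by positivity)
  obtain ⟨g, g1, g2, g3, g4, g5⟩ := ao (r / 2) (by linarith)
  have hcD : IsCompact (closure D) :=
    isCompact_of_isClosed_isBounded isClosed_closure (isBounded_ball.subset hDR)
  obtain ⟨d, hd, hsep⟩ := wmain_sep hcD (g1.isClosed.union isOpen_ball.isClosed_compl)
    (Set.disjoint_union_right.2 ⟨g4.symm, Set.disjoint_compl_right_iff_subset.2 hDR⟩)
  choose V hV hV' using fun n => vn (δ n) R0 g (ap.pos n) hR g2 g3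
  have sm : ∀ t > 0, ∀ᶠ n in atTop, δ n < t := fun t ht => ap.lim.eventually (gt_mem_nhds ht)
  have hn : ∀ n, ∀ f ∈ V n, ‖pnt (δ n) f‖ ≤ R0 := fun n f hf => by
    by_contra e
    have := (hV' n f).1 hf _ (Or.inr fun k => e (mem_ball_zero_iff.1 k).le)
    rw [dist_self] at this
    linarith [ap.pos n]
  have hb2 := bv δ V R0 ap.pos ap.lim (by
    filter_upwards [sm (r / 2) (by linarith)] with n h1
    refine ⟨hV n, hn n, fun z hz => ?_⟩
    obtain ⟨y, hy, e1⟩ := g5 z hz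
    obtain ⟨f, e2⟩ := wmain_near (ap.pos n) y
    refine ⟨f, fun hf => ?_, ?_⟩
    · linarith [(hV' n f).1 hf y (Or.inl hy), ap.pos n]
    · linarith [dist_triangle_right (pnt (δ n) f) z y])
  have lim : Tendsto δ atTop (𝓝[>] 0) :=
    tendsto_nhdsWithin_iff.2 ⟨ap.lim, Eventually.of_forall ap.pos⟩
  have hsub : tsupport φ ∪ tsupport η ⊆ D := Set.union_subset hφD hηD
  have hcl : closure D ⊆ closedBall 0 R0 := hDR.trans ball_subset_closedBall
  obtain ⟨s, s0, O, R, c1, c2, c3, c4⟩ := wmain_up cr th hR hDR hne g1 g2 g3 hd hsep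
  have up := lim.eventually (as η (closure D) s k O R hη (hsub.trans subset_closure) hcl s0 k0 k1 c1
    (fun p hp x hx => c2 p hp x (subset_closure (hηD hx))) c3)
  obtain ⟨x0, hx0⟩ := hne
  have hK : insert x0 (tsupport φ ∪ tsupport η) ⊆ D := Set.insert_subset hx0 hsub
  obtain ⟨s', s0', O', R', d1, d2, d3, K1, d4, d5, d6⟩ := wmain_lo cr hD ai
    ((hφ.2.isCompact.union hη.2.isCompact).insert x0) hK (Set.insert_nonempty _ _)
  have lo := lim.eventually (as η _ s' k O' R' hη (Set.subset_insert _ _)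
    (hK.trans (subset_closure.trans hcl)) s0' k0 k1 d1
    (fun p hp x hx => d2 p hp x (Or.inr (Or.inr hx))) d3)
  filter_upwards [up, lo, hb2, sm (s / 2) (by linarith), sm (d / 2) (by linarith), ap.out s s0,
    ap.cc, ap.inn K1 d4 d5] with n u1 u2 u3 u4 u5 u6 u7 u8
  have v1 := (u1 (V n) (U n) (hV n) (hn n)
    (fun f hf => (hV' n f).2 fun y hy => by linarith [c4 _ hf y hy]) u3.1 u3.2).1 u6
    fun f hf p hp => by
      obtain ⟨x, hx, e1⟩ := u6 f hf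
      linarith [c2 p hp x hx, dist_triangle_left (pnt s p) x (pnt (δ n) f)]
  have v2 := (u2 (V n) (U n) (hV n) (hn n)
    (fun f hf => (hV' n f).2 fun y hy => by
      linarith [hsep _ (subset_closure (d5 (d6 _ hf))) y hy]) u3.1 u3.2).2 u7
    fun f hf => u8 f (d6 _ hf)
  obtain ⟨w1, w2⟩ := hk _ hQ
  rw [abs_lt] at w1
  rw [Real.dist_eq, abs_lt]
  constructor <;> linarith [w1.1, w1.2]

end Vale.Agent.P145
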