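import Vale.Agent.P145.WBas

/-! P145, block W: the estimate in one box. -/

namespace Vale.Agent.P145

open Vale.Agent.P152

theorem wone_exp (x y : ℝ) : |Real.exp y - Real.exp x| ≤ |y - x| * (Real.exp x + Real.exp y) := by
  have k : ∀ u v : ℝ, Real.exp v - Real.exp u ≤ |v - u| * (Real.exp u + Real.exp v) := by
    intro u v
    have h1 := Real.add_one_le_exp (u - v)
    have h2 : Real.exp u = Real.exp (u - v) * Real.exp v := by rw [← Real.exp_add]; ring_nf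
    have h3 := le_abs_self (v - u)
    have h4 := Real.exp_pos v
    have h5 := mul_nonneg (abs_nonneg (v - u)) (Real.exp_pos u).le
    nlinarith
  refine abs_le.2 ⟨?_, k x y⟩
  have := k y x
  rw [abs_sub_comm, add_comm] at this
  linarith

theorem wone_b {κ : ℝ} (hκ : 0 < κ) {x y p q : ℝ} (e : x = y - p + q) :
    |Real.exp y - Real.exp x| ≤
      2 / κ * p ^ 2 + 2 / κ * q ^ 2 + κ / 2 * Real.exp (2 * x) + κ / 2 * Real.exp (2 * y) := by
  refine (wone_exp x y).trans ?_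
  have e1 : Real.exp (2 * x) = Real.exp x ^ 2 := by rw [← Real.exp_nat_mul]; norm_num
  have e2 : Real.exp (2 * y) = Real.exp y ^ 2 := by rw [← Real.exp_nat_mul]; norm_num
  have e3 : |y - x| ^ 2 = (p - q) ^ 2 := by rw [sq_abs, e]; ring
  rw [e1, e2]
  generalize Real.exp x = s at *
  generalize Real.exp y = t at *
  generalize |y - x| = z at *
  refine le_of_mul_le_mul_left ?_ hκ
  have e4 : κ * (2 / κ * p ^ 2 + 2 / κ * q ^ 2 + κ / 2 * s ^ 2 + κ / 2 * t ^ 2)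
      = 2 * p ^ 2 + 2 * q ^ 2 + κ ^ 2 / 2 * (s ^ 2 + t ^ 2) := by field_simp; ring
  rw [e4]
  nlinarith [sq_nonneg (z - κ * (s + t) / 2), sq_nonneg (p + q), sq_nonneg (κ * (s - t))]

theorem wone_a {κ : ℝ} (hκ : 0 < κ) (x : ℝ) :
    Real.exp x ≤ κ / 2 * Real.exp (2 * x) + 1 / (2 * κ) * 1 := by
  have e1 : Real.exp (2 * x) = Real.exp x ^ 2 := by rw [← Real.exp_nat_mul]; norm_num
  rw [e1]
  refine le_of_mul_le_mul_left ?_ hκ
  have e4 : κ * (κ / 2 * Real.exp x ^ 2 + 1 / (2 * κ) * 1)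
      = κ ^ 2 / 2 * Real.exp x ^ 2 + 1 / 2 := by field_simp
  rw [e4]
  nlinarith [sq_nonneg (κ * Real.exp x - 1)]

theorem wone_c {κ e1 e2 b P m x1 x2 mx mx2 my my2 zp zm : ℝ} (hκ : 0 < κ) (hκ' : κ ≤ 1 / 2)
    (h1 : 0 ≤ e1) (h2 : 0 ≤ e2) (hb : 0 ≤ b) (hP : 0 < P) (a1 : (1 - κ ^ 2) * P ≤ m) (a2 : m ≤ P)
    (a3 : |x1 - e1 * P| ≤ κ * P) (a4 : |x2 - e2 * P| ≤ P) (a5 : mx ≤ x1)
    (a6 : x1 - mx ≤ κ / 2 * (x2 - mx2) + 1 / (2 * κ) * (P - m)) (a7 : 0 ≤ mx2) (a8 : mx2 ≤ x2)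
    (a9 : my ≤ mx + (2 / κ * zp + 2 / κ * zm + κ / 2 * mx2 + κ / 2 * my2))
    (a10 : mx ≤ my + (2 / κ * zp + 2 / κ * zm + κ / 2 * mx2 + κ / 2 * my2))
    (b1 : zp ≤ m * κ ^ 2) (b2 : zm ≤ m * κ ^ 2) (b3 : my2 ≤ m * b) :
    0 < m ∧ my ≤ m * (e1 + 20 * (1 + e1 + e2 + b) * κ) ∧
      m * (e1 - 20 * (1 + e1 + e2 + b) * κ) ≤ my := by
  have k2 : κ ^ 2 ≤ κ / 2 := by nlinarith
  have c0 : P - m ≤ κ ^ 2 * P := by linarith
  have c1 : κ ^ 2 * P ≤ 1 / 4 * P := mul_le_mul_of_nonneg_right (by linarith) hP.le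
  have hm : 0 < m := by linarith
  have c2 : P ≤ 2 * m := by linarith
  have c3 : 1 / (2 * κ) * (P - m) ≤ κ / 2 * P := by
    calc 1 / (2 * κ) * (P - m) ≤ 1 / (2 * κ) * (κ ^ 2 * P) := by gcongr
      _ = _ := by field_simp
  have c4 : 2 / κ * zp ≤ 2 * (κ * m) := by
    calc 2 / κ * zp ≤ 2 / κ * (m * κ ^ 2) := by gcongr
      _ = _ := by field_simp
  have c5 : 2 / κ * zm ≤ 2 * (κ * m) := by
    calc 2 / κ * zm ≤ 2 / κ * (m * κ ^ 2) := by gcongr
      _ = _ := by field_simp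
  have c6 : κ / 2 * my2 ≤ κ / 2 * (m * b) := by gcongr
  have c7 : κ / 2 * mx2 ≤ κ / 2 * x2 := by gcongr
  have c7' : 0 ≤ κ / 2 * mx2 := by positivity
  have a3' := abs_le.1 a3
  have c8 : x2 ≤ (e2 + 1) * (2 * m) := by
    have := (abs_le.1 a4).2
    nlinarith
  have c9 : κ / 2 * x2 ≤ κ / 2 * ((e2 + 1) * (2 * m)) := by gcongr
  have d1 : κ * P ≤ κ * (2 * m) := by gcongr
  have d2 : e1 * (P - m) ≤ e1 * (κ * m) := by
    refine mul_le_mul_of_nonneg_left (c0.trans ?_) h1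
    calc κ ^ 2 * P ≤ κ / 2 * (2 * m) := by gcongr
      _ = _ := by ring
  have d3 : 0 ≤ e1 * (P - m) := mul_nonneg h1 (by linarith)
  have d4 : 0 < κ * m := mul_pos hκ hm
  have d5 := mul_nonneg h1 d4.le
  have d6 := mul_nonneg h2 d4.le
  have d7 := mul_nonneg hb d4.le
  refine ⟨hm, by linarith, by linarith⟩

variable {c : ℝ} {ι : Type} {Λ : Finset Site} {J : Finset ι} {A B : ι → Finset Site}

theorem wone_mono (hc : 1 ≤ c) {Φ Ψ : ℤ → Ht → ℝ} (h : ∀ a x, Φ a x ≤ Ψ a x) :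
    WM c Λ J A B Φ ≤ WM c Λ J A B Ψ :=
  Finset.sum_le_sum fun a _ => wj_mono hc fun x _ _ =>
    mul_le_mul_of_nonneg_left (h a x) (wpi_nonneg _)

theorem wone_add (Φ Ψ : ℤ → Ht → ℝ) :
    WM c Λ J A B (fun a x => Φ a x + Ψ a x) = WM c Λ J A B Φ + WM c Λ J A B Ψ := by
  simp only [WM, mul_add, wj_add, Finset.sum_add_distrib]

theorem wone_mul (t : ℝ) (Φ : ℤ → Ht → ℝ) :
    WM c Λ J A B (fun a x => t * Φ a x) = t * WM c Λ J A B Φ := by
  simp only [WM, mul_left_comm _ t, wj_mul, Finset.mul_sum]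

theorem wone_NN (l : W_lev) (hc : 1 ≤ c) {R0 R1 : Finset Site} (hw : Wall J A B R0 R1)
    (G : Ht → ℝ) : WM c Λ J A B (fun _ x => G x) = NN c Λ J A B G := by
  rw [WM, ← wj_sum, NN]
  exact wj_congr hc fun h ω k => by rw [l ι J A B R0 R1 Λ h ω hw k, Finset.sum_mul]

theorem wone_sub (G : Ht → ℝ) (e : ℝ) :
    NN c Λ J A B (fun x => G x - e) = NN c Λ J A B G - e * NN c Λ J A B 1 := by
  rw [NN, NN, NN, ← wj_mul, ← wj_sub]
  exact congrArg _ (funext fun h => funext fun ω => by simp only [Pi.one_apply]; ring)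

theorem wone_le (hc : 1 ≤ c) {K : Finset ι} (hK : J ⊆ K) {G : Ht → ℝ} (hG : ∀ x, 0 ≤ G x) :
    NN c Λ K A B G ≤ NN c Λ J A B G :=
  wj_mono hc fun x _ _ => mul_le_mul_of_nonneg_right
    (add_le_add (wpi_mono fun k i hi => k i (hK hi)) (wpi_mono fun k i hi => k i (hK hi))) (hG x)

theorem wone_lin (s t : ℝ) (F G H : Ht → ℝ) :
    NN c Λ J A B (fun x => s * F x + t * G x - H x) =
      s * NN c Λ J A B F + t * NN c Λ J A B G - NN c Λ J A B H := by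
  rw [NN, NN, NN, NN, ← wj_mul, ← wj_mul, ← wj_add, ← wj_sub]
  exact congrArg _ (funext fun h => funext fun ω => by ring)

theorem w_one (l : W_lev) (s : W_sand) (p : H_sp) : W_one := by
  intro c hc ι _ J J' A B R0 R1 Λ V φ ψ ψ' X κ e1 e2 b hw hΛ hV hVΛ hR h0 hz hX hκ hκ' h1 h2 hb hP
    a1 a3 a4 b1 b2 b3 U
  have sand : ∀ (V : Finset Site) (a : Site →₀ ℝ) (f : ℝ → ℝ), Cc V → V ⊆ Λ → vx R1 ⊆ vin V →
      SP (fun h => f (lin a h)) → (∀ v, v ∉ inn R0 → a v = 0) →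
      (∀ U ⊆ R0, (∀ i ∈ J ∪ J', ∀ m ∈ vx (B i), m ∈ vin U → m ∈ vin (A i)) →
        NN c Λ (J ∪ J') A B 1 * PH c U (fun h => f (lin a h)) ≤
          WM c Λ (J ∪ J') A B fun k h => f (lin a (h - fun _ => k))) ∧
      WM c Λ (J ∪ J') A B (fun k h => f (lin a (h - fun _ => k))) ≤
        NN c Λ (J ∪ J') A B 1 * PH c V fun h => f (lin a h) := by
    intro V a f k1 k2 k3 k4 k5
    have h := s c hc ι (J ∪ J') A B R0 R1 Λ V (fun h => f (lin a h)) (fun _ _ => 1) hw hΛ k1 k2 k3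
      k4 (fun x y e => congrArg f (wlin_dep k5 x y e)) (fun _ _ => zero_le_one)
      (fun _ _ _ _ => rfl)
    simp only [one_mul] at h
    rw [← wone_NN l hc hw 1]
    exact h
  have hK : J ⊆ J ∪ J' := Finset.subset_union_left
  have a2 := wone_le (Λ := Λ) (A := A) (B := B) hc hK (G := 1) fun _ => zero_le_one
  have hm0 : 0 ≤ NN c Λ (J ∪ J') A B 1 :=
    wj_nonneg hc fun _ _ _ => mul_nonneg (add_nonneg (wpi_nonneg _) (wpi_nonneg _)) zero_le_one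
  have a5 := wone_le (Λ := Λ) (A := A) (B := B) hc hK (G := fun h => Real.exp (X h))
    fun _ => (Real.exp_pos _).le
  have a8 := wone_le (Λ := Λ) (A := A) (B := B) hc hK (G := fun h => Real.exp (2 * X h))
    fun _ => (Real.exp_pos _).le
  have a6 := wone_le (Λ := Λ) (A := A) (B := B) hc hK
    (G := fun h => κ / 2 * Real.exp (2 * X h) + 1 / (2 * κ) * (1 : Ht → ℝ) h - Real.exp (X h))
    fun x => sub_nonneg.2 (wone_a hκ (X x))
  rw [wone_lin, wone_lin] at a6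
  have a7 : 0 ≤ NN c Λ (J ∪ J') A B fun h => Real.exp (2 * X h) :=
    wj_nonneg hc fun _ _ _ =>
      mul_nonneg (add_nonneg (wpi_nonneg _) (wpi_nonneg _)) (Real.exp_pos _).le
  rw [wone_sub] at a3 a4
  have a9 := wone_mono (Λ := Λ) (J := J ∪ J') (A := A) (B := B) hc
    (Φ := fun k h => Real.exp (lin φ (h - fun _ => k)))
    (Ψ := fun k h => Real.exp (X h) + (2 / κ * lin ψ (h - fun _ => k) ^ 2 +
      2 / κ * lin ψ' (h - fun _ => k) ^ 2 + κ / 2 * Real.exp (2 * X h) +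
      κ / 2 * Real.exp (lin ((2 : ℝ) • φ) (h - fun _ => k))))
    fun k h => by
      have := (abs_le.1 (wone_b hκ (hX h k))).2
      rw [wlin_smul]; linarith
  have a10 := wone_mono (Λ := Λ) (J := J ∪ J') (A := A) (B := B) hc
    (Φ := fun _ h => Real.exp (X h))
    (Ψ := fun k h => Real.exp (lin φ (h - fun _ => k)) + (2 / κ * lin ψ (h - fun _ => k) ^ 2 +
      2 / κ * lin ψ' (h - fun _ => k) ^ 2 + κ / 2 * Real.exp (2 * X h) +
      κ / 2 * Real.exp (lin ((2 : ℝ) • φ) (h - fun _ => k))))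
    fun k h => by
      have := (abs_le.1 (wone_b hκ (hX h k))).1
      rw [wlin_smul]; linarith
  simp only [wone_add, wone_mul] at a9 a10
  simp only [wone_NN l hc hw] at a9 a10
  have c1 := (sand V ψ (fun t => t ^ 2) hV hVΛ hR (p ψ fun v => (h0 v).2.1).2
    fun v hv => (hz v hv).2.1).2.trans (mul_le_mul_of_nonneg_left b1 hm0)
  have c2 := (sand V ψ' (fun t => t ^ 2) hV hVΛ hR (p ψ' fun v => (h0 v).2.2).2
    fun v hv => (hz v hv).2.2).2.trans (mul_le_mul_of_nonneg_left b2 hm0)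
  have c3 := (sand V ((2 : ℝ) • φ) Real.exp hV hVΛ hR
    (p _ fun v => mul_nonneg zero_le_two (h0 v).1).1
    fun v hv => by simp [(hz v hv).1]).2.trans (mul_le_mul_of_nonneg_left b3 hm0)
  obtain ⟨hm, r1, r2⟩ := wone_c hκ hκ' h1 h2 hb hP a1 a2 a3 a4 a5
    (mx2 := NN c Λ (J ∪ J') A B fun h => Real.exp (2 * X h))
    (by linarith) a7 a8 a9 a10 c1 c2 c3
  refine ⟨fun k1 k2 => ?_, fun k1 k2 k3 => ?_⟩
  · exact le_of_mul_le_mul_left (((sand V φ Real.exp hV hVΛ hR (p φ fun v => (h0 v).1).1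
      fun v hv => (hz v hv).1).1 U k1 k2).trans r1) hm
  · exact le_of_mul_le_mul_left (r2.trans (sand U φ Real.exp k1 k2 k3 (p φ fun v => (h0 v).1).1
      fun v hv => (hz v hv).1).2) hm

end Vale.Agent.P145
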