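import Vale.Agent.P145.WBas

/-! P145, block W: the sandwich behind a system of links. -/

namespace Vale.Agent.P145

open Vale.Agent.P152

variable {ι : Type} {J : Finset ι} {A B : ι → Finset Site} {R0 R1 : Finset Site} {O : Set Vx}

theorem wsand_blk (hW : Wall J A B R0 R1) (h : CG J A B O) {Λ : Finset Site} (hΛ : R1 ⊆ Λ) :
    ∀ f ∈ R0, f ∉ Rch (O ∩ vx R1) (Λ : Set Site)ᶜ := by
  choose! E hE using h
  obtain ⟨T, hT⟩ : ∃ T : Set Site, ∀ f, f ∈ T ↔ f ∈ R0 ∨ ∃ i ∈ J, B i ⊆ R1 ∧ f ∈ E i :=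
    ⟨{f | f ∈ R0 ∨ ∃ i ∈ J, B i ⊆ R1 ∧ f ∈ E i}, fun _ => Iff.rfl⟩
  have h1 : ∀ f ∈ T, f ∈ R1 := fun f hf => ((hT f).1 hf).elim (fun h => hW.sub h)
    fun ⟨i, hi, h1, h2⟩ => h1 ((hE i hi).2.1 h2)
  have h2 : ∀ m f g, Sep m f g → f ∉ T → g ∈ T → m ∈ O ∩ (vx R1 : Set Vx) := by
    intro m f g hm hf hg
    have e : ∀ D : Finset Site, f ∉ D → g ∈ D → ¬ (fa m ∈ D ↔ fb m ∈ D) := fun D a b => by
      rcases hm with ⟨rfl, rfl⟩ | ⟨rfl, rfl⟩ <;> tauto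
    rcases (hT g).1 hg with k | ⟨i, hi, k1, k2⟩
    · obtain ⟨i, hi, a1, a2, a3⟩ := hW.cov m (e R0 (fun k' => hf ((hT f).2 (Or.inl k'))) k)
      refine absurd ((hT f).2 (Or.inr ⟨i, hi, a3, (hE i hi).1 ?_⟩)) hf
      rcases hm with ⟨rfl, -⟩ | ⟨-, rfl⟩
      exacts [a1, a2]
    · refine ⟨(hE i hi).2.2.2.2 (wmem_bd.2
        (e _ (fun k' => hf ((hT f).2 (Or.inr ⟨i, hi, k1, k'⟩))) k2)), mem_vx.2 ?_⟩
      rcases hm with ⟨-, rfl⟩ | ⟨rfl, -⟩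
      exacts [Or.inr (h1 _ hg), Or.inl (h1 _ hg)]
  rintro f hf ⟨g, hg, hp⟩
  have h3 : f ∉ T := by
    clear hf
    induction hp with
    | refl => exact fun k => hg (hΛ (h1 _ k))
    | tail _ hs ih =>
      obtain ⟨-, -, m, m1, m2⟩ := hs
      exact fun k => m1 (h2 m _ _ m2 ih k)
  exact h3 ((hT f).2 (Or.inl hf))

theorem wsand_mono {O' : Set Vx} (h : O ⊆ O') (k : CG J A B O) : CG J A B O' :=
  fun i hi => wenc_mono h (k i hi)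

theorem wsand_loc : CG J A B (O ∩ {m | ∃ i ∈ J, m ∈ vx (B i) ∧ m ∉ vin (A i)}) ↔ CG J A B O :=
  ⟨wsand_mono Set.inter_subset_left, fun k i hi => wenc_loc (fun _ h1 h2 => ⟨i, hi, h1, h2⟩) (k i hi)⟩

theorem w_sand (e : H_ex2) : W_sand := by
  intro c hc ι J A B R0 R1 Λ V F G hW cΛ cV hV h1 hF dF G0 dG
  have s1 : R1 ⊆ Λ := fun f hf => hV (mem_vin.1 (h1 (mem_vx.2 (Or.inl
    (show fa (f, true) ∈ R1 from hf))))).1
  have key := fun (a : ℤ) (U : Finset Site) => e c hc Λ R0 U V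
    {m | ∃ i ∈ J, m ∈ vx (B i) ∧ m ∉ vin (A i)} (vx R1) a (CG J A B) F (G a) cΛ (hW.sub.trans s1)
    (fun _ _ => wsand_mono) (fun O _ h => wsand_blk hW h s1) hF dF cV hV h1 (G0 a) (dG a)
  simp only [wsand_loc] at key
  refine ⟨fun U hU hS => ?_, ?_⟩
  · rw [WM, WM, Finset.sum_mul]
    exact Finset.sum_le_sum fun a _ => (key a U).1 hU
      (Set.disjoint_left.2 fun m ⟨i, hi, k1, k2⟩ k => k2 (hS i hi m k1 k))
  · rw [WM, WM, Finset.sum_mul]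
    exact Finset.sum_le_sum fun a _ => (key a ∅).2

end Vale.Agent.P145
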