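import Vale.Agent.P145.WBas

/-! P145, block W: the comparison domain and the thickening of the access set. -/

open Set Metric

namespace Vale.Agent.P145

open Vale.Agent.P152

theorem wvn_base {R0 : ℝ} (h : 0 < R0) : ((R0, 0) : Pl) ∈ sphere (0 : Pl) R0 := by
  simp [Prod.norm_def, abs_of_pos h, h.le]

theorem wvn_in {R0 : ℝ} {S : Set Pl} (hS : IsPreconnected S) (hd : Disjoint S (sphere 0 R0))
    (hn : (S ∩ ball 0 R0).Nonempty) : S ⊆ ball 0 R0 := by
  refine hS.subset_left_of_subset_union isOpen_ball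
    (isClosed_closedBall (x := (0 : Pl)) (ε := R0)).isOpen_compl
    (disjoint_compl_right.mono_left ball_subset_closedBall) (fun x hx => ?_) hn
  rcases lt_trichotomy (dist x 0) R0 with k | k | k
  · exact Or.inl k
  · exact absurd k (disjoint_left.1 hd hx)
  · exact Or.inr (not_le.2 k)

theorem wvn_con {R0 : ℝ} {g : Set Pl} (hR : 0 < R0) (hg : IsPreconnected g)
    (hs : sphere 0 R0 ⊆ g) : IsPreconnected (g ∪ (ball 0 R0)ᶜ) := by
  refine isPreconnected_of_forall (R0, 0) fun y hy => ?_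
  rcases hy with hy | hy
  · exact ⟨g, subset_union_left, hs (wvn_base hR), hy, hg⟩
  have h1 : R0 ≤ ‖y‖ := by simpa using hy
  have h2 : 0 < ‖y‖ := hR.trans_le h1
  have h3 : ‖(R0 / ‖y‖) • y‖ = R0 := by
    rw [norm_smul, Real.norm_of_nonneg (div_pos hR h2).le, div_mul_cancel₀ _ h2.ne']
  refine ⟨g ∪ (fun t : ℝ => t • ((R0 / ‖y‖) • y)) '' Ici 1, union_subset_union_right _ ?_,
    Or.inl (hs (wvn_base hR)), Or.inr ⟨‖y‖ / R0, (one_le_div hR).2 h1, ?_⟩,
    hg.union ((R0 / ‖y‖) • y) (hs (mem_sphere_zero_iff_norm.2 h3)) ⟨1, mem_Ici.2 le_rfl, one_smul _ _⟩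
      (isPreconnected_Ici.image _ (by fun_prop))⟩
  · rintro _ ⟨t, ht, rfl⟩
    have h4 : (1 : ℝ) ≤ t := ht
    simp only [mem_compl_iff, mem_ball_zero_iff, not_lt]
    rw [norm_smul, h3, Real.norm_of_nonneg (zero_le_one.trans h4)]
    exact le_mul_of_one_le_left hR.le h4
  · show (‖y‖ / R0) • ((R0 / ‖y‖) • y) = y
    rw [smul_smul, div_mul_div_cancel₀ hR.ne', div_self h2.ne', one_smul]

theorem wvn_bd {δ R0 : ℝ} (hδ : 0 < δ) {a : ℤ} (h : ‖δ * a‖ < R0) :
    a ∈ Icc (-⌈R0 / δ⌉) ⌈R0 / δ⌉ := by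
  rw [Real.norm_eq_abs, abs_mul, abs_of_pos hδ, ← lt_div_iff₀' hδ] at h
  have h1 := (h.le.trans (Int.le_ceil _))
  rw [← Int.cast_abs, Int.cast_le] at h1
  exact abs_le.1 h1

theorem wvn_fin {δ R0 : ℝ} (hδ : 0 < δ) : {f : Site | pnt δ f ∈ ball (0 : Pl) R0}.Finite := by
  refine ((finite_Icc (-⌈R0 / δ⌉) ⌈R0 / δ⌉).prod (finite_Icc (-⌈R0 / δ⌉) ⌈R0 / δ⌉)).subset
    fun f hf => ?_
  have h : ‖pnt δ f‖ < R0 := mem_ball_zero_iff.1 hf
  exact ⟨wvn_bd hδ ((norm_fst_le (pnt δ f)).trans_lt h),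
    wvn_bd hδ ((norm_snd_le (pnt δ f)).trans_lt h)⟩

theorem w_vn (h : W_cs) : W_vn := by
  intro δ R0 g hδ hR hg hs
  have h1 := wcn_of (h δ _ hδ (wvn_con hR hg hs))
  have h2 : {f : Site | ∃ y ∈ g ∪ (ball 0 R0)ᶜ, dist (pnt δ f) y < 2 * δ}ᶜ.Finite := by
    refine (wvn_fin (R0 := R0) hδ).subset fun f hf => ?_
    by_contra k
    exact hf ⟨_, Or.inr k, by rw [dist_self]; linarith⟩
  refine ⟨h2.toFinset, ?_, fun f => ?_⟩
  · unfold Cc
    rwa [h2.coe_toFinset, compl_compl]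
  · simp only [Finite.mem_toFinset, mem_compl_iff, mem_ofPred_eq, not_exists, not_and, not_lt]

theorem w_thk : W_thk := by
  intro t R0 g ht hR hg hs
  have hsub := self_subset_thickening ht g
  refine ⟨isPreconnected_of_forall (R0, 0) fun y hy => ?_, fun S hS hd hn x hx => ?_,
    fun x hx y hy => ?_⟩
  · obtain ⟨z, hz, k⟩ := mem_thickening_iff.1 hy
    exact ⟨g ∪ ball z t, union_subset hsub fun u hu => mem_thickening_iff.2 ⟨z, hz, hu⟩,
      Or.inl (hs (wvn_base hR)), Or.inr k,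
      hg.union z hz (mem_ball_self ht) (convex_ball z t).isPreconnected⟩
  · exact ⟨wvn_in hS (hd.mono_right (hs.trans hsub))
      (hn.mono (inter_subset_inter_right _ sdiff_subset)) hx, disjoint_left.1 hd hx⟩
  · have k : ∀ u ∈ g, t ≤ dist x u := fun u hu =>
      not_lt.1 fun k => hx.2 (mem_thickening_iff.2 ⟨u, hu, k⟩)
    rcases hy with hy | hy
    · exact k y hy
    · refine not_lt.1 fun k1 => hy (wvn_in (convex_ball x t).isPreconnected
        (disjoint_left.2 fun u hu h2 => ?_) ⟨x, mem_ball_self ht, hx.1⟩ (mem_ball'.2 k1))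
      exact absurd (mem_ball'.1 hu) (not_lt.2 (k u (hs h2)))

end Vale.Agent.P145
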