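import Vale.Agent.P145.WAsy
import Vale.Agent.P145.WMain
import Vale.Agent.P145.WBx
import Vale.Agent.P145.WCl
import Vale.Agent.P145.WCon
import Vale.Agent.P145.WCov
import Vale.Agent.P145.WCrs
import Vale.Agent.P145.WCs
import Vale.Agent.P145.WEx
import Vale.Agent.P145.WFlow
import Vale.Agent.P145.WGd
import Vale.Agent.P145.WGeo
import Vale.Agent.P145.WId
import Vale.Agent.P145.WLev
import Vale.Agent.P145.WOne
import Vale.Agent.P145.WSand
import Vale.Agent.P145.WVn
import Vale.Agent.P145.PTim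
import Vale.Agent.P145.PBox
import Vale.Agent.P145.MExp
import Vale.Agent.P145.MSym
import Vale.Agent.P145.HNeg
import Vale.Agent.P145.HSp
import Vale.Agent.P145.GDom
import Vale.Agent.P145.LLeg

/-! P145, block W: assembly. -/

namespace Vale.Agent.P145

open Vale.Agent.P152

theorem w_lev_all : W_lev := w_lev p_tim p_nest

theorem h_ex2_all : H_ex2 := h_ex2 m_exp h_neg h_out h_mono

theorem w_sand_all : W_sand := w_sand h_ex2_all

theorem bx_all {c : ℝ} (hc : 1 ≤ c) (hv : Conv c) (hs : St (EE c)) (wr : WR c) : BX c :=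
  w_bx w_lev_all w_sand_all (w_cl g_pa) w_flow h_sp h_mono m_flip cc_bx hc wr
    (w_gdb l_leg cc_bx hc hv hs)

/-- convergence of the Laplace transform in domains -/
theorem lap_all {c K : ℝ} (hc : 1 ≤ c) (hv : Conv c) (hs : St (EE c)) (wr : WR c) (sr : SR c)
    (bi : BI c K) : LAP c K :=
  w_main (w_crs w_cs) (w_vn w_cs) w_thk
    (w_asy w_cov w_con (w_one w_lev_all w_sand_all h_sp) (w_cl g_pa) w_geo w_id cc_bx hc wr sr bi
      (bx_all hc hv hs wr))

end Vale.Agent.P145
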