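import Vale.Agent.P145.LpLaw
import Vale.Agent.P145.LkAll
import Vale.Agent.P145.BAll
import Vale.Agent.P145.WAll
import Vale.Agent.P145.SAll
import Vale.Agent.P145.IMain
import Vale.Agent.P145.VOne
import Vale.Agent.P145.VTwo
import Vale.Agent.P145.LSpin
import Vale.Agent.P145.FPar

/-! P145: assembly. -/

namespace Vale.Agent.P145

open Vale.Agent.P152

variable {c K : ℝ}

theorem lap_fin (h1 : 1 < c) (h2 : c ≤ 2) (hK : KSpec (EE c) K) : LAP c K :=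
  lap_all h1.le (conv_all h1 h2) (st_all h1 h2) (wr_all h1 h2) (sr_all h1 h2) (Ib.bi h1 h2 hK)

theorem lat_fin (h1 : 1 < c) (h2 : c ≤ 2) (hK : KSpec (EE c) K) : Lk.LatConv c K :=
  have v2 := v2_of h1.le (sr_all h1 h2)
  Lp.latConv (one_pos.trans h1) Lk.a_in_all Lk.a_out_all
    (Bv.bvs (v1_of h1.le (wr_all h1 h2) v2) v2) (lap_fin h1 h2 hK)

theorem conv_fin (h1 : 1 < c) (h2 : c ≤ 2) (hK : KSpec (EE c) K) : AT.Conv c⁻¹ (K / 4) :=
  Lk.link_all l_spin c K (one_pos.trans h1) (lat_fin h1 h2 hK)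

theorem conv_ex (h1 : 1 < c) (h2 : c ≤ 2) :
    ∃ σ : ℝ, 0 < σ ∧ AT.Conv c⁻¹ (σ ^ 2 * (2 * Real.pi)) := by
  obtain ⟨-, -, K, h0, hK, -⟩ := main_all h1 h2
  have hp := Real.pi_pos
  refine ⟨√(K / 4 / (2 * Real.pi)), by positivity, ?_⟩
  rw [Real.sq_sqrt (by positivity), div_mul_cancel₀ _ (by positivity)]
  exact conv_fin h1 h2 hK

end Vale.Agent.P145
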