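import Vale.Agent.P145.SAll
import Vale.Agent.P145.WAll
import Vale.Agent.P145.IMain
import Vale.Agent.P145.BFin
import Vale.Agent.P145.LkAll
import Vale.Agent.P145.LpLaw
import Vale.Agent.P145.VOne
import Vale.Agent.P145.VTwo
import Vale.Agent.P145.LSpin

/-! P145: convergence to the free field with the constant of the plane. -/

namespace Vale.Agent.P145

open Vale.Agent.P152

variable {c K : ℝ}

theorem v2_top (h1 : 1 < c) (h2 : c ≤ 2) : V2 c := v2_of h1.le (sr_all h1 h2)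

theorem v1_top (h1 : 1 < c) (h2 : c ≤ 2) : V1 c := v1_of h1.le (wr_all h1 h2) (v2_top h1 h2)

theorem bvj_top (h1 : 1 < c) (h2 : c ≤ 2) : Lp.BVJ c := Bv.bvj (v1_top h1 h2) (v2_top h1 h2)

theorem bx_top (h1 : 1 < c) (h2 : c ≤ 2) : BX c :=
  bx_all h1.le (conv_all h1 h2) (st_all h1 h2) (wr_all h1 h2)

theorem lap_top (h1 : 1 < c) (h2 : c ≤ 2) (hK : KSpec (EE c) K) : LAP c K :=
  lap_all h1.le (conv_all h1 h2) (st_all h1 h2) (wr_all h1 h2) (sr_all h1 h2) (Ib.bi h1 h2 hK)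

theorem lat_top (h1 : 1 < c) (h2 : c ≤ 2) (hK : KSpec (EE c) K) : Lk.LatConv c K :=
  Lp.latConv (by linarith) Lk.a_in_all Lk.a_out_all (bvj_top h1 h2) (lap_top h1 h2 hK)

theorem conv_top (h1 : 1 < c) (h2 : c ≤ 2) (hK : KSpec (EE c) K) : AT.Conv c⁻¹ (K / 4) :=
  Lk.link_all l_spin c K (by linarith) (lat_top h1 h2 hK)

end Vale.Agent.P145
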