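import Vale.Agent.P145.Core

/-! P145: basic planar lemmas. -/

open Filter Topology

namespace Vale.Agent.P145

open Vale.Agent.P152

variable {O O' : Set Vx} {A A' B B' U U' : Set Site} {D E : Finset Site} {f g k v w : Site} {m : Vx}

theorem mem_bd : m ∈ bd E ↔ ¬ (fa m ∈ E ↔ fb m ∈ E) := by
  rw [bd, Finset.mem_sdiff, mem_vx, mem_vin]
  tauto

theorem Sep.symm (h : Sep m f g) : Sep m g f :=
  Or.symm h

theorem Joi.symm (h : Joi m v w) : Joi m w v :=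
  Or.symm h

theorem sep_self (m : Vx) : Sep m (fa m) (fb m) :=
  Or.inl ⟨rfl, rfl⟩

theorem sep_left (f : Site) : Sep (f, false) f (f - (1, 0)) :=
  Or.inl ⟨rfl, rfl⟩

theorem sep_down (f : Site) : Sep (f, true) f (f - (0, 1)) :=
  Or.inl ⟨rfl, rfl⟩

theorem Sep.nbr (h : Sep m f g) :
    g = f + (1, 0) ∨ g = f - (1, 0) ∨ g = f + (0, 1) ∨ g = f - (0, 1) := by
  obtain ⟨x, b⟩ := m
  rcases h with ⟨rfl, rfl⟩ | ⟨rfl, rfl⟩ <;> cases b <;> simp [fa, fb, dir]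

theorem exists_sep (h : g = f + (1, 0) ∨ g = f - (1, 0) ∨ g = f + (0, 1) ∨ g = f - (0, 1)) :
    ∃ m, Sep m f g := by
  rcases h with rfl | rfl | rfl | rfl
  · exact ⟨_, (add_sub_cancel_right f (1, 0) ▸ sep_left (f + (1, 0))).symm⟩
  · exact ⟨_, sep_left f⟩
  · exact ⟨_, (add_sub_cancel_right f (0, 1) ▸ sep_down (f + (0, 1))).symm⟩
  · exact ⟨_, sep_down f⟩

theorem Sep.vin (h : Sep m f g) : m ∈ vin E ↔ f ∈ E ∧ g ∈ E := by
  rcases h with ⟨rfl, rfl⟩ | ⟨rfl, rfl⟩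
  exacts [mem_vin, mem_vin.trans and_comm]

theorem Sep.bd (h : Sep m f g) : m ∈ bd E ↔ ¬ (f ∈ E ↔ g ∈ E) := by
  rcases h with ⟨rfl, rfl⟩ | ⟨rfl, rfl⟩
  exacts [mem_bd, mem_bd.trans (not_congr Iff.comm)]

theorem Sep.cor (h : Sep m f g) (hv : End m v) : v ∈ cor f ∧ v ∈ cor g := by
  obtain ⟨x, b⟩ := m
  rcases h with ⟨rfl, rfl⟩ | ⟨rfl, rfl⟩ <;> rcases hv with rfl | rfl <;> cases b <;>
    simp [fa, fb, src, tgt, dir, mem_cor]

theorem end_src (m : Vx) : End m (src m) :=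
  Or.inl rfl

theorem end_tgt (m : Vx) : End m (tgt m) :=
  Or.inr rfl

theorem Joi.ends (h : Joi m v w) : End m v ∧ End m w :=
  h.elim (fun h => ⟨Or.inl h.1, Or.inr h.2⟩) fun h => ⟨Or.inr h.2, Or.inl h.1⟩

theorem End.vin (h : End m v) (hv : v ∈ inn D) : m ∈ vin D :=
  h.elim (fun e => vin_of_src (e ▸ hv)) fun e => vin_of_tgt (e ▸ hv)

theorem self_cor (f : Site) : f ∈ cor f :=
  Finset.mem_insert_self _ _

theorem PBas_cor (hf : v ∈ cor f) (h : ∀ m ∈ bd E, ¬ End m v) : f ∈ E ↔ v ∈ E := by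
  have h1 : v ∈ E ↔ v - (1, 0) ∈ E := by_contra fun k => h _ ((sep_left v).bd.2 k) (end_src _)
  have h2 : v ∈ E ↔ v - (0, 1) ∈ E := by_contra fun k => h _ ((sep_down v).bd.2 k) (end_src _)
  have h3 : v - (1, 0) ∈ E ↔ v - (1, 0) - (0, 1) ∈ E := by_contra fun k =>
    h _ ((sep_down (v - (1, 0))).bd.2 k) (Or.inr (sub_add_cancel _ _))
  simp only [cor, Finset.mem_insert, Finset.mem_singleton] at hf
  rcases hf with rfl | rfl | rfl | rfl
  · exact Iff.rfl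
  · simpa using h1.symm
  · simpa using h2.symm
  · simpa [sub_sub] using (h1.trans h3).symm

/-- a corner that is not interior is the end of a boundary edge -/
theorem exists_bd (hf : f ∈ D) (hv : v ∈ cor f) (h : v ∉ inn D) : ∃ m ∈ bd D, End m v := by
  by_contra hn
  refine h (mem_inn_cor.2 fun g hg => (PBas_cor hg (fun m hm he => hn ⟨m, hm, he⟩)).2 ?_)
  exact (PBas_cor hv fun m hm he => hn ⟨m, hm, he⟩).1 hf

/-- the ends of a boundary edge are corners that are not interior -/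
theorem bd_end (hm : m ∈ bd D) (hv : End m v) : v ∉ inn D ∧ ∃ f ∈ D, v ∈ cor f := by
  have h1 := mem_bd.1 hm
  have h2 := (sep_self m).cor hv
  refine ⟨fun h => h1 (iff_of_true (mem_vin.1 (hv.vin h)).1 (mem_vin.1 (hv.vin h)).2), ?_⟩
  by_cases h : fa m ∈ D
  · exact ⟨_, h, h2.1⟩
  · exact ⟨_, by_contra fun k => h1 (iff_of_false h k), h2.2⟩

/-- two plaquettes with a common corner that is not an end of a boundary edge -/
theorem cor_iff (hf : v ∈ cor f) (hg : v ∈ cor g) (h : ∀ m ∈ bd E, ¬ End m v) :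
    f ∈ E ↔ g ∈ E :=
  (PBas_cor hf h).trans (PBas_cor hg h).symm

theorem PBas_symm {r : Site → Site → Prop} (hr : ∀ a b, r a b → r b a)
    (h : Relation.ReflTransGen r f g) : Relation.ReflTransGen r g f := by
  induction h with
  | refl => exact .refl
  | tail _ k ih => exact .head (hr _ _ k) ih

theorem PBas_mono {r r' : Site → Site → Prop} (hr : ∀ a b, r a b → r' a b)
    (h : Relation.ReflTransGen r f g) : Relation.ReflTransGen r' f g := by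
  induction h with
  | refl => exact .refl
  | tail _ k ih => exact ih.tail (hr _ _ k)

theorem PBas_in (h : Sep m f g) (hf : f ∈ U) (hg : g ∈ U) : fa m ∈ U ∧ fb m ∈ U := by
  rcases h with ⟨rfl, rfl⟩ | ⟨rfl, rfl⟩
  exacts [⟨hf, hg⟩, ⟨hg, hf⟩]

theorem DS.symm (h : DS O U f g) : DS O U g f :=
  ⟨h.2.1, h.1, h.2.2.imp fun _ k => ⟨k.1, k.2.symm⟩⟩

theorem Lk.refl (h : f ∈ U) : Lk U f f :=
  ⟨h, .refl⟩

theorem Lk.mem (h : Lk U f g) : g ∈ U := by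
  obtain ⟨h0, h⟩ := h
  induction h with
  | refl => exact h0
  | tail _ k _ => exact k.2.1

theorem Lk.trans (h : Lk U f g) (h' : Lk U g k) : Lk U f k :=
  ⟨h.1, h.2.trans h'.2⟩

theorem Lk.symm (h : Lk U f g) : Lk U g f :=
  ⟨h.mem, PBas_symm (fun _ _ => DS.symm) h.2⟩

theorem Lk.mono (h : Lk U f g) (hU : U ⊆ U') : Lk U' f g :=
  ⟨hU h.1, PBas_mono (fun _ _ k => ⟨hU k.1, hU k.2.1, k.2.2⟩) h.2⟩

theorem Lk.tail (h : Lk U f g) (hm : Sep m g k) (hk : k ∈ U) : Lk U f k :=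
  ⟨h.1, h.2.tail ⟨h.mem, hk, m, Set.notMem_empty m, hm⟩⟩

theorem Lk.ind {P : Site → Prop} (h : Lk U f g) (h0 : P f)
    (hs : ∀ m a b, Lk U f a → Sep m a b → b ∈ U → P a → P b) : P g := by
  obtain ⟨h1, h⟩ := h
  induction h with
  | refl => exact h0
  | tail k k' ih =>
    obtain ⟨-, h2, m, -, h3⟩ := k'
    exact hs m _ _ ⟨h1, k⟩ h3 h2 ih

/-- a path that leaves `E` crosses a boundary edge -/
theorem Lk.exit (h : Lk U f g) (hf : f ∈ A) (hg : g ∉ A) :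
    ∃ m a b, Lk (U ∩ A) f a ∧ Sep m a b ∧ b ∈ U ∧ b ∉ A := by
  by_contra hn
  refine hg (h.ind (P := Lk (U ∩ A) f) (Lk.refl ⟨h.1, hf⟩) fun m a b _ h1 h2 h3 => ?_).mem.2
  exact h3.tail h1 ⟨h2, by_contra fun k => hn ⟨m, a, b, h3, h1, h2, k⟩⟩

theorem cn_of_base (h : ∀ g ∈ U, Lk U f g) : Cn U :=
  fun a ha b hb => (h a ha).symm.trans (h b hb)

theorem Cn.union (h : Cn U) (h' : Cn U') (hf : f ∈ U) (hf' : f ∈ U') : Cn (U ∪ U') :=
  cn_of_base (f := f) fun g hg => hg.elim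
    (fun k => (h f hf g k).mono Set.subset_union_left)
    fun k => (h' f hf' g k).mono Set.subset_union_right

theorem Cn.of_sub (h : Cn A) (hA : A ⊆ U) (h' : ∀ g ∈ U, ∃ f ∈ A, Lk U f g) : Cn U :=
  fun a ha b hb =>
    let ⟨x, hx, k⟩ := h' a ha
    let ⟨y, hy, k'⟩ := h' b hb
    k.symm.trans (((h x hx y hy).mono hA).trans k')

/-- a connected set that does not cross the boundary of `E` -/
theorem Cn.iff (h : Cn U) (hE : ∀ m ∈ bd E, ¬ (fa m ∈ U ∧ fb m ∈ U)) (hf : f ∈ U) (hg : g ∈ U) :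
    f ∈ E ↔ g ∈ E :=
  (h f hf g hg).ind (P := fun a => f ∈ E ↔ a ∈ E) Iff.rfl fun m _ _ h1 h2 h3 h4 =>
    h4.trans (by_contra fun k => hE m (h2.bd.2 k) (PBas_in h2 h1.mem h3))

theorem subset_rch : A ⊆ Rch O A :=
  fun f hf => ⟨f, hf, .refl⟩

theorem rch_step (h : f ∈ Rch O A) (hm : Sep m f g) (hO : m ∉ O) : g ∈ Rch O A :=
  h.imp fun _ k => ⟨k.1, k.2.tail ⟨trivial, trivial, m, hO, hm⟩⟩

theorem rch_ind {P : Site → Prop} (h0 : ∀ f ∈ A, P f)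
    (hs : ∀ m a b, a ∈ Rch O A → Sep m a b → m ∉ O → P a → P b) (h : g ∈ Rch O A) : P g := by
  obtain ⟨f, hf, h⟩ := h
  induction h with
  | refl => exact h0 f hf
  | tail k k' ih =>
    obtain ⟨-, -, m, h2, h3⟩ := k'
    exact hs m _ _ ⟨f, hf, k⟩ h3 h2 ih

theorem rch_mono (hO : O' ⊆ O) (hA : A ⊆ A') : Rch O A ⊆ Rch O' A' :=
  fun _ h => rch_ind (P := (· ∈ Rch O' A')) (fun _ hf => subset_rch (hA hf))
    (fun _ _ _ _ h1 h2 h3 => rch_step h3 h1 fun k => h2 (hO k)) h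

theorem rch_lk (h : g ∈ Rch O A) : ∃ f ∈ A, Lk (Rch O A) f g :=
  rch_ind (P := fun g => ∃ f ∈ A, Lk (Rch O A) f g)
    (fun f hf => ⟨f, hf, Lk.refl (subset_rch hf)⟩)
    (fun _ _ _ h0 h1 h2 ⟨f, hf, h3⟩ => ⟨f, hf, h3.tail h1 (rch_step h0 h1 h2)⟩) h

theorem Cn.rch (h : Cn A) : Cn (Rch O A) :=
  h.of_sub subset_rch fun _ => rch_lk

/-- a connected set whose inner edges are not in `O` -/
theorem Cn.subset_rch (h : Cn U) (hO : ∀ m ∈ O, ¬ (fa m ∈ U ∧ fb m ∈ U)) (hf : f ∈ U)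
    (hA : f ∈ Rch O A) : U ⊆ Rch O A :=
  fun g hg =>
  (h f hf g hg).ind (P := (· ∈ Rch O A)) hA fun m _ _ h1 h2 h3 h4 =>
    rch_step h4 h2 fun k => hO m k (PBas_in h2 h1.mem h3)

/-- only the edges next to reached plaquettes matter -/
theorem rch_congr (h : ∀ m, fa m ∈ Rch O A ∨ fb m ∈ Rch O A → (m ∈ O ↔ m ∈ O')) :
    Rch O' A = Rch O A := by
  have key : ∀ m a b, a ∈ Rch O A → Sep m a b → (m ∈ O ↔ m ∈ O') := fun m a b h1 h2 => by
    rcases h2 with ⟨rfl, -⟩ | ⟨-, rfl⟩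
    exacts [h m (Or.inl h1), h m (Or.inr h1)]
  refine Set.Subset.antisymm (fun _ => rch_ind (P := (· ∈ Rch O A)) (fun _ hf => subset_rch hf)
    fun m a b _ h1 h2 h3 => rch_step h3 h1 fun k => h2 ((key m a b h3 h1).1 k))
    fun _ => rch_ind (P := (· ∈ Rch O' A)) (fun _ hf => subset_rch hf)
      fun m a b h0 h1 h2 h3 => rch_step h3 h1 fun k => h2 ((key m a b h0 h1).2 k)

theorem Enc.mono (h : Enc O A B) (hO : O ⊆ O') (hA : A' ⊆ A) (hB : B ⊆ B') : Enc O' A' B' :=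
  h.imp fun _ k => ⟨hA.trans k.1, k.2.1.trans hB, k.2.2.1, k.2.2.2.1, k.2.2.2.2.trans hO⟩

theorem not_rch (hE : (bd E : Set Vx) ⊆ O) (hA : ∀ f ∈ A, f ∉ E) (hf : f ∈ E) : f ∉ Rch O A :=
  fun h => rch_ind (P := (· ∉ E)) hA
    (fun _ _ _ _ h1 h2 h3 k => h2 (hE (h1.bd.2 fun e => h3 (e.2 k)))) h hf

theorem Enc.not_rch (h : Enc O A B) (hf : f ∈ A) : f ∉ Rch O Bᶜ :=
  let ⟨_, h1, h2, _, _, h3⟩ := h
  P145.not_rch h3 (fun _ hg k => hg (h2 k)) (h1 hf)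

theorem Pth.symm (h : Pth O v w) : Pth O w v :=
  PBas_symm (fun _ _ k => k.imp fun _ k => ⟨k.1, k.2.symm⟩) h

theorem Pth.mono (h : Pth O v w) (hO : O ⊆ O') : Pth O' v w :=
  PBas_mono (fun _ _ k => k.imp fun _ k => ⟨hO k.1, k.2⟩) h

/-- a primal path that leaves the interior meets a boundary vertex -/
theorem Pth.exit (h : Pth O v w) (hv : v ∈ inn E) (hw : w ∉ inn E) :
    ∃ x, Pth O v x ∧ (∃ m ∈ O, End m x) ∧ ∃ m ∈ bd E, End m x := by
  induction h with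
  | refl => exact absurd hv hw
  | @tail a b k k' ih =>
    by_cases ha : a ∈ inn E
    · obtain ⟨m, h1, h2⟩ := id k'
      exact ⟨b, k.tail k', ⟨m, h1, h2.ends.2⟩, exists_bd (mem_vin.1 (h2.ends.1.vin ha)).1
        ((sep_self m).cor h2.ends.2).1 hw⟩
    · exact ih ha

end Vale.Agent.P145
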