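import Vale.Agent.P145.GK
import Vale.Agent.P145.LSpin

/-! P145: the law of the plus and minus edges as a sum over spins. -/

open Filter Topology

namespace Vale.Agent.P145

open Vale.Agent.P152

/-- interior edges with both ends plus -/
def ep (D T : Finset Site) : Finset Vx := (vin D).filter fun m => src m ∉ T ∧ tgt m ∉ T

/-- interior edges with both ends minus -/
def em (D T : Finset Site) : Finset Vx := (vin D).filter fun m => src m ∈ T ∧ tgt m ∈ T

/-- weight of the open edges `P` (plus) and `Q` (minus) -/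
def gw (c : ℝ) (D T : Finset Site) (P Q : Finset Vx) : ℝ :=
  (c - 1) ^ ((ep D T \ P).card + (em D T \ Q).card) * kk D (P ∪ Q)

/-- sum over the open edges for fixed spins -/
noncomputable def gs (c : ℝ) (D T : Finset Site) (G : Set Vx → Set Vx → ℝ) : ℝ :=
  ∑ P ∈ (ep D T).powerset, ∑ Q ∈ (em D T).powerset, gw c D T P Q * G ((vin D : Set Vx)ᶜ ∪ P) Q

/-- edge weight in terms of spins -/
def GRep_w (c : ℝ) (T s : Finset Site) (ω : Finset Vx) (m : Vx) : ℝ :=
  if m ∈ ω then (if (src m ∈ T ↔ tgt m ∈ T) then 1 else 0)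
  else (if (src m ∈ T ↔ tgt m ∈ T) ∧ (fa m ∈ s ↔ fb m ∈ s) then c else 1) -
    (if (src m ∈ T ↔ tgt m ∈ T) then 1 else 0)

theorem GRep_tau {D : Finset Site} {h : Ht} (k : IsH D h) (v : Site) :
    v ∈ tau D h ↔ h (v, true) % 4 = 2 := by
  rw [tau, Finset.mem_filter]
  refine ⟨fun e => e.2, fun e => ⟨?_, e⟩⟩
  by_contra hv
  rw [k.1 v hv] at e
  omega

theorem GRep_ow (c : ℝ) {D : Finset Site} {h : Ht} (k : IsH D h) (ω : Finset Vx) {m : Vx}
    (hm : m ∈ vin D) : ow c h ω m = GRep_w c (tau D h) (dag D h) ω m := by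
  obtain ⟨e1, e2, e3, e4⟩ := k.edge hm
  obtain ⟨m1, m2⟩ := mem_vin.1 hm
  have p1 := k.par.1 (src m)
  have p2 := k.par.1 (tgt m)
  rw [abs_eq (by norm_num)] at e1 e2 e3 e4
  have a : (src m ∈ tau D h ↔ tgt m ∈ tau D h) ↔ h (src m, true) = h (tgt m, true) := by
    rw [GRep_tau k, GRep_tau k]
    omega
  have b : (fa m ∈ dag D h ↔ fb m ∈ dag D h) ↔ h (fa m, false) = h (fb m, false) := by
    simp only [dag, Finset.mem_filter, m1, m2, true_and]
    omega
  simp only [ow, GRep_w, ag, hv, a, b]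

theorem GRep_mem {D T : Finset Site} {m : Vx} :
    m ∈ ep D T ∪ em D T ↔ m ∈ vin D ∧ (src m ∈ T ↔ tgt m ∈ T) := by
  simp only [ep, em, Finset.mem_union, Finset.mem_filter]
  tauto

open Classical in
theorem GRep_pt (c : ℝ) (D T s : Finset Site) {ω : Finset Vx} (hω : ω ⊆ vin D) :
    (if Adm D T s then ∏ m ∈ vin D, GRep_w c T s ω m else 0) =
      if ω ⊆ ep D T ∪ em D T then (if ∀ m ∈ vin D \ ω, (fa m ∈ s ↔ fb m ∈ s) then
        (c - 1) ^ ((ep D T ∪ em D T) \ ω).card else 0) else 0 := by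
  by_cases h1 : ω ⊆ ep D T ∪ em D T
  · rw [if_pos h1]
    by_cases h2 : ∀ m ∈ vin D \ ω, (fa m ∈ s ↔ fb m ∈ s)
    · have ha : Adm D T s := fun m hm => by
        by_cases e : m ∈ ω
        · exact Or.inl (GRep_mem.1 (h1 e)).2
        · exact Or.inr (h2 m (Finset.mem_sdiff.2 ⟨hm, e⟩))
      have hs : (ep D T ∪ em D T) \ ω ⊆ vin D := fun m hm =>
        (GRep_mem.1 (Finset.mem_sdiff.1 hm).1).1
      rw [if_pos ha, if_pos h2, ← Finset.prod_const, ← Finset.inter_eq_right.2 hs,
        ← Finset.prod_ite_mem]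
      refine Finset.prod_congr rfl fun m hm => ?_
      simp only [Finset.mem_sdiff, GRep_mem, GRep_w]
      by_cases e : m ∈ ω
      · simp [e, (GRep_mem.1 (h1 e)).2]
      · have b := h2 m (Finset.mem_sdiff.2 ⟨hm, e⟩)
        by_cases a : (src m ∈ T ↔ tgt m ∈ T) <;> simp [e, a, b, hm]
    · rw [if_neg h2]
      split_ifs with ha
      · push Not at h2
        obtain ⟨m, hm, b⟩ := h2
        obtain ⟨hm, e⟩ := Finset.mem_sdiff.1 hm
        have b' : ¬ (fa m ∈ s ↔ fb m ∈ s) := by tauto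
        have a := (ha m hm).resolve_right b'
        refine Finset.prod_eq_zero hm ?_
        rw [GRep_w, if_neg e, if_pos a, if_neg fun x => b' x.2, sub_self]
      · rfl
  · rw [if_neg h1]
    split_ifs with ha
    · obtain ⟨m, e, hm⟩ := Finset.not_subset.1 h1
      refine Finset.prod_eq_zero (hω e) ?_
      rw [GRep_w, if_pos e, if_neg fun a => hm (GRep_mem.2 ⟨hω e, a⟩)]
    · rfl

open Classical in
theorem GRep_sum (c : ℝ) (D T : Finset Site) {ω : Finset Vx} (hω : ω ⊆ vin D) :
    ∑ s ∈ D.powerset, (if Adm D T s then ∏ m ∈ vin D, GRep_w c T s ω m else 0) =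
      if ω ⊆ ep D T ∪ em D T then (c - 1) ^ ((ep D T ∪ em D T) \ ω).card * kk D ω else 0 := by
  simp only [GRep_pt c D T _ hω]
  split_ifs
  · rw [← Finset.sum_filter, Finset.sum_const, nsmul_eq_mul, mul_comm]
    rfl
  · exact Finset.sum_const_zero

theorem GRep_split {A B : Finset Vx} (hd : Disjoint A B) (φ : Finset Vx → ℝ) :
    ∑ u ∈ (A ∪ B).powerset, φ u = ∑ P ∈ A.powerset, ∑ Q ∈ B.powerset, φ (P ∪ Q) := by
  rw [← Finset.sum_product']
  symm
  refine Finset.sum_nbij' (fun p => p.1 ∪ p.2) (fun s => (s ∩ A, s ∩ B)) (fun p hp => ?_)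
    (fun s _ => ?_) (fun p hp => ?_) (fun s hs => ?_) fun _ _ => rfl <;>
    simp only [Finset.mem_product, Finset.mem_powerset] at *
  · exact Finset.union_subset_union hp.1 hp.2
  · exact ⟨Finset.inter_subset_right, Finset.inter_subset_right⟩
  · refine Prod.ext ?_ ?_ <;> ext x <;> simp only [Finset.mem_inter, Finset.mem_union]
    · exact ⟨fun e => e.1.resolve_right fun a => Finset.disjoint_left.1 hd e.2 (hp.2 a),
        fun e => ⟨Or.inl e, hp.1 e⟩⟩
    · exact ⟨fun e => e.1.resolve_left fun a => Finset.disjoint_left.1 hd (hp.1 a) e.2,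
        fun e => ⟨Or.inr e, hp.2 e⟩⟩
  · rw [← Finset.inter_union_distrib_left, Finset.inter_eq_left.2 hs]

theorem GRep_disj (D T : Finset Site) : Disjoint (ep D T) (em D T) :=
  Finset.disjoint_left.2 fun _ h1 h2 => (Finset.mem_filter.1 h1).2.1 (Finset.mem_filter.1 h2).2.1

theorem g_rep (c : ℝ) {D : Finset Site} (hD : Cc D) (G : Set Vx → Set Vx → ℝ) :
    jn c D (fun h ω => G (ox D h ω) (o2 h ω)) = ∑ T ∈ (inn D).powerset, gs c D T G := by
  classical
  let G' : Finset Site → Finset Vx → ℝ := fun T ω =>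
    G ((vin D : Set Vx)ᶜ ∪ {m | m ∈ ω ∧ src m ∉ T}) {m | m ∈ ω ∧ src m ∈ T}
  have e := l_spin D hD fun T s =>
    ∑ ω ∈ (vin D).powerset, (∏ m ∈ vin D, GRep_w c T s ω m) * G' T ω
  refine Eq.trans (Finset.sum_congr rfl fun h hh => Finset.sum_congr rfl fun ω _ => ?_)
    (e.trans (Finset.sum_congr rfl fun T _ => ?_))
  · have k := mem_hs.1 hh
    have e1 : o0 h ω = {m | m ∈ ω ∧ src m ∉ tau D h} := Set.ext fun m => by
      have := k.par.1 (src m)
      simp only [o0, op, Set.mem_ofPred_eq, GRep_tau k]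
      exact and_congr_right fun _ => by omega
    have e2 : o2 h ω = {m | m ∈ ω ∧ src m ∈ tau D h} := Set.ext fun m => by
      simp only [o2, op, Set.mem_ofPred_eq, GRep_tau k]
    rw [Finset.prod_congr rfl fun m hm => GRep_ow c k ω hm]
    simp only [G', ox, e1, e2]
  · have e1 : ∀ s, (if Adm D T s then
        ∑ ω ∈ (vin D).powerset, (∏ m ∈ vin D, GRep_w c T s ω m) * G' T ω else 0) =
        ∑ ω ∈ (vin D).powerset,
          (if Adm D T s then ∏ m ∈ vin D, GRep_w c T s ω m else 0) * G' T ω := fun s => by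
      split_ifs <;> simp
    have hs : ep D T ∪ em D T ⊆ vin D := fun m hm => (GRep_mem.1 hm).1
    simp only [e1]
    rw [Finset.sum_comm]
    simp only [← Finset.sum_mul]
    rw [Finset.sum_congr rfl fun ω hω => by rw [GRep_sum c D T (Finset.mem_powerset.1 hω)]]
    simp only [ite_mul, zero_mul]
    rw [← Finset.sum_filter, show (vin D).powerset.filter (· ⊆ ep D T ∪ em D T) =
      (ep D T ∪ em D T).powerset from Finset.ext fun u => by
        simp only [Finset.mem_filter, Finset.mem_powerset]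
        exact ⟨fun x => x.2, fun x => ⟨x.trans hs, x⟩⟩, GRep_split (GRep_disj D T), gs]
    refine Finset.sum_congr rfl fun P hP => Finset.sum_congr rfl fun Q hQ => ?_
    have hp : ∀ m ∈ P, src m ∉ T := fun m hm =>
      (Finset.mem_filter.1 (Finset.mem_powerset.1 hP hm)).2.1
    have hq : ∀ m ∈ Q, src m ∈ T := fun m hm =>
      (Finset.mem_filter.1 (Finset.mem_powerset.1 hQ hm)).2.1
    have a1 : {m | m ∈ P ∪ Q ∧ src m ∉ T} = (P : Set Vx) := Set.ext fun m => by
      have := hp m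
      have := hq m
      simp only [Set.mem_ofPred_eq, Finset.mem_union, Finset.mem_coe]
      tauto
    have a2 : {m | m ∈ P ∪ Q ∧ src m ∈ T} = (Q : Set Vx) := Set.ext fun m => by
      have := hp m
      have := hq m
      simp only [Set.mem_ofPred_eq, Finset.mem_union, Finset.mem_coe]
      tauto
    have a3 : (ep D T ∪ em D T) \ (P ∪ Q) = ep D T \ P ∪ em D T \ Q := Finset.ext fun m => by
      have := hp m
      have := hq m
      simp only [ep, em, Finset.mem_sdiff, Finset.mem_union, Finset.mem_filter]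
      tauto
    simp only [G', a1, a2, a3, gw]
    rw [Finset.card_union_of_disjoint
      ((GRep_disj D T).mono Finset.sdiff_subset Finset.sdiff_subset)]

end Vale.Agent.P145
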