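import Vale.Agent.P152.NFDefs

/-! P145, block W (walls): geometric definitions and statements. -/

open Filter Topology

namespace Vale.Agent.P145

open Vale.Agent.P152

noncomputable section

/-- faces of the square of half side `r` centred at the vertex `z` -/
def wq (z : Site) (r : ℤ) : Finset Site := bx ((z.1 - r, z.2 - r), (z.1 + r, z.2 + r))

/-- a system of links `A i ⊆ E i ⊆ B i` that seals `R0` inside `R1` -/
structure Wall {ι : Type} (J : Finset ι) (A B : ι → Finset Site) (R0 R1 : Finset Site) : Prop where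
  cov : ∀ m : Vx, ¬ (fa m ∈ R0 ↔ fb m ∈ R0) → ∃ i ∈ J, fa m ∈ A i ∧ fb m ∈ A i ∧ B i ⊆ R1
  sub : R0 ⊆ R1
  con : ∀ (E : ι → Finset Site) (lev : ι → ℤ), (∀ i ∈ J, A i ⊆ E i ∧ E i ⊆ B i) →
    (∀ i ∈ J, ∀ j ∈ J, (E i ∩ E j).Nonempty → ¬ E i ⊆ E j → ¬ E j ⊆ E i → lev i = lev j) →
    ∀ i ∈ J, ∀ j ∈ J, lev i = lev j
  rig : ∃ i ∈ J, ∃ j ∈ J, (A i ∩ A j).Nonempty ∧ ¬ A i ⊆ B j ∧ ¬ A j ⊆ B i

/-- inner box of a link; `true` is a big link -/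
def lkA (l : ℕ) (i : Site × Bool) : Finset Site :=
  wq ((3 * l : ℤ) • i.1) (if i.2 then 12 * l else 2 * l)

/-- outer box of a link -/
def lkB (l ν : ℕ) (i : Site × Bool) : Finset Site :=
  wq ((3 * l : ℤ) • i.1) (if i.2 then ν * l else 4 * l)

/-- coarse edges with both ends in `O` -/
def sld (O : Finset Site) : Finset Vx := (O ×ˢ Finset.univ).filter fun m => tgt m ∈ O

/-- points on a coarse edge -/
def ept (ν : ℕ) (m : Vx) (j : ℤ) : Site := (2 * ν : ℤ) • m.1 + j • dir m.2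

/-- centres of the small links -/
def Zs (ν : ℕ) (O : Finset Site) : Finset Site :=
  (sld O).biUnion fun m =>
    (Finset.Icc (0 : ℤ) (ν - 2) ∪ Finset.Icc (ν + 2 : ℤ) (2 * ν)).image (ept ν m)

/-- centres of the big links -/
def Qs (ν : ℕ) (O : Finset Site) : Finset Site := (sld O).image fun m => ept ν m ν

def lkJ (ν : ℕ) (O : Finset Site) : Finset (Site × Bool) :=
  (Zs ν O).image (fun z => (z, false)) ∪ (Qs ν O).image fun z => (z, true)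

/-- faces in the coarse squares of `R` -/
def upS (S : ℤ) (R : Finset Site) : Finset Site := R.biUnion fun p => bx (S • p, S • (p + (1, 1)))

/-- coarse squares touching `R` -/
def kn (R : Finset Site) : Finset Site := R.biUnion fun p => bx (p - (1, 1), p + (2, 2))

/-- nearest neighbour connected sets -/
def NC (O : Set Site) : Prop :=
  ∀ p ∈ O, ∀ q ∈ O, Relation.ReflTransGen (fun a b => a ∈ O ∧ b ∈ O ∧ NNa a b) p q

/-- a coarse region sealed by a connected set of coarse vertices -/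
structure Crs (O R : Finset Site) : Prop where
  con : NC O
  cut : ∀ m : Vx, ¬ (fa m ∈ R ↔ fb m ∈ R) → src m ∈ O ∧ tgt m ∈ O
  ne : R.Nonempty

/-- position of a site at mesh `s` -/
def pnt (s : ℝ) (p : Site) : Pl := (s * p.1, s * p.2)

/-- `g` separates `Ω` from the rest of the plane -/
def Spr (g Ω : Set Pl) : Prop :=
  ∀ S, IsPreconnected S → Disjoint S g → (S ∩ Ω).Nonempty → S ⊆ Ω

theorem mem_wq {z f : Site} {r : ℤ} :
    f ∈ wq z r ↔ z.1 - r ≤ f.1 ∧ f.1 < z.1 + r ∧ z.2 - r ≤ f.2 ∧ f.2 < z.2 + r := by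
  simp only [wq, mem_bx]

theorem mem_sld {O : Finset Site} {m : Vx} : m ∈ sld O ↔ src m ∈ O ∧ tgt m ∈ O := by
  simp [sld, src]

theorem mem_kn {R : Finset Site} {q : Site} : q ∈ kn R ↔
    ∃ p ∈ R, p.1 - 1 ≤ q.1 ∧ q.1 ≤ p.1 + 1 ∧ p.2 - 1 ≤ q.2 ∧ q.2 ≤ p.2 + 1 := by
  simp only [kn, Finset.mem_biUnion, mem_bx, Prod.fst_sub, Prod.snd_sub, Prod.fst_add,
    Prod.snd_add]
  exact exists_congr fun p => and_congr_right fun _ => by omega

theorem mem_upS {S : ℤ} (hS : 0 < S) {R : Finset Site} {f : Site} :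
    f ∈ upS S R ↔ (f.1 / S, f.2 / S) ∈ R := by
  have k : ∀ x a : ℤ, (S * a ≤ x ∧ x < S * (a + 1)) ↔ x / S = a := fun x a => by
    rw [Int.ediv_eq_iff_of_pos hS]
    constructor <;> rintro ⟨h1, h2⟩ <;> constructor <;> linarith
  simp only [upS, Finset.mem_biUnion, mem_bx, Prod.smul_fst, Prod.smul_snd, smul_eq_mul,
    Prod.fst_add, Prod.snd_add]
  constructor
  · rintro ⟨p, hp, h⟩
    rwa [(k _ _).1 ⟨h.1, h.2.1⟩, (k _ _).1 ⟨h.2.2.1, h.2.2.2⟩]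
  · exact fun h => ⟨_, h, ((k _ _).2 rfl).1, ((k _ _).2 rfl).2, (k _ _).2 rfl⟩

/-- covering property and the rigid pair -/
def W_cov : Prop := ∀ (l ν : ℕ) (O R : Finset Site), 1 ≤ l → 13 ≤ ν → Crs O R →
  (∀ m : Vx, ¬ (fa m ∈ upS (6 * ν * l) R ↔ fb m ∈ upS (6 * ν * l) R) → ∃ i ∈ lkJ ν O,
    fa m ∈ lkA l i ∧ fb m ∈ lkA l i ∧ lkB l ν i ⊆ upS (6 * ν * l) (kn R)) ∧
  upS (6 * ν * l) R ⊆ upS (6 * ν * l) (kn R) ∧
  ∃ i ∈ lkJ ν O, ∃ j ∈ lkJ ν O,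
    (lkA l i ∩ lkA l j).Nonempty ∧ ¬ lkA l i ⊆ lkB l ν j ∧ ¬ lkA l j ⊆ lkB l ν i

/-- all links have the same level -/
def W_con : Prop := ∀ (l ν : ℕ) (O : Finset Site), 1 ≤ l → 13 ≤ ν → NC O →
  ∀ (E : Site × Bool → Finset Site) (lev : Site × Bool → ℤ),
    (∀ i ∈ lkJ ν O, lkA l i ⊆ E i ∧ E i ⊆ lkB l ν i) →
    (∀ i ∈ lkJ ν O, ∀ j ∈ lkJ ν O, (E i ∩ E j).Nonempty → ¬ E i ⊆ E j → ¬ E j ⊆ E i →
      lev i = lev j) → ∀ i ∈ lkJ ν O, ∀ j ∈ lkJ ν O, lev i = lev j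

/-- sites near a connected set are connected -/
def W_cs : Prop := ∀ (t : ℝ) (g : Set Pl), 0 < t → IsPreconnected g →
  NC {p | ∃ y ∈ g, dist (pnt t p) y < 2 * t}

/-- the coarse region -/
def W_crs : Prop := ∀ (s : ℝ) (g Ω K : Set Pl), 0 < s → IsPreconnected g →
  Bornology.IsBounded g → Bornology.IsBounded Ω → Spr g Ω → K ⊆ Ω → K.Nonempty →
  (∀ x ∈ K, ∀ y ∈ g, 20 * s ≤ dist x y) →
  ∃ O R : Finset Site, Crs O R ∧ (∀ p ∈ O, ∃ y ∈ g, dist (pnt s p) y < 2 * s) ∧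
    (∀ p, (∃ x ∈ K, dist (pnt s p) x ≤ 3 * s) → p ∈ R) ∧
    ∀ p ∈ R, pnt s p ∈ Ω ∧ pnt s p ∉ g

theorem wall_of (h1 : W_cov) (h2 : W_con) {l ν : ℕ} {O R : Finset Site} (hl : 1 ≤ l) (hν : 13 ≤ ν)
    (h : Crs O R) :
    Wall (lkJ ν O) (lkA l) (lkB l ν) (upS (6 * ν * l) R) (upS (6 * ν * l) (kn R)) :=
  ⟨(h1 l ν O R hl hν h).1, (h1 l ν O R hl hν h).2.1, h2 l ν O hl hν h.con,
    (h1 l ν O R hl hν h).2.2⟩

end

end Vale.Agent.P145
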