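import Vale.Agent.P145.Core
import Vale.Agent.P145.WDefs

/-! P145, block W (walls and the final sandwich): interfaces and step statements. -/

open Filter Topology Metric

namespace Vale.Agent.P145

open Vale.Agent.P152

noncomputable section

open Classical in
/-- a function of finite support as a `Finsupp` -/
def toS (g : Site → ℝ) : Site →₀ ℝ :=
  if h : (Function.support g).Finite then Finsupp.ofSupportFinite g h else 0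

/-- sampled test function -/
def smp (δ : ℝ) (φ : Pl → ℝ) : Site →₀ ℝ := toS fun v => δ ^ 2 * φ (pnt δ v)

/-- lattice Laplacian -/
def dl (δ : ℝ) (η : Pl → ℝ) (v : Site) : ℝ :=
  η (pnt δ (v + (1, 0))) + η (pnt δ (v - (1, 0))) + η (pnt δ (v + (0, 1))) +
    η (pnt δ (v - (0, 1))) - 4 * η (pnt δ v)

/-- the boundary charge -/
def psi (δ : ℝ) (φ η : Pl → ℝ) (v : Site) : ℝ := δ ^ 2 * φ (pnt δ v) + dl δ η v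

def psp (δ : ℝ) (φ η : Pl → ℝ) : Site →₀ ℝ := toS fun v => max (psi δ φ η v) 0
def psm (δ : ℝ) (φ η : Pl → ℝ) : Site →₀ ℝ := toS fun v => max (-psi δ φ η v) 0

/-! ### Interfaces -/

/-- lattice approximations of `D` -/
structure Apr (D : Set Pl) (δ : ℕ → ℝ) (U : ℕ → Finset Site) : Prop where
  pos : ∀ n, 0 < δ n
  lim : Tendsto δ atTop (𝓝 0)
  cc : ∀ᶠ n in atTop, Cc (U n)
  inn : ∀ K, IsCompact K → K ⊆ D → ∀ᶠ n in atTop, ∀ f, pnt (δ n) f ∈ K → f ∈ U n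
  out : ∀ ε > 0, ∀ᶠ n in atTop, ∀ f ∈ U n, ∃ x ∈ closure D, dist (pnt (δ n) f) x ≤ ε

/-- separating curves inside `D` -/
def AccIn (D : Set Pl) : Prop := ∀ K, IsCompact K → K ⊆ D → ∃ g Ω K' : Set Pl,
  IsCompact g ∧ IsPreconnected g ∧ Disjoint g K ∧ K ⊆ Ω ∧ Spr g Ω ∧ IsCompact K' ∧ K' ⊆ D ∧ Ω ⊆ K'

/-- access to the boundary from outside -/
def AccOut (D : Set Pl) : Prop := ∃ R0 : ℝ, 0 < R0 ∧ closure D ⊆ ball 0 R0 ∧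
  ∀ r > 0, ∃ g : Set Pl, IsCompact g ∧ IsPreconnected g ∧ sphere 0 R0 ⊆ g ∧
    Disjoint g (closure D) ∧ ∀ z ∈ frontier D, ∃ y ∈ g, dist z y ≤ r

/-- the boundary charge is not seen -/
def BVS (c : ℝ) (D : Set Pl) (φ : Pl → ℝ) (Q : ℝ) : Prop := ∀ ε > 0, ∃ (η : Pl → ℝ) (r : ℝ),
  Sm η ∧ tsupport η ⊆ D ∧ 0 < r ∧ |en η - Q| ≤ ε ∧
  ∀ (δ : ℕ → ℝ) (V : ℕ → Finset Site) (R : ℝ), (∀ n, 0 < δ n) → Tendsto δ atTop (𝓝 0) →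
    (∀ᶠ n in atTop, Cc (V n) ∧ (∀ f ∈ V n, ‖pnt (δ n) f‖ ≤ R) ∧
      ∀ z ∈ frontier D, ∃ f, f ∉ V n ∧ dist (pnt (δ n) f) z ≤ r) →
    ∀ᶠ n in atTop, PH c (V n) (fun h => lin (psp (δ n) φ η) h ^ 2) ≤ ε ∧
      PH c (V n) (fun h => lin (psm (δ n) φ η) h ^ 2) ≤ ε

/-- convergence of the Laplace transform -/
def LAP (c K : ℝ) : Prop := ∀ (D : Set Pl) (δ : ℕ → ℝ) (U : ℕ → Finset Site) (φ : Pl → ℝ) (Q : ℝ),
  IsOpen D → D.Nonempty → AccIn D → AccOut D → Apr D δ U → Sm φ → tsupport φ ⊆ D →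
  (∀ p, 0 ≤ φ p) → BVS c D φ Q →
  Tendsto (fun n => PH c (U n) fun h => Real.exp (lin (smp (δ n) φ) h)) atTop
    (𝓝 (Real.exp (K * Q / 2)))

/-- Gaussian domination in large boxes -/
def GDB (c : ℝ) : Prop := ∃ C : ℝ, 0 ≤ C ∧ ∀ g : Vx →₀ ℝ, ∀ᶠ ab in exh,
  PH c (bx ab) (fun h => Real.exp (XH g h)) ≤ Real.exp (C * nsq g) + 1

/-- exponential moments in bounded domains -/
def BX (c : ℝ) : Prop := ∀ t R : ℝ, ∃ C : ℝ, 0 ≤ C ∧ ∀ᶠ δ : ℝ in 𝓝[>] 0,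
  ∀ (a : Site →₀ ℝ) (V : Finset Site), (∀ v, 0 ≤ a v ∧ a v ≤ t * δ ^ 2) →
    (∀ v, a v ≠ 0 → ‖pnt δ v‖ ≤ R) → (∀ f ∈ V, ‖pnt δ f‖ ≤ R) →
    PH c V (fun h => Real.exp (lin a h)) ≤ C

/-! ### Walls -/

/-- all links are closed -/
def CG {ι : Type} (J : Finset ι) (A B : ι → Finset Site) (O : Set Vx) : Prop :=
  ∀ i ∈ J, Enc O (A i) (B i)

/-- expectation on the event that all links are closed by edges of one spin -/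
def NN {ι : Type} (c : ℝ) (Λ : Finset Site) (J : Finset ι) (A B : ι → Finset Site)
    (G : Ht → ℝ) : ℝ :=
  JH c Λ fun h ω => (pi (CG J A B (o0 h ω)) + pi (CG J A B (o2 h ω))) * G h

/-- possible heights of vertices -/
def lv (Λ : Finset Site) : Finset ℤ :=
  (hs Λ).biUnion fun h => insert 0 ((inn Λ).image fun v => h (v, true))

/-- the same expectation, decomposed according to the height of the wall -/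
def WM {ι : Type} (c : ℝ) (Λ : Finset Site) (J : Finset ι) (A B : ι → Finset Site)
    (Φ : ℤ → Ht → ℝ) : ℝ :=
  ∑ a ∈ lv Λ, JH c Λ fun h ω => pi (CG J A B (op (· = a) h ω)) * Φ a h

/-- sandwich behind a wall at height `a`, with a weight that lives outside -/
def H_ex2 : Prop := ∀ c : ℝ, 1 ≤ c → ∀ (Λ Q Dm Dp : Finset Site) (S S1 : Set Vx) (a : ℤ)
  (𝒜 : Set Vx → Prop) (F G : Ht → ℝ), Cc Λ → Q ⊆ Λ → (∀ O O', O ⊆ O' → 𝒜 O → 𝒜 O') →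
  (∀ O ⊆ S, 𝒜 O → ∀ f ∈ Q, f ∉ Rch (O ∩ S1) (Λ : Set Site)ᶜ) → SP F → DepV (inn Q) F →
  Cc Dp → Dp ⊆ Λ → S1 ⊆ vin Dp → (∀ h, 0 ≤ G h) → DepV (inn Dp : Set Site)ᶜ G →
  (Dm ⊆ Q → Disjoint S (vin Dm) →
    JH c Λ (fun h ω => pi (𝒜 (op (· = a) h ω ∩ S)) * G h) * PH c Dm F ≤
      JH c Λ fun h ω => pi (𝒜 (op (· = a) h ω ∩ S)) * (G h * F (h - fun _ => a))) ∧
  JH c Λ (fun h ω => pi (𝒜 (op (· = a) h ω ∩ S)) * (G h * F (h - fun _ => a))) ≤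
    JH c Λ (fun h ω => pi (𝒜 (op (· = a) h ω ∩ S)) * G h) * PH c Dp F

/-- the height of the wall -/
def W_lev : Prop := ∀ (ι : Type) (J : Finset ι) (A B : ι → Finset Site) (R0 R1 Λ : Finset Site)
  (h : Ht) (ω : Finset Vx), Wall J A B R0 R1 → Ok Λ h ω →
  pi (CG J A B (o0 h ω)) + pi (CG J A B (o2 h ω)) = ∑ a ∈ lv Λ, pi (CG J A B (op (· = a) h ω))

/-- sandwich behind a system of links -/
def W_sand : Prop := ∀ c : ℝ, 1 ≤ c → ∀ (ι : Type) (J : Finset ι) (A B : ι → Finset Site)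
  (R0 R1 Λ V : Finset Site) (F : Ht → ℝ) (G : ℤ → Ht → ℝ), Wall J A B R0 R1 → Cc Λ → Cc V →
  V ⊆ Λ → vx R1 ⊆ vin V → SP F → DepV (inn R0) F → (∀ a h, 0 ≤ G a h) →
  (∀ a, DepV (inn V : Set Site)ᶜ (G a)) →
  (∀ U ⊆ R0, (∀ i ∈ J, ∀ m ∈ vx (B i), m ∈ vin U → m ∈ vin (A i)) →
    WM c Λ J A B G * PH c U F ≤ WM c Λ J A B fun a h => G a h * F (h - fun _ => a)) ∧
  WM c Λ J A B (fun a h => G a h * F (h - fun _ => a)) ≤ WM c Λ J A B G * PH c V F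

/-- lower bound for the links and closing of the windows -/
def W_cl : Prop := ∀ c : ℝ, 1 ≤ c → ∀ (ι : Type) [DecidableEq ι] (J J' : Finset ι)
  (A B : ι → Finset Site) (Λ : Finset Site), Cc Λ → (∀ i ∈ J ∪ J', vx (B i) ⊆ vin Λ) →
  (∀ c0 : ℝ, 0 ≤ c0 → (∀ i ∈ J, c0 ≤ PG c Λ fun P _ => pi (Enc P (A i) (B i))) →
    c0 ^ J.card ≤ NN c Λ J A B 1) ∧
  ∀ θ : ℝ, ∑ i ∈ J', PG c Λ (fun P _ => pi (¬ Enc P (A i) (B i))) ≤ θ →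
    ∑ i ∈ J', PG c Λ (fun _ Q => pi (¬ Enc Q (A i) (B i))) ≤ θ →
    (1 - θ) * NN c Λ J A B 1 ≤ NN c Λ (J ∪ J') A B 1

/-- the estimate in one box -/
def W_one : Prop := ∀ c : ℝ, 1 ≤ c → ∀ (ι : Type) [DecidableEq ι] (J J' : Finset ι)
  (A B : ι → Finset Site) (R0 R1 Λ V : Finset Site) (φ ψ ψ' : Site →₀ ℝ) (X : Ht → ℝ)
  (κ e1 e2 b : ℝ), Wall (J ∪ J') A B R0 R1 → Cc Λ → Cc V → V ⊆ Λ → vx R1 ⊆ vin V →
  (∀ v, 0 ≤ φ v ∧ 0 ≤ ψ v ∧ 0 ≤ ψ' v) → (∀ v, v ∉ inn R0 → φ v = 0 ∧ ψ v = 0 ∧ ψ' v = 0) →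
  (∀ (h : Ht) (a : ℤ), X h = lin φ (h - fun _ => a) - lin ψ (h - fun _ => a) +
    lin ψ' (h - fun _ => a)) →
  0 < κ → κ ≤ 1 / 2 → 0 ≤ e1 → 0 ≤ e2 → 0 ≤ b → 0 < NN c Λ J A B 1 →
  (1 - κ ^ 2) * NN c Λ J A B 1 ≤ NN c Λ (J ∪ J') A B 1 →
  |NN c Λ J A B fun h => Real.exp (X h) - e1| ≤ κ * NN c Λ J A B 1 →
  |NN c Λ J A B fun h => Real.exp (2 * X h) - e2| ≤ NN c Λ J A B 1 →
  PH c V (fun h => lin ψ h ^ 2) ≤ κ ^ 2 → PH c V (fun h => lin ψ' h ^ 2) ≤ κ ^ 2 →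
  PH c V (fun h => Real.exp (lin ((2 : ℝ) • φ) h)) ≤ b → ∀ U : Finset Site,
  (U ⊆ R0 → (∀ i ∈ J ∪ J', ∀ m ∈ vx (B i), m ∈ vin U → m ∈ vin (A i)) →
    PH c U (fun h => Real.exp (lin φ h)) ≤ e1 + 20 * (1 + e1 + e2 + b) * κ) ∧
  (Cc U → U ⊆ Λ → vx R1 ⊆ vin U →
    e1 - 20 * (1 + e1 + e2 + b) * κ ≤ PH c U fun h => Real.exp (lin φ h))

/-- moving a charge far to the right -/
def W_flow : Prop := ∀ (a : Site →₀ ℝ) (N : ℕ) (τ : ℝ), 1 ≤ N → (∀ v, 0 ≤ a v ∧ a v ≤ τ) →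
  (∀ v, a v ≠ 0 → sd v 0 ≤ N) → ∃ (g : Vx →₀ ℝ) (a' : Site →₀ ℝ),
    nsq g ≤ 1000 * τ ^ 2 * N ^ 4 ∧ (∀ v, a' v ≠ 0 → 20 * (N : ℤ) ≤ v.1) ∧
    ∀ (h : Ht) (k : ℤ), XH g h = lin a (h - fun _ => k) - lin a' (h - fun _ => k)

/-- sampling and summation by parts -/
def W_id : Prop := ∀ (δ : ℝ) (φ η : Pl → ℝ), 0 < δ → Sm φ → Sm η →
  (∀ v, smp δ φ v = δ ^ 2 * φ (pnt δ v) ∧ psp δ φ η v = max (psi δ φ η v) 0 ∧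
    psm δ φ η v = max (-psi δ φ η v) 0) ∧
  (∀ v, psi δ φ η v ≠ 0 → ∃ x ∈ tsupport φ ∪ tsupport η, dist (pnt δ v) x ≤ δ) ∧
  (∀ (h : Ht) (a : ℤ), XH (lgr δ η) h = lin (smp δ φ) (h - fun _ => a) -
    lin (psp δ φ η) (h - fun _ => a) + lin (psm δ φ η) (h - fun _ => a)) ∧
  (∀ h : Ht, XH (lgr δ fun p => 2 * η p) h = 2 * XH (lgr δ η) h) ∧
  Sm (fun p => 2 * η p) ∧ tsupport (fun p => 2 * η p) = tsupport η ∧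
  en (fun p => 2 * η p) = 4 * en η

/-- the unit of the wall at mesh `δ` -/
def unt (s : ℝ) (ν : ℕ) (δ : ℝ) : ℕ := ⌊s / (6 * ν * δ)⌋₊

/-- position of the wall at mesh `δ` -/
structure Geo (s : ℝ) (ν : ℕ) (O R : Finset Site) (ρ δ : ℝ) : Prop where
  band : ∀ z ∈ Zs ν O, ∃ p ∈ O, ∀ m ∈ vx (lkB (unt s ν δ) ν (z, false)),
    dist (pnt δ m.1) (pnt s p) ≤ s ∧ -(s / 2) + p.2 * s + s / (6 * ν) ≤ δ * m.1.2 ∧
      δ * m.1.2 ≤ -(s / 2) + (p.2 + 1) * s - s / (6 * ν)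
  near : ∀ i ∈ lkJ ν O, ∃ p ∈ O, ∀ m ∈ vx (lkB (unt s ν δ) ν i), dist (pnt δ (fa m)) (pnt s p) ≤ s
  out : ∀ m ∈ vx (upS (6 * ν * unt s ν δ) (kn R)), ∃ p ∈ R,
    dist (pnt δ (fa m)) (pnt s p) ≤ 3 * s ∧ dist (pnt δ (fb m)) (pnt s p) ≤ 3 * s
  inn : ∀ f : Site, ‖pnt δ f‖ ≤ ρ → ∃ p : Site, dist (pnt δ f) (pnt s p) ≤ 3 / 2 * s ∧
    (p ∈ R → f ∈ upS (6 * ν * unt s ν δ) R)

def W_geo : Prop := ∀ (s : ℝ) (ν n0 : ℕ) (O R : Finset Site) (ρ : ℝ), 0 < s → 13 ≤ ν →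
  ∀ᶠ δ : ℝ in 𝓝[>] 0, n0 ≤ unt s ν δ ∧ Geo s ν O R ρ δ

/-- the estimate for one wall -/
def W_asy (c K : ℝ) : Prop := ∀ (φ : Pl → ℝ) (ρ : ℝ), Sm φ → (∀ p, 0 ≤ φ p) → ∃ b : ℝ, 0 ≤ b ∧
  ∀ (η : Pl → ℝ) (K0 : Set Pl) (s κ : ℝ) (O R : Finset Site), Sm η →
  tsupport φ ∪ tsupport η ⊆ K0 → K0 ⊆ closedBall 0 ρ → 0 < s → 0 < κ → κ ≤ 1 / 2 → Crs O R →
  (∀ p ∈ O, ∀ x ∈ tsupport η, 20 * s ≤ dist (pnt s p) x) →
  (∀ p, (∃ x ∈ K0, dist (pnt s p) x ≤ 3 * s) → p ∈ R) →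
  ∀ᶠ δ : ℝ in 𝓝[>] 0, ∀ V U : Finset Site, Cc V → (∀ f ∈ V, ‖pnt δ f‖ ≤ ρ) →
    (∀ f, (∃ p ∈ R, dist (pnt δ f) (pnt s p) ≤ 3 * s) → f ∈ V) →
    PH c V (fun h => lin (psp δ φ η) h ^ 2) ≤ κ ^ 2 →
    PH c V (fun h => lin (psm δ φ η) h ^ 2) ≤ κ ^ 2 →
    ((∀ f ∈ U, ∃ x ∈ K0, dist (pnt δ f) x ≤ s) →
      (∀ f ∈ U, ∀ p ∈ O, s < dist (pnt δ f) (pnt s p)) →
      PH c U (fun h => Real.exp (lin (smp δ φ) h)) ≤ Real.exp (K * en η / 2) +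
        20 * (1 + Real.exp (K * en η / 2) + Real.exp (2 * K * en η) + b) * κ) ∧
    (Cc U → (∀ f, (∃ p ∈ R, dist (pnt δ f) (pnt s p) ≤ 3 * s) → f ∈ U) →
      Real.exp (K * en η / 2) -
        20 * (1 + Real.exp (K * en η / 2) + Real.exp (2 * K * en η) + b) * κ ≤
        PH c U fun h => Real.exp (lin (smp δ φ) h))

/-- the comparison domain -/
def W_vn : Prop := ∀ (δ R0 : ℝ) (g : Set Pl), 0 < δ → 0 < R0 → IsPreconnected g →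
  sphere 0 R0 ⊆ g → ∃ V : Finset Site, Cc V ∧
    ∀ f, f ∈ V ↔ ∀ y ∈ g ∪ (ball 0 R0)ᶜ, 2 * δ ≤ dist (pnt δ f) y

/-- thickening of the access set -/
def W_thk : Prop := ∀ (t R0 : ℝ) (g : Set Pl), 0 < t → 0 < R0 → IsPreconnected g →
  sphere 0 R0 ⊆ g → IsPreconnected (thickening t g) ∧
    Spr (thickening t g) (ball 0 R0 \ thickening t g) ∧
    ∀ x ∈ ball (0 : Pl) R0 \ thickening t g, ∀ y ∈ g ∪ (ball 0 R0)ᶜ, t ≤ dist x y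

theorem wq_sq (z : Site) (n : ℕ) : wq z n = sq z n := rfl

theorem lkA_f (l : ℕ) (z : Site) : lkA l (z, false) = sq ((3 * l : ℤ) • z) (2 * l) := by
  simp [lkA, ← wq_sq]

theorem lkB_f (l ν : ℕ) (z : Site) : lkB l ν (z, false) = sq ((3 * l : ℤ) • z) (2 * (2 * l)) := by
  simp only [lkB, ← wq_sq]; congr 1; push_cast; ring

theorem lkA_t (l : ℕ) (z : Site) : lkA l (z, true) = sq ((3 * l : ℤ) • z) (12 * l) := by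
  simp [lkA, ← wq_sq]

theorem lkB_t (l ν : ℕ) (z : Site) : lkB l ν (z, true) = sq ((3 * l : ℤ) • z) (ν * l) := by
  simp [lkB, ← wq_sq]

end

end Vale.Agent.P145
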