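import Vale.Agent.P145.Final
import Vale.Agent.P152.UMain

/-! P145: upper bound for the constant. -/

namespace Vale.Agent.P145

open Vale.Agent.P152 Real

variable {c K : ℝ}

theorem val_sq (h : 0 < c) :
    (1 / (π * √(8 / π * arcsin (c / 2)))) ^ 2 * (2 * π) = 1 / arcsin (c / 2) / 4 := by
  rw [← AT.par_a h, div_pow, one_pow, one_div_mul_eq_div]

theorem conv_le (h1 : 1 < c) (h2 : c ≤ 2) : ∃ σ : ℝ, 0 < σ ∧
    σ ≤ 1 / (π * √(8 / π * arcsin (c / 2))) ∧ AT.Conv c⁻¹ (σ ^ 2 * (2 * π)) := by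
  obtain ⟨-, -, K, h0, hK, -⟩ := main_all h1 h2
  have hp := Real.pi_pos
  have e : √(K / 4 / (2 * π)) ^ 2 * (2 * π) = K / 4 := by
    rw [sq_sqrt (by positivity), div_mul_cancel₀ _ (by positivity)]
  refine ⟨√(K / 4 / (2 * π)), by positivity, ?_, e.symm ▸ conv_fin h1 h2 hK⟩
  refine le_of_sq_le_sq (le_of_mul_le_mul_right ?_ two_pi_pos) (by positivity)
  rw [e, val_sq (one_pos.trans h1)]
  linarith [u_main h1 h2 h0 hK]

end Vale.Agent.P145
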