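import Vale.Agent.P145.PBox

/-! P145, block NP: number of local clusters of closed edges that cross an annulus. -/

namespace Vale.Agent.P145.Np

open Vale.Agent.P152

/-- joined by a dual path inside `U` that avoids `O` -/
def Cx (O : Set Vx) (U : Set Site) : Site → Site → Prop := Relation.ReflTransGen (DS O U)

/-- representatives of distinct clusters in `U` that leave `V` -/
def Crs (O : Set Vx) (U V : Set Site) (s : Finset Site) : Prop :=
  (∀ f ∈ s, ∀ g ∈ s, Cx O U f g → f = g) ∧ ∀ f ∈ s, ∃ g, g ∉ V ∧ Cx O U f g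

open Classical in
/-- number of clusters in `sq z (N + 1)` that meet `sq z n` and leave `sq z N` -/
noncomputable def cnt (O : Set Vx) (z : Site) (n N : ℕ) : ℕ :=
  ((sq z n).powerset.filter fun s => Crs O (sq z (N + 1)) (sq z N) s).sup Finset.card

/-- few crossing clusters of closed edges -/
def NP (c : ℝ) : Prop := ∀ ε > 0, ∃ M R n1 : ℕ, 1 ≤ M ∧ M < R ∧ 1 ≤ n1 ∧ ∀ n ≥ n1,
  ∀ (z : Site) (D : Finset Site), Cc D → sq z (R * n) ⊆ D →
    JH c D (fun _ ω => (cnt ω z n (M * n) : ℝ)) ≤ ε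

/-- clusters of closed edges are intersections -/
def S_ex : Prop := ∀ (D : Finset Site) (h : Ht) (ω : Finset Vx) (z : Site) (N : ℕ) (f g : Site),
  Ok D h ω → sq z N ⊆ D → Cx (o0 h ω) (sq z N) f g → Cx (o2 h ω) (sq z N) f g →
    Cx ω (sq z N) f g

open Classical in
/-- flip potential of a local cluster, on any rectangle -/
def POT : Prop := ∀ (D : Finset Site) (h : Ht) (ω : Finset Vx) (ab : Site × Site) (f : Site),
  Ok D h ω → bx ab ⊆ D → f ∈ bx ab → ∃ φ : Site → ℤ, (∀ v, |φ v| ≤ 1) ∧ ∀ m ∈ vin (bx ab),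
    φ (tgt m) - φ (src m) =
      if Cx ω (bx ab) f (fa m) then h (tgt m, true) - h (src m, true) else 0

theorem Cx.mono {O O' : Set Vx} {U U' : Set Site} {f g : Site} (h : Cx O U f g) (h1 : O' ⊆ O)
    (h2 : U ⊆ U') : Cx O' U' f g := by
  induction h with
  | refl => exact .refl
  | tail _ k ih =>
    obtain ⟨a, b, m, c, d⟩ := k
    exact ih.tail ⟨h2 a, h2 b, m, fun e => c (h1 e), d⟩

theorem Cx.symm {O : Set Vx} {U : Set Site} {f g : Site} (h : Cx O U f g) : Cx O U g f := by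
  induction h with
  | refl => exact .refl
  | tail _ k ih =>
    obtain ⟨a, b, m, c, d⟩ := k
    exact ih.head ⟨b, a, m, c, Or.symm d⟩

/-- first exit -/
theorem Cx.exit {O : Set Vx} {U : Set Site} {z f g : Site} {N : ℕ} (h : Cx O U f g)
    (hf : f ∈ sq z N) (hg : g ∉ sq z N) : ∃ g', g' ∉ sq z N ∧ Cx O (sq z (N + 1)) f g' := by
  induction h using Relation.ReflTransGen.head_induction_on with
  | refl => exact absurd hf hg
  | @head a b k _ ih =>
    obtain ⟨-, -, m, h1, h2⟩ := k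
    have s : DS O (sq z (N + 1)) a b := by
      refine ⟨sq_mono N.le_succ hf, ?_, m, h1, h2⟩
      rw [Finset.mem_coe, mem_sq]
      rw [mem_sq] at hf
      obtain ⟨⟨x, y⟩, _ | _⟩ := m <;> rcases h2 with ⟨rfl, rfl⟩ | ⟨rfl, rfl⟩ <;>
        simp [fa, fb, dir] at hf ⊢ <;> omega
    by_cases e : b ∈ sq z N
    · exact (ih e).imp fun _ k => ⟨k.1, k.2.head s⟩
    · exact ⟨b, e, .single s⟩

theorem le_cnt {O : Set Vx} {U V : Set Site} {z : Site} {n N : ℕ} {s : Finset Site} (hn : n ≤ N)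
    (hU : (sq z (N + 1) : Set Site) ⊆ U) (hV : (sq z N : Set Site) ⊆ V) (hs : s ⊆ sq z n)
    (h : Crs O U V s) : s.card ≤ cnt O z n N := by
  classical
  refine Finset.le_sup (f := Finset.card) (Finset.mem_filter.2 ⟨Finset.mem_powerset.2 hs,
    fun f hf g hg k => h.1 f hf g hg (k.mono subset_rfl hU), fun f hf => ?_⟩)
  obtain ⟨g, a, b⟩ := h.2 f hf
  exact b.exit (sq_mono hn (hs hf)) fun e => a (hV e)

theorem exists_cnt (O : Set Vx) (z : Site) (n N : ℕ) :
    ∃ s ⊆ sq z n, Crs O (sq z (N + 1)) (sq z N) s ∧ s.card = cnt O z n N := by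
  classical
  obtain ⟨s, a, b⟩ := Finset.exists_mem_eq_sup
    ((sq z n).powerset.filter fun s => Crs O (sq z (N + 1)) (sq z N) s)
    ⟨∅, Finset.mem_filter.2 ⟨by simp, by simp [Crs]⟩⟩ Finset.card
  exact ⟨s, Finset.mem_powerset.1 (Finset.mem_filter.1 a).1, (Finset.mem_filter.1 a).2, b.symm⟩

end Vale.Agent.P145.Np
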