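import Vale.Agent.P145.PEx
import Vale.Agent.P145.NpDefs

/-! P145: a closed piece of a box is determined by its plus piece and its minus piece. -/

namespace Vale.Agent.P145.Np

open Vale.Agent.P152

theorem NpEx_line (e : ℤ → Prop) (p : Prop) (a : ℤ) :
    ∃ s : ℤ → Prop, (s a ↔ p) ∧ ∀ x, a < x → (e x ↔ ¬ (s x ↔ s (x - 1))) := by
  let r : ℕ → Prop := fun n => Nat.rec p (fun k q => (q ↔ ¬ e (a + k + 1))) n
  refine ⟨fun x => r (x - a).toNat, by simp [r], fun x hx => ?_⟩
  obtain ⟨k, rfl⟩ : ∃ k : ℕ, x = a + k + 1 := ⟨(x - a - 1).toNat, by omega⟩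
  have h1 : (a + k + 1 - a).toNat = k + 1 := by omega
  have h2 : (a + k + 1 - 1 - a).toNat = k := by omega
  simp only [h1, h2]
  show _ ↔ ¬ ((r k ↔ ¬ e (a + k + 1)) ↔ r k)
  generalize r k = u
  generalize e (a + k + 1) = w
  by_cases u <;> by_cases w <;> simp [*]

/-- exactness on a box -/
theorem NpEx_box (ab : Site × Site) (η : Vx → Prop) (hη : ∀ v ∈ inn (bx ab),
    (η (v, true) ↔ η (v - (1, 0), true)) ↔ (η (v, false) ↔ η (v - (0, 1), false))) :
    ∃ t : Site → Prop, ∀ m ∈ vin (bx ab), η m ↔ ¬ (t (fa m) ↔ t (fb m)) := by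
  obtain ⟨s, -, hs⟩ := NpEx_line (fun y => η ((ab.1.1, y), true)) True ab.1.2
  choose t h0 ht using fun y => NpEx_line (fun x => η ((x, y), false)) (s y) ab.1.1
  refine ⟨fun f => t f.2 f.1, ?_⟩
  rintro ⟨⟨x, y⟩, _ | _⟩ hm
  · have e : fb ((x, y), false) = (x - 1, y) := by simp [fb, dir]
    rw [e]
    exact ht y x (mem_vin_bx_false.1 hm).1
  · have e : fb ((x, y), true) = (x, y - 1) := by simp [fb, dir]
    rw [e]
    obtain ⟨h1, h2, h3, h4⟩ := mem_vin_bx_true.1 hm
    dsimp only [fa] at h1 h2 h3 h4 ⊢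
    clear hm e
    induction x, h1 using Int.leInduction with
    | base => rw [h0, h0]; exact hs y h3
    | succ x hx ih =>
      have k := hη (x + 1, y) (mem_inn_bx.2 ⟨by dsimp only; omega, h2, h3, h4⟩)
      simp only [Prod.mk_sub_mk, add_sub_cancel_right, sub_zero] at k
      have k1 := ht y (x + 1) (by omega)
      have k2 := ht (y - 1) (x + 1) (by omega)
      rw [add_sub_cancel_right] at k1 k2
      have k3 := ih (by omega)
      revert k k1 k2 k3
      generalize η ((x, y), true) = a1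
      generalize η ((x + 1, y), false) = a2
      generalize η ((x + 1, y - 1), false) = a3
      generalize η ((x + 1, y), true) = a
      generalize t y x = b
      generalize t (y - 1) x = c
      generalize t y (x + 1) = d
      generalize t (y - 1) (x + 1) = e
      intro k k1 k2 k3
      rw [propext k1, propext k2, propext k3] at k
      revert k
      by_cases a <;> by_cases b <;> by_cases c <;> by_cases d <;> by_cases e <;> simp [*]

theorem NpEx_iff {O U : Set _} {t : Site → Prop} {f g : Site}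
    (ht : ∀ m, fa m ∈ U → fb m ∈ U → m ∉ O → (t (fa m) ↔ t (fb m)))
    (h : Relation.ReflTransGen (DS O U) f g) : t f ↔ t g := by
  induction h with
  | refl => exact Iff.rfl
  | tail _ k ih =>
    obtain ⟨h1, h2, m, h3, ⟨rfl, rfl⟩ | ⟨rfl, rfl⟩⟩ := k
    exacts [ih.trans (ht m h1 h2 h3), ih.trans (ht m h2 h1 h3).symm]

/-- the same plus piece and the same minus piece give the same closed piece -/
theorem same_piece (ab : Site × Site) {O P Q : Set Vx} (k : Site → Prop)
    (hk : ∀ m ∈ O, k (src m) ↔ k (tgt m)) (hP : ∀ m ∈ O, m ∈ vin (bx ab) → k (src m) → m ∈ P)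
    (hQ : ∀ m ∈ O, m ∈ vin (bx ab) → ¬ k (src m) → m ∈ Q) {f g : Site}
    (h1 : Relation.ReflTransGen (DS P (bx ab)) f g)
    (h2 : Relation.ReflTransGen (DS Q (bx ab)) f g) :
    Relation.ReflTransGen (DS O (bx ab)) f g := by
  set R : Site → Prop := Relation.ReflTransGen (DS O (bx ab)) f with hR
  have hO : ∀ m ∈ vin (bx ab), ¬ (R (fa m) ↔ R (fb m)) → m ∈ O := fun m hm h => by
    by_contra hn
    obtain ⟨a1, a2⟩ := mem_vin.1 hm
    exact h ⟨fun a => a.tail ⟨a1, a2, m, hn, sep_self m⟩,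
      fun a => a.tail ⟨a2, a1, m, hn, (sep_self m).symm⟩⟩
  obtain ⟨t, ht⟩ := NpEx_box ab (fun m => ¬ (R (fa m) ↔ R (fb m)) ∧ k (src m)) fun v hv => by
    have e : ∀ m, End m v → (¬ (R (fa m) ↔ R (fb m)) ∧ k (src m) ↔
        ¬ (R (fa m) ↔ R (fb m)) ∧ k v) := fun m hm => and_congr_right fun h => by
      rcases id hm with rfl | rfl
      exacts [Iff.rfl, hk m (hO m (hm.vin hv) h)]
    rw [e _ (end_iff.2 (.inl rfl)), e _ (end_iff.2 (.inr (.inl rfl))),
      e _ (end_iff.2 (.inr (.inr (.inl rfl)))), e _ (end_iff.2 (.inr (.inr (.inr rfl))))]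
    simp only [fa, fb, dir, Bool.not_true, Bool.not_false, Bool.false_eq_true, if_true, if_false]
    rw [sub_right_comm v (0, 1)]
    generalize k v = a
    generalize R v = b
    generalize R (v - (0, 1)) = c
    generalize R (v - (1, 0)) = d
    generalize R (v - (1, 0) - (0, 1)) = e
    by_cases a <;> by_cases b <;> by_cases c <;> by_cases d <;> by_cases e <;> simp [*]
  have a1 : t f ↔ t g := NpEx_iff (fun m m1 m2 m3 => by
    have hm := mem_vin.2 ⟨m1, m2⟩
    by_contra hn
    have := (ht m hm).2 hn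
    exact m3 (hP m (hO m hm this.1) hm this.2)) h1
  have a2 : (t f ↔ R f) ↔ (t g ↔ R g) := NpEx_iff (t := fun x => (t x ↔ R x)) (fun m m1 m2 m3 => by
    have hm := mem_vin.2 ⟨m1, m2⟩
    have b1 := ht m hm
    have b2 := fun a => m3 ∘ hQ m (hO m hm a) hm
    revert b1 b2
    generalize k (src m) = a
    generalize t (fa m) = b
    generalize t (fb m) = c
    generalize R (fa m) = d
    generalize R (fb m) = e
    by_cases a <;> by_cases b <;> by_cases c <;> by_cases d <;> by_cases e <;> simp [*]) h2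
  have a3 : R f := Relation.ReflTransGen.refl
  tauto

/-- the same statement for a configuration of nonzero weight -/
theorem same_ok {ab : Site × Site} {D : Finset Site} {h : Ht} {ω : Finset Vx} (ok : Ok D h ω)
    {P Q : Set Vx} (hP : o0 h ω ⊆ P) (hQ : o2 h ω ⊆ Q) {f g : Site}
    (h1 : Relation.ReflTransGen (DS P (bx ab)) f g)
    (h2 : Relation.ReflTransGen (DS Q (bx ab)) f g) :
    Relation.ReflTransGen (DS ω (bx ab)) f g :=
  same_piece ab (fun v => h (v, true) % 4 = 0) (fun m hm => by rw [ok.2.2.1 m hm])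
    (fun _ hm _ a => hP ⟨hm, a⟩) (fun m hm _ a => hQ ⟨hm, by
      have hj := ok.1.par.1 (src m)
      dsimp only at a ⊢
      omega⟩) h1 h2

theorem s_ex : S_ex := fun _ _ _ _ _ _ _ ok _ h1 h2 => same_ok ok subset_rfl subset_rfl h1 h2

end Vale.Agent.P145.Np
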