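import Vale.Agent.P145.NpTwo

/-! P145, block NP: expected number of crossing clusters. -/

namespace Vale.Agent.P145.Np

open Vale.Agent.P152 Vale.Agent.P145.Rm

variable {c : ℝ} {O O1 O2 : Set Vx} {z : Site} {n N : ℕ}

theorem cnt_le_mul (hn : n ≤ N) (h1 : O1 ⊆ O) (h2 : O2 ⊆ O) (h : ∀ f g,
    Cx O1 (sq z (N + 1)) f g → Cx O2 (sq z (N + 1)) f g → Cx O (sq z (N + 1)) f g) :
    cnt O z n N ≤ cnt O1 z n N * cnt O2 z n N := by
  classical
  obtain ⟨s, b1, b2, b3⟩ := exists_cnt O z n N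
  have k : ∀ O' ⊆ O, ∃ r : Site → Site, (∀ f ∈ s, Cx O' (sq z (N + 1)) f (r f)) ∧
      (s.image r).card ≤ cnt O' z n N := fun O' e => by
    let r : Site → Site := fun f => Classical.epsilon fun g => g ∈ s ∧ Cx O' (sq z (N + 1)) f g
    have a : ∀ f ∈ s, r f ∈ s ∧ Cx O' (sq z (N + 1)) f (r f) := fun f x =>
      Classical.epsilon_spec (p := fun g => g ∈ s ∧ Cx O' (sq z (N + 1)) f g) ⟨f, x, .refl⟩
    have a' : s.image r ⊆ s := Finset.image_subset_iff.2 fun f x => (a f x).1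
    refine ⟨r, fun f x => (a f x).2, le_cnt hn subset_rfl subset_rfl (a'.trans b1)
      ⟨fun f x g y w => ?_, fun f x => (b2.2 f (a' x)).imp fun g y => ⟨y.1, y.2.mono e subset_rfl⟩⟩⟩
    obtain ⟨f, x', rfl⟩ := Finset.mem_image.1 x
    obtain ⟨g, y', rfl⟩ := Finset.mem_image.1 y
    have w' : Cx O' (sq z (N + 1)) f g := .trans (a f x').2 (.trans w (a g y').2.symm)
    exact congrArg Classical.epsilon (funext fun u => propext (and_congr_right'
      ⟨fun v => .trans w'.symm v, fun v => .trans w' v⟩))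
  obtain ⟨r1, c1, d1⟩ := k O1 h1
  obtain ⟨r2, c2, d2⟩ := k O2 h2
  rw [← b3]
  refine le_trans ?_ (Nat.mul_le_mul d1 d2)
  rw [← Finset.card_product]
  refine Finset.card_le_card_of_injOn (fun f => (r1 f, r2 f)) (fun f x => Finset.mem_coe.2
    (Finset.mem_product.2 ⟨Finset.mem_image_of_mem _ x, Finset.mem_image_of_mem _ x⟩))
    fun f x g y e => b2.1 f x g y (h f g (.trans (c1 f x) ?_) (.trans (c2 f x) ?_))
  · rw [show r1 f = r1 g from congrArg Prod.fst e]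
    exact (c1 g y).symm
  · rw [show r2 f = r2 g from congrArg Prod.snd e]
    exact (c2 g y).symm

theorem sq_le_sum (a : ℕ) : (a : ℝ) ^ 2 ≤ ∑ k ∈ Finset.range a, (2 : ℝ) ^ (k + 1) := by
  induction a with
  | zero => simp
  | succ a ih =>
    have : (a : ℝ) + 1 ≤ 2 ^ a := by exact_mod_cast a.lt_two_pow_self
    rw [Finset.sum_range_succ, pow_succ 2]
    push_cast
    nlinarith

theorem cnt_sq (O : Set Vx) (z : Site) (n N : ℕ) : (cnt O z n N : ℝ) ^ 2 ≤
    ∑ k ∈ Finset.range (sq z n).card, (2 : ℝ) ^ (k + 1) *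
      pi (Gk O (sq z (N + 1)) (sq z N) (sq z n) (k + 1)) := by
  obtain ⟨s, b1, b2, b3⟩ := exists_cnt O z n N
  rw [← b3]
  refine (sq_le_sum _).trans (le_trans (Finset.sum_le_sum fun k hk => ?_)
    (Finset.sum_le_sum_of_subset_of_nonneg (Finset.range_mono (Finset.card_le_card b1))
      fun _ _ _ => mul_nonneg (by positivity) (pi_nonneg _)))
  rw [pi_pos (gk_of b2 b1 (Finset.mem_range.1 hk)), mul_one]

theorem exp_sq (hc : 1 ≤ c) {D : Finset Site} {θ : ℝ} (t0 : 0 ≤ θ) (t1 : θ ≤ 1 / 4)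
    {X : Ht → Finset Vx → Set Vx} (h : ∀ k, JH c D (fun h ω =>
      pi (Gk (X h ω) (sq z (N + 1)) (sq z N) (sq z n) k)) ≤ 4 * θ ^ k) :
    JH c D (fun h ω => (cnt (X h ω) z n N : ℝ) ^ 2) ≤ 16 * θ := by
  refine (JH_mono hc fun h ω _ => cnt_sq _ z n N).trans ?_
  rw [JH_sum]
  refine le_trans (Finset.sum_le_sum (g := fun k => 8 * θ * (1 / 2) ^ k) fun k _ => ?_) ?_
  · rw [JH_mul]
    refine (mul_le_mul_of_nonneg_left (h _) (by positivity)).trans ?_
    have := pow_le_pow_left₀ (by positivity) (show 2 * θ ≤ 1 / 2 by linarith) k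
    rw [mul_pow] at this
    rw [pow_succ, pow_succ]
    nlinarith
  · rw [← Finset.mul_sum]
    nlinarith [sum_geometric_two_le (sq z n).card]

/-- few crossing clusters -/
theorem np (hc : 1 ≤ c) (hS : SR c) (hx : S_ex) : NP c := by
  intro ε hε
  obtain ⟨μ, m1, a1, a2, a3⟩ := adv hc hS
  set θ := min (ε / 32) (1 / 4) with hθ
  have t0 : 0 < θ := lt_min (by linarith) (by norm_num)
  obtain ⟨ν, m2, b1, b2, b3⟩ := hS θ t0
  have p : ∀ i k : ℕ, k ≤ μ ^ i * k := fun i k =>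
    Nat.le_mul_of_pos_left k (Nat.pow_pos (by omega))
  have p1 : ∀ k : ℕ, k ≤ μ * k := fun k => Nat.le_mul_of_pos_left k (by omega)
  refine ⟨μ ^ 2 * (ν + 2), μ ^ 3 * (μ ^ 2 * (ν + 2) + 2), max m1 m2, (by omega : 1 ≤ ν + 2).trans (p 2 _),
    lt_of_lt_of_le (by omega) (p 3 _), le_max_of_le_left a2, fun n hn z D hD hs => ?_⟩
  have n1 := (le_max_left _ _).trans hn
  have n2 := (le_max_right _ _).trans hn
  set M := μ ^ 2 * (ν + 2) with hM
  have e1 : ν * n + 2 ≤ (ν + 2) * n := by nlinarith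
  have e2 : M * n + 2 ≤ (M + 2) * n := by nlinarith
  have e3 : M * n = μ ^ 2 * ((ν + 2) * n) := by rw [hM, mul_assoc]
  have e4 : n ≤ ν * n := Nat.le_mul_of_pos_left n b1
  have e5 := p 2 ((ν + 2) * n)
  have q : ∀ k : ℕ, μ ^ 2 * k ≤ μ ^ 3 * k := fun k => by
    rw [show μ ^ 3 * k = μ * (μ ^ 2 * k) by ring]
    exact p1 _
  rw [mul_assoc] at hs
  have k1 := tail1 hc (Finset.coe_subset.2 (sq_mono e4)) (b3 n n2 _ le_rfl z).1
  have k2 : ∀ k D, sq z (μ * ((M + 2) * n)) ⊆ D → Cc D → JH c D (fun h ω =>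
      pi (Gk (oj 2 h ω) (sq z (M * n + 1)) (sq z (M * n)) (sq z n) k)) ≤ 2 * θ ^ k :=
    fun k D s hD => tail2 hc hD ((sq_mono (by
      rw [show μ ^ 3 * ((ν + 2) * n) = μ * (μ ^ 2 * ((ν + 2) * n)) by ring]
      exact Nat.mul_le_mul_left _ (by omega))).trans s) (cc_sq _ _) (sq_mono (p 3 _))
      (sq_mono (q _)) (cc_sq _ _) (sq_mono (by omega)) e1 (by omega) (sq_mono (p1 _)) (sq_mono e4)
      (k1 k) (a3 _ (by omega) z).2
  have k3 : ∀ k, JH c D (fun h ω =>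
      pi (Gk (oj 0 h ω) (sq z (M * n + 1)) (sq z (M * n)) (sq z n) k)) ≤ 2 * (2 * θ ^ k) :=
    fun k => tail3 hc hD hs (cc_sq _ _) (sq_mono (p 3 _)) (sq_mono (q _)) (cc_sq _ _)
      (sq_mono (by omega)) (fun m hm => by
        have := sd_le_of_mem_sq (mem_vin.1 hm).1
        exact mem_inn_sq.2 (by change sd (src m) z ≤ _ at this; omega))
      (sq_mono (le_trans (by omega) (p1 _))) (by positivity) (k2 k) (a3 _ (by omega) z).2
  have s2 : sq z (μ * ((M + 2) * n)) ⊆ D := (sq_mono (by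
    rw [show μ ^ 3 * ((M + 2) * n) = μ ^ 2 * (μ * ((M + 2) * n)) by ring]
    exact p 2 _)).trans hs
  have f0 := exp_sq hc t0.le (min_le_right _ _) fun k => (k3 k).trans_eq (by ring)
  have f2 := exp_sq hc t0.le (min_le_right _ _) fun k => (k2 k D s2 hD).trans
    (by linarith [pow_pos t0 k])
  refine (JH_mono hc (G := fun h ω => (cnt (oj 0 h ω) z n (M * n) : ℝ) ^ 2 +
    (cnt (oj 2 h ω) z n (M * n) : ℝ) ^ 2) fun h ω k => ?_).trans ?_
  · have := cnt_le_mul (O := ω) (O1 := oj 0 h ω) (O2 := oj 2 h ω) (z := z)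
      (show n ≤ M * n by omega) (fun _ a => a.1) (fun _ a => a.1) fun f g =>
        hx D h ω z _ f g k ((sq_mono (le_trans (by omega) (p1 _))).trans s2)
    have b : (cnt ω z n (M * n) : ℝ) ≤ cnt (oj 0 h ω) z n (M * n) * cnt (oj 2 h ω) z n (M * n) := by
      exact_mod_cast this
    nlinarith [sq_nonneg ((cnt (oj 0 h ω) z n (M * n) : ℝ) - cnt (oj 2 h ω) z n (M * n)),
      sq_nonneg (cnt (oj 0 h ω) z n (M * n) : ℝ), sq_nonneg (cnt (oj 2 h ω) z n (M * n) : ℝ)]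
  · rw [JH_add]
    linarith [min_le_left (ε / 32) (1 / 4)]

end Vale.Agent.P145.Np
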