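import Vale.Agent.P145.RmDefs

/-! P145, block RM: four functions inequality with spins. -/

open Filter Topology

namespace Vale.Agent.P145.Rm

open Vale.Agent.P152

/-- sum over the open edges for fixed spins -/
noncomputable def gt (c : ℝ) (D T : Finset Site) (F : Set Site → Set Vx → ℝ) : ℝ :=
  ∑ P ∈ (ep D T).powerset, ∑ Q ∈ (em D T).powerset,
    gw c D T P Q * F T (P ∪ Q : Finset Vx)

theorem rep (c : ℝ) {D : Finset Site} (hD : Cc D) (F : Set Site → Set Vx → ℝ) :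
    jn c D (ev F) = ∑ T ∈ (inn D).powerset, gt c D T F := by
  classical
  have e := l_spin D hD fun T s =>
    ∑ ω ∈ (vin D).powerset, (∏ m ∈ vin D, GRep_w c T s ω m) * F T ω
  refine Eq.trans (Finset.sum_congr rfl fun h hh => Finset.sum_congr rfl fun ω _ => ?_)
    (e.trans (Finset.sum_congr rfl fun T _ => ?_))
  · have k := mem_hs.1 hh
    have e1 : tm h = (tau D h : Set Site) := Set.ext fun v => (GRep_tau k v).symm
    rw [Finset.prod_congr rfl fun m hm => GRep_ow c k ω hm, ev, e1]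
  · have e1 : ∀ s, (if Adm D T s then
        ∑ ω ∈ (vin D).powerset, (∏ m ∈ vin D, GRep_w c T s ω m) * F T ω else 0) =
        ∑ ω ∈ (vin D).powerset,
          (if Adm D T s then ∏ m ∈ vin D, GRep_w c T s ω m else 0) * F T ω := fun s => by
      split_ifs <;> simp
    have hs : ep D T ∪ em D T ⊆ vin D := fun m hm => (GRep_mem.1 hm).1
    simp only [e1]
    rw [Finset.sum_comm]
    simp only [← Finset.sum_mul]
    rw [Finset.sum_congr rfl fun ω hω => by rw [GRep_sum c D T (Finset.mem_powerset.1 hω)]]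
    simp only [ite_mul, zero_mul]
    rw [← Finset.sum_filter, show (vin D).powerset.filter (· ⊆ ep D T ∪ em D T) =
      (ep D T ∪ em D T).powerset from Finset.ext fun u => by
        simp only [Finset.mem_filter, Finset.mem_powerset]
        exact ⟨fun x => x.2, fun x => ⟨x.trans hs, x⟩⟩, GRep_split (GRep_disj D T), gt]
    refine Finset.sum_congr rfl fun P hP => Finset.sum_congr rfl fun Q hQ => ?_
    have hp : ∀ m ∈ P, src m ∉ T := fun m hm =>
      (Finset.mem_filter.1 (Finset.mem_powerset.1 hP hm)).2.1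
    have hq : ∀ m ∈ Q, src m ∈ T := fun m hm =>
      (Finset.mem_filter.1 (Finset.mem_powerset.1 hQ hm)).2.1
    have a3 : (ep D T ∪ em D T) \ (P ∪ Q) = ep D T \ P ∪ em D T \ Q := Finset.ext fun m => by
      have := hp m
      have := hq m
      simp only [ep, em, Finset.mem_sdiff, Finset.mem_union, Finset.mem_filter]
      tauto
    simp only [a3, gw]
    rw [Finset.card_union_of_disjoint
      ((GRep_disj D T).mono Finset.sdiff_subset Finset.sdiff_subset)]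

/-- the lattice condition -/
def Lat (D : Finset Site) (f1 f2 f3 f4 : Set Site → Set Vx → ℝ) : Prop :=
  ∀ (T T' : Finset Site) (P Q P' Q' : Finset Vx), T ⊆ inn D → T' ⊆ inn D → P ⊆ ep D T →
    Q ⊆ em D T → P' ⊆ ep D T' → Q' ⊆ em D T' →
    f1 T (P ∪ Q : Finset Vx) * f2 T' (P' ∪ Q' : Finset Vx) ≤
      f3 (T ∪ T' : Finset Site) (P ∩ P' ∪ (Q ∪ Q' ∪ GFour_B D T T') : Finset Vx) *
        f4 (T ∩ T' : Finset Site) (P ∪ P' ∪ GFour_B D T T' ∪ Q ∩ Q' : Finset Vx)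

theorem pair {c : ℝ} (hc : 1 ≤ c) {D T T' : Finset Site} (hT : T ⊆ inn D) (hT' : T' ⊆ inn D)
    {f1 f2 f3 f4 : Set Site → Set Vx → ℝ}
    (h0 : ∀ P Q, 0 ≤ f1 P Q ∧ 0 ≤ f2 P Q ∧ 0 ≤ f3 P Q ∧ 0 ≤ f4 P Q) (h : Lat D f1 f2 f3 f4) :
    gt c D T f1 * gt c D T' f2 ≤ gt c D (T ∪ T') f3 * gt c D (T ∩ T') f4 := by
  obtain ⟨e1, e2, e3, e4, d1, d2⟩ := GFour_sets D T T'
  set B := GFour_B D T T' with hB
  have n3 : ∀ P Q : Finset Vx,
      0 ≤ gw c D (T ∪ T') P Q * f3 (T ∪ T' : Finset Site) (P ∪ Q : Finset Vx) :=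
    fun P Q => mul_nonneg (GFour_gw hc _ _ _ _) (h0 _ _).2.2.1
  have n4 : ∀ P Q : Finset Vx,
      0 ≤ gw c D (T ∩ T') P Q * f4 (T ∩ T' : Finset Site) (P ∪ Q : Finset Vx) :=
    fun P Q => mul_nonneg (GFour_gw hc _ _ _ _) (h0 _ _).2.2.2
  refine (GFour_two _ _ (ep D (T ∪ T')).powerset (ep D (T ∩ T') \ B).powerset _ _
    (em D (T ∪ T') \ B).powerset (em D (T ∩ T')).powerset _ _
    (fun P Q => gw c D (T ∪ T') P (Q ∪ B) * f3 (T ∪ T' : Finset Site) (P ∪ (Q ∪ B) : Finset Vx))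
    (fun P Q => gw c D (T ∩ T') (P ∪ B) Q * f4 (T ∩ T' : Finset Site) (P ∪ B ∪ Q : Finset Vx))
    (fun P Q => ⟨mul_nonneg (GFour_gw hc _ _ _ _) (h0 _ _).1,
      mul_nonneg (GFour_gw hc _ _ _ _) (h0 _ _).2.1, n3 _ _, n4 _ _⟩)
    fun P hP Q hQ P' hP' Q' hQ' => ?_).trans (mul_le_mul
      (Finset.sum_le_sum fun P _ => GFour_inj (e2 ▸ Finset.subset_union_right) _ (n3 P))
      (GFour_inj (e3 ▸ Finset.subset_union_right) (fun P => ∑ Q ∈ (em D (T ∩ T')).powerset,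
        gw c D (T ∩ T') P Q * f4 (T ∩ T' : Finset Site) (P ∪ Q : Finset Vx))
        fun P => Finset.sum_nonneg fun Q _ => n4 P Q)
      (Finset.sum_nonneg fun P _ => Finset.sum_nonneg fun Q _ => n4 _ Q)
      (Finset.sum_nonneg fun P _ => Finset.sum_nonneg fun Q _ => n3 P Q))
  rw [Finset.mem_powerset] at hP hQ hP' hQ'
  have u1 := Finset.union_subset_union hP hP'
  have u2 := Finset.union_subset_union hQ hQ'
  simp only [Finset.mem_powerset]
  rw [e1, e2, e3, e4, Finset.union_sdiff_cancel_right d1, Finset.union_sdiff_cancel_right d2]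
  refine ⟨⟨⟨Finset.inter_subset_inter hP hP', u2⟩, u1, Finset.inter_subset_inter hQ hQ'⟩, ?_⟩
  have k := h T T' P Q P' Q' hT hT' hP hQ hP' hQ'
  rw [mul_mul_mul_comm, mul_mul_mul_comm (gw c D (T ∪ T') _ _)]
  exact mul_le_mul (GFour_w hc hT hT' hP hQ hP' hQ') k (mul_nonneg (h0 _ _).1 (h0 _ _).2.1)
    (mul_nonneg (GFour_gw hc _ _ _ _) (GFour_gw hc _ _ _ _))

theorem four {c : ℝ} (hc : 1 ≤ c) {D : Finset Site} (hD : Cc D)
    {f1 f2 f3 f4 : Set Site → Set Vx → ℝ}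
    (h0 : ∀ P Q, 0 ≤ f1 P Q ∧ 0 ≤ f2 P Q ∧ 0 ≤ f3 P Q ∧ 0 ≤ f4 P Q) (h : Lat D f1 f2 f3 f4) :
    JH c D (ev f1) * JH c D (ev f2) ≤ JH c D (ev f3) * JH c D (ev f4) := by
  have n : ∀ (f : Set Site → Set Vx → ℝ), (∀ P Q, 0 ≤ f P Q) → ∀ T, 0 ≤ gt c D T f :=
    fun f hf T => Finset.sum_nonneg fun P _ => Finset.sum_nonneg fun Q _ =>
      mul_nonneg (GFour_gw hc _ _ _ _) (hf _ _)
  unfold JH
  rw [rep c hD, rep c hD, rep c hD, rep c hD, div_mul_div_comm, div_mul_div_comm]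
  refine div_le_div_of_nonneg_right ?_ (mul_self_nonneg _)
  rw [mul_comm (∑ T ∈ (inn D).powerset, gt c D T f3)]
  refine GFour_ff _ _ _ _ _ _ _ _ (fun T => ⟨n _ (fun P Q => (h0 P Q).1) T,
    n _ (fun P Q => (h0 P Q).2.1) T, n _ (fun P Q => (h0 P Q).2.2.2) T,
    n _ (fun P Q => (h0 P Q).2.2.1) T⟩) fun T hT T' hT' => ?_
  rw [Finset.mem_powerset] at hT hT'
  exact ⟨⟨Finset.mem_powerset.2 (Finset.inter_subset_left.trans hT),
    Finset.mem_powerset.2 (Finset.union_subset hT hT')⟩,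
    (pair hc hT hT' h0 h).trans (le_of_eq (mul_comm _ _))⟩

end Vale.Agent.P145.Rm
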