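import Vale.Agent.P145.RmAdv
import Vale.Agent.P145.RmFour

/-! P145, block RM: reset, ratio mixing, Peierls estimate. -/

open Filter Topology

namespace Vale.Agent.P145.Rm

open Vale.Agent.P152

variable {c : ℝ} {D A A0 B C : Finset Site}

theorem exists_end {v : Site} (hv : v ∉ inn C) : ∃ m, End m v ∧ m ∉ vin C := by
  by_contra n
  push Not at n
  have a := mem_vin.1 (n (v, true) (end_src _))
  have b := mem_vin.1 (n (v - (1, 0), true) (Or.inr (by simp [tgt, dir])))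
  refine hv (mem_inn.2 ⟨a.1, b.1, by simpa [fb, dir] using a.2, ?_⟩)
  have e := b.2
  simp only [fb, dir, Bool.not_true, Bool.false_eq_true, if_false, sub_sub, Prod.mk_add_mk] at e
  simpa using e

/-- all edges of `D` in `S` are open with spin plus -/
def Mx (D : Finset Site) (S : Set Vx) (T : Set Site) (O : Set Vx) : Prop :=
  ∀ m ∈ vin D, m ∈ S → m ∈ O ∧ src m ∉ T

theorem reset_lat {G : Set Site → Set Vx → ℝ} (h0 : ∀ T O, 0 ≤ G T O)
    (hG : Dep (inn A0 ∪ (inn C : Set Site)ᶜ) (vin A0 ∪ (vin C : Set Vx)ᶜ) G) :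
    Lat D G (fun T O => pi (Mx D (vin A0 ∪ (vin C : Set Vx)ᶜ) T O) *
        pi (Enc {m | m ∈ O ∧ src m ∈ T} A B))
      (fun T O => G T O * pi (Enc {m | m ∈ O ∧ src m ∈ T} A B))
      fun T O => pi (Mx D (vin A0 ∪ (vin C : Set Vx)ᶜ) T O) := by
  intro T T' P Q P' Q' hT hT' hP hQ hP' hQ'
  set S : Set Vx := vin A0 ∪ (vin C : Set Vx)ᶜ with hS
  beta_reduce
  rw [← pi_and]
  by_cases e : Mx D S T' (P' ∪ Q' : Finset Vx) ∧
    Enc {m | m ∈ ((P' ∪ Q' : Finset Vx) : Set Vx) ∧ src m ∈ (T' : Set Site)} A B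
  swap
  · rw [pi_neg e, mul_zero]
    exact mul_nonneg (mul_nonneg (h0 _ _) (pi_nonneg _)) (pi_nonneg _)
  have a : ∀ m ∈ vin D, m ∈ S → m ∈ P' ∧ src m ∉ T' ∧ tgt m ∉ T' := fun m hm hs => by
    obtain ⟨b1, b2⟩ := e.1 m hm hs
    have b3 : m ∈ P' := (Finset.mem_union.1 b1).resolve_right fun x =>
      b2 (Finset.mem_filter.1 (hQ' x)).2.1
    exact ⟨b3, (Finset.mem_filter.1 (hP' b3)).2⟩
  rw [pi_pos e, pi_pos (p := Mx _ _ _ _) fun m hm hs =>
    ⟨by simp [(a m hm hs).1], by simp [(a m hm hs).2.1]⟩,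
    pi_pos (e.2.mono (fun m hm => ?_) subset_rfl subset_rfl), mul_one, mul_one, mul_one]
  · refine le_of_eq (hG _ _ _ _ (fun v hv => ?_) fun m hm => ?_)
    · rw [Finset.coe_union]
      refine (or_iff_left fun x => ?_).symm
      obtain ⟨m, b1, b2⟩ : ∃ m, End m v ∧ m ∈ S := by
        rcases hv with hv | hv
        · exact ⟨(v, true), end_src _, Or.inl (vin_of_src hv)⟩
        · exact (exists_end hv).imp fun m k => ⟨k.1, Or.inr k.2⟩
      have b3 := a m (b1.vin (hT' x)) b2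
      rcases b1 with rfl | rfl
      exacts [b3.2.1 x, b3.2.2 x]
    · have b1 := @hP m
      have b2 := @hQ m
      have b3 := @hP' m
      have b4 := @hQ' m
      have b5 := fun x => a m x hm
      simp only [ep, em, GFour_B, Finset.mem_coe, Finset.mem_union, Finset.mem_inter,
        Finset.mem_filter] at b1 b2 b3 b4 ⊢
      tauto
  · have b3 := @hP' m
    simp only [ep, Finset.mem_coe, Finset.mem_union, Finset.mem_inter, Finset.mem_filter,
      Set.mem_ofPred_eq] at hm b3 ⊢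
    tauto

/-- minus circuits given arbitrary even data inside and outside -/
theorem reset (hc : 1 ≤ c) (hD : Cc D) (hC : Cc C) (h1 : C ⊆ D) (h2 : A0 ⊆ C) (h3 : B ⊆ C)
    {G : Set Site → Set Vx → ℝ} (h0 : ∀ T O, 0 ≤ G T O)
    (hG : Dep (inn A0 ∪ (inn C : Set Site)ᶜ) (vin A0 ∪ (vin C : Set Vx)ᶜ) G) {q : ℝ}
    (hq : q * JH c C (fun h ω => pi ((vin A0 : Set Vx) ⊆ oj 0 h ω)) ≤
      JH c C fun h ω => pi ((vin A0 : Set Vx) ⊆ oj 0 h ω) * pi (Enc (oj 2 h ω) A B)) :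
    q * JH c D (ev G) ≤ JH c D fun h ω => ev G h ω * pi (Enc (oj 2 h ω) A B) := by
  have k := four hc hD (fun T O => ⟨h0 T O, mul_nonneg (pi_nonneg _) (pi_nonneg _),
    mul_nonneg (h0 T O) (pi_nonneg _), pi_nonneg _⟩) (reset_lat (D := D) (A := A) (B := B) h0 hG)
  have e : ∀ h ω, Ok D h ω → pi (Mx D (vin A0 ∪ (vin C : Set Vx)ᶜ) (tm h) ω) =
      pi ((vin A0 : Set Vx) ⊆ oj 0 h ω) * pi ((vin C : Set Vx)ᶜ ⊆ ox D h ω) := fun h ω k => by
    have b : ∀ m, m ∈ (ω : Set Vx) ∧ src m ∉ tm h ↔ m ∈ oj 0 h ω := fun m => by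
      have := k.1.par.1 (src m)
      simp only [tm, oj, op, Set.mem_ofPred_eq, Finset.mem_coe]
      exact and_congr_right fun _ => by omega
    rw [← pi_and]
    refine pi_congr ⟨fun x => ⟨fun m hm => (b m).1 (x m (vin_mono (h2.trans h1) hm) (Or.inl hm)),
      fun m hm => ?_⟩, fun x m hm hs => (b m).2 (hs.elim (fun y => x.1 y)
        fun y => (x.2 y).resolve_left fun a => a hm)⟩
    by_cases y : m ∈ vin D
    exacts [Or.inr ((b m).1 (x m y (Or.inr hm))), Or.inl y]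
  have a : ∀ Φ : Ht → Finset Vx → ℝ, (∀ ho ωo hi ωi, Out D C 0 ho ωo → Ok C hi ωi →
      Φ (glue C ho hi) (ωo ∪ ωi) = Φ hi ωi) →
      JH c D (fun h ω => Φ h ω * pi ((vin C : Set Vx)ᶜ ⊆ ox D h ω)) =
        JH c C Φ * JH c D fun h ω => pi ((vin C : Set Vx)ᶜ ⊆ ox D h ω) := fun Φ hΦ =>
    core hc (j := 0) h1 hC
      (W' := fun h ω => pi ((vin C : Set Vx)ᶜ ⊆ ox D (glue C h (flat C)) (ω ∪ vin C)))
      (fun h ω k n => by
        have hM : (vin C : Set Vx)ᶜ ⊆ ox D h ω := by_contra fun a => n (pi_neg a)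
        refine ⟨fun m h1 h2 => ((hM (Finset.mem_sdiff.1 h2).2).resolve_left fun h3 => h3 h1).1,
          fun f h1 v h2 h3 => ?_⟩
        obtain ⟨m, h4, h5⟩ := exists_bd h1 h2 h3
        exact k.ox (hM (Finset.mem_sdiff.1 h4).2) h5)
      fun ho ωo hi ωi k k' => ⟨pi_congr (forall₂_congr fun m hm =>
        or_congr_right (GDom_out _ k k' hm)), hΦ ho ωo hi ωi k k'⟩
  have a1 := a (fun h ω => pi ((vin A0 : Set Vx) ⊆ oj 0 h ω)) fun ho ωo hi ωi k k' =>
    pi_congr (sub_glue (vin_mono h2) k k')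
  have a2 := a (fun h ω => pi ((vin A0 : Set Vx) ⊆ oj 0 h ω) * pi (Enc (oj 2 h ω) A B))
    fun ho ωo hi ωi k k' => by
      rw [pi_congr (sub_glue (vin_mono h2) k k'), pi_congr (enc_glue h3 k k')]
  have p : 0 < JH c D fun h ω => pi ((vin C : Set Vx)ᶜ ⊆ ox D h ω) :=
    (wired_pos hc (subset_refl (vin D))).trans_le (JH_mono hc fun h ω _ => pi_mono fun x m _ => by
      by_cases y : m ∈ vin D
      exacts [Or.inr (x y), Or.inl y])
  have p' := wired_pos hc (vin_mono h2)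
  have e1 : JH c D (ev fun T O => pi (Mx D (vin A0 ∪ (vin C : Set Vx)ᶜ) T O)) = _ :=
    (JH_congr e).trans a1
  have e2 : JH c D (ev fun T O => pi (Mx D (vin A0 ∪ (vin C : Set Vx)ᶜ) T O) *
      pi (Enc {m | m ∈ O ∧ src m ∈ T} A B)) = _ :=
    (JH_congr fun h ω k => by
      rw [ev, e h ω k]
      exact mul_right_comm _ _ _).trans a2
  rw [e1, e2] at k
  refine le_of_mul_le_mul_right (le_trans ?_ k) (mul_pos p' p)
  rw [mul_comm q, mul_assoc, ← mul_assoc q]
  exact mul_le_mul_of_nonneg_left (mul_le_mul_of_nonneg_right hq p.le)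
    (JH_nonneg hc fun _ _ _ => h0 _ _)

theorem Dep.mono {V V' : Set Site} {E E' : Set Vx} {F : Set Site → Set Vx → ℝ} (h : Dep V E F)
    (h1 : V ⊆ V') (h2 : E ⊆ E') : Dep V' E' F :=
  fun _ _ _ _ a b => h _ _ _ _ (fun v hv => a v (h1 hv)) fun m hm => b m (h2 hm)

theorem inn_sub (h : A ⊆ B) : (inn A : Set Site) ⊆ inn B := fun _ a =>
  mem_inn_cor.2 fun f hf => h (mem_inn_cor.1 a f hf)

/-- ratio mixing -/
theorem rm (hc : 1 ≤ c) (hA : ADV c) : ∃ R n1 : ℕ, 1 ≤ R ∧ ∀ n ≥ n1, ∀ (z : Site)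
    (D D2 : Finset Site) (F G : Set Site → Set Vx → ℝ), Cc D → Cc D2 → sq z (R * n) ⊆ D →
    sq z (R * n) ⊆ D2 → (∀ T O, 0 ≤ F T O) → (∀ T O, 0 ≤ G T O) →
    Dep (inn (sq z n)) (vin (sq z n)) F → Sy F →
    Dep (inn (sq z (R * n)) : Set Site)ᶜ (vin (sq z (R * n)) : Set Vx)ᶜ G →
    JH c D (fun h ω => ev F h ω * ev G h ω) ≤ 4 * JH c D2 (ev F) * JH c D (ev G) := by
  obtain ⟨μ, n1, h1, h2, h3⟩ := hA
  have l : ∀ i j k : ℕ, i ≤ j → μ ^ i * k ≤ μ ^ j * k := fun i j k e =>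
    Nat.mul_le_mul_right _ (Nat.pow_le_pow_right (by omega) e)
  refine ⟨μ ^ 5, n1, Nat.one_le_pow _ _ (by omega), fun n hn z D D2 F G hD hD2 s1 s2 f0 g0 hF hs hG => ?_⟩
  have s : ∀ i j : ℕ, i ≤ j → sq z (μ ^ i * n) ⊆ sq z (μ ^ j * n) := fun i j e => sq_mono (l i j n e)
  have s0 : ∀ j : ℕ, sq z n ⊆ sq z (μ ^ j * n) := fun j => by simpa using s 0 j j.zero_le
  have k1 := (h3 n hn z).2
  have k2 := (h3 (μ ^ 2 * n) (hn.trans (by simpa using l 0 2 n (by omega))) z).2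
  rw [show μ ^ 3 * (μ ^ 2 * n) = μ ^ 5 * n by ring, show μ ^ 2 * (μ ^ 2 * n) = μ ^ 4 * n by ring,
    show μ * (μ ^ 2 * n) = μ ^ 3 * n by ring] at k2
  have k3 := reset hc hD (cc_sq z _) s1 (s 2 5 (by omega)) (s 4 5 (by omega))
    (G := fun T O => F T O * G T O) (fun T O => mul_nonneg (f0 T O) (g0 T O))
    (fun T T' O O' a b => by
      beta_reduce
      rw [hF.mono ((inn_sub (s0 2)).trans Set.subset_union_left)
        ((Finset.coe_subset.2 (vin_mono (s0 2))).trans Set.subset_union_left) _ _ _ _ a b,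
        hG.mono Set.subset_union_right Set.subset_union_right _ _ _ _ a b]) k2
  have k4 := out_le (j := 2) (A := sq z (μ ^ 3 * n)) (W := ev G) (Φ := ev F) (Ψ := ev F)
    (K := 2 * JH c D2 (ev F)) hc ((s 4 5 (by omega)).trans s1) (cc_sq z _)
    (mul_nonneg zero_le_two (JH_nonneg hc fun _ _ _ => f0 _ _)) (fun _ _ => f0 _ _)
    (fun h h' ω ω' a b => hG _ _ _ _ (fun v hv => by
      simp only [tm, Set.mem_ofPred_eq, a v fun x => hv (inn_sub (s 4 5 (by omega)) x)])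
      fun m hm => b m fun x => hm (vin_mono (s 4 5 (by omega)) x)) (fun _ _ => g0 _ _)
    (fun D' ho ωo hi ωi a k k' => (ev_glue hF hs ((s0 3).trans a) (Or.inr rfl) k k').le)
    fun D' a b hD' => by
      have b2 := b.trans ((s 4 5 (by omega)).trans s2)
      have a2 := (s 2 3 (by omega)).trans a
      have s1' : sq z n ⊆ sq z (μ * n) := by simpa using s0 1
      have m1 := reset hc hD' (cc_sq z _) a (s0 3) (s 2 3 (by omega)) f0
        (hF.mono Set.subset_union_left Set.subset_union_left) k1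
      have m2 := le_dec (j := 2) (W := fun _ _ => 1) hc (Or.inr rfl) a2 s1' hF hs f0
        (fun _ _ _ _ _ _ => rfl) fun _ _ => zero_le_one
      have m3 := dec_le (j := 2) (W := fun _ _ => 1) hc (Or.inr rfl) (a2.trans b2) s1' hF hs f0
        (fun _ _ _ _ _ _ => rfl) fun _ _ => zero_le_one
      simp only [mul_one] at m2 m3
      have m4 := (m1.trans m2).trans (le_trans (Finset.sum_le_sum fun E _ =>
        mul_le_mul_of_nonneg_left (dom2 hc hD2 hD' b2 (p := fun Q => (bd E : Set Vx) ⊆ Q)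
          fun _ _ x y => y.trans x) (ph_nonneg hc f0 _ _)) m3)
      change 1 / 2 * JH c D' (ev F) ≤ JH c D2 (ev F) at m4
      linarith
  change 1 / 2 * JH c D (fun h ω => ev F h ω * ev G h ω) ≤
    JH c D fun h ω => ev F h ω * ev G h ω * _ at k3
  linarith

/-- a configuration with the given even data in `U` -/
def Mt (U : Finset Site) (T : Set Site) (O : Set Vx) (x : Finset Site × Ht × Finset Vx) : Prop :=
  Ok x.1 x.2.1 x.2.2 ∧ U ⊆ x.1 ∧ (∀ m ∈ vin U, m ∈ O ↔ m ∈ x.2.2) ∧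
    ((∀ v ∈ inn U, v ∈ T ↔ v ∈ tm x.2.1) ∨ ∀ v ∈ inn U, v ∉ T ↔ v ∈ tm x.2.1)

open Classical in
/-- value at a chosen configuration -/
noncomputable def pick (Φ : Ht → Finset Vx → ℝ) (p : Finset Site × Ht × Finset Vx → Prop) : ℝ :=
  if e : ∃ x, p x then Φ e.choose.2.1 e.choose.2.2 else 0

theorem of_el {U : Finset Site} {Φ : Ht → Finset Vx → ℝ} (h0 : ∀ h ω, 0 ≤ Φ h ω) (hΦ : EL U Φ) :
    ∃ F : Set Site → Set Vx → ℝ, (∀ T O, 0 ≤ F T O) ∧ Dep (inn U) (vin U) F ∧ Sy F ∧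
      ∀ D h ω, U ⊆ D → Ok D h ω → Φ h ω = ev F h ω := by
  refine ⟨fun T O => pick Φ (Mt U T O), fun T O => ?_, fun T T' O O' a b => congrArg (pick Φ)
    (funext fun x => propext (and_congr_right' (and_congr_right' (and_congr
      (forall₂_congr fun m hm => iff_congr (b m hm) Iff.rfl) (or_congr
      (forall₂_congr fun v hv => iff_congr (a v hv) Iff.rfl)
      (forall₂_congr fun v hv => iff_congr (not_congr (a v hv)) Iff.rfl)))))),
    fun T O => congrArg (pick Φ) (funext fun x => propext ?_), fun D h ω s k => ?_⟩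
  · simp only [pick]
    split_ifs
    exacts [h0 _ _, le_rfl]
  · simp only [Mt, Set.mem_compl_iff, not_not, or_comm]
  · have e : ∃ x, Mt U (tm h) ω x := ⟨(D, h, ω), k, s, fun _ _ => Iff.rfl, Or.inl fun _ _ => Iff.rfl⟩
    have sp := e.choose_spec
    rw [ev, pick, dif_pos e]
    generalize e.choose = x at sp ⊢
    obtain ⟨D', h', ω'⟩ := x
    obtain ⟨a1, a2, a3, a4⟩ := sp
    dsimp only at a1 a2 a3 a4 ⊢
    rcases a4 with a4 | a4
    · refine hΦ _ _ _ _ _ _ 0 k a1 s a2 (fun v hv => ?_) a3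
      have b1 := a4 v hv
      have b2 := k.1.par.1 v
      have b3 := a1.1.par.1 v
      simp only [tm, Set.mem_ofPred_eq] at b1
      omega
    · refine hΦ _ _ _ _ _ _ 2 k a1 s a2 (fun v hv => ?_) a3
      have b1 := a4 v hv
      have b2 := k.1.par.1 v
      have b3 := a1.1.par.1 v
      simp only [tm, Set.mem_ofPred_eq] at b1
      omega

theorem sq_far {z w f : Site} {n N : ℕ} (h : n ≤ N) (hd : (2 * N : ℤ) ≤ sd z w) (h1 : f ∈ sq w n) :
    f ∉ sq z N := fun h2 => by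
  rw [mem_sq] at h1 h2
  simp only [sd, le_max_iff, le_abs] at hd
  omega

/-- Peierls estimate -/
theorem pei (hc : 1 ≤ c) (hS : SR c) : PEI c := by
  classical
  obtain ⟨R, n1, h1, h2⟩ := rm hc (adv hc hS)
  refine ⟨4, by norm_num, R, n1, h1, fun n hn ι D J z Φ η hD h3 h4 => ?_⟩
  have l : n ≤ R * n := Nat.le_mul_of_pos_left n h1
  have e : ∀ i, ∃ F : Set Site → Set Vx → ℝ, (∀ T O, 0 ≤ F T O) ∧
      Dep (inn (sq (z i) n)) (vin (sq (z i) n)) F ∧ Sy F ∧ (i ∈ J →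
      ∀ D h ω, sq (z i) n ⊆ D → Ok D h ω → Φ i h ω = ev F h ω) := fun i => by
    by_cases hi : i ∈ J
    · exact (of_el (h3 i hi).2.1 (h3 i hi).2.2.1).imp fun F k => ⟨k.1, k.2.1, k.2.2.1, fun _ => k.2.2.2⟩
    · exact ⟨fun _ _ => 0, fun _ _ => le_rfl, fun _ _ _ _ _ _ => rfl, fun _ _ => rfl,
        fun a => absurd a hi⟩
  choose F f0 f1 f2 f3 using e
  rw [JH_congr (G := ev fun T O => ∏ i ∈ J, F i T O) fun h ω k => Finset.prod_congr rfl
    fun i hi => f3 i hi D h ω ((sq_mono l).trans (h3 i hi).1) k]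
  have key : ∀ I ⊆ J, JH c D (ev fun T O => ∏ i ∈ I, F i T O) ≤ (4 * η) ^ I.card := by
    intro I
    induction I using Finset.induction_on with
    | empty => exact fun _ => (JH_const (by linarith) 1).le
    | insert i I hi ih =>
      intro s
      have hJ := s (Finset.mem_insert_self i I)
      have sI := (Finset.subset_insert i I).trans s
      obtain ⟨a1, -, -, D2, a2, a3, a4⟩ := h3 i hJ
      rw [JH_congr fun h ω k => f3 i hJ D2 h ω ((sq_mono l).trans a3) k] at a4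
      have far : ∀ k ∈ I, ∀ f ∈ sq (z k) n, f ∉ sq (z i) (R * n) := fun k hk f hf =>
        sq_far l (h4 i hJ k (sI hk) fun x => hi (x ▸ hk)) hf
      have g0 : ∀ T O, 0 ≤ ∏ i ∈ I, F i T O := fun T O => Finset.prod_nonneg fun i _ => f0 i T O
      have k := h2 n hn (z i) D D2 (F i) (fun T O => ∏ i ∈ I, F i T O) hD a2 a1 a3 (f0 i) g0 (f1 i)
        (f2 i) fun T T' O O' a b => Finset.prod_congr rfl fun k hk => f1 k _ _ _ _
          (fun v hv => a v fun x => far k hk v (inn_subset hv) (inn_subset x))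
          fun m hm => b m fun x => far k hk _ (mem_vin.1 hm).1 (mem_vin.1 x).1
      have p := JH_nonneg (D := D2) (F := ev (F i)) hc fun _ _ _ => f0 i _ _
      rw [Finset.card_insert_of_notMem hi, pow_succ']
      refine le_trans (le_of_eq (JH_congr fun h ω _ => Finset.prod_insert hi)) (k.trans ?_)
      exact mul_le_mul (by linarith) (ih sI) (JH_nonneg hc fun _ _ _ => g0 _ _) (by linarith)
  exact key J subset_rfl

end Vale.Agent.P145.Rm
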