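import Vale.Agent.P145.FinalU
import Vale.Agent.P152.YMain

/-! P145: the value of the constant. -/

namespace Vale.Agent.P145

open Vale.Agent.P152 Real

theorem conv_val {c : ℝ} (h1 : 1 < c) (h2 : c ≤ 2) :
    AT.Conv c⁻¹ ((1 / (π * √(8 / π * arcsin (c / 2)))) ^ 2 * (2 * π)) := by
  obtain ⟨-, -, K, h0, hK, -⟩ := main_all h1 h2
  rw [val_sq (one_pos.trans h1), ← le_antisymm (u_main h1 h2 h0 hK) (lw_main h1 h2 hK)]
  exact conv_fin h1 h2 hK

end Vale.Agent.P145
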