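import Vale.Agent.P145.GRep

/-! P145: four functions inequality for plus and minus edges. -/

open Filter Topology

namespace Vale.Agent.P145

open Vale.Agent.P152

theorem GFour_ff {α : Type*} [DistribLattice α] (S S' S3 S4 : Finset α) (f1 f2 f3 f4 : α → ℝ)
    (h0 : ∀ a, 0 ≤ f1 a ∧ 0 ≤ f2 a ∧ 0 ≤ f3 a ∧ 0 ≤ f4 a)
    (h : ∀ a ∈ S, ∀ b ∈ S', (a ⊓ b ∈ S3 ∧ a ⊔ b ∈ S4) ∧ f1 a * f2 b ≤ f3 (a ⊓ b) * f4 (a ⊔ b)) :
    (∑ a ∈ S, f1 a) * ∑ a ∈ S', f2 a ≤ (∑ a ∈ S3, f3 a) * ∑ a ∈ S4, f4 a := by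
  classical
  have k := four_functions_theorem (fun a => if a ∈ S then f1 a else 0)
    (fun a => if a ∈ S' then f2 a else 0) f3 f4
    (fun a => by dsimp only; split_ifs; exacts [(h0 a).1, le_rfl])
    (fun a => by dsimp only; split_ifs; exacts [(h0 a).2.1, le_rfl])
    (fun a => (h0 a).2.2.1) (fun a => (h0 a).2.2.2) (fun a b => by
      have := mul_nonneg (h0 (a ⊓ b)).2.2.1 (h0 (a ⊔ b)).2.2.2
      split_ifs with h1 h2
      · exact (h a h1 b h2).2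
      · rwa [mul_zero]
      · rwa [zero_mul]
      · rwa [zero_mul]) S S'
  rw [Finset.sum_ite_mem, Finset.sum_ite_mem, Finset.inter_self, Finset.inter_self] at k
  refine k.trans (mul_le_mul (Finset.sum_le_sum_of_subset_of_nonneg (fun x hx => ?_)
    fun a _ _ => (h0 a).2.2.1) (Finset.sum_le_sum_of_subset_of_nonneg (fun x hx => ?_)
    fun a _ _ => (h0 a).2.2.2) (Finset.sum_nonneg fun a _ => (h0 a).2.2.2)
    (Finset.sum_nonneg fun a _ => (h0 a).2.2.1))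
  · obtain ⟨a, ha, b, hb, rfl⟩ := Finset.mem_infs.1 hx
    exact (h a ha b hb).1.1
  · obtain ⟨a, ha, b, hb, rfl⟩ := Finset.mem_sups.1 hx
    exact (h a ha b hb).1.2

theorem GFour_two (A A' A3 A4 C C' C3 C4 : Finset (Finset Vx))
    (f1 f2 f3 f4 : Finset Vx → Finset Vx → ℝ)
    (h0 : ∀ P Q, 0 ≤ f1 P Q ∧ 0 ≤ f2 P Q ∧ 0 ≤ f3 P Q ∧ 0 ≤ f4 P Q)
    (h : ∀ P ∈ A, ∀ Q ∈ C, ∀ P' ∈ A', ∀ Q' ∈ C',
      ((P ∩ P' ∈ A3 ∧ Q ∪ Q' ∈ C3) ∧ P ∪ P' ∈ A4 ∧ Q ∩ Q' ∈ C4) ∧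
        f1 P Q * f2 P' Q' ≤ f3 (P ∩ P') (Q ∪ Q') * f4 (P ∪ P') (Q ∩ Q')) :
    (∑ P ∈ A, ∑ Q ∈ C, f1 P Q) * ∑ P ∈ A', ∑ Q ∈ C', f2 P Q ≤
      (∑ P ∈ A3, ∑ Q ∈ C3, f3 P Q) * ∑ P ∈ A4, ∑ Q ∈ C4, f4 P Q := by
  simp only [← Finset.sum_product']
  refine GFour_ff (α := Finset Vx × (Finset Vx)ᵒᵈ) (A ×ˢ C : Finset (Finset Vx × Finset Vx))
    (A' ×ˢ C' : Finset (Finset Vx × Finset Vx)) (A3 ×ˢ C3 : Finset (Finset Vx × Finset Vx))
    (A4 ×ˢ C4 : Finset (Finset Vx × Finset Vx)) (fun x => f1 x.1 x.2) (fun x => f2 x.1 x.2)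
    (fun x => f3 x.1 x.2) (fun x => f4 x.1 x.2) (fun a => h0 _ _) fun a ha b hb => ?_
  have k := h a.1 (Finset.mem_product.1 ha).1 a.2 (Finset.mem_product.1 ha).2
    b.1 (Finset.mem_product.1 hb).1 b.2 (Finset.mem_product.1 hb).2
  exact ⟨⟨Finset.mem_product.2 k.1.1, Finset.mem_product.2 k.1.2⟩, k.2⟩

theorem GFour_inj {E B : Finset Vx} (hB : B ⊆ E) (g : Finset Vx → ℝ) (hg : ∀ Q, 0 ≤ g Q) :
    ∑ Q ∈ (E \ B).powerset, g (Q ∪ B) ≤ ∑ Q ∈ E.powerset, g Q := by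
  have e : ∀ Q ∈ (E \ B).powerset, (Q ∪ B) \ B = Q := fun Q hQ =>
    Finset.union_sdiff_cancel_right
      (Finset.disjoint_of_subset_left (Finset.mem_powerset.1 hQ) Finset.sdiff_disjoint)
  rw [← Finset.sum_image (g := fun Q => Q ∪ B) fun Q hQ Q' hQ' k => by
    rw [← e Q hQ, ← e Q' hQ']
    exact congrArg (· \ B) k]
  refine Finset.sum_le_sum_of_subset_of_nonneg (fun x hx => ?_) fun a _ _ => hg a
  obtain ⟨Q, hQ, rfl⟩ := Finset.mem_image.1 hx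
  exact Finset.mem_powerset.2
    (Finset.union_subset ((Finset.mem_powerset.1 hQ).trans Finset.sdiff_subset) hB)

theorem GFour_card {E E' P P' B : Finset Vx} (h : P ⊆ E) (h' : P' ⊆ E') (hB : Disjoint (E ∪ E') B) :
    (E \ P).card + (E' \ P').card =
      ((E ∩ E') \ (P ∩ P')).card + ((E ∪ E' ∪ B) \ (P ∪ P' ∪ B)).card := by
  have hu := Finset.union_subset_union h h'
  have a1 := Finset.card_sdiff_add_card_eq_card h
  have a2 := Finset.card_sdiff_add_card_eq_card h'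
  have a3 := Finset.card_sdiff_add_card_eq_card (Finset.inter_subset_inter h h')
  have a4 := Finset.card_sdiff_add_card_eq_card (Finset.union_subset_union_left (t := B) hu)
  have a5 := Finset.card_union_of_disjoint hB
  have a6 := Finset.card_union_of_disjoint (Finset.disjoint_of_subset_left hu hB)
  have a7 := Finset.card_union_add_card_inter E E'
  have a8 := Finset.card_union_add_card_inter P P'
  omega

/-- edges that are monochromatic only after taking unions and intersections -/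
def GFour_B (D T T' : Finset Site) : Finset Vx := (vin D).filter fun m =>
  (src m ∈ T ∧ tgt m ∉ T ∧ src m ∉ T' ∧ tgt m ∈ T') ∨
    (src m ∉ T ∧ tgt m ∈ T ∧ src m ∈ T' ∧ tgt m ∉ T')

theorem GFour_sets (D T T' : Finset Site) : ep D (T ∪ T') = ep D T ∩ ep D T' ∧
    em D (T ∪ T') = em D T ∪ em D T' ∪ GFour_B D T T' ∧
    ep D (T ∩ T') = ep D T ∪ ep D T' ∪ GFour_B D T T' ∧ em D (T ∩ T') = em D T ∩ em D T' ∧
    Disjoint (ep D T ∪ ep D T') (GFour_B D T T') ∧ Disjoint (em D T ∪ em D T') (GFour_B D T T') := by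
  refine ⟨Finset.ext fun m => ?_, Finset.ext fun m => ?_, Finset.ext fun m => ?_,
    Finset.ext fun m => ?_, Finset.disjoint_left.2 fun m => ?_, Finset.disjoint_left.2 fun m => ?_⟩
  all_goals
    simp only [ep, em, GFour_B, Finset.mem_filter, Finset.mem_union, Finset.mem_inter]
    grind

theorem GFour_gw {c : ℝ} (hc : 1 ≤ c) (D T : Finset Site) (P Q : Finset Vx) : 0 ≤ gw c D T P Q :=
  mul_nonneg (pow_nonneg (sub_nonneg.2 hc) _) (Nat.cast_nonneg _)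

theorem GFour_end {D T : Finset Site} {P Q : Finset Vx} (hT : T ⊆ inn D) (hP : P ⊆ ep D T)
    (hQ : Q ⊆ em D T) : (∀ m ∈ Q, ∀ v, End m v → v ∈ inn D) ∧
      ∀ m ∈ P, ∀ m' ∈ Q, ∀ v, End m v → ¬ End m' v := by
  have k : ∀ m ∈ Q, ∀ v, End m v → v ∈ T := fun m hm v hv => by
    have := (Finset.mem_filter.1 (hQ hm)).2
    rcases hv with rfl | rfl
    exacts [this.1, this.2]
  refine ⟨fun m hm v hv => hT (k m hm v hv), fun m hm m' hm' v hv hv' => ?_⟩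
  have := (Finset.mem_filter.1 (hP hm)).2
  rcases hv with rfl | rfl
  exacts [this.1 (k m' hm' _ hv'), this.2 (k m' hm' _ hv')]

theorem GFour_w {c : ℝ} (hc : 1 ≤ c) {D T T' : Finset Site} (hT : T ⊆ inn D) (hT' : T' ⊆ inn D)
    {P Q P' Q' : Finset Vx} (hP : P ⊆ ep D T) (hQ : Q ⊆ em D T) (hP' : P' ⊆ ep D T')
    (hQ' : Q' ⊆ em D T') : gw c D T P Q * gw c D T' P' Q' ≤
      gw c D (T ∪ T') (P ∩ P') (Q ∪ Q' ∪ GFour_B D T T') *
        gw c D (T ∩ T') (P ∪ P' ∪ GFour_B D T T') (Q ∩ Q') := by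
  obtain ⟨e1, e2, e3, e4, d1, d2⟩ := GFour_sets D T T'
  have a1 := GFour_card hP hP' d1
  have a2 := GFour_card hQ hQ' d2
  have k := (kk_four D P Q P' Q' (GFour_end hT hP hQ).1 (GFour_end hT' hP' hQ').1
    (GFour_end hT hP hQ).2 (GFour_end hT' hP' hQ').2).trans (Nat.mul_le_mul
      (kk_mono D (Finset.union_subset_union_right
        (Finset.subset_union_left (s₂ := GFour_B D T T'))))
      (kk_mono D (Finset.union_subset_union_left
        (Finset.subset_union_left (s₂ := GFour_B D T T')))))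
  unfold gw
  rw [e1, e2, e3, e4, mul_mul_mul_comm, ← pow_add]
  refine le_trans ?_ (le_of_eq (mul_mul_mul_comm _ _ _ _))
  rw [← pow_add]
  refine mul_le_mul (le_of_eq (congrArg _ (by omega))) (by exact_mod_cast k) (by positivity)
    (pow_nonneg (sub_nonneg.2 hc) _)

theorem g_pair {c : ℝ} (hc : 1 ≤ c) {D T T' : Finset Site} (hT : T ⊆ inn D) (hT' : T' ⊆ inn D)
    {f1 f2 f3 f4 : Set Vx → Set Vx → ℝ}
    (h0 : ∀ P Q, 0 ≤ f1 P Q ∧ 0 ≤ f2 P Q ∧ 0 ≤ f3 P Q ∧ 0 ≤ f4 P Q)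
    (h : ∀ P Q P' Q' B, Disjoint B (P ∪ Q ∪ P' ∪ Q') →
      f1 P Q * f2 P' Q' ≤ f3 (P ∩ P') (Q ∪ Q' ∪ B) * f4 (P ∪ P' ∪ B) (Q ∩ Q')) :
    gs c D T f1 * gs c D T' f2 ≤ gs c D (T ∪ T') f3 * gs c D (T ∩ T') f4 := by
  obtain ⟨e1, e2, e3, e4, d1, d2⟩ := GFour_sets D T T'
  set B := GFour_B D T T' with hB
  have n3 : ∀ P Q : Finset Vx, 0 ≤ gw c D (T ∪ T') P Q * f3 ((vin D : Set Vx)ᶜ ∪ P) Q :=
    fun P Q => mul_nonneg (GFour_gw hc _ _ _ _) (h0 _ _).2.2.1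
  have n4 : ∀ P Q : Finset Vx, 0 ≤ gw c D (T ∩ T') P Q * f4 ((vin D : Set Vx)ᶜ ∪ P) Q :=
    fun P Q => mul_nonneg (GFour_gw hc _ _ _ _) (h0 _ _).2.2.2
  refine (GFour_two _ _ (ep D (T ∪ T')).powerset (ep D (T ∩ T') \ B).powerset _ _
    (em D (T ∪ T') \ B).powerset (em D (T ∩ T')).powerset _ _
    (fun P Q => gw c D (T ∪ T') P (Q ∪ B) * f3 ((vin D : Set Vx)ᶜ ∪ P) (Q ∪ B : Finset Vx))
    (fun P Q => gw c D (T ∩ T') (P ∪ B) Q * f4 ((vin D : Set Vx)ᶜ ∪ (P ∪ B : Finset Vx)) Q)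
    (fun P Q => ⟨mul_nonneg (GFour_gw hc _ _ _ _) (h0 _ _).1,
      mul_nonneg (GFour_gw hc _ _ _ _) (h0 _ _).2.1, n3 _ _, n4 _ _⟩)
    fun P hP Q hQ P' hP' Q' hQ' => ?_).trans (mul_le_mul
      (Finset.sum_le_sum fun P _ => GFour_inj (e2 ▸ Finset.subset_union_right) _ (n3 P))
      (GFour_inj (e3 ▸ Finset.subset_union_right) (fun P => ∑ Q ∈ (em D (T ∩ T')).powerset,
        gw c D (T ∩ T') P Q * f4 ((vin D : Set Vx)ᶜ ∪ P) Q)
        fun P => Finset.sum_nonneg fun Q _ => n4 P Q)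
      (Finset.sum_nonneg fun P _ => Finset.sum_nonneg fun Q _ => n4 _ Q)
      (Finset.sum_nonneg fun P _ => Finset.sum_nonneg fun Q _ => n3 P Q))
  rw [Finset.mem_powerset] at hP hQ hP' hQ'
  have u1 := Finset.union_subset_union hP hP'
  have u2 := Finset.union_subset_union hQ hQ'
  simp only [Finset.mem_powerset]
  rw [e1, e2, e3, e4, Finset.union_sdiff_cancel_right d1, Finset.union_sdiff_cancel_right d2]
  refine ⟨⟨⟨Finset.inter_subset_inter hP hP', u2⟩, u1, Finset.inter_subset_inter hQ hQ'⟩, ?_⟩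
  have k := h ((vin D : Set Vx)ᶜ ∪ P) Q ((vin D : Set Vx)ᶜ ∪ P') Q' B (by
    refine Set.disjoint_left.2 fun m hm hm' => ?_
    have a1 := Finset.disjoint_right.1 (Finset.disjoint_of_subset_left u1 d1) hm
    have a2 := Finset.disjoint_right.1 (Finset.disjoint_of_subset_left u2 d2) hm
    have a3 : m ∈ vin D := (Finset.mem_filter.1 hm).1
    simp only [Finset.mem_union, not_or] at a1 a2
    simp only [Set.mem_union, Set.mem_compl_iff, Finset.mem_coe] at hm'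
    grind)
  have s1 : ((vin D : Set Vx)ᶜ ∪ P) ∪ ((vin D : Set Vx)ᶜ ∪ P') ∪ B =
      (vin D : Set Vx)ᶜ ∪ (P ∪ P' ∪ B : Finset Vx) := by
    rw [← Set.union_union_distrib_left, Set.union_assoc, Finset.coe_union, Finset.coe_union]
  rw [s1, ← Set.union_inter_distrib_left, ← Finset.coe_inter, ← Finset.coe_inter,
    ← Finset.coe_union, ← Finset.coe_union] at k
  rw [mul_mul_mul_comm, mul_mul_mul_comm (gw c D (T ∪ T') _ _)]
  exact mul_le_mul (GFour_w hc hT hT' hP hQ hP' hQ') k (mul_nonneg (h0 _ _).1 (h0 _ _).2.1)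
    (mul_nonneg (GFour_gw hc _ _ _ _) (GFour_gw hc _ _ _ _))

theorem g_four : G_four := by
  intro c hc D f1 f2 f3 f4 hD h0 h
  have n : ∀ (f : Set Vx → Set Vx → ℝ), (∀ P Q, 0 ≤ f P Q) → ∀ T, 0 ≤ gs c D T f := fun f hf T =>
    Finset.sum_nonneg fun P _ => Finset.sum_nonneg fun Q _ =>
      mul_nonneg (GFour_gw hc _ _ _ _) (hf _ _)
  unfold PG JH
  rw [g_rep c hD, g_rep c hD, g_rep c hD, g_rep c hD, div_mul_div_comm, div_mul_div_comm]
  refine div_le_div_of_nonneg_right ?_ (mul_self_nonneg _)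
  rw [mul_comm (∑ T ∈ (inn D).powerset, gs c D T f3)]
  refine GFour_ff _ _ _ _ _ _ _ _ (fun T => ⟨n _ (fun P Q => (h0 P Q).1) T,
    n _ (fun P Q => (h0 P Q).2.1) T, n _ (fun P Q => (h0 P Q).2.2.2) T,
    n _ (fun P Q => (h0 P Q).2.2.1) T⟩) fun T hT T' hT' => ?_
  rw [Finset.mem_powerset] at hT hT'
  exact ⟨⟨Finset.mem_powerset.2 (Finset.inter_subset_left.trans hT),
    Finset.mem_powerset.2 (Finset.union_subset hT hT')⟩,
    (g_pair hc hT hT' h0 h).trans (le_of_eq (mul_comm _ _))⟩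

end Vale.Agent.P145
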