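import Vale.Agent.P145.PEx

/-! P145: counting dual spins. -/

open Filter Topology

namespace Vale.Agent.P145

open Vale.Agent.P152

/-- number of dual spin configurations compatible with the open edges `O` -/
def kk (D : Finset Site) (O : Finset Vx) : ℕ := (KK D (vin D \ O)).card

theorem kk_mono (D : Finset Site) {O O' : Finset Vx} (h : O ⊆ O') : kk D O ≤ kk D O' :=
  Finset.card_le_card (KK_anti (Finset.sdiff_subset_sdiff (Finset.Subset.refl _) h))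

theorem kk_super (D : Finset Site) (O O' : Finset Vx) :
    kk D O * kk D O' ≤ kk D (O ∩ O') * kk D (O ∪ O') := by
  have h := KK_super D (vin D \ O) (vin D \ O')
  rw [← Finset.sdiff_union_distrib, ← Finset.sdiff_inter_distrib_right, mul_comm (KK D _).card
    (KK D (vin D \ (O ∩ O'))).card] at h
  exact h

theorem GK_sd {D a b : Finset Site} {u : Finset Vx} (ha : a ∈ KK D u) (hb : b ∈ KK D u) :
    symmDiff a b ∈ KK D u := by
  rw [mem_KK] at ha hb ⊢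
  refine ⟨NFK_sub ha.1 hb.1, fun m hm => ?_⟩
  simp only [Finset.mem_symmDiff]
  exact NFK_p1 (ha.2 m hm) (hb.2 m hm)

theorem GK_split {D : Finset Site} {P Q : Finset Vx} (hQ : ∀ m ∈ Q, ∀ v, End m v → v ∈ inn D)
    (h : ∀ m ∈ P, ∀ m' ∈ Q, ∀ v, End m v → ¬ End m' v) (s : Finset Site) :
    ∃ t : Finset Site, s ∈ KK D (vin D \ (P ∪ Q)) →
      t ∈ KK D (vin D \ Q) ∧ symmDiff s t ∈ KK D (vin D \ P) := by
  by_cases hs : s ∈ KK D (vin D \ (P ∪ Q))
  swap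
  · exact ⟨∅, fun a => absurd a hs⟩
  rw [mem_KK] at hs
  have h1 : ∀ m ∈ vin D, m ∉ P → m ∈ bd s → m ∈ Q := fun m hm hP hb => by
    by_contra a
    exact mem_bd.1 hb (hs.2 m (by simp [hm, hP, a]))
  obtain ⟨t, ht⟩ := bd_part s (bd s ∩ Q) Finset.inter_subset_left fun m hm m' hm' v a b => by
    have c := (Finset.mem_inter.1 hm).2
    exact Finset.mem_inter.2 ⟨hm', h1 m' (b.vin (hQ m c v a)) (fun d => h m' d m c v b a) hm'⟩
  refine ⟨t ∩ D, fun _ => ⟨mem_KK.2 ⟨Finset.inter_subset_right, fun m hm => ?_⟩,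
    mem_KK.2 ⟨NFK_sub hs.1 Finset.inter_subset_right, fun m hm => ?_⟩⟩⟩
  · obtain ⟨a, b⟩ := Finset.mem_sdiff.1 hm
    have c : m ∉ bd t := fun d => b (Finset.mem_inter.1 (ht ▸ d)).2
    rw [mem_bd, not_not] at c
    simp only [Finset.mem_inter, mem_vin.1 a, and_true, c]
  · obtain ⟨a, b⟩ := Finset.mem_sdiff.1 hm
    have c : m ∈ bd s ↔ m ∈ bd t := by
      rw [ht, Finset.mem_inter]
      exact ⟨fun d => ⟨d, h1 m a b d⟩, fun d => d.1⟩
    rw [mem_bd, mem_bd, not_iff_not] at c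
    simp only [Finset.mem_symmDiff, Finset.mem_inter, mem_vin.1 a, and_true]
    tauto

/-- vertex disjoint edge sets, the second one away from the boundary -/
theorem kk_sub (D : Finset Site) (P Q : Finset Vx) (hQ : ∀ m ∈ Q, ∀ v, End m v → v ∈ inn D)
    (h : ∀ m ∈ P, ∀ m' ∈ Q, ∀ v, End m v → ¬ End m' v) :
    kk D (P ∪ Q) * kk D ∅ ≤ kk D P * kk D Q := by
  choose t ht using GK_split hQ h
  unfold kk
  rw [← Finset.card_product, ← Finset.card_product]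
  refine Finset.card_le_card_of_injOn
    (fun p => (symmDiff (symmDiff p.1 (t p.1)) p.2, symmDiff (t p.1) p.2)) (fun p hp => ?_)
    fun p _ q _ e => ?_
  · obtain ⟨h1, h2⟩ := Finset.mem_product.1 hp
    exact Finset.mem_product.2
      ⟨GK_sd (ht _ h1).2 (KK_anti (by simp) h2), GK_sd (ht _ h1).1 (KK_anti (by simp) h2)⟩
  · obtain ⟨e1, e2⟩ := Prod.mk.inj e
    rw [symmDiff_assoc, symmDiff_assoc, e2] at e1
    have e3 : p.1 = q.1 := symmDiff_left_injective _ e1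
    rw [e3] at e2
    exact Prod.ext e3 (symmDiff_right_injective _ e2)

theorem kk_four (D : Finset Site) (P Q P' Q' : Finset Vx)
    (hQ : ∀ m ∈ Q, ∀ v, End m v → v ∈ inn D) (hQ' : ∀ m ∈ Q', ∀ v, End m v → v ∈ inn D)
    (h : ∀ m ∈ P, ∀ m' ∈ Q, ∀ v, End m v → ¬ End m' v)
    (h' : ∀ m ∈ P', ∀ m' ∈ Q', ∀ v, End m v → ¬ End m' v) :
    kk D (P ∪ Q) * kk D (P' ∪ Q') ≤ kk D (P ∩ P' ∪ (Q ∪ Q')) * kk D (P ∪ P' ∪ Q ∩ Q') := by
  have d : ∀ m, m ∈ P → m ∉ Q := fun m a b => h m a m b _ (end_src m) (end_src m)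
  have d' : ∀ m, m ∈ P' → m ∉ Q' := fun m a b => h' m a m b _ (end_src m) (end_src m)
  have e1 : P ∩ P' ∩ (Q ∪ Q') = ∅ := Finset.eq_empty_of_forall_notMem fun m hm => by
    simp only [Finset.mem_inter, Finset.mem_union] at hm
    exact hm.2.elim (d m hm.1.1) (d' m hm.1.2)
  have e2 : (P ∪ P') ∩ (Q ∩ Q') = ∅ := Finset.eq_empty_of_forall_notMem fun m hm => by
    simp only [Finset.mem_inter, Finset.mem_union] at hm
    exact hm.1.elim (fun a => d m a hm.2.1) fun a => d' m a hm.2.2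
  have h1 := kk_super D (P ∩ P') (Q ∪ Q')
  have h2 := kk_super D (P ∪ P') (Q ∩ Q')
  rw [e1] at h1
  rw [e2] at h2
  have h0 : 0 < kk D ∅ := KK_pos _ _
  refine Nat.le_of_mul_le_mul_left ?_ (Nat.mul_pos h0 h0)
  calc kk D ∅ * kk D ∅ * (kk D (P ∪ Q) * kk D (P' ∪ Q'))
      = kk D (P ∪ Q) * kk D ∅ * (kk D (P' ∪ Q') * kk D ∅) := by ring
    _ ≤ kk D P * kk D Q * (kk D P' * kk D Q') :=
        Nat.mul_le_mul (kk_sub D P Q hQ h) (kk_sub D P' Q' hQ' h')
    _ = kk D P * kk D P' * (kk D Q * kk D Q') := by ring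
    _ ≤ kk D (P ∩ P') * kk D (P ∪ P') * (kk D (Q ∩ Q') * kk D (Q ∪ Q')) :=
        Nat.mul_le_mul (kk_super D P P') (kk_super D Q Q')
    _ = kk D (P ∩ P') * kk D (Q ∪ Q') * (kk D (P ∪ P') * kk D (Q ∩ Q')) := by ring
    _ ≤ _ := (Nat.mul_le_mul h1 h2).trans_eq (by ring)

end Vale.Agent.P145
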