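import Vale.Agent.P145.HNeg
import Vale.Agent.P145.MExp
import Vale.Agent.P145.PBox

/-! P145: sandwich behind a wall. -/

open Filter Topology

namespace Vale.Agent.P145

open Vale.Agent.P152

theorem HEx_val {Λ D' : Finset Site} {S : Set Vx} {a j : ℤ} {ho : Ht} {ωo : Finset Vx}
    (k : Out Λ D' j ho ωo) (e : exd Λ (op (· = a) ho ωo ∩ S) (Λ : Set Site)ᶜ = D')
    {f v : Site} (hf : f ∈ D') (hv : v ∈ cor f) : ho (v, true) = a := by
  obtain ⟨g, hg, hg'⟩ := exit_left hf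
  have hm : ((g, false) : Vx) ∈ bd D' := (sep_left g).bd.2 fun h => hg' (h.1 hg.mem)
  have h2 : ((g, false) : Vx) ∈ op (· = a) ho ωo ∩ S := by
    refine bd_exd' (D := Λ) (A := (Λ : Set Site)ᶜ) subset_rfl ?_
    rw [e]
    exact hm
  rw [k.2.1.eq hg hv (self_cor g)]
  exact h2.1.2

theorem HEx_op {Λ D' : Finset Site} {a j : ℤ} {ho hi : Ht} {ωo ωi : Finset Vx}
    (k : Out Λ D' j ho ωo) (hv : ∀ f ∈ D', ho (f, true) = a) (k' : Ok D' hi ωi) :
    op (· = a) (glue D' ho hi) (ωo ∪ ωi) = op (· = a) ho ωo ∪ op (· = 0) hi ωi := by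
  ext m
  by_cases hm : m ∈ vin D'
  · rw [op_glue_in _ k k' hm]
    have h1 : ho (src m, true) = a := hv _ (mem_vin.1 hm).1
    have h2 : m ∉ op (· = a) ho ωo := fun h => (Finset.mem_sdiff.1 (k.2.2.1 h.1)).2 hm
    simp only [Set.mem_union, h2, false_or, h1, add_eq_left]
    rfl
  · have h1 := op_glue_out (· = a) k k'
    have h2 : m ∉ op (· = 0) hi ωi := fun h => hm (k'.2.1 h.1)
    simp only [Set.mem_union, h2, or_false]
    rw [← h1]
    exact ⟨fun h => ⟨h, hm⟩, fun h => h.1⟩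

theorem HEx_red {c : ℝ} (hc : 1 ≤ c) {Λ Q : Finset Site} {S : Set Vx} (a : ℤ)
    {𝒜 : Set Vx → Prop} (hΛ : Cc Λ) (hQ : Q ⊆ Λ)
    (hA : ∀ O ⊆ S, 𝒜 O → ∀ f ∈ Q, f ∉ Rch O (Λ : Set Site)ᶜ) {F G : Ht → ℝ}
    (hF : DepV (inn Q) F) (hG : DepV (inn Q) G)
    (H : ∀ (D' : Finset Site) (Oo : Set Vx), Q ⊆ D' → exd Λ (Oo ∩ S) (Λ : Set Site)ᶜ = D' →
      JH c D' (fun h ω => pi (𝒜 ((Oo ∪ op (· = 0) h ω) ∩ S)) * F h) ≤
        JH c D' fun h ω => pi (𝒜 ((Oo ∪ op (· = 0) h ω) ∩ S)) * G h) :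
    JH c Λ (fun h ω => pi (𝒜 (op (· = a) h ω ∩ S)) * F (h - fun _ => a)) ≤
      JH c Λ fun h ω => pi (𝒜 (op (· = a) h ω ∩ S)) * G (h - fun _ => a) := by
  refine m_exp c hc Λ (a % 4) (Λ : Set Site)ᶜ ∅ S (· = a) _ _ (by rw [Set.union_self]; exact hΛ)
    (Set.empty_disjoint _) (fun z hz => by rw [hz]) (Or.inr ⟨rfl, subset_rfl⟩) ?_
  intro D' ho ωo _ _ k e hR
  simp only [Set.empty_union] at e hR
  unfold Inn
  by_cases hq : Q ⊆ D'
  · have hv : ∀ f ∈ D', ho (f, true) = a := fun f hf => HEx_val k e hf (self_cor f)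
    have hs : ∀ {K : Ht → ℝ}, DepV (inn Q) K → ∀ hi, K (glue D' ho hi - fun _ => a) = K hi := by
      intro K hK hi
      refine hK _ _ fun v hv' => ?_
      rw [Pi.sub_apply, glue_true, hv v (hq (inn_subset hv'))]
      ring
    refine le_of_eq_of_le (JH_congr fun hi ωi k' => ?_)
      ((H D' (op (· = a) ho ωo) hq e).trans_eq (JH_congr fun hi ωi k' => ?_))
    · beta_reduce
      rw [HEx_op k hv k', hs hF]
    · beta_reduce
      rw [HEx_op k hv k', hs hG]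
  · refine JH_mono hc fun hi ωi k' => ?_
    obtain ⟨f, hf, hf'⟩ := Finset.not_subset.1 hq
    have h1 : f ∈ Rch (op (· = a) ho ωo ∩ S) (Λ : Set Site)ᶜ := by
      by_contra h
      exact hf' (e ▸ mem_exd.2 ⟨hQ hf, h⟩)
    rw [← hR hi ωi k'] at h1
    beta_reduce
    rw [pi_neg fun h => hA _ Set.inter_subset_right h f hf h1, zero_mul, zero_mul]

theorem h_ex : H_ex := by
  intro c hc Λ Q Dm Dp S a 𝒜 F hΛ hQ hm hA hS hF
  refine ⟨fun h1 h2 => ?_, fun h1 _ h3 => ?_⟩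
  · rw [mul_comm, ← JH_mul]
    refine le_of_eq_of_le (JH_congr fun h ω _ => mul_comm _ _)
      (HEx_red hc a hΛ hQ hA (F := fun _ => PH c Dm F) (fun _ _ _ => rfl) hF ?_)
    intro D' Oo hq _
    have e : ∀ O : Set Vx, (Oo ∪ O \ vin Dm) ∩ S = (Oo ∪ O) ∩ S := by
      intro O
      ext m
      have : m ∈ S → m ∉ (vin Dm : Set Vx) := fun h => Set.disjoint_left.1 h2 h
      simp only [Set.mem_inter_iff, Set.mem_union, Set.mem_diff]
      tauto
    have := h_out c hc D' Dm F (fun O => pi (𝒜 ((Oo ∪ O) ∩ S))) hS (h1.trans hq)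
      fun O => pi_nonneg _
    simp only [e] at this
    rw [mul_comm, ← JH_mul] at this
    exact le_of_eq_of_le (JH_congr fun h ω _ => mul_comm _ _) this
  · rw [mul_comm, ← JH_mul]
    refine (HEx_red hc a hΛ hQ hA (G := fun _ => PH c Dp F) hF (fun _ _ _ => rfl) ?_).trans_eq
      (JH_congr fun h ω _ => mul_comm _ _)
    intro D' Oo _ e
    have hD : D' ⊆ Dp := by
      intro f hf
      by_contra hf'
      obtain ⟨g, hg, hg'⟩ := exists_out Λ Dp
      have := Cn.subset_rch (O := Oo ∩ S) (A := (Λ : Set Site)ᶜ) h1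
        (fun m hm' h => h.1 (mem_vin.1 (h3 hm'.2)).1) (f := g) hg' (subset_rch hg)
      rw [← e] at hf
      exact (mem_exd.1 hf).2 (this hf')
    have h4 := h_neg c hc D' F (fun O => pi (𝒜 ((Oo ∪ O) ∩ S))) hS
      (fun O O' h => pi_mono (hm _ _ (Set.inter_subset_inter_left _
        (Set.union_subset_union_right _ h)))) fun O => pi_nonneg _
    refine h4.trans ((mul_le_mul_of_nonneg_left (h_mono c hc Dp D' F hS hD)
      (JH_nonneg hc fun _ _ _ => pi_nonneg _)).trans_eq ?_)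
    rw [mul_comm, ← JH_mul]
    exact JH_congr fun h ω _ => mul_comm _ _

end Vale.Agent.P145
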