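import Vale.Agent.P145.Core
import Vale.Agent.P152.NFPa

/-! P145: four functions inequality for absolute values. -/

open Filter Topology

namespace Vale.Agent.P145

open Vale.Agent.P152

/-- the four function inequality for two fixed heights, with an antitone third function -/
theorem HFour_pair {c : ℝ} {D : Finset Site} (hc : 1 ≤ c) {H H' : Ht} (hH : IsH D H)
    (hH' : IsH D H') (h0 : 0 ≤ H) (h0' : 0 ≤ H') {f1 f2 g f4 : Finset Vx → ℝ}
    (n1 : ∀ u, 0 ≤ f1 u) (n2 : ∀ u, 0 ≤ f2 u) (n3 : ∀ u, 0 ≤ g u) (n4 : ∀ u, 0 ≤ f4 u)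
    (hg : Antitone g) (hf : ∀ u u', f1 u * f2 u' ≤ g (u ∩ u') * f4 (u ∪ u')) :
    (∑ u ∈ (vin D).powerset, (∏ m ∈ vin D, ew c H u m) * ((KK D u).card * f1 u)) *
      (∑ u ∈ (vin D).powerset, (∏ m ∈ vin D, ew c H' u m) * ((KK D u).card * f2 u)) ≤
    (∑ u ∈ (vin D).powerset, (∏ m ∈ vin D, ew c (H ⊓ H') u m) * ((KK D u).card * g u)) *
      ∑ u ∈ (vin D).powerset, (∏ m ∈ vin D, ew c (H ⊔ H') u m) * ((KK D u).card * f4 u) := by
  have pe : ∀ H u, 0 ≤ ∏ m ∈ vin D, ew c H u m := fun H u =>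
    Finset.prod_nonneg fun _ _ => ew_nonneg hc _ _ _
  have d := fun m hm => NFPa_dom hc hH hH' h0 h0' (m := m) hm
  have pa : ∀ u : Finset Vx, 0 ≤ ∏ m ∈ vin D, if m ∈ u then NFPa_1 c H H' m else NFPa_0 H H' m :=
    fun u => Finset.prod_nonneg fun m hm => by split_ifs; exacts [(d m hm).1, (d m hm).2.1]
  have k := fkg_on (vin D).powerset
    (fun u => (∏ m ∈ vin D, if m ∈ u then NFPa_1 c H H' m else NFPa_0 H H' m) *
      ((KK D u).card * g u))
    (fun a ha b _ => Finset.mem_powerset.2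
      (Finset.inter_subset_left.trans (Finset.mem_powerset.1 ha)))
    (fun a ha b hb => Finset.mem_powerset.2
      (Finset.union_subset (Finset.mem_powerset.1 ha) (Finset.mem_powerset.1 hb)))
    (fun u => (∏ m ∈ vin D, ew c H u m) * ((KK D u).card * f1 u))
    (fun u => (∏ m ∈ vin D, ew c H' u m) * ((KK D u).card * f2 u))
    (fun u => (∏ m ∈ vin D, ew c (H ⊔ H') u m) * ((KK D u).card * f4 u))
    (fun u => mul_nonneg (pa u) (mul_nonneg (Nat.cast_nonneg _) (n3 u)))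
    (fun u _ => mul_nonneg (pe _ u) (mul_nonneg (Nat.cast_nonneg _) (n1 u)))
    (fun u _ => mul_nonneg (pe _ u) (mul_nonneg (Nat.cast_nonneg _) (n2 u)))
    (fun u _ => mul_nonneg (pe _ u) (mul_nonneg (Nat.cast_nonneg _) (n4 u))) fun u _ u' _ => by
      have l1 : (∏ m ∈ vin D, ew c H u m) * ∏ m ∈ vin D, ew c H' u' m ≤
          (∏ m ∈ vin D, ew c (H ⊔ H') (u ∪ u') m) *
            ∏ m ∈ vin D, if m ∈ u ∩ u' then NFPa_1 c H H' m else NFPa_0 H H' m := by
        simp only [← Finset.prod_mul_distrib]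
        exact Finset.prod_le_prod (fun m _ => mul_nonneg (ew_nonneg hc _ _ _) (ew_nonneg hc _ _ _))
          fun m hm => NFPa_edge hc hH hH' h0 h0' hm u u'
      have l2 : ((KK D u).card : ℝ) * (KK D u').card ≤
          (KK D (u ∩ u')).card * (KK D (u ∪ u')).card := by exact_mod_cast KK_super D u u'
      have l4 := mul_le_mul l1 (mul_le_mul l2 (hf u u') (mul_nonneg (n1 _) (n2 _)) (by positivity))
        (mul_nonneg (by positivity) (mul_nonneg (n1 _) (n2 _))) (mul_nonneg (pe _ _) (pa _))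
      simp only [Finset.inf_eq_inter, Finset.sup_eq_union]
      calc _ = _ := by ring
        _ ≤ _ := l4
        _ = _ := by ring
  refine k.trans (mul_le_mul_of_nonneg_right ?_
    (Finset.sum_nonneg fun u _ => mul_nonneg (pe _ u) (mul_nonneg (Nat.cast_nonneg _) (n4 u))))
  refine prod_dom (vin D) _ _ (fun m => hv c (H ⊓ H') m - iz (H ⊓ H') m) (iz (H ⊓ H'))
    (fun m hm => (d m hm).1) (fun m hm => (d m hm).2.1) (fun m _ => ?_) (fun m _ => iz_nonneg _ _)
    _ (fun u => mul_nonneg (Nat.cast_nonneg _) (n3 u))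
    (fun u v huv => mul_le_mul (Nat.cast_le.2 (Finset.card_le_card (KK_anti huv)))
      (hg huv) (n3 _) (Nat.cast_nonneg _))
    (fun m hm => by have := (d m hm).2.2.2; linarith) fun m hm => Or.inl (d m hm).2.2.1
  simpa [ew] using ew_nonneg hc (H ⊓ H') {m} m

/-- the four function inequality for two fixed heights -/
theorem HFour_pair' {c : ℝ} {D : Finset Site} (hc : 1 ≤ c) {H H' : Ht} (hH : IsH D H)
    (hH' : IsH D H') (h0 : 0 ≤ H) (h0' : 0 ≤ H') {f1 f2 f3 f4 : Finset Vx → ℝ}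
    (n1 : ∀ u, 0 ≤ f1 u) (n2 : ∀ u, 0 ≤ f2 u) (n3 : ∀ u, 0 ≤ f3 u) (n4 : ∀ u, 0 ≤ f4 u)
    (hf : ∀ u u' u'', u'' ⊆ u ∩ u' → f1 u * f2 u' ≤ f3 u'' * f4 (u ∪ u')) :
    (∑ u ∈ (vin D).powerset, (∏ m ∈ vin D, ew c H u m) * ((KK D u).card * f1 u)) *
      (∑ u ∈ (vin D).powerset, (∏ m ∈ vin D, ew c H' u m) * ((KK D u).card * f2 u)) ≤
    (∑ u ∈ (vin D).powerset, (∏ m ∈ vin D, ew c (H ⊓ H') u m) * ((KK D u).card * f3 u)) *
      ∑ u ∈ (vin D).powerset, (∏ m ∈ vin D, ew c (H ⊔ H') u m) * ((KK D u).card * f4 u) := by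
  have pe : ∀ H u, 0 ≤ ∏ m ∈ vin D, ew c H u m := fun H u =>
    Finset.prod_nonneg fun _ _ => ew_nonneg hc _ _ _
  have k := HFour_pair hc hH hH' h0 h0'
    (g := fun u => u.powerset.inf' (Finset.powerset_nonempty u) f3) n1 n2
    (fun u => Finset.le_inf' _ _ fun v _ => n3 v) n4
    (fun u v huv => Finset.le_inf' _ _ fun w hw => Finset.inf'_le _
      (Finset.mem_powerset.2 ((Finset.mem_powerset.1 hw).trans huv)))
    fun u u' => by
      obtain ⟨v, hv, e⟩ := Finset.exists_mem_eq_inf' (Finset.powerset_nonempty (u ∩ u')) f3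
      rw [e]
      exact hf u u' v (Finset.mem_powerset.1 hv)
  refine k.trans (mul_le_mul_of_nonneg_right (Finset.sum_le_sum fun u _ => ?_)
    (Finset.sum_nonneg fun u _ => mul_nonneg (pe _ u) (mul_nonneg (Nat.cast_nonneg _) (n4 u))))
  exact mul_le_mul_of_nonneg_left (mul_le_mul_of_nonneg_left
    (Finset.inf'_le _ (Finset.mem_powerset_self u)) (Nat.cast_nonneg _)) (pe _ u)

theorem h_four : H_four := by
  classical
  intro c hc D f1 f2 f3 f4 hn hf
  have pe : ∀ H u, 0 ≤ ∏ m ∈ vin D, ew c H u m := fun H u =>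
    Finset.prod_nonneg fun _ _ => ew_nonneg hc _ _ _
  have nn : ∀ (f : Finset Vx → ℝ) H, (∀ u, 0 ≤ f u) → 0 ≤ ∑ u ∈ (vin D).powerset,
      (∏ m ∈ vin D, ew c H u m) * ((KK D u).card * f u) := fun f H h =>
    Finset.sum_nonneg fun u _ => mul_nonneg (pe _ u) (mul_nonneg (Nat.cast_nonneg _) (h u))
  have mm : ∀ {H}, H ∈ (hs D).filter (0 ≤ ·) → IsH D H ∧ 0 ≤ H := fun h => by
    rwa [Finset.mem_filter, mem_hs] at h
  have k := fkg_on ((hs D).filter (0 ≤ ·))
    (fun H => max 0 (∑ u ∈ (vin D).powerset, (∏ m ∈ vin D, ew c H u m) *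
      ((KK D u).card * f3 H u)))
    (fun a ha b hb => by
      rw [Finset.mem_filter, mem_hs] at ha hb ⊢
      exact ⟨ha.1.inf hb.1, le_inf ha.2 hb.2⟩)
    (fun a ha b hb => by
      rw [Finset.mem_filter, mem_hs] at ha hb ⊢
      exact ⟨ha.1.sup hb.1, le_sup_of_le_left ha.2⟩)
    (fun H => ∑ u ∈ (vin D).powerset, (∏ m ∈ vin D, ew c H u m) * ((KK D u).card * f1 H u))
    (fun H => ∑ u ∈ (vin D).powerset, (∏ m ∈ vin D, ew c H u m) * ((KK D u).card * f2 H u))
    (fun H => ∑ u ∈ (vin D).powerset, (∏ m ∈ vin D, ew c H u m) * ((KK D u).card * f4 H u))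
    (fun H => le_max_left _ _)
    (fun H h => nn _ H fun u => (hn H u (mm h).1 (mm h).2).1)
    (fun H h => nn _ H fun u => (hn H u (mm h).1 (mm h).2).2.1)
    (fun H h => nn _ H fun u => (hn H u (mm h).1 (mm h).2).2.2.2) fun a ha b hb => by
      obtain ⟨a1, a2⟩ := mm ha
      obtain ⟨b1, b2⟩ := mm hb
      have n4 := fun u => (hn _ u (a1.sup b1) (le_sup_of_le_left a2)).2.2.2
      exact (HFour_pair' hc a1 b1 a2 b2 (fun u => (hn a u a1 a2).1) (fun u => (hn b u b1 b2).2.1)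
        (fun u => (hn _ u (a1.inf b1) (le_inf a2 b2)).2.2.1) n4
        fun u u' u'' h => hf a b u u' u'' a1 b1 a2 b2 h).trans
        (mul_le_mul_of_nonneg_right (le_max_right _ _) (nn _ _ n4))
  rw [Finset.sum_congr rfl fun H h =>
    max_eq_right (nn _ H fun u => (hn H u (mm h).1 (mm h).2).2.2.1)] at k
  exact k

end Vale.Agent.P145
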