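import Vale.Agent.P145.IBas
import Vale.Agent.P152.FMain

/-! P145, block I: the plane limit is Gaussian, and the two point constant. -/

open Filter Topology Metric

namespace Vale.Agent.P145.Ib

open Vale.Agent.P152

theorem IAl_pow {M : Fun} {K : ℝ} (hc : Cl M) (h0 : M 0 = 1) (hk : ∀ n, kp M n = K ^ n)
    (N : ℕ) : ∀ s : Multiset (Pl → ℝ), Multiset.card s = N → Tests s →
      ∀ n : ℕ, (pr^[n] M) s = K ^ n * M s := by
  classical
  induction N using Nat.strong_induction_on with
  | _ N ih =>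
    intro s hN hs n
    rcases Multiset.empty_or_exists_mem s with rfl | ⟨f, hf⟩
    · rw [h0, mul_one]
      exact hk n
    · obtain ⟨t, rfl⟩ := Multiset.exists_cons_of_mem hf
      have ht : Tests t := fun h hh => hs h (Multiset.mem_cons_of_mem hh)
      have he : ∀ (h : Pl → ℝ) (k : ℕ), (pr^[k] M) (t.erase h) = K ^ k * M (t.erase h) := by
        intro h k
        refine ih _ ?_ _ rfl (fun g hg => ht g (Multiset.mem_of_mem_erase hg)) k
        rw [← hN, Multiset.card_cons]
        exact Nat.lt_succ_of_le Multiset.card_erase_le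
      rw [wick (hc.iter n) ht (hs f hf), wick hc ht (hs f hf), ← Multiset.sum_map_mul_left]
      refine congrArg _ (Multiset.map_congr rfl fun h _ => ?_)
      have e1 := he h (n + 1)
      have e2 := he h 1
      rw [Function.iterate_succ_apply'] at e1
      rw [Function.iterate_one] at e2
      rw [e1, e2]
      ring

theorem iGau : GauSt := by
  intro E K h hK h3 h1 U hU
  have hc := (mu_cl0 h h1 hU).cl
  have hp := mu_pos h hU
  have h2 := kp_two hc hp (mu_zero h) hK.nonneg (mu_low h hK hU) (mu_up h hK.nonneg h3 hU)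
  exact ⟨hc, fun n s hs =>
    IAl_pow hc (mu_zero h) (kp_pow hc hp (mu_zero h) h2.1 h2.2) _ s rfl hs n⟩

theorem IAl_bumps {a b c d : ℝ} (hab : a < b) (hcd : c < d) (m : ℕ) :
    ∃ θ : Fin (m + 1) → Pl → ℝ, (∀ i, Sm (θ i) ∧ en (θ i) = 1) ∧
      (∀ i, tsupport (θ i) ⊆ rct a b c d 0) ∧
      ∀ i j, i ≠ j → Disjoint (tsupport (θ i)) (tsupport (θ j)) := by
  obtain ⟨r, hr⟩ : ∃ r : ℝ, r = (b - a) / (2 * (m + 1)) := ⟨_, rfl⟩
  have hm : (0 : ℝ) < m + 1 := by positivity
  have hr0 : 0 < r := by rw [hr]; exact div_pos (sub_pos.2 hab) (by positivity)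
  have hb : b = a + 2 * (m + 1) * r := by rw [hr]; field_simp; ring
  have hρ : 0 < min r ((d - c) / 2) := lt_min hr0 (by linarith)
  choose θ h1 h2 h3 using fun i : Fin (m + 1) =>
    bump_en (a + (2 * (i : ℕ) + 1) * r, (c + d) / 2) hρ
  have key : ∀ i, ∀ p ∈ tsupport (θ i), a + 2 * (i : ℕ) * r < p.1 ∧
      p.1 < a + 2 * ((i : ℕ) + 1) * r ∧ c < p.2 ∧ p.2 < d := by
    intro i p hp
    have h4 := h2 i hp
    rw [mem_ball, Prod.dist_eq, max_lt_iff, lt_min_iff, lt_min_iff, Real.dist_eq, Real.dist_eq,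
      abs_lt, abs_lt, abs_lt, abs_lt] at h4
    obtain ⟨⟨⟨k1, k2⟩, -⟩, -, k3, k4⟩ := h4
    dsimp only at k1 k2 k3 k4
    refine ⟨by linarith, by linarith, by linarith, by linarith⟩
  refine ⟨θ, fun i => ⟨h1 i, h3 i⟩, fun i p hp => ?_, fun i j hij => ?_⟩
  · obtain ⟨k1, k2, k3, k4⟩ := key i p hp
    have i0 : (0 : ℝ) ≤ (i : ℕ) := Nat.cast_nonneg _
    have i1 : ((i : ℕ) : ℝ) + 1 ≤ m + 1 := by exact_mod_cast i.2
    refine ⟨⟨by nlinarith, by nlinarith⟩, ⟨by linarith, by linarith⟩⟩
  · refine Set.disjoint_left.2 fun p hp hq => ?_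
    obtain ⟨k1, k2, -⟩ := key i p hp
    obtain ⟨k3, k4, -⟩ := key j p hq
    rcases lt_or_gt_of_ne (Fin.val_ne_of_ne hij) with h | h
    · have : ((i : ℕ) : ℝ) + 1 ≤ (j : ℕ) := by exact_mod_cast h
      nlinarith
    · have : ((j : ℕ) : ℝ) + 1 ≤ (i : ℕ) := by exact_mod_cast h
      nlinarith

theorem IAl_lim {x c : ℝ} (h : ∀ m : ℕ, x ^ 2 ≤ c / (m + 1)) : x = 0 := by
  have h2 : Tendsto (fun m : ℕ => c / ((m : ℝ) + 1)) atTop (𝓝 0) :=
    tendsto_const_nhds.div_atTop (tendsto_atTop_add_const_right _ _ tendsto_natCast_atTop_atTop)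
  exact pow_eq_zero_iff two_ne_zero |>.1 (le_antisymm (ge_of_tendsto' h2 h) (sq_nonneg x))

theorem iAl : AlSt := by
  intro M M0 K hD hG s hs a b c d α hab hcd hds hα
  have hz : -α - K * M s = 0 := by
    refine IAl_lim (c := 2 * K ^ 2 * M0 (s + s)) fun m => ?_
    obtain ⟨θ, h1, h2, h3⟩ := IAl_bumps hab hcd m
    have hss : Tests (s + s) := fun h hh => (Multiset.mem_add.1 hh).elim (hs h) (hs h)
    have h0 : ∀ i, ∀ h ∈ s + s, ip (θ i) h = 0 := fun i h hh =>
      ip_disj ((hds h ((Multiset.mem_add.1 hh).elim id id)).mono_left (h2 i))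
    have ht : ∀ i, Tests (lap (θ i) ::ₘ lap (θ i) ::ₘ s) := fun i h hh => by
      rcases Multiset.mem_cons.1 hh with rfl | hh
      · exact test_lap (h1 i).1
      rcases Multiset.mem_cons.1 hh with rfl | hh
      · exact test_lap (h1 i).1
      exact hs h hh
    have a0 : ∀ i, M (lap (θ i) ::ₘ lap (θ i) ::ₘ s) = -α := fun i => by
      rw [hα _ _ (h1 i).1 (test_lap (h1 i).1) (h2 i) ((tsupp_lap _).trans (h2 i)),
        ip_lap_self (h1 i).1, (h1 i).2]
      ring
    have a1 : ∀ i, M0 (lap (θ i) ::ₘ lap (θ i) ::ₘ s + s) = K * M0 (s + s) := fun i => by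
      have := rep_val hG.1 hss (h1 i).1 (h1 i).2 (h0 i) 1
      rw [hG.2 1 _ hss] at this
      refine Eq.trans (congrArg _ ?_) (this.trans (by simp))
      simp only [Multiset.replicate_succ, Multiset.replicate_zero, Multiset.cons_add, zero_add]
    have a2 : ∀ i, M0 (s + lap (θ i) ::ₘ lap (θ i) ::ₘ s) = K * M0 (s + s) := fun i => by
      rw [add_comm, a1]
    have a3 : ∀ i j, M0 (lap (θ i) ::ₘ lap (θ i) ::ₘ s + lap (θ j) ::ₘ lap (θ j) ::ₘ s) =
        K ^ 2 * M0 (s + s) + if i = j then 2 * K ^ 2 * M0 (s + s) else 0 := fun i j => by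
      split_ifs with h
      · have := rep_val hG.1 hss (h1 j).1 (h1 j).2 (h0 j) 2
        rw [hG.2 2 _ hss] at this
        rw [h]
        refine Eq.trans (congrArg _ ?_) (this.trans ?_)
        · simp only [Multiset.replicate_succ, Multiset.replicate_zero, Multiset.cons_add,
            Multiset.add_cons, zero_add]
        · norm_num [Nat.doubleFactorial]
          ring
      · have := prs_val hG.1 hss θ {i, j} (fun k _ => h1 k) (fun k _ l _ => h3 k l) fun k _ => h0 k
        rw [Finset.card_pair h, hG.2 2 _ hss] at this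
        rw [add_zero]
        refine Eq.trans (congrArg _ ?_) this
        unfold prs
        rw [Finset.insert_val_of_notMem (by simpa using h)]
        simp only [Finset.singleton_val, Multiset.map_add, Multiset.map_singleton,
          ← Multiset.singleton_add]
        abel
    have h4 := hD (m + 1 + 1) (Fin.cons (-K) fun _ => 1 / (m + 1))
      (Fin.cons s fun i : Fin (m + 1) => lap (θ i) ::ₘ lap (θ i) ::ₘ s) (Fin.cases hs ht)
    simp only [Fin.sum_univ_succ (n := m + 1), Fin.cons_zero,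
      Fin.cons_succ, a0, a1, a2, a3, mul_add, Finset.sum_add_distrib,
      mul_ite, mul_zero, Finset.sum_ite_eq, Finset.mem_univ, if_true, Finset.sum_const,
      Finset.card_univ, Fintype.card_fin, nsmul_eq_mul] at h4
    have hm : (0 : ℝ) < m + 1 := by positivity
    refine (le_of_eq ?_).trans (h4.trans_eq ?_)
    · push_cast
      field_simp
      ring
    · push_cast
      field_simp
      ring
  linarith

end Vale.Agent.P145.Ib
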