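import Vale.Agent.P145.IDefs
import Vale.Agent.P152.Bas

/-! P145, block I: elementary facts. -/

open Filter Topology

namespace Vale.Agent.P145.Ib

open Vale.Agent.P152

section ob

variable {U V : Set Pt} {F G : Ht → ℝ} {g g' : Pt → Pt}

theorem Ob.mono (h : Ob U F) (hU : U ⊆ V) : Ob V F :=
  ⟨h.1, h.2.imp fun _ k => ⟨fun p hp => hU (k.1 p hp), k.2⟩⟩

theorem Ob.univ (h : Ob U F) : Ob Set.univ F := h.mono (Set.subset_univ _)

theorem Ob.const (U : Set Pt) (a : ℝ) : Ob U fun _ => a :=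
  ⟨fun _ => rfl, ∅, fun _ h => absurd h (Finset.notMem_empty _), fun _ _ _ => rfl⟩

theorem Ob.comp₂ (h : Ob U F) (h' : Ob U G) (φ : ℝ → ℝ → ℝ) : Ob U fun k => φ (F k) (G k) := by
  obtain ⟨h1, A, h2, h3⟩ := h
  obtain ⟨k1, B, k2, k3⟩ := h'
  refine ⟨fun k => congrArg₂ φ (h1 k) (k1 k), A ∪ B, fun p hp => (Finset.mem_union.1 hp).elim (h2 p) (k2 p),
    fun k k' e => ?_⟩
  exact congrArg₂ φ (h3 k k' fun p hp => e p (Finset.mem_union_left _ hp))
    (k3 k k' fun p hp => e p (Finset.mem_union_right _ hp))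

theorem Ob.comp (h : Ob U F) (φ : ℝ → ℝ) : Ob U fun k => φ (F k) := h.comp₂ h fun x _ => φ x
theorem Ob.one (U : Set Pt) : Ob U 1 := Ob.const U 1
theorem Ob.zero (U : Set Pt) : Ob U 0 := Ob.const U 0
theorem Ob.add (h : Ob U F) (h' : Ob U G) : Ob U (F + G) := h.comp₂ h' (· + ·)
theorem Ob.sub (h : Ob U F) (h' : Ob U G) : Ob U (F - G) := h.comp₂ h' (· - ·)
theorem Ob.mul (h : Ob U F) (h' : Ob U G) : Ob U (F * G) := h.comp₂ h' (· * ·)
theorem Ob.neg (h : Ob U F) : Ob U (-F) := h.comp fun x => -x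
theorem Ob.smul (h : Ob U F) (a : ℝ) : Ob U (a • F) := h.comp fun x => a * x
theorem Ob.pow (h : Ob U F) (k : ℕ) : Ob U (F ^ k) := h.comp fun x => x ^ k

theorem Ob.sum {ι : Type*} (s : Finset ι) {F : ι → Ht → ℝ} (h : ∀ i ∈ s, Ob U (F i)) :
    Ob U (∑ i ∈ s, F i) := Finset.sum_induction F (Ob U) (fun _ _ => Ob.add) (Ob.zero U) h

theorem Ob.prod {ι : Type*} (s : Finset ι) {F : ι → Ht → ℝ} (h : ∀ i ∈ s, Ob U (F i)) :
    Ob U (∏ i ∈ s, F i) := Finset.prod_induction F (Ob U) (fun _ _ => Ob.mul) (Ob.one U) h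

theorem Ob.hmv (h : Ob U F) (g : Pt → Pt) (hg : ∀ p ∈ U, g p ∈ V) : Ob V (hmv g F) := by
  obtain ⟨h1, A, h2, h3⟩ := h
  refine ⟨fun k => h1 (k ∘ g), A.image g, fun p hp => ?_, fun k k' e => h3 _ _ fun p hp =>
    e _ (Finset.mem_image_of_mem g hp)⟩
  obtain ⟨q, hq, rfl⟩ := Finset.mem_image.1 hp
  exact hg q (h2 q hq)

theorem Ob.hmvu (h : Ob U F) (g : Pt → Pt) : Ob Set.univ (Ib.hmv g F) :=
  h.hmv g fun _ _ => trivial

theorem hsh_hsh (a b : ℤ) (h : Ht) : hsh a (hsh b h) = hsh (b + a) h := by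
  funext p; simp [hsh, add_assoc]

theorem hsh_zero (h : Ht) : hsh 0 h = h := by funext p; simp [hsh]

theorem hsh_comp (a : ℤ) (h : Ht) (g : Pt → Pt) : hsh a h ∘ g = hsh a (h ∘ g) := rfl

/-- invariance under all multiples of four -/
theorem Ob.per (hF : Ob U F) (k : ℤ) (h : Ht) : F (hsh (4 * k) h) = F h := by
  induction k with
  | zero => rw [mul_zero, hsh_zero]
  | succ n ih => rw [mul_add, mul_one, ← hsh_hsh, hF.1, ih]
  | pred n ih => rw [← hF.1, hsh_hsh, show 4 * (-(n : ℤ) - 1) + 4 = 4 * -(n : ℤ) by ring, ih]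

/-- the average is invariant under even shifts -/
theorem Ob.av_even (hF : Ob U F) {k : ℤ} (hk : Even k) (h : Ht) : av F (hsh k h) = av F h := by
  obtain ⟨j, rfl⟩ := hk
  rcases Int.even_or_odd' j with ⟨i, rfl | rfl⟩
  · rw [av, av, hsh_hsh, show 2 * i + 2 * i = 4 * i by ring, hF.per,
      show 4 * i + 2 = 2 + 4 * i by ring, ← hsh_hsh, hF.per]
  · rw [av, av, hsh_hsh, show 2 * i + 1 + (2 * i + 1) = 2 + 4 * i by ring,
      show 2 + 4 * i + 2 = 4 * (i + 1) by ring, hF.per, ← hsh_hsh, hF.per, add_comm]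

theorem Ob.sh (hF : Ob U F) (a : ℤ) : Ob U fun h => F (hsh a h) := by
  obtain ⟨h1, A, h2, h3⟩ := hF
  refine ⟨fun k => ?_, A, h2, fun k k' e => h3 _ _ fun p hp => ?_⟩
  · beta_reduce
    rw [hsh_hsh, add_comm, ← hsh_hsh, h1]
  · simp only [hsh, e p hp]

theorem hmv_mul : hmv g (F * G) = hmv g F * hmv g G := rfl
theorem hmv_add : hmv g (F + G) = hmv g F + hmv g G := rfl
theorem hmv_sub : hmv g (F - G) = hmv g F - hmv g G := rfl
theorem hmv_smul (a : ℝ) : hmv g (a • F) = a • hmv g F := rfl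
theorem hmv_pow (k : ℕ) : hmv g (F ^ k) = hmv g F ^ k := rfl
theorem hmv_hmv : hmv g (hmv g' F) = hmv (g ∘ g') F := rfl
theorem hmv_id : hmv id F = F := rfl

theorem hmv_prod {ι : Type*} (s : Finset ι) (F : ι → Ht → ℝ) :
    hmv g (∏ i ∈ s, F i) = ∏ i ∈ s, hmv g (F i) := by
  funext h; simp [hmv]

theorem hmv_sum {ι : Type*} (s : Finset ι) (F : ι → Ht → ℝ) :
    hmv g (∑ i ∈ s, F i) = ∑ i ∈ s, hmv g (F i) := by
  funext h; simp [hmv]

end ob

theorem trp_trp (s t : Site) (p : Pt) : trp s (trp t p) = trp (s + t) p := by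
  simp only [trp, add_assoc, add_comm s t]

theorem trp_comp (s t : Site) : trp s ∘ trp t = trp (s + t) := funext (trp_trp s t)
theorem trp_zero : trp 0 = id := by funext p; simp [trp]

theorem flp_flp (p : Pt) : flp (flp p) = p := by
  obtain ⟨⟨x, y⟩, b⟩ := p
  cases b <;> simp [flp]

theorem fop_fop (p : Pt) : fop (fop p) = p := by
  obtain ⟨⟨x, y⟩, b⟩ := p
  cases b <;> simp [fop]

theorem swp_swp (p : Pt) : swp (swp p) = p := rfl

theorem fop_eq : fop = trp (1, 0) ∘ flp := by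
  funext p
  obtain ⟨⟨x, y⟩, b⟩ := p
  cases b <;> simp [fop, flp, trp] <;> ring

theorem sy2_fop : Sy2 fop := fop_eq ▸ (Sy2.tr _).comp Sy2.fl

theorem rpos_trp (s : Site) (p : Pt) :
    rpos (trp s p) = ((rpos p).1 + 2 * s.1, (rpos p).2 + 2 * s.2) := by
  obtain ⟨⟨x, y⟩, b⟩ := p
  cases b <;> simp [rpos, trp] <;> constructor <;> ring

theorem rpos_flp (p : Pt) : rpos (flp p) = (-(rpos p).1, (rpos p).2) := by
  obtain ⟨⟨x, y⟩, b⟩ := p
  cases b <;> simp [rpos, flp]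
  ring

theorem rpos_fop (p : Pt) : rpos (fop p) = (2 - (rpos p).1, (rpos p).2) := by
  obtain ⟨⟨x, y⟩, b⟩ := p
  cases b <;> simp [rpos, fop] <;> ring

theorem rpos_swp (p : Pt) : rpos (swp p) = ((rpos p).2, (rpos p).1) := by
  obtain ⟨⟨x, y⟩, b⟩ := p
  cases b <;> simp [rpos, swp]

theorem rpos_near (p : Pt) : 2 * p.1.1 ≤ (rpos p).1 ∧ (rpos p).1 ≤ 2 * p.1.1 + 1 ∧
    2 * p.1.2 ≤ (rpos p).2 ∧ (rpos p).2 ≤ 2 * p.1.2 + 1 := by
  obtain ⟨⟨x, y⟩, b⟩ := p
  cases b <;> simp [rpos]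

theorem rpos_cell (e : Site) (p : Pt) (hp : p = (pvx e, true) ∨ p = (plq e, false)) :
    e.1 ≤ (rpos p).1 ∧ (rpos p).1 ≤ e.1 + 1 ∧ e.2 ≤ (rpos p).2 ∧ (rpos p).2 ≤ e.2 + 1 := by
  rcases hp with rfl | rfl <;> simp only [rpos, pvx, plq, if_true, Bool.false_eq_true, if_false] <;>
    omega

/-- the point map `g` and the cell map `gc` match -/
def Mt (g : Pt → Pt) (gc : Site → Site) : Prop :=
  ∀ e, g (pvx e, true) = (pvx (gc e), true) ∧ g (plq e, false) = (plq (gc e), false)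

theorem mt_tr (s : Site) : Mt (trp s) (trc s) := fun e => by
  simp only [trp, trc, pvx, plq, Prod.ext_iff, Prod.fst_add, Prod.snd_add, and_true]
  omega

theorem mt_fl : Mt flp flc := fun e => by
  simp only [flp, flc, pvx, plq, Prod.ext_iff, and_true, if_true, Bool.false_eq_true, if_false]
  omega

theorem mt_fo : Mt fop foc := fun e => by
  simp only [fop, foc, pvx, plq, Prod.ext_iff, and_true, if_true, Bool.false_eq_true, if_false]
  omega

theorem mt_sw : Mt swp swc := fun _ => ⟨rfl, rfl⟩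

theorem Mt.lgs {g : Pt → Pt} {gc : Site → Site} (h : Mt g gc) {gl : Leg → Leg}
    (hl : ∀ l, (gl l).1 = gc l.1) (k : Ht) : lgs (k ∘ g) = lgs k ∘ gl := by
  funext l
  simp only [Ib.lgs, Function.comp_apply, (h l.1).1, (h l.1).2, hl]

theorem lgs_tr (s : Site) (k : Ht) : lgs (k ∘ trp s) = lgs k ∘ trl s := (mt_tr s).lgs (fun _ => rfl) k
theorem lgs_fl (k : Ht) : lgs (k ∘ flp) = lgs k ∘ fll := mt_fl.lgs (fun _ => rfl) k
theorem lgs_fo (k : Ht) : lgs (k ∘ fop) = lgs k ∘ fol := mt_fo.lgs (fun _ => rfl) k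
theorem lgs_sw (k : Ht) : lgs (k ∘ swp) = lgs k ∘ swl := mt_sw.lgs (fun _ => rfl) k

theorem lgs_hsh (a : ℤ) (h : Ht) : lgs (hsh a h) = lgs h := by
  funext l; simp [lgs, hsh]

theorem Mt.isG {g : Pt → Pt} {gc : Site → Site} (h : Mt g gc) {k : Ht} (hk : IsG k) :
    IsG (k ∘ g) := by
  refine ⟨fun v => ?_, fun e => ?_⟩
  · have e : v = pvx (2 * v.1, 2 * v.2) := by
      simp only [pvx, Prod.ext_iff]
      omega
    rw [e, Function.comp_apply, (h _).1]
    exact hk.1 _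
  · simp only [Function.comp_apply, (h e).1, (h e).2]
    exact hk.2 _

theorem IsG.hsh {h : Ht} (hh : IsG h) {a : ℤ} (ha : Even a) : IsG (hsh a h) :=
  ⟨fun v => (hh.1 v).add ha, fun e => by simpa only [Ib.hsh, add_sub_add_right_eq_sub] using hh.2 e⟩

theorem IsG.odd {h : Ht} (hh : IsG h) (f : Site) : Odd (h (f, false)) := by
  have e : plq (2 * f.1, 2 * f.2) = f := by
    simp only [plq, Prod.ext_iff]
    omega
  have h1 := hh.2 (2 * f.1, 2 * f.2)
  have h2 := hh.1 (pvx (2 * f.1, 2 * f.2))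
  rw [e, abs_eq (by norm_num)] at h1
  rw [Int.even_iff] at h2
  rw [Int.odd_iff]
  omega

/-- every point symmetry has a leg symmetry -/
theorem Sy2.legs {g : Pt → Pt} (h : Sy2 g) :
    ∃ gc gl, Sy gc gl ∧ Mt g gc ∧ ∀ l, (gl l).1 = gc l.1 := by
  induction h with
  | tr s => exact ⟨_, _, .tr s, mt_tr s, fun _ => rfl⟩
  | fl => exact ⟨_, _, .fl, mt_fl, fun _ => rfl⟩
  | sw => exact ⟨_, _, .sw, mt_sw, fun _ => rfl⟩
  | comp _ _ h1 h2 =>
    obtain ⟨gc, gl, a1, a2, a3⟩ := h1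
    obtain ⟨hc, hl, b1, b2, b3⟩ := h2
    exact ⟨_, _, a1.comp b1, fun e => by
      simp only [Function.comp_apply, (b2 e).1, (b2 e).2, (a2 _).1, (a2 _).2, and_self],
      fun l => by simp only [Function.comp_apply, a3, b3]⟩

/-- a local function of the legs is an observable -/
theorem ob_lgs {W : Set Site} {G : Cfg → ℝ} (hG : LocIn W G) {U : Set Pt}
    (hU : ∀ e ∈ W, (pvx e, true) ∈ U ∧ (plq e, false) ∈ U) : Ob U (G ∘ lgs) := by
  obtain ⟨A, h1, h2⟩ := hG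
  refine ⟨fun h => by simp only [Function.comp_apply, lgs_hsh],
    A.image (fun l => (pvx l.1, true)) ∪ A.image fun l => (plq l.1, false), fun p hp => ?_,
    fun h h' e => h2 _ _ fun l hl => ?_⟩
  · rcases Finset.mem_union.1 hp with hp | hp <;> obtain ⟨l, hl, rfl⟩ := Finset.mem_image.1 hp
    · exact (hU _ (h1 l hl)).1
    · exact (hU _ (h1 l hl)).2
  · simp only [lgs]
    rw [e _ (Finset.mem_union_left _ (Finset.mem_image_of_mem (fun l : Leg => (pvx l.1, true)) hl)),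
      e _ (Finset.mem_union_right _ (Finset.mem_image_of_mem (fun l : Leg => (plq l.1, false)) hl))]

theorem ob_lgsu {G : Cfg → ℝ} (hG : Loc G) : Ob Set.univ (G ∘ lgs) :=
  ob_lgs hG.locIn fun _ _ => ⟨trivial, trivial⟩

/-- multiplication by a function of the legs -/
theorem Rp.mul {F : Ht → ℝ} {w G : Cfg → ℝ} (h : Rp F w) (hG : Loc G) :
    Rp (F * G ∘ lgs) (w * G) :=
  ⟨h.1.mul hG, fun k hk => by
    simp only [av, Pi.mul_apply, Function.comp_apply, lgs_hsh, h.2 k hk]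
    ring⟩

theorem XH_hsh (g : Vx →₀ ℝ) (a : ℤ) (h : Ht) : XH g (hsh a h) = XH g h := by
  simp [XH, hsh]

namespace S0

variable {S : HF} (h : S0 S) {F G : Ht → ℝ}
include h

theorem zero : S 0 = 0 := by simpa using h.smul 0 0 (Ob.zero _)

theorem sub (hF : Ob Set.univ F) (hG : Ob Set.univ G) : S (F - G) = S F - S G := by
  have := h.add (F - G) G (hF.sub hG) hG
  rw [sub_add_cancel] at this
  linarith

theorem sum {ι : Type*} (s : Finset ι) {F : ι → Ht → ℝ} (hF : ∀ i ∈ s, Ob Set.univ (F i)) :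
    S (∑ i ∈ s, F i) = ∑ i ∈ s, S (F i) := by
  classical
  induction s using Finset.induction_on with
  | empty => simpa using h.zero
  | insert i s hi ih =>
    have k : ∀ j ∈ s, Ob Set.univ (F j) := fun j hj => hF j (Finset.mem_insert_of_mem hj)
    rw [Finset.sum_insert hi, Finset.sum_insert hi,
      h.add _ _ (hF i (Finset.mem_insert_self i s)) (Ob.sum s k), ih k]

theorem mono (hF : Ob Set.univ F) (hG : Ob Set.univ G) (e : ∀ k, IsG k → F k ≤ G k) :
    S F ≤ S G := by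
  have := h.pos _ (hG.sub hF) fun k hk => sub_nonneg.2 (e k hk)
  rw [h.sub hG hF] at this
  linarith

theorem congr (hF : Ob Set.univ F) (hG : Ob Set.univ G) (e : ∀ k, IsG k → F k = G k) :
    S F = S G :=
  le_antisymm (h.mono hF hG fun k hk => (e k hk).le) (h.mono hG hF fun k hk => (e k hk).ge)

theorem const (a : ℝ) : S (fun _ => a) = a := by
  have := h.smul a 1 (Ob.one _)
  rw [h.one, mul_one] at this
  rwa [show (fun _ => a) = a • (1 : Ht → ℝ) from funext fun k => by simp]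

theorem abs_le (hF : Ob Set.univ F) (hG : Ob Set.univ G) (e : ∀ k, IsG k → |F k| ≤ G k) :
    |S F| ≤ S G := by
  refine _root_.abs_le.2 ⟨?_, h.mono hF hG fun k hk => (_root_.abs_le.1 (e k hk)).2⟩
  have h1 := h.mono hG.neg hF fun k hk => (_root_.abs_le.1 (e k hk)).1
  have h2 := h.smul (-1) G hG
  rw [neg_one_smul, neg_one_mul] at h2
  rwa [h2] at h1

theorem sq_nonneg (hF : Ob Set.univ F) : 0 ≤ S (F ^ 2) :=
  h.pos _ (hF.pow 2) fun k _ => _root_.sq_nonneg (F k)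

theorem abs_mul (hF : Ob Set.univ F) (hG : Ob Set.univ G) :
    |S (F * G)| ≤ (S (F ^ 2) + S (G ^ 2)) / 2 := by
  have h1 := h.abs_le (hF.mul hG) (((hF.pow 2).add (hG.pow 2)).smul (1 / 2)) fun k _ => by
    simp only [Pi.mul_apply, Pi.smul_apply, Pi.add_apply, Pi.pow_apply, smul_eq_mul]
    refine _root_.abs_le.2 ⟨?_, ?_⟩ <;> nlinarith [_root_.sq_nonneg (F k + G k),
      _root_.sq_nonneg (F k - G k)]
  rw [h.smul _ _ ((hF.pow 2).add (hG.pow 2)), h.add _ _ (hF.pow 2) (hG.pow 2)] at h1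
  linarith

end S0

end Vale.Agent.P145.Ib
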