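import Vale.Agent.P152.EDefs
import Vale.Agent.P152.FDefs
import Vale.Agent.P152.NFDefs

/-! P145, block I (the field inside is independent of a dashed wall): objects and steps. -/

open Filter Topology

namespace Vale.Agent.P145.Ib

open Vale.Agent.P152

/-! ### Observables of the height modulo four -/

/-- a primal vertex if the flag is true, a plaquette if it is false -/
abbrev Pt := Site × Bool

/-- refined position -/
def rpos (p : Pt) : Site :=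
  if p.2 then (2 * p.1.1, 2 * p.1.2) else (2 * p.1.1 + 1, 2 * p.1.2 + 1)

def trp (s : Site) (p : Pt) : Pt := (p.1 + s, p.2)
def flp (p : Pt) : Pt := if p.2 then ((-p.1.1, p.1.2), true) else ((-1 - p.1.1, p.1.2), false)
def fop (p : Pt) : Pt := if p.2 then ((1 - p.1.1, p.1.2), true) else ((-p.1.1, p.1.2), false)
def swp (p : Pt) : Pt := ((p.1.2, p.1.1), p.2)

/-- `hmv g F` depends on the image under `g` of the points `F` depends on -/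
def hmv (g : Pt → Pt) (F : Ht → ℝ) : Ht → ℝ := fun h => F (h ∘ g)

/-- global shift -/
def hsh (k : ℤ) (h : Ht) : Ht := fun p => h p + k

/-- local functions of the heights at points of `U`, invariant under the shift by four -/
def Ob (U : Set Pt) (F : Ht → ℝ) : Prop :=
  (∀ h, F (hsh 4 h) = F h) ∧
    ∃ A : Finset Pt, (∀ p ∈ A, p ∈ U) ∧ ∀ h h' : Ht, (∀ p ∈ A, h p = h' p) → F h = F h'

/-- height functions on the whole plane -/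
def IsG (h : Ht) : Prop :=
  (∀ v, Even (h (v, true))) ∧ ∀ e, |h (plq e, false) - h (pvx e, true)| = 1

/-- the legs of a height function -/
def lgs (h : Ht) : Cfg := fun l => decide (h (pvx l.1, true) < h (plq l.1, false))

/-- average over the two classes modulo four -/
noncomputable def av (F : Ht → ℝ) (h : Ht) : ℝ := (F h + F (hsh 2 h)) / 2

/-- the leg function `G` represents the average of `F` -/
def Rp (F : Ht → ℝ) (G : Cfg → ℝ) : Prop := Loc G ∧ ∀ h, IsG h → G (lgs h) = av F h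

open Classical in
/-- the symmetric spin state -/
noncomputable def SS (E : Fn) (F : Ht → ℝ) : ℝ := if h : ∃ G, Rp F G then E ∅ h.choose else 0

/-- smeared increments as a function of the heights -/
noncomputable def XH (g : Vx →₀ ℝ) (h : Ht) : ℝ :=
  g.sum fun m a => a * ((h (tgt m, true) : ℝ) - h (src m, true))

abbrev HF := (Ht → ℝ) → ℝ

/-- lattice symmetries -/
inductive Sy2 : (Pt → Pt) → Prop
  | tr (s : Site) : Sy2 (trp s)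
  | fl : Sy2 flp
  | sw : Sy2 swp
  | comp {g g' : Pt → Pt} : Sy2 g → Sy2 g' → Sy2 (g ∘ g')

/-- reflection positivity -/
def RP1 (S : HF) (g : Pt → Pt) (U : Set Pt) : Prop := ∀ F, Ob U F → 0 ≤ S (hmv g F * F)

/-- elementary properties of a state on observables -/
structure S0 (S : HF) : Prop where
  add : ∀ F G, Ob Set.univ F → Ob Set.univ G → S (F + G) = S F + S G
  smul : ∀ (a : ℝ) F, Ob Set.univ F → S (a • F) = a * S F
  pos : ∀ F, Ob Set.univ F → (∀ h, IsG h → 0 ≤ F h) → 0 ≤ S F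
  one : S 1 = 1
  inv : ∀ g, Sy2 g → ∀ F, Ob Set.univ F → S (hmv g F) = S F
  sh : ∀ F, Ob Set.univ F → S (fun h => F (hsh 2 h)) = S F
  ng : ∀ F, Ob Set.univ F → S (fun h => F (-h)) = S F

/-- with the three reflections -/
structure S1 (S : HF) : Prop extends S0 S where
  rpf : RP1 S flp {p | 0 ≤ (rpos p).1}
  rpo : RP1 S fop {p | 1 ≤ (rpos p).1}
  rps : RP1 S swp {p | (rpos p).2 ≤ (rpos p).1}

/-- the difference of the heights at `p` and `q` is determined by legs of cells in `U` -/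
def Det (U : Set Site) (p q : Pt) : Prop :=
  ∃ A : Finset Site, (∀ e ∈ A, e ∈ U) ∧ ∀ h h' : Ht, IsG h → IsG h' →
    (∀ e ∈ A, lgs h (e, true) = lgs h' (e, true)) → h p - h q = h' p - h' q

/-- geometry of heights and legs -/
structure Geo : Prop where
  valid : ∀ h, IsG h → Valid ∅ (lgs h)
  surj : ∀ ζ, Valid ∅ ζ → ∃ h, IsG h ∧ lgs h = ζ
  xh : ∀ g h, IsG h → XX g (lgs h) = XH g h
  detu : ∀ p, Det Set.univ p ((0, 0), true)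
  detf : ∀ p, 0 ≤ (rpos p).1 → Det {e | 0 ≤ e.1} p ((0, 0), true)
  deto : ∀ p, 1 ≤ (rpos p).1 → Det {e | 1 ≤ e.1} p ((0, 0), false)
  dets : ∀ p, (rpos p).2 ≤ (rpos p).1 → Det {e | e.2 < e.1} p ((0, 0), true)

/-- representation of the state -/
structure RepF (E : Fn) : Prop where
  ex : ∀ F, Ob Set.univ F → ∃ G, Rp F G ∧ ∀ B, (∀ h, |F h| ≤ B) → ∀ ζ, |G ζ| ≤ B
  eq : ∀ F G, Rp F G → SS E F = E ∅ G
  lnk : ∀ G, Loc G → SS E (G ∘ lgs) = E ∅ G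

def GeoSt : Prop := Geo
def RepSt : Prop := ∀ E : Fn, St0 E → RepF E
def S0St : Prop := ∀ E : Fn, St0 E → S0 (SS E)
def S1St : Prop := ∀ E : Fn, St E → S1 (SS E)

/-- the state is the limit of the average of the two boundary conditions -/
def FinSt : Prop := ∀ c : ℝ, 1 < c → Conv c → St0 (EE c) → ∀ F, Ob Set.univ F →
  Tendsto (fun ab => PH c (bx ab) (av F)) exh (𝓝 (SS (EE c) F))

/-! ### Moves -/

/-- reflection data -/
structure RD2 (S : HF) (lam : Pt → ℤ) (e : Site) (g : Pt → Pt) : Prop where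
  sy : Sy2 g
  inv : ∀ p, g (g p) = p
  pos : RP1 S g {p | 1 ≤ lam p}
  rev : ∀ (k : ℤ) p, trp (k • e) (g (trp (k • e) p)) = g p
  refl : ∀ p, lam (g p) = -lam p
  up : ∀ (k : ℤ) p, 0 ≤ k → lam p ≤ lam (trp (k • e) p) ∧ lam (trp (k • e) p) ≤ lam p + 4 * k
  sh : ∀ c : ℤ, ∃ s, ∀ p, lam (trp s p) = lam p - 2 * c

def RD2St : Prop := ∀ S, S1 S → ∀ lam e, Dir3 lam e → ∃ g, RD2 S (lam ∘ rpos) e g

/-- Cauchy-Schwarz for a reflection -/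
def CS2St : Prop := ∀ (S : HF) (g : Pt → Pt) (U : Set Pt), S0 S → Sy2 g → (∀ p, g (g p) = p) →
  RP1 S g U → ∀ F G, Ob U F → Ob U G →
  S (hmv g F * G) ^ 2 ≤ S (hmv g F * F) * S (hmv g G * G) ∧ S (hmv g F * F) ≤ S (F ^ 2)

/-- one move -/
def Move2St : Prop := ∀ (S : HF) (lam : Pt → ℤ) (e : Site) (g : Pt → Pt), S0 S → RD2 S lam e g →
  ∀ (A B : ℕ → Ht → ℝ) (h : ℕ → ℕ) (c : ℕ → ℤ) (K : ℝ) (m0 : ℕ),
  (∀ᶠ n in atTop, 1 ≤ h n ∧ Ob {p | lam p ≤ 2 * c n - 4 * h n - 1} (A n) ∧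
    Ob {p | 2 * c n + 12 * h n + 1 ≤ lam p} (B n) ∧ S (A n ^ 2) ≤ K ∧ S (B n ^ 2) ≤ K) →
  (∀ m : ℕ, m0 ≤ m →
    Tendsto (fun n => S (A n * hmv (trp ((2 * (h n : ℤ) * m) • e)) (B n))) atTop (𝓝 0)) →
  Tendsto (fun n => S (A n * B n)) atTop (𝓝 0)

/-- the box from `lo` to `hi` -/
def InB (lo hi x : Site) : Prop := lo.1 ≤ x.1 ∧ x.1 ≤ hi.1 ∧ lo.2 ≤ x.2 ∧ x.2 ≤ hi.2

/-- the box lies above the upper window, below the lower window, or in the row between the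
windows and then far to the right or far to the left of `t` -/
def Cls (t : Site) (Y1 Y2 W : ℤ) (lo hi : Site) : Prop :=
  lo.1 ≤ hi.1 ∧ lo.2 ≤ hi.2 ∧ (t.2 + Y1 + W ≤ lo.2 ∨ hi.2 ≤ t.2 - Y2 - W ∨
    (t.2 - Y2 ≤ lo.2 ∧ hi.2 ≤ t.2 + Y1 ∧
      (t.1 + t.2 + W ≤ lo.1 + lo.2 ∨ hi.1 + hi.2 ≤ t.1 + t.2 - W)))

/-- `k + 1` points and a family of boxes in good position -/
structure Pos (k : ℕ) (κ : Type) (c : ℤ) (lo hi : Fin (k + 1) ⊕ κ → Site) : Prop where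
  pt : ∀ i, hi (.inl i) = lo (.inl i)
  far : ∀ i, i ≠ 0 → 2 * ((k + 1) * c) ≤ sd (lo (.inl i)) (lo (.inl 0))
  cls : ∃ Y1 Y2 : ℤ, 0 ≤ Y1 ∧ 0 ≤ Y2 ∧
    ∀ j, Cls (lo (.inl 0)) Y1 Y2 ((k + 1) * c) (lo (.inr j)) (hi (.inr j))

/-- combinatorics of the moves; `p` are the offsets of the pieces -/
def Comb2St : Prop := ∀ (k : ℕ) (κ : Type) [Fintype κ] [DecidableEq κ] (c : ℤ)
  (lo hi : Fin (k + 1) ⊕ κ → Site) (Null : (Fin (k + 1) ⊕ κ → Site) → Prop), 0 < c →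
  Pos k κ c lo hi → (∀ p s, Null p → Null fun i => p i + s) →
  (∀ p, (∀ i, i ≠ .inl 0 → (hi i + p i).1 + c ≤ (lo (.inl 0) + p (.inl 0)).1) → Null p) →
  (∀ lam e, Dir3 lam e → ∀ (p : Fin (k + 1) ⊕ κ → Site) (T : Finset (Fin (k + 1) ⊕ κ)) (a : ℤ),
    (∀ i ∉ T, ∀ x, InB (lo i) (hi i) x → lam (x + p i) ≤ a) →
    (∀ i ∈ T, ∀ x, InB (lo i) (hi i) x → a + c ≤ lam (x + p i)) →
    (∃ m0 : ℕ, ∀ m : ℕ, m0 ≤ m → Null fun i => if i ∈ T then p i + (m : ℤ) • e else p i) →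
    Null p) →
  Null 0

/-- the points near the rescaled box -/
def Reg (H : ℤ) (lo hi : Site) : Set Pt :=
  {p | ∃ x, InB lo hi x ∧ sd (rpos p) ((4 * H) • x) ≤ 8 * H}

/-- all moves -/
def All2St : Prop := ∀ S, S1 S → ∀ (k : ℕ) (κ : Type) [Fintype κ] [DecidableEq κ]
  (P : Fin (k + 1) ⊕ κ → ℕ → Ht → ℝ) (h : ℕ → ℕ) (lo hi : Fin (k + 1) ⊕ κ → Site) (C : ℝ),
  Pos k κ 13 lo hi →
  (∀ᶠ l in atTop, 1 ≤ h l ∧ ∀ i, Ob (Reg (h l) (lo i) (hi i)) (P i l) ∧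
    S (P i l ^ (2 * Fintype.card (Fin (k + 1) ⊕ κ))) ≤ C) →
  (∀ s : ℕ → Site, (∀ᶠ l in atTop, 12 * (h l : ℤ) ≤ 4 * h l * (lo (.inl 0)).1 + 2 * (s l).1) →
    Tendsto (fun l => S (hmv fop (hmv (trp (s l)) (P (.inl 0) l)) *
      hmv (trp (s l)) (P (.inl 0) l))) atTop (𝓝 0)) →
  Tendsto (fun l => S (∏ i, P i l)) atTop (𝓝 0)

/-! ### Walls -/

/-- a family of observables bounded by one, the `j`-th one lives in the box from `a j` to `b j`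
at mesh `δ` -/
def Wall {κ : Type} (a b : κ → Pl) (δ : ℝ) (ρ : κ → Ht → ℝ) : Prop :=
  ∀ j, (∀ h, |ρ j h| ≤ 1) ∧
    Ob {p | ((δ * p.1.1, δ * p.1.2) : Pl) ∈ Set.Icc (a j) (b j)} (ρ j)

/-- seen from `z` the boxes leave two horizontal windows of width `W` free, and the boxes between
the windows are beyond one of two diagonal windows -/
def Adm {κ : Type} (a b : κ → Pl) (W : ℝ) (z : Pl) : Prop :=
  ∃ Y1 Y2 : ℝ, 0 ≤ Y1 ∧ 0 ≤ Y2 ∧ ∀ j, a j ≤ b j ∧ (z.2 + Y1 + W ≤ (a j).2 ∨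
    (b j).2 ≤ z.2 - Y2 - W ∨ (z.2 - Y2 ≤ (a j).2 ∧ (b j).2 ≤ z.2 + Y1 ∧
      (z.1 + z.2 + W ≤ (a j).1 + (a j).2 ∨ (b j).1 + (b j).2 ≤ z.1 + z.2 - W)))

/-- the admissible region -/
def AdmV {κ : Type} (a b : κ → Pl) : Set Pl := {z | ∃ W > 0, Adm a b W z}

/-- localized null property with a wall -/
def Loc2St : Prop := ∀ E : Fn, St E → ∀ (r : ℝ) (k : ℕ) (η : Pl → ℝ) (g : Fin k → Bool → Pl → ℝ)
  (t : Fin (k + 1) → Site) (D : ℕ → ℝ) (κ : Type) [Fintype κ] (a b : κ → Pl) (W : ℝ) (z : Pl)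
  (ρ : ℕ → κ → Ht → ℝ), 0 < r → Scale D → Sm η → (∀ j e, Sm (g j e)) →
  tsupport η ⊆ Metric.closedBall ((r * (t 0).1, r * (t 0).2) : Pl) r →
  (∀ j e, tsupport (g j e) ⊆ Metric.closedBall ((r * (t j.succ).1, r * (t j.succ).2) : Pl) r) →
  (∀ i, i ≠ 0 → 2 * ((k + 1) * 13) ≤ sd (t i) (t 0)) →
  dist z ((r * (t 0).1, r * (t 0).2) : Pl) ≤ r → Adm a b W z → ((k + 1) * 13 + 6) * r ≤ W →
  (∀ᶠ l in atTop, Wall a b (D l) (ρ l)) →
  Tendsto (fun l => SS E ((∏ j, ρ l j) * (Xs (D l) (grd η) * ∏ j, Xs (D l) (g j)) ∘ lgs))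
    atTop (𝓝 0)

/-- weights bounded by one -/
def Wt (w : ℝ → Cfg → ℝ) : Prop := ∀ᶠ δ in 𝓝[>] (0 : ℝ), Loc (w δ) ∧ ∀ ζ, |w δ ζ| ≤ 1

/-- weighted null property in the region `V` -/
def E1W (E : Fn) (w : ℝ → Cfg → ℝ) (V : Set Pl) : Prop :=
  ∀ (η : Pl → ℝ) (k : ℕ) (g : Fin k → Bool → Pl → ℝ), Sm η → tsupport η ⊆ V →
    (∀ j e, Sm (g j e)) → (∀ j e, Disjoint (tsupport η) (tsupport (g j e))) →
    Tendsto (fun δ : ℝ => E ∅ (w δ * (Xs δ (grd η) * ∏ j, Xs δ (g j)))) (𝓝[>] 0) (𝓝 0)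

def One2St : Prop := ∀ E : Fn, St E → ∀ (κ : Type) [Fintype κ] (a b : κ → Pl)
  (ρ : ℝ → κ → Ht → ℝ) (w : ℝ → Cfg → ℝ),
  (∀ᶠ δ in 𝓝[>] (0 : ℝ), Wall a b δ (ρ δ) ∧ Rp (∏ j, ρ δ j) (w δ)) →
  IsOpen (AdmV a b) ∧ E1W E w (AdmV a b)

/-! ### Weighted limit functionals -/

/-- weighted limit moments along an ultrafilter -/
noncomputable def MW (E : Fn) (w : ℝ → Cfg → ℝ) (U : Ultrafilter ℝ) : Fun := fun s =>
  limUnder (U : Filter ℝ) fun δ => E ∅ (w δ * (s.map (Ys δ)).prod)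

/-- weak null property in `V` -/
structure Cl0V (V : Set Pl) (M : Fun) : Prop extends Cl1 M where
  null0 : ∀ (η : Pl → ℝ) (t : Multiset (Bool → Pl → ℝ)), Sm η → tsupport η ⊆ V →
    (∀ g ∈ t, SmV g) → (∀ g ∈ t, ∀ e, Disjoint (tsupport η) (tsupport (g e))) →
    M (lap η ::ₘ t.map dv) = 0

/-- strong null property in `V` -/
structure ClV (V : Set Pl) (M : Fun) : Prop extends Cl1 M where
  null : ∀ (η : Pl → ℝ) s, Sm η → tsupport η ⊆ V → Tests s →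
    (∀ h ∈ s, Disjoint (tsupport η) (tsupport h)) → M (lap η ::ₘ s) = 0

/-- `M` is dominated by `M0` -/
def Dom (M M0 : Fun) : Prop :=
  ∀ (n : ℕ) (a : Fin n → ℝ) (s : Fin n → Multiset (Pl → ℝ)), (∀ i, Tests (s i)) →
    (∑ i, a i * M (s i)) ^ 2 ≤ ∑ i, ∑ j, a i * a j * M0 (s i + s j)

/-- Gaussian functionals -/
def Gau (M0 : Fun) (K : ℝ) : Prop :=
  Cl M0 ∧ ∀ (n : ℕ) s, Tests s → (pr^[n] M0) s = K ^ n * M0 s

/-- the plane limit is Gaussian -/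
def GauE (E : Fn) (K : ℝ) : Prop :=
  ∀ U : Ultrafilter ℝ, (U : Filter ℝ) ≤ 𝓝[>] 0 → Gau (MU E U) K

def GauSt : Prop := ∀ (E : Fn) (K : ℝ), St E → KSpec E K → D3 E K → E1 E → GauE E K

def MWSt : Prop := ∀ (E : Fn) (w : ℝ → Cfg → ℝ) (U : Ultrafilter ℝ), St E → Wt w →
  (U : Filter ℝ) ≤ 𝓝[>] 0 →
  (∀ t : Multiset ((Pl → ℝ) × (ℝ → Vx →₀ ℝ)), (∀ p ∈ t, IsTest p.1 ∧ Apx p.1 p.2) →
    Tendsto (fun δ => E ∅ (w δ * (t.map fun p => XX (p.2 δ)).prod)) U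
      (𝓝 (MW E w U (t.map Prod.fst)))) ∧
  Dom (MW E w U) (MU E U) ∧ ∀ V, E1W E w V → Cl0V V (MW E w U)

/-- the two point structure near a rectangle -/
def W2St : Prop := (∀ V M, Cl0V V M → ClV V M) ∧
  ∀ (V : Set Pl) (M : Fun), ClV V M → ∀ s, Tests s → ∀ a b c d ρ : ℝ, 0 < ρ →
    rct a b c d ρ ⊆ V → (∀ h ∈ s, Disjoint (rct a b c d ρ) (tsupport h)) →
    ∃ α : ℝ, ∀ η f, Sm η → IsTest f → tsupport η ⊆ rct a b c d 0 → tsupport f ⊆ rct a b c d 0 →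
      M (lap η ::ₘ f ::ₘ s) = α * ip η f

/-- the constant is the Gaussian one -/
def AlSt : Prop := ∀ (M M0 : Fun) (K : ℝ), Dom M M0 → Gau M0 K → ∀ s, Tests s →
  ∀ a b c d α : ℝ, a < b → c < d → (∀ h ∈ s, Disjoint (rct a b c d 0) (tsupport h)) →
  (∀ η f, Sm η → IsTest f → tsupport η ⊆ rct a b c d 0 → tsupport f ⊆ rct a b c d 0 →
    M (lap η ::ₘ f ::ₘ s) = α * ip η f) → α = -(K * M s)

/-- the rule for one partner -/
def Rule (V : Set Pl) (M : Fun) (K : ℝ) : Prop :=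
  ∀ s, Tests s → ∀ (η f : Pl → ℝ) (w : Pl) (r : ℝ), Sm η → IsTest f → 0 < r →
    Metric.closedBall w (4 * r) ⊆ V → tsupport η ⊆ Metric.closedBall w (3 * r) →
    tsupport f ⊆ Metric.closedBall w (3 * r) →
    (∀ h ∈ s, Disjoint (Metric.closedBall w (4 * r)) (tsupport h)) →
    M (lap η ::ₘ f ::ₘ s) = -ip η f * (K * M s)

/-- integration by parts in `V` -/
def IbpSt : Prop := ∀ (V : Set Pl) (M : Fun) (K : ℝ), IsOpen V → ClV V M → Rule V M K →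
  ∀ (ι : Type) [DecidableEq ι] (S : Finset ι) (f : ι → Pl → ℝ) (η : Pl → ℝ),
    (∀ i ∈ S, IsTest (f i)) → Sm η → tsupport η ⊆ V →
    M (lap η ::ₘ S.val.map f) = ∑ j ∈ S, -ip η (f j) * (K * M ((S.erase j).val.map f))

/-- bounded norms -/
def Bd (G : ℝ → Vx →₀ ℝ) : Prop := ∃ M : ℝ, ∀ᶠ δ in 𝓝[>] (0 : ℝ), nsq (G δ) ≤ M

/-- from moments to exponentials -/
def SerSt : Prop := ∀ (E : Fn) (l : Filter ℝ) (A : ℝ → Cfg → ℝ) (G : ℝ → Vx →₀ ℝ) (C : ℝ)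
  (a : ℕ → ℝ), St E → l ≤ 𝓝[>] 0 → l.NeBot → Bd G →
  (∀ᶠ δ in 𝓝[>] (0 : ℝ), Loc (A δ) ∧ E ∅ (A δ ^ 2) ≤ C) →
  (∀ n : ℕ, Tendsto (fun δ => E ∅ (A δ * XX (G δ) ^ n)) l (𝓝 (a n))) →
  ∃ x, HasSum (fun n : ℕ => a n / n.factorial) x ∧
    Tendsto (fun δ => E ∅ (A δ * fun ζ => Real.exp (XX (G δ) ζ))) l (𝓝 x)

/-- differentiation of the limit of the Laplace transforms -/
def DerSt : Prop := ∀ (E : Fn) (w : ℝ → Cfg → ℝ) (U : Ultrafilter ℝ) (G H : ℝ → Vx →₀ ℝ),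
  St E → Wt w → (U : Filter ℝ) ≤ 𝓝[>] 0 → Bd G → Bd H → ∃ φ ψ : ℝ → ℝ, ∀ t,
  Tendsto (fun δ => E ∅ (w δ * fun ζ => Real.exp (XX (G δ + t • H δ) ζ))) U (𝓝 (φ t)) ∧
  Tendsto (fun δ => E ∅ (w δ * fun ζ => XX (H δ) ζ * Real.exp (XX (G δ + t • H δ) ζ))) U
    (𝓝 (ψ t)) ∧ HasDerivAt φ (ψ t) t

/-- Gaussian integration by parts with a weight -/
def I3 (E : Fn) (K : ℝ) (w : ℝ → Cfg → ℝ) (V : Set Pl) : Prop :=
  ∀ (η f : Pl → ℝ) (G H : ℝ → Vx →₀ ℝ), Sm η → tsupport η ⊆ V → IsTest f → Apx f G →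
    Apx (lap η) H → Tendsto (fun δ => E ∅ (w δ * fun ζ => XX (H δ) ζ * Real.exp (XX (G δ) ζ)) +
      K * ip η f * E ∅ (w δ * fun ζ => Real.exp (XX (G δ) ζ))) (𝓝[>] 0) (𝓝 0)

/-- the tilt -/
def I4 (E : Fn) (K : ℝ) (w : ℝ → Cfg → ℝ) (V : Set Pl) : Prop :=
  ∀ (η f : Pl → ℝ) (G H : ℝ → Vx →₀ ℝ), Sm η → tsupport η ⊆ V → IsTest f → Apx f G →
    Apx (lap η) H → Tendsto (fun δ => E ∅ (w δ * fun ζ => Real.exp (XX (G δ + H δ) ζ)) -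
      Real.exp (K * (en η / 2 - ip η f)) * E ∅ (w δ * fun ζ => Real.exp (XX (G δ) ζ)))
      (𝓝[>] 0) (𝓝 0)

/-- the mean under the tilt -/
def I2 (E : Fn) (K : ℝ) (w : ℝ → Cfg → ℝ) (V : Set Pl) : Prop :=
  ∀ (η f : Pl → ℝ) (G H : ℝ → Vx →₀ ℝ), Sm η → tsupport η ⊆ V → IsTest f → Apx f G →
    Apx (lap η) H → Tendsto (fun δ => E ∅ (w δ * fun ζ => XX (G δ) ζ * Real.exp (XX (H δ) ζ)) -
      Real.exp (K * (en η / 2)) * (E ∅ (w δ * XX (G δ)) - K * ip η f * E ∅ (w δ)))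
      (𝓝[>] 0) (𝓝 0)

def I3St : Prop := ∀ (E : Fn) (K : ℝ) (w : ℝ → Cfg → ℝ) (V : Set Pl), St E → GauE E K → Wt w →
  IsOpen V → E1W E w V → I3 E K w V

def I4St : Prop := ∀ (E : Fn) (K : ℝ) (w : ℝ → Cfg → ℝ) (V : Set Pl), St E → Wt w →
  I3 E K w V → I4 E K w V ∧ I2 E K w V

/-- the result of the block, uniformly in the wall -/
def Ind (E : Fn) (K : ℝ) : Prop :=
  ∀ (κ : Type) [Fintype κ] (a b : κ → Pl) (η f : Pl → ℝ) (G H : ℝ → Vx →₀ ℝ), Sm η →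
    tsupport η ⊆ AdmV a b → IsTest f → Apx f G → Apx (lap η) H → ∀ ε > 0,
    ∀ᶠ δ in 𝓝[>] (0 : ℝ), ∀ ρ : κ → Ht → ℝ, Wall a b δ ρ →
      |SS E ((∏ j, ρ j) * fun h => XH (H δ) h * Real.exp (XH (G δ) h)) +
        K * ip η f * SS E ((∏ j, ρ j) * fun h => Real.exp (XH (G δ) h))| ≤ ε ∧
      |SS E ((∏ j, ρ j) * fun h => Real.exp (XH (G δ + H δ) h)) -
        Real.exp (K * (en η / 2 - ip η f)) *
          SS E ((∏ j, ρ j) * fun h => Real.exp (XH (G δ) h))| ≤ ε ∧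
      |SS E ((∏ j, ρ j) * fun h => XH (G δ) h * Real.exp (XH (H δ) h)) -
        Real.exp (K * (en η / 2)) *
          (SS E ((∏ j, ρ j) * XH (G δ)) - K * ip η f * SS E (∏ j, ρ j))| ≤ ε

def IndSt : Prop := ∀ (E : Fn) (K : ℝ), St E → GauE E K → Ind E K

end Vale.Agent.P145.Ib
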