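import Vale.Agent.P145.IBas
import Vale.Agent.P145.Core

/-! P145, block I: link with the core. -/

open Filter Topology

namespace Vale.Agent.P145.Ib

open Vale.Agent.P152

/-- the open edges given by the heights and the marks `ξ` -/
def om (D : Finset Site) (h : Ht) (ξ : Finset Vx) : Finset Vx :=
  (vin D).filter fun m => h (src m, true) = h (tgt m, true) ∧
    (h (fa m, false) ≠ h (fb m, false) ∨ m ∈ ξ)

/-- the open edges are given by independent marks -/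
def MarkSt : Prop := ∀ (c : ℝ) (D : Finset Site) (F : Ht → Finset Vx → ℝ) (ε : ℝ), 1 ≤ c →
  (∀ ξ ⊆ vin D, |PH c D fun h => F h (om D h ξ)| ≤ ε) → |JH c D F| ≤ ε

/-- a fixed finite family of boxes contains all the pieces -/
def GrpSt : Prop := ∀ (T : Set Pl) (l w y0 R : ℝ), 0 < l → 0 < w →
  ∃ (κ : Type) (_ : Fintype κ) (a b : κ → Pl) (δ0 : ℝ), 0 < δ0 ∧ T ⊆ AdmV a b ∧
    ∀ δ, 0 < δ → δ ≤ δ0 → ∀ (B : Finset Vx) (z : Pl) (j : ℤ), ‖z‖ ≤ R →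
      (∀ p ∈ T, 20 * l ≤ dist z p) →
      (∀ m ∈ B, dist ((δ * m.1.1, δ * m.1.2) : Pl) z ≤ l ∧ y0 + j * l + w ≤ δ * m.1.2 ∧
        δ * m.1.2 ≤ y0 + (j + 1) * l - w) →
      ∃ k : κ, ∀ m ∈ B, ∀ x : Site, sd x m.1 ≤ 1 →
        ((δ * x.1, δ * x.2) : Pl) ∈ Set.Icc (a k) (b k)

end Vale.Agent.P145.Ib
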