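import Vale.Agent.P145.IBas
import Vale.Agent.P152.FMom

/-! P145, block I: from moments to exponentials, and differentiation of the limits. -/

open Filter Topology

namespace Vale.Agent.P145.Ib

open Vale.Agent.P152

variable {E : Fn} {G H : ℝ → Vx →₀ ℝ}

theorem ISer_add (hG : Bd G) (hH : Bd H) (a b : ℝ) : Bd fun δ => a • G δ + b • H δ := by
  obtain ⟨M, hM⟩ := hG
  obtain ⟨N, hN⟩ := hH
  refine ⟨2 * (a ^ 2 * M) + 2 * (b ^ 2 * N), ?_⟩
  filter_upwards [hM, hN] with δ h1 h2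
  refine (fnsq_add _ _).trans ?_
  rw [fnsq_smul, fnsq_smul]
  gcongr

theorem ISer_loc (g k : Vx →₀ ℝ) (a b : ℝ) :
    Loc fun ζ => Real.exp (a * XX g ζ + b * |XX k ζ|) :=
  (Loc.XX g).comp₂ (Loc.XX k) fun x y => Real.exp (a * x + b * |y|)

theorem ISer_bd (h : St E) (hG : Bd G) (hH : Bd H) (a b : ℝ) : ∃ B : ℝ, ∀ᶠ δ in 𝓝[>] (0 : ℝ),
    E ∅ (fun ζ => Real.exp (a * XX (G δ) ζ + b * |XX (H δ) ζ|)) ≤ B := by
  obtain ⟨C, hC, hg⟩ := h.gd
  obtain ⟨M, hM⟩ := ISer_add hG hH a b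
  obtain ⟨N, hN⟩ := ISer_add hG hH a (-b)
  refine ⟨Real.exp (C * M) + Real.exp (C * N), ?_⟩
  filter_upwards [hM, hN] with δ h1 h2
  have l1 : ∀ u, Loc fun ζ => Real.exp (XX u ζ) := fun u => (Loc.XX u).comp Real.exp
  refine (h.toSt0.mono ∅ (ISer_loc _ _ a b) ((l1 (a • G δ + b • H δ)).add
    (l1 (a • G δ + -b • H δ))) fun ζ _ => ?_).trans ?_
  · simp only [XX_add, XX_smul, Pi.add_apply, Pi.smul_apply, smul_eq_mul]
    rcases abs_choice (XX (H δ) ζ) with k | k <;> rw [k]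
    · exact le_add_of_nonneg_right (Real.exp_pos _).le
    · rw [mul_neg, neg_mul]
      exact le_add_of_nonneg_left (Real.exp_pos _).le
  · rw [h.add _ _ _ (l1 _) (l1 _)]
    exact add_le_add ((hg _).trans (Real.exp_le_exp.2 (mul_le_mul_of_nonneg_left h1 hC)))
      ((hg _).trans (Real.exp_le_exp.2 (mul_le_mul_of_nonneg_left h2 hC)))

theorem ISer_term (x : ℝ) (n : ℕ) : |x ^ n / n.factorial| ≤ (1 / 2) ^ n * Real.exp (2 * |x|) := by
  have h := Real.pow_div_factorial_le_exp (2 * |x|) (by positivity) n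
  have e : |x ^ n / n.factorial| = (1 / 2) ^ n * ((2 * |x|) ^ n / n.factorial) := by
    rw [abs_div, abs_pow, Nat.abs_cast, ← mul_div_assoc, ← mul_pow]
    congr 2
    ring
  rw [e]
  exact mul_le_mul_of_nonneg_left h (by positivity)

theorem ISer_tail (x : ℝ) (N : ℕ) : |Real.exp x - ∑ n ∈ Finset.range N, x ^ n / n.factorial| ≤
    2 * (1 / 2) ^ N * Real.exp (2 * |x|) := by
  have h1 := (hasSum_nat_add_iff' N).2 (NormedSpace.expSeries_div_hasSum_exp x)
  rw [← Real.exp_eq_exp_ℝ] at h1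
  have h2 := hasSum_geometric_two.mul_right ((1 / 2) ^ N * Real.exp (2 * |x|))
  rw [mul_assoc]
  refine h1.norm_le_of_bounded h2 fun n => ?_
  rw [← mul_assoc, ← pow_add]
  exact ISer_term x (n + N)

theorem iSer : SerSt := by
  intro E l A G C a h hl hne hG hA ha
  obtain ⟨B, hB⟩ := ISer_bd h hG hG 0 4
  have key : ∀ᶠ δ in l, Loc (A δ) ∧ ∀ (φ : ℝ → ℝ) (c : ℝ), 0 ≤ c →
      (∀ x, |φ x| ≤ c * Real.exp (2 * |x|)) →
      |E ∅ (A δ * fun ζ => φ (XX (G δ) ζ))| ≤ c * (C + B) := by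
    filter_upwards [hl hA, hl hB] with δ h1 h2
    refine ⟨h1.1, fun φ c hc hφ => ?_⟩
    have l1 := (h1.1.pow 2).add (ISer_loc (G δ) (G δ) 0 4)
    refine (h.toSt0.abs_le ∅ (h1.1.mul ((Loc.XX _).comp φ)) (l1.smul c) fun ζ _ => ?_).trans ?_
    · simp only [Pi.mul_apply, Pi.smul_apply, Pi.add_apply, Pi.pow_apply, smul_eq_mul, zero_mul,
        zero_add]
      have e : Real.exp (4 * |XX (G δ) ζ|) = Real.exp (2 * |XX (G δ) ζ|) ^ 2 := by
        rw [sq, ← Real.exp_add]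
        congr 1
        ring
      rw [abs_mul, e, ← sq_abs (A δ ζ)]
      refine (mul_le_mul_of_nonneg_left (hφ _) (abs_nonneg _)).trans ?_
      rw [mul_left_comm]
      refine mul_le_mul_of_nonneg_left ?_ hc
      nlinarith [sq_nonneg (|A δ ζ| - Real.exp (2 * |XX (G δ) ζ|)), sq_nonneg |A δ ζ|,
        sq_nonneg (Real.exp (2 * |XX (G δ) ζ|))]
    · rw [h.smul _ _ _ l1, h.add _ _ _ (h1.1.pow 2) (ISer_loc _ _ 0 4)]
      exact mul_le_mul_of_nonneg_left (add_le_add h1.2 h2) hc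
  have e1 : ∀ δ, Loc (A δ) → ∀ n : ℕ, E ∅ (A δ * fun ζ => XX (G δ) ζ ^ n / n.factorial) =
      E ∅ (A δ * XX (G δ) ^ n) / n.factorial := fun δ hδ n => by
    rw [div_eq_inv_mul, ← h.smul _ _ _ (hδ.mul ((Loc.XX _).pow n))]
    refine congrArg _ (funext fun ζ => ?_)
    simp only [Pi.mul_apply, Pi.smul_apply, Pi.pow_apply, smul_eq_mul]
    ring
  have hs : Summable fun n : ℕ => a n / n.factorial := by
    refine Summable.of_norm_bounded (summable_geometric_two.mul_right (C + B)) fun n => ?_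
    refine le_of_tendsto ((ha n).div_const (n.factorial : ℝ)).abs ?_
    filter_upwards [key] with δ hδ
    rw [← e1 δ hδ.1 n]
    exact hδ.2 (fun x => x ^ n / n.factorial) _ (by positivity) fun x => ISer_term x n
  refine ⟨_, hs.hasSum, Metric.tendsto_nhds.2 fun ε hε => ?_⟩
  have t1 : Tendsto (fun N : ℕ => 2 * (1 / 2 : ℝ) ^ N * (C + B)) atTop (𝓝 (2 * 0 * (C + B))) :=
    ((tendsto_pow_atTop_nhds_zero_of_lt_one (by norm_num) (by norm_num)).const_mul 2).mul_const _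
  rw [mul_zero, zero_mul] at t1
  have h3 : 0 < ε / 3 := by positivity
  obtain ⟨N, n1, n2⟩ := ((t1.eventually (gt_mem_nhds h3)).and
    (Metric.tendsto_nhds.1 hs.hasSum.tendsto_sum_nat _ h3)).exists
  have t2 := tendsto_finsetSum (Finset.range N) fun n _ => (ha n).div_const (n.factorial : ℝ)
  filter_upwards [key, Metric.tendsto_nhds.1 t2 _ h3] with δ h1 h2
  have h4 := h1.2 (fun x => Real.exp x - ∑ n ∈ Finset.range N, x ^ n / n.factorial) _
    (by positivity) fun x => ISer_tail x N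
  have l2 : ∀ n ∈ Finset.range N, Loc (A δ * fun ζ => XX (G δ) ζ ^ n / n.factorial) :=
    fun n _ => h1.1.mul ((Loc.XX _).comp fun x => x ^ n / n.factorial)
  have e2 : (A δ * fun ζ => Real.exp (XX (G δ) ζ) -
      ∑ n ∈ Finset.range N, XX (G δ) ζ ^ n / n.factorial) =
      (A δ * fun ζ => Real.exp (XX (G δ) ζ)) -
        ∑ n ∈ Finset.range N, A δ * fun ζ => XX (G δ) ζ ^ n / n.factorial := by
    funext ζ
    simp only [Pi.mul_apply, Pi.sub_apply, Finset.sum_apply, mul_sub, Finset.mul_sum]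
  rw [e2, h.toSt0.sub ∅ (h1.1.mul ((Loc.XX _).comp Real.exp)) (Loc.sum _ l2), h.toSt0.sum ∅ _ l2,
    Finset.sum_congr rfl fun n _ => e1 δ h1.1 n] at h4
  rw [Real.dist_eq] at n2 h2 ⊢
  rw [abs_lt] at n2 h2 ⊢
  rw [abs_le] at h4
  constructor <;> linarith [n2.1, n2.2, h2.1, h2.2, h4.1, h4.2]

theorem ISer_lim (U : Ultrafilter ℝ) {f : ℝ → ℝ} {B : ℝ} (h : ∀ᶠ δ in (U : Filter ℝ), |f δ| ≤ B) :
    ∃ a, Tendsto f U (𝓝 a) := by
  obtain ⟨a, -, ha⟩ := (isCompact_Icc (a := -B) (b := B)).ultrafilter_le_nhds (U.map f)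
    (le_principal_iff.2 (mem_map.2 (h.mono fun δ hδ => abs_le.1 hδ)))
  exact ⟨a, ha⟩

theorem ISer_two (x y u : ℝ) (hu : |u| ≤ 1) :
    |Real.exp (x + u * y) - Real.exp x - u * (y * Real.exp x)| ≤
      2 * u ^ 2 * Real.exp (1 * x + 2 * |y|) := by
  have h1 := Complex.norm_exp_sub_sum_le_norm_mul_exp ((u * y : ℝ) : ℂ) 2
  have e : Complex.exp ((u * y : ℝ) : ℂ) - ∑ m ∈ Finset.range 2,
      ((u * y : ℝ) : ℂ) ^ m / m.factorial = ((Real.exp (u * y) - 1 - u * y : ℝ) : ℂ) := by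
    simp [Finset.sum_range_succ]
    ring
  rw [e, Complex.norm_real, Complex.norm_real, Real.norm_eq_abs, Real.norm_eq_abs, sq_abs] at h1
  have h2 : Real.exp |u * y| ≤ Real.exp |y| := by
    rw [Real.exp_le_exp, abs_mul]
    exact mul_le_of_le_one_left (abs_nonneg _) hu
  have h3 := Real.pow_div_factorial_le_exp |y| (abs_nonneg y) 2
  rw [sq_abs, Nat.factorial_two, Nat.cast_ofNat, div_le_iff₀' two_pos] at h3
  calc _ = Real.exp x * |Real.exp (u * y) - 1 - u * y| := by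
        rw [← abs_of_pos (Real.exp_pos x), ← abs_mul, abs_of_pos (Real.exp_pos x), Real.exp_add]
        congr 1
        ring
    _ ≤ Real.exp x * (u ^ 2 * y ^ 2 * Real.exp |u * y|) := by
        rw [← mul_pow]
        gcongr
    _ ≤ Real.exp x * (u ^ 2 * (2 * Real.exp |y|) * Real.exp |y|) := by gcongr
    _ = _ := by
        rw [one_mul, two_mul |y|, Real.exp_add, Real.exp_add]
        ring

theorem iDer : DerSt := by
  intro E w U G H h hw hU hG hH
  have key : ∀ t : ℝ, ∃ B : ℝ, ∀ᶠ δ in (U : Filter ℝ), Loc (w δ) ∧ ∀ (φ : ℝ → ℝ → ℝ) (c : ℝ),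
      0 ≤ c → (∀ x y, |φ x y| ≤ c * Real.exp (1 * x + 2 * |y|)) →
      |E ∅ (w δ * fun ζ => φ (XX (G δ + t • H δ) ζ) (XX (H δ) ζ))| ≤ c * B := by
    intro t
    have hK := ISer_add hG hH 1 t
    simp only [one_smul] at hK
    obtain ⟨B, hB⟩ := ISer_bd h hK hH 1 2
    refine ⟨B, ?_⟩
    filter_upwards [hU hw, hU hB] with δ h1 h2
    refine ⟨h1.1, fun φ c hc hφ => ?_⟩
    have l1 := ISer_loc (G δ + t • H δ) (H δ) 1 2
    refine (h.toSt0.abs_le ∅ (h1.1.mul ((Loc.XX _).comp₂ (Loc.XX _) φ)) (l1.smul c)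
      fun ζ _ => ?_).trans ?_
    · rw [Pi.mul_apply, abs_mul]
      exact (mul_le_of_le_one_left (abs_nonneg _) (h1.2 ζ)).trans (hφ _ _)
    · rw [h.smul _ _ _ l1]
      exact mul_le_mul_of_nonneg_left h2 hc
  choose B hB using key
  have k1 : ∀ t : ℝ, ∃ a, Tendsto
      (fun δ => E ∅ (w δ * fun ζ => Real.exp (XX (G δ + t • H δ) ζ))) U (𝓝 a) := fun t =>
    ISer_lim U ((hB t).mono fun δ hδ => hδ.2 (fun x _ => Real.exp x) 1 zero_le_one fun x y => by
      rw [abs_of_pos (Real.exp_pos x), one_mul, one_mul, Real.exp_le_exp]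
      exact le_add_of_nonneg_right (by positivity))
  have k2 : ∀ t : ℝ, ∃ a, Tendsto (fun δ => E ∅ (w δ * fun ζ =>
      XX (H δ) ζ * Real.exp (XX (G δ + t • H δ) ζ))) U (𝓝 a) := fun t =>
    ISer_lim U ((hB t).mono fun δ hδ => hδ.2 (fun x y => y * Real.exp x) 1 zero_le_one
      fun x y => by
        rw [abs_mul, abs_of_pos (Real.exp_pos x), one_mul, one_mul, Real.exp_add, mul_comm]
        refine mul_le_mul_of_nonneg_left ?_ (Real.exp_pos x).le
        linarith [Real.add_one_le_exp (2 * |y|), abs_nonneg y])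
  choose φ hφ using k1
  choose ψ hψ using k2
  refine ⟨φ, ψ, fun t => ⟨hφ t, hψ t, hasDerivAt_iff_isLittleO_nhds_zero.2 ?_⟩⟩
  refine (Asymptotics.IsBigO.of_bound (2 * B t) ?_).trans_isLittleO
    (Asymptotics.isLittleO_pow_id one_lt_two)
  filter_upwards [Metric.closedBall_mem_nhds (0 : ℝ) one_pos] with u hu
  rw [mem_closedBall_zero_iff, Real.norm_eq_abs] at hu
  rw [Real.norm_eq_abs, Real.norm_eq_abs, abs_sq, smul_eq_mul]
  refine le_of_tendsto (((hφ (t + u)).sub (hφ t)).sub ((hψ t).const_mul u)).abs ?_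
  filter_upwards [hB t] with δ hδ
  have h1 := hδ.2 (fun x y => Real.exp (x + u * y) - Real.exp x - u * (y * Real.exp x)) _
    (by positivity) fun x y => ISer_two x y u hu
  have l1 : ∀ s : ℝ, Loc (w δ * fun ζ => Real.exp (XX (G δ + s • H δ) ζ)) := fun s =>
    hδ.1.mul ((Loc.XX _).comp Real.exp)
  have l2 : Loc (w δ * fun ζ => XX (H δ) ζ * Real.exp (XX (G δ + t • H δ) ζ)) :=
    hδ.1.mul ((Loc.XX _).comp₂ (Loc.XX _) fun y x => y * Real.exp x)
  rw [← h.toSt0.sub ∅ (l1 _) (l1 _), ← h.smul _ _ _ l2,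
    ← h.toSt0.sub ∅ ((l1 _).sub (l1 _)) (l2.smul u)]
  refine le_of_eq_of_le (congrArg (fun F => |E ∅ F|) (funext fun ζ => ?_)) (h1.trans_eq (by ring))
  simp only [add_smul, ← add_assoc, XX_add (G δ + t • H δ), XX_smul u, Pi.mul_apply, Pi.sub_apply,
    Pi.add_apply, Pi.smul_apply, smul_eq_mul]
  ring

end Vale.Agent.P145.Ib
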