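import Vale.Agent.P145.PBox
import Vale.Agent.P145.JBas

/-! P145: lifting increments to heights. -/

open Filter Topology

namespace Vale.Agent.P145

open Vale.Agent.P152

theorem LLift_prim (a : ℤ → ℤ) : ∃ A : ℤ → ℤ, A 0 = 0 ∧ ∀ i, A (i + 1) = A i + a i := by
  refine ⟨fun i => match i with
    | Int.ofNat n => ∑ k ∈ Finset.range n, a k
    | Int.negSucc n => -∑ k ∈ Finset.range (n + 1), a (Int.negSucc k), rfl, fun i => ?_⟩
  rcases i with n | _ | n
  · exact Finset.sum_range_succ (fun k : ℕ => a k) n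
  · change (0 : ℤ) = -(∑ k ∈ Finset.range 1, a (Int.negSucc k)) + _
    rw [Finset.sum_range_one, neg_add_cancel]
  · change -(∑ k ∈ Finset.range (n + 1), a (Int.negSucc k)) =
      -(∑ k ∈ Finset.range (n + 1 + 1), a (Int.negSucc k)) + _
    rw [Finset.sum_range_succ _ (n + 1)]
    ring

theorem LLift_pot (e : Vx → ℤ) (hc : ∀ x y : ℤ, e ((x, y), true) + e ((x + 1, y), false) =
    e ((x, y), false) + e ((x, y + 1), true)) :
    ∃ g : Site → ℤ, ∀ m, g (tgt m) = g (src m) + e m := by
  obtain ⟨A, -, hA⟩ := LLift_prim fun x => e ((x, 0), true)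
  choose B hB0 hB using fun x : ℤ => LLift_prim fun y => e ((x, y), false)
  have key : ∀ x y : ℤ, A (x + 1) + B (x + 1) y = A x + B x y + e ((x, y), true) := by
    intro x y
    induction y using Int.induction_on with
    | zero => rw [hA, hB0, hB0]; ring
    | succ n ih => have := hc x n; rw [hB, hB]; omega
    | pred n ih =>
      have h1 := hc x (-(n : ℤ) - 1)
      have h2 := hB x (-(n : ℤ) - 1)
      have h3 := hB (x + 1) (-(n : ℤ) - 1)
      rw [sub_add_cancel] at h1 h2 h3
      omega
  refine ⟨fun v => A v.1 + B v.1 v.2, fun ⟨⟨x, y⟩, b⟩ => ?_⟩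
  cases b
  · simp only [src, tgt, dir, Bool.false_eq_true, if_false, Prod.mk_add_mk, add_zero, hB]
    ring
  · simp only [src, tgt, dir, if_true, Prod.mk_add_mk, add_zero, key]

theorem l_lift : L_lift := by
  intro D h j hD h1 h2
  obtain ⟨d, hd⟩ : ∃ d : Site → Site → ℤ, ∀ f v, d f v = if f ∈ D then h (v, true) else 0 :=
    ⟨_, fun _ _ => rfl⟩
  obtain ⟨e, he⟩ : ∃ e : Vx → ℤ, ∀ m,
      e m = if m ∈ vin D then h (tgt m, true) - h (src m, true) else 0 := ⟨_, fun _ => rfl⟩
  have E : ∀ m f g, Sep m f g → e m = d f (tgt m) - d f (src m) := by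
    intro m f g hs
    rw [he, hd, hd]
    by_cases hm : m ∈ vin D
    · rw [if_pos hm, if_pos (hs.vin.1 hm).1, if_pos (hs.vin.1 hm).1]
    · rw [if_neg hm]
      by_cases hf : f ∈ D
      · rw [if_pos hf, if_pos hf]
        have c1 := (hs.cor (end_src m)).1
        have c2 := (hs.cor (end_tgt m)).1
        have a1 := h1 f hf _ c1
        have a2 := h1 f hf _ c2
        have a3 := h2 f hf _ c1 (mt vin_of_src hm)
        have a4 := h2 f hf _ c2 (mt vin_of_tgt hm)
        rw [abs_eq (by norm_num)] at a1 a2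
        omega
      · rw [if_neg hf, if_neg hf, sub_zero]
  have E4 : ∀ x y : ℤ, e ((x, y), true) = d (x, y) (x + 1, y) - d (x, y) (x, y) ∧
      e ((x, y), false) = d (x, y) (x, y + 1) - d (x, y) (x, y) ∧
      e ((x + 1, y), false) = d (x, y) (x + 1, y + 1) - d (x, y) (x + 1, y) ∧
      e ((x, y + 1), true) = d (x, y) (x + 1, y + 1) - d (x, y) (x, y + 1) := fun x y =>
    ⟨by simpa [src, tgt, dir, fa] using E ((x, y), true) _ _ (sep_self _),
      by simpa [src, tgt, dir, fa] using E ((x, y), false) _ _ (sep_self _),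
      by simpa [src, tgt, dir, fb] using E ((x + 1, y), false) _ _ (sep_self _).symm,
      by simpa [src, tgt, dir, fb] using E ((x, y + 1), true) _ _ (sep_self _).symm⟩
  obtain ⟨g, hg⟩ := LLift_pot e fun x y => by have := E4 x y; omega
  have G : ∀ f, ∀ v ∈ cor f, g v - g f = d f v - d f f := by
    rintro ⟨x, y⟩ v hv
    obtain ⟨a1, a2, a3, -⟩ := E4 x y
    have b1 := hg ((x, y), true)
    have b2 := hg ((x, y), false)
    have b3 := hg ((x + 1, y), false)
    simp only [src, tgt, dir, Bool.false_eq_true, if_false, if_true, Prod.mk_add_mk,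
      add_zero] at b1 b2 b3
    simp only [cor, Finset.mem_insert, Finset.mem_singleton, Prod.mk_add_mk, add_zero] at hv
    rcases hv with rfl | rfl | rfl | rfl <;> omega
  have G0 : ∀ f, f ∉ D → ∀ v ∈ cor f, g v = g f := fun f hf v hv => by
    have := G f v hv
    rw [hd, hd, if_neg hf, if_neg hf] at this
    omega
  obtain ⟨f0, hf0, -⟩ := exists_out D D
  have G1 : ∀ f, f ∉ D → g f = g f0 := fun f hf => by
    refine Lk.ind (P := fun f => g f = g f0) (hD f0 hf0 f hf) rfl fun m a b ha hs hb ih => ?_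
    rw [← G0 b hb _ (hs.cor (end_src m)).2, G0 a ha.mem _ (hs.cor (end_src m)).1, ih]
  have K : ∀ f ∈ D, ∀ v ∈ cor f, g f - g f0 + (h (f, false) - h (f, true)) - (g v - g f0) =
      h (f, false) - h (v, true) := fun f hf v hv => by
    have := G f v hv
    rw [hd, hd, if_pos hf, if_pos hf] at this
    omega
  refine ⟨fun p => if p.2 then g p.1 - g f0 else
    if p.1 ∈ D then g p.1 - g f0 + (h (p.1, false) - h (p.1, true)) else 0,
    ⟨fun v hv => ?_, fun f hf => ?_, fun f hf v hv => ?_⟩, fun f hf v hv => ?_⟩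
  · rw [mem_inn_cor] at hv
    push Not at hv
    obtain ⟨f, c1, c2⟩ := hv
    simp only [if_true, G0 f c2 v c1, G1 f c2, sub_self]
  · simp only [Bool.false_eq_true, if_false, if_neg hf]
  · simp only [Bool.false_eq_true, if_false, if_true, if_pos hf, K f hf v hv, h1 f hf v hv]
  · simp only [Bool.false_eq_true, if_false, if_true, if_pos hf, K f hf v hv]

/-- heights with zero boundary values are determined by their increments -/
theorem lift_uniq {D : Finset Site} {h h' : Ht} (k : IsH D h) (k' : IsH D h')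
    (e : ∀ f ∈ D, ∀ v ∈ cor f, h (f, false) - h (v, true) = h' (f, false) - h' (v, true)) :
    h = h' := by
  have kv : ∀ v, h (v, true) = h' (v, true) := by
    refine left_ind D _ (fun v hv => by rw [k.1 v hv, k'.1 v hv]) fun v hv ih => ?_
    have m := (mem_inn.1 hv).2.1
    have a1 := e _ m v (by rw [mem_cor]; simp)
    have a2 := e _ m (v - (1, 0)) (self_cor _)
    omega
  funext ⟨v, b⟩
  cases b
  · by_cases hv : v ∈ D
    · have a1 := e v hv v (self_cor v)
      have := kv v
      omega
    · rw [k.2.1 v hv, k'.2.1 v hv]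
  · exact kv v

end Vale.Agent.P145
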