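import Vale.Agent.P145.PBas

/-! P145: even edge sets are boundaries. -/

open Filter Topology

namespace Vale.Agent.P145

open Vale.Agent.P152

/-- parity of the vertical edges to the left -/
def PEx_t (η : Finset Vx) (x y : ℤ) : Prop :=
  Odd (η.filter fun m => m.2 = false ∧ m.1.2 = y ∧ m.1.1 ≤ x).card

theorem PEx_vert (η : Finset Vx) (x y : ℤ) :
    PEx_t η x y ↔ (PEx_t η (x - 1) y ↔ ((x, y), false) ∉ η) := by
  unfold PEx_t
  by_cases h : ((x, y), false) ∈ η
  · have e : (η.filter fun m => m.2 = false ∧ m.1.2 = y ∧ m.1.1 ≤ x) = insert ((x, y), false)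
        (η.filter fun m => m.2 = false ∧ m.1.2 = y ∧ m.1.1 ≤ x - 1) := by
      ext ⟨⟨a, b⟩, c⟩
      simp only [Finset.mem_filter, Finset.mem_insert, Prod.mk.injEq]
      constructor
      · rintro ⟨h1, h2, h3, h4⟩
        rcases h4.eq_or_lt with h5 | h5
        exacts [.inl ⟨⟨h5, h3⟩, h2⟩, .inr ⟨h1, h2, h3, by omega⟩]
      · rintro (⟨⟨rfl, rfl⟩, rfl⟩ | ⟨h1, h2, h3, h4⟩)
        exacts [⟨h, rfl, rfl, le_rfl⟩, ⟨h1, h2, h3, by omega⟩]
    rw [e, Finset.card_insert_of_notMem (by simp), Nat.odd_add_one]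
    simp only [h, not_true, iff_false]
  · have e : (η.filter fun m => m.2 = false ∧ m.1.2 = y ∧ m.1.1 ≤ x) =
        η.filter fun m => m.2 = false ∧ m.1.2 = y ∧ m.1.1 ≤ x - 1 := by
      refine Finset.filter_congr ?_
      rintro ⟨⟨a, b⟩, c⟩ hm
      refine ⟨?_, fun k => ⟨k.1, k.2.1, by have := k.2.2; omega⟩⟩
      rintro ⟨rfl, rfl, h4⟩
      refine ⟨rfl, rfl, Int.le_sub_one_of_lt (lt_of_le_of_ne h4 fun k => h ?_)⟩
      rw [← k]; exact hm
    rw [e]
    simp only [h, not_false_iff, iff_true]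

theorem p_ex : P_ex := by
  intro η hη
  obtain ⟨B, hB⟩ : ∃ B : ℤ, ∀ m ∈ η, -B < m.1.1 ∧ m.1.1 < B ∧ -B < m.1.2 ∧ m.1.2 < B := by
    refine ⟨(η.sup fun m => m.1.1.natAbs + m.1.2.natAbs : ℕ) + 1, fun m hm => ?_⟩
    have := Finset.le_sup (f := fun m : Vx => m.1.1.natAbs + m.1.2.natAbs) hm
    omega
  have h1 : ∀ x y, PEx_t η x y → -B < x ∧ -B < y ∧ y < B := fun x y h => by
    obtain ⟨m, hm⟩ := Finset.card_pos.1 h.pos
    obtain ⟨k1, -, k2, k3⟩ := Finset.mem_filter.1 hm
    have := hB m k1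
    omega
  have h2 : ∀ x y, ((x, y), true) ∈ η ↔ ¬ (PEx_t η x y ↔ PEx_t η x (y - 1)) := fun x y => by
    have h0 : ∀ x ≤ -B, ((x, y), true) ∈ η ↔ ¬ (PEx_t η x y ↔ PEx_t η x (y - 1)) := fun x hx =>
      iff_of_false (fun h => by have := hB _ h; dsimp only at this; omega) (not_not.2
        (iff_of_false (fun h => by have := h1 _ _ h; omega) fun h => by have := h1 _ _ h; omega))
    rcases le_total x (-B) with hx | hx
    · exact h0 x hx
    refine Int.leInduction (motive := fun x _ =>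
      ((x, y), true) ∈ η ↔ ¬ (PEx_t η x y ↔ PEx_t η x (y - 1))) (h0 _ le_rfl)
      (fun x _ ih => ?_) x hx
    · have k := hη (x + 1, y)
      simp only [Prod.mk_sub_mk, add_sub_cancel_right, sub_zero] at k
      rw [PEx_vert η (x + 1) y, PEx_vert η (x + 1) (y - 1), add_sub_cancel_right]
      rw [ih] at k
      revert k
      generalize PEx_t η x y = a
      generalize PEx_t η x (y - 1) = b
      generalize (((x + 1, y), true) ∈ η) = c
      generalize (((x + 1, y), false) ∈ η) = d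
      generalize (((x + 1, y - 1), false) ∈ η) = e
      by_cases a <;> by_cases b <;> by_cases c <;> by_cases d <;> by_cases e <;> simp [*]
  have h3 : ∀ x y, PEx_t η x y → x < B := fun x y h => by
    by_contra hx
    have hy := (h1 x y h).2.1.le
    revert h
    induction y, hy using Int.leInduction with
    | base => exact fun h => lt_irrefl _ (h1 _ _ h).2.1
    | succ y _ ih =>
      intro h
      have k := h2 x (y + 1)
      rw [add_sub_cancel_right] at k
      exact hx (hB _ (k.2 fun e => ih (e.1 h))).2.1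
  classical
  have h4 : ∀ x y, (x, y) ∈ ((Finset.Icc (-B) B ×ˢ Finset.Icc (-B) B).filter
      fun f : Site => PEx_t η f.1 f.2) ↔ PEx_t η x y := fun x y => by
    simp only [Finset.mem_filter, Finset.mem_product, Finset.mem_Icc, and_iff_right_iff_imp]
    intro h
    have := h1 _ _ h
    have := h3 _ _ h
    omega
  refine ⟨(Finset.Icc (-B) B ×ˢ Finset.Icc (-B) B).filter fun f : Site => PEx_t η f.1 f.2, ?_⟩
  ext ⟨⟨x, y⟩, _ | _⟩
  · have e : fb ((x, y), false) = (x - 1, y) := by simp [fb, dir]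
    rw [mem_bd, e, show fa ((x, y), false) = (x, y) from rfl, h4, h4, PEx_vert η x y]
    tauto
  · have e : fb ((x, y), true) = (x, y - 1) := by simp [fb, dir]
    rw [mem_bd, e, show fa ((x, y), true) = (x, y) from rfl, h4, h4, h2]

/-- parity of the boundary at a vertex -/
theorem bd_even (s : Finset Site) (v : Site) : ((v, true) ∈ bd s ↔ (v - (1, 0), true) ∈ bd s) ↔
    ((v, false) ∈ bd s ↔ (v - (0, 1), false) ∈ bd s) := by
  simp only [mem_bd, fa, fb, dir, Bool.not_true, Bool.not_false, Bool.false_eq_true, if_true,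
    if_false]
  rw [sub_right_comm v (0, 1)]
  by_cases v ∈ s <;> by_cases v - (0, 1) ∈ s <;> by_cases v - (1, 0) ∈ s <;>
    by_cases v - (1, 0) - (0, 1) ∈ s <;> simp [*]

theorem end_iff {m : Vx} {v : Site} : End m v ↔
    m = (v, true) ∨ m = (v - (1, 0), true) ∨ m = (v, false) ∨ m = (v - (0, 1), false) := by
  obtain ⟨x, _ | _⟩ := m <;> simp [End, src, tgt, dir, eq_sub_iff_add_eq]

/-- a part of a boundary that is closed under sharing vertices is a boundary -/
theorem bd_part (s : Finset Site) (η : Finset Vx) (h : η ⊆ bd s)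
    (hc : ∀ m ∈ η, ∀ m' ∈ bd s, ∀ v, End m v → End m' v → m' ∈ η) : ∃ t, bd t = η := by
  refine p_ex η fun v => ?_
  by_cases hv : ∃ m ∈ η, End m v
  · obtain ⟨m, hm, he⟩ := hv
    have k : ∀ m', End m' v → (m' ∈ η ↔ m' ∈ bd s) := fun m' h' =>
      ⟨fun a => h a, fun a => hc m hm m' a v he h'⟩
    rw [k _ (end_iff.2 (.inl rfl)), k _ (end_iff.2 (.inr (.inl rfl))),
      k _ (end_iff.2 (.inr (.inr (.inl rfl)))), k _ (end_iff.2 (.inr (.inr (.inr rfl))))]
    exact bd_even s v
  · have k : ∀ m', End m' v → m' ∉ η := fun m' h' a => hv ⟨m', a, h'⟩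
    simp only [k _ (end_iff.2 (.inl rfl)), k _ (end_iff.2 (.inr (.inl rfl))),
      k _ (end_iff.2 (.inr (.inr (.inl rfl)))), k _ (end_iff.2 (.inr (.inr (.inr rfl))))]

end Vale.Agent.P145
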