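import Vale.Agent.P145.MExp
import Vale.Agent.P145.MSym

/-! P145: exploration of the minus edges. -/

open Filter Topology

namespace Vale.Agent.P145

open Vale.Agent.P152

/-- plaquettes reached without crossing a minus edge are at height one or minus one -/
theorem rch_height {D : Finset Site} {h : Ht} {ω : Finset Vx} (k : Ok D h ω) {f : Site}
    (hf : f ∈ D) (hr : f ∈ Rch (o2 h ω) (D : Set Site)ᶜ) : |h (f, false)| = 1 := by
  refine rch_ind (P := fun g => g ∈ D → |h (g, false)| = 1) (fun g hg hD => (hg hD).elim)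
    (fun m a b _ hm hO ih hb => ?_) hr hf
  have e1 := k.1.2.2 b hb _ (hm.cor (end_src m)).2
  by_cases ha : a ∈ D
  · have hv : m ∈ vin D := hm.vin.2 ⟨ha, hb⟩
    have e0 := ih ha
    by_cases hω : m ∈ ω
    · have e2 := k.1.2.2 a ha _ (hm.cor (end_src m)).1
      have e3 : ¬ h (src m, true) % 4 = 2 := fun e => hO ⟨hω, e⟩
      rw [abs_eq (by norm_num)] at e0 e1 e2 ⊢
      omega
    · have e2 := k.2.2.2 m hv hω
      rcases hm with ⟨rfl, rfl⟩ | ⟨rfl, rfl⟩
      · rwa [← e2]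
      · rwa [e2]
  · have hbd : m ∈ bd D := hm.bd.2 fun e => ha (e.2 hb)
    rwa [k.1.1 _ (bd_end hbd (end_src m)).1, sub_zero] at e1

theorem SRec_two {D D' : Finset Site} {ho : Ht} {ωo : Finset Vx} (hD : D' ⊆ D)
    (k : Out D D' 2 ho ωo) (he : exd D (o2 ho (ωo ∪ vin D')) (D : Set Site)ᶜ = D') (x : Site) :
    |ho (x, true)| ≤ 2 := by
  have k0 := ok_glue hD k (ok_flat D')
  rw [glue_flat] at k0
  have key : ∀ y, y ∉ inn D' → |ho (y, true)| ≤ 2 := fun y hy => by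
    by_cases hy' : y ∈ inn D
    · rw [mem_inn_cor] at hy hy'
      push Not at hy
      obtain ⟨f, h1, h2⟩ := hy
      have h3 := hy' f h1
      have h4 : f ∈ Rch (o2 ho (ωo ∪ vin D')) (D : Set Site)ᶜ := by
        by_contra h5
        exact h2 (he ▸ mem_exd.2 ⟨h3, h5⟩)
      have e0 := rch_height k0 h3 h4
      have e1 := k.1.2.2 f h3 y h1
      rw [abs_eq (by norm_num)] at e0 e1
      rw [abs_le]
      omega
    · rw [k.1.1 y hy']
      norm_num
  by_cases hx : x ∈ inn D'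
  · obtain ⟨g, h1, h2⟩ := exit_left (mem_inn.1 hx).1
    rw [k.2.1.eq h1 (self_cor x) (self_cor g)]
    exact key g fun e => h2 (mem_inn.1 e).2.1
  · exact key x hx

theorem SRec_odd {c : ℝ} {D D' s : Finset Site} {ho : Ht} {ωo : Finset Vx}
    (N : Set Vx → Set Vx → Prop) (k : Out D D' 2 ho ωo) (hs : ∀ m ∈ vin D', fa m ∈ s ↔ fb m ∈ s)
    (T : Ht → ℝ) (hT : ∀ hi, IsH D' hi → T (flp s hi) = -T hi) :
    JH c D' (fun hi ωi => pi (N (ox D (glue D' ho hi) (ωo ∪ ωi)) (o2 (glue D' ho hi) (ωo ∪ ωi))) *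
      T hi) = 0 := by
  have e := m_flip c D' s (fun hi ωi =>
    pi (N (ox D (glue D' ho hi) (ωo ∪ ωi)) (o2 (glue D' ho hi) (ωo ∪ ωi))) * T hi) hs
  rw [JH_congr (F := fun hi ωi => pi (N (ox D (glue D' ho (flp s hi)) (ωo ∪ ωi))
      (o2 (glue D' ho (flp s hi)) (ωo ∪ ωi))) * T (flp s hi)) (G := fun hi ωi => -1 *
      (pi (N (ox D (glue D' ho hi) (ωo ∪ ωi)) (o2 (glue D' ho hi) (ωo ∪ ωi))) * T hi))
    fun hi ωi k' => by
      rw [(o_glue_flp s k k'.1 _).1, (o_glue_flp s k k'.1 _).2, hT hi k'.1]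
      ring, JH_mul] at e
  linarith

theorem s_rec : S_rec := by
  intro c hc D v w N b hD hb0 hb hN
  have hc0 : 0 < c := by linarith
  rcases D.eq_empty_or_nonempty with rfl | hne
  · refine JH_mono hc fun h ω k => ?_
    rw [k.1.1 v fun e => Finset.notMem_empty _ (mem_inn.1 e).1, Int.cast_zero, zero_mul, mul_zero]
    exact add_nonneg (mul_nonneg (by norm_num) (pi_nonneg _)) (mul_nonneg (pi_nonneg _) (hb0 _))
  refine m_exp c hc D 2 (D : Set Site)ᶜ ∅ Set.univ (fun z => z % 4 = 2) _ _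
    (by rwa [Set.union_self]) (Set.empty_disjoint _) (fun _ e => e) (Or.inr ⟨rfl, subset_rfl⟩)
    fun D' ho ωo hD' hc' k he hR => ?_
  simp only [Set.empty_union, Set.inter_univ] at he hR
  have ex : ∀ hi ωi, Ok D' hi ωi → exd D (o2 (glue D' ho hi) (ωo ∪ ωi)) (D : Set Site)ᶜ = D' :=
    fun hi ωi k' => by
      refine Eq.trans (Finset.ext fun f => ?_) he
      rw [mem_exd, mem_exd, o2, hR hi ωi k']
  have two := SRec_two hD' k (by simpa only [glue_flat] using ex _ _ (ok_flat D'))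
  have gl : ∀ m ∈ vin D', fa m ∈ D' ↔ fb m ∈ D' := fun m hm =>
    iff_of_true (mem_vin.1 hm).1 (mem_vin.1 hm).2
  have z1 : ∀ x, JH c D' (fun hi ωi => pi (N (ox D (glue D' ho hi) (ωo ∪ ωi))
      (o2 (glue D' ho hi) (ωo ∪ ωi))) * (hi (x, true) : ℝ)) = 0 := fun x =>
    SRec_odd N k gl (fun hi => (hi (x, true) : ℝ)) fun hi k' => by
      rw [flp_self k', Pi.neg_apply, Int.cast_neg]
  have main : JH c D' (fun hi ωi => pi (N (ox D (glue D' ho hi) (ωo ∪ ωi))
      (o2 (glue D' ho hi) (ωo ∪ ωi))) * ((hi (v, true) : ℝ) * hi (w, true))) ≤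
      JH c D' fun hi ωi => pi (Enc (o2 (glue D' ho hi) (ωo ∪ ωi)) {v, w} Set.univ) *
        b (exd D (o2 (glue D' ho hi) (ωo ∪ ωi)) (D : Set Site)ᶜ) := by
    by_cases hl : Lk D' v w
    · have en : ∀ hi ωi, Ok D' hi ωi → Enc (o2 (glue D' ho hi) (ωo ∪ ωi)) {v, w} Set.univ :=
        fun hi ωi k' => ⟨cmp D' v, Set.pair_subset (mem_cmp.2 (Lk.refl hl.1)) (mem_cmp.2 hl),
          Set.subset_univ _, cn_cmp _ _, hc'.cmp v, fun m hm =>
            bd_exd' (D := D) subset_rfl (by rw [ex hi ωi k']; exact bd_cmp hm)⟩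
      rw [JH_congr (G := fun hi _ => (hi (v, true) : ℝ) * hi (w, true)) fun hi ωi k' => by
          rw [pi_pos (hN _ _ (ok_glue hD' k k') (en hi ωi k')), one_mul],
        JH_congr (G := fun _ _ => b D') (F := fun hi ωi =>
          pi (Enc (o2 (glue D' ho hi) (ωo ∪ ωi)) {v, w} Set.univ) *
          b (exd D (o2 (glue D' ho hi) (ωo ∪ ωi)) (D : Set Site)ᶜ)) fun hi ωi k' => by
          rw [pi_pos (en hi ωi k'), ex hi ωi k', one_mul], JH_const hc0, JH_PH]
      refine hb D' ?_ hc'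
      rw [← he]
      exact exd_ssubset (fun m hm => (Finset.mem_sdiff.1 (k.2.2.1 hm.1)).1) subset_rfl hne
    · rw [SRec_odd N k (s := cmp D' v) (fun m hm => cmp_iff hm)
        (fun hi => (hi (v, true) : ℝ) * hi (w, true)) fun hi k' => ?_]
      · exact JH_nonneg hc fun _ _ _ => mul_nonneg (pi_nonneg _) (hb0 _)
      by_cases hv : v ∈ D'
      · simp only [flp, if_pos (mem_cmp.2 (Lk.refl hv)), if_neg (mt mem_cmp.1 hl), Int.cast_neg,
          neg_mul]
      · simp only [flp, k'.1 v fun e => hv (mem_inn.1 e).1, neg_zero, ite_self, Int.cast_zero,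
          zero_mul]
  have p0 : 0 ≤ JH c D' fun hi ωi => pi (N (ox D (glue D' ho hi) (ωo ∪ ωi))
      (o2 (glue D' ho hi) (ωo ∪ ωi))) := JH_nonneg hc fun _ _ _ => pi_nonneg _
  have a4 : (ho (v, true) : ℝ) * ho (w, true) ≤ 4 := by
    have h1 := abs_le.1 (two v)
    have h2 := abs_le.1 (two w)
    have h3 : ho (v, true) * ho (w, true) ≤ 4 := by nlinarith
    exact_mod_cast h3
  unfold Inn
  beta_reduce
  rw [JH_add, JH_mul, JH_congr (G := fun hi ωi =>
    (ho (v, true) : ℝ) * ho (w, true) * pi (N (ox D (glue D' ho hi) (ωo ∪ ωi))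
      (o2 (glue D' ho hi) (ωo ∪ ωi))) +
    ((ho (w, true) : ℝ) * (pi (N (ox D (glue D' ho hi) (ωo ∪ ωi))
      (o2 (glue D' ho hi) (ωo ∪ ωi))) * (hi (v, true) : ℝ)) +
    ((ho (v, true) : ℝ) * (pi (N (ox D (glue D' ho hi) (ωo ∪ ωi))
      (o2 (glue D' ho hi) (ωo ∪ ωi))) * (hi (w, true) : ℝ)) +
    pi (N (ox D (glue D' ho hi) (ωo ∪ ωi)) (o2 (glue D' ho hi) (ωo ∪ ωi))) *
      ((hi (v, true) : ℝ) * hi (w, true))))) fun hi ωi _ => by
      rw [glue_true, glue_true]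
      push_cast
      ring, JH_add, JH_add, JH_add, JH_mul, JH_mul, JH_mul, z1, z1]
  linarith [mul_le_mul_of_nonneg_right a4 p0]

end Vale.Agent.P145
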