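import Vale.Agent.P145.PBox
import Vale.Agent.P145.PEx
import Vale.Agent.P145.PTim
import Vale.Agent.P145.JBas
import Vale.Agent.P145.LLift
import Vale.Agent.P145.LSpin
import Vale.Agent.P145.LLeg
import Vale.Agent.P145.MMk
import Vale.Agent.P145.MExp
import Vale.Agent.P145.MSym
import Vale.Agent.P145.GK
import Vale.Agent.P145.GRep
import Vale.Agent.P145.GFour
import Vale.Agent.P145.GDom
import Vale.Agent.P145.HSp
import Vale.Agent.P145.HEx
import Vale.Agent.P145.HFour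
import Vale.Agent.P145.HThin
import Vale.Agent.P145.HNeg
import Vale.Agent.P145.SRec
import Vale.Agent.P145.VTwo
import Vale.Agent.P145.VOne

/-! P145: the lattice core, all blocks. -/

namespace Vale.Agent.P145

theorem core_all : P_ex ∧ P_tim ∧ P_nest ∧ P_enc ∧ L_lift ∧ L_spin ∧ L_leg ∧ M_mk ∧ M_exp ∧
    M_flip ∧ M_iso ∧ G_four ∧ G_pa ∧ G_dom ∧ G_pm ∧ H_sp ∧ H_ex ∧ H_four ∧ H_thin ∧ H_neg ∧
    H_out ∧ H_mono ∧ S_rec ∧ (∀ c, 1 ≤ c → SR c → V2 c) ∧ ∀ c, 1 ≤ c → WR c → V2 c → V1 c :=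
  ⟨p_ex, p_tim, p_nest, p_enc, l_lift, l_spin, l_leg, m_mk, m_exp, m_flip, m_iso, g_four, g_pa,
    g_dom, g_pm, h_sp, h_ex, h_four, h_thin, h_neg, h_out, h_mono, s_rec, fun _ => v2_of,
    fun _ => v1_of⟩

end Vale.Agent.P145
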