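import Vale.Agent.P145.LkStm

/-! P145: the link between the statement and the lattice model. -/

open Set Filter Topology Metric

namespace Vale.Agent.P145.Lk

open Vale.Agent.P152 Vale.Agent.P145.AT
open Vale.Agent.P153 (IsJordanMap IsTest)

namespace XLink

theorem ex_eq (hs : M_sum) (hw : M_wt) {P : Pol} {D : Finset Site} (hD : Good P D) {c : ℝ}
    (hc : 0 < c) (F : AT.Spin → ℝ) (G : Ht → ℝ) (hF : ∀ h ∈ P152.hs D, F (spn D h) = G h) :
    P.ex c⁻¹ F = PH c D G := by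
  have hp : (0 : ℝ) < c ^ (vin D).card := pow_pos hc _
  unfold Pol.ex PH
  rw [(hs P D hD).2.2.2, (hs P D hD).2.2.2, ← mul_div_mul_right _ _ hp.ne', Finset.sum_mul,
    Finset.sum_mul]
  congr 1
  · refine Finset.sum_congr rfl fun h hh => ?_
    rw [hF h hh, ← hw P D c h hD hc (mem_hs.1 hh)]
    ring
  · exact Finset.sum_congr rfl fun h hh => hw P D c h hD hc (mem_hs.1 hh)

theorem test_half {ψ : ℂ → ℂ} {φ : ℂ → ℝ} (h : IsTest ψ φ) : IsTest ψ fun z => φ z / 2 := by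
  have e : Function.support (fun z => φ z / 2) = Function.support φ := by
    ext z; simp
  have e' : tsupport (fun z => φ z / 2) = tsupport φ := by unfold tsupport; rw [e]
  refine ⟨h.1.div_const 2, ?_, e' ▸ h.2.2⟩
  unfold HasCompactSupport
  rw [e']
  exact h.2.1

theorem cov_half (ψ : ℂ → ℂ) (f g : ℂ → ℝ) (K : ℝ) :
    K * cov ψ (fun z => f z / 2) (fun z => g z / 2) = K / 4 * cov ψ f g := by
  unfold cov
  have e : ∀ p : ℂ × ℂ, f p.1 / 2 * P153.green ψ p.1 p.2 * (g p.2 / 2) =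
      4⁻¹ * (f p.1 * P153.green ψ p.1 p.2 * g p.2) := fun p => by ring
  simp only [e, MeasureTheory.integral_const_mul]
  ring

end XLink

theorem link (hg : P_good) (ha : P_apr) (hs : M_sum) (hw : M_wt) (hh : M_ht) : Link := by
  intro c K hc hL ψ P δ hψ hA
  choose U hU using fun n => hg (P n)
  refine ⟨fun n => ⟨(hs _ _ (hU n)).1, ⟨(fun _ => 1, fun _ => 1), fun _ _ => rfl, fun _ _ => rfl,
    fun _ _ _ => by simp⟩, fun s hs' => ?_⟩, fun H hH k φ hφ => ?_⟩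
  · obtain ⟨h, h1, rfl⟩ := (hs _ _ (hU n)).2.1 s hs'
    exact ⟨_, (hh _ _ h (hU n) (mem_hs.1 h1)).1⟩
  obtain ⟨h1, h2⟩ := hL ψ δ U hψ (ha ψ P δ U hψ hA hU) k (fun i z => φ i z / 2)
    fun i => XLink.test_half (hφ i)
  simp only [XLink.cov_half] at h1 h2
  refine ⟨h1, fun F => (h2 F).congr fun n => ?_⟩
  refine (XLink.ex_eq hs hw (hU n) hc _ _ fun h h3 => ?_).symm
  congr 2
  funext i
  exact (hh _ _ h (hU n) (mem_hs.1 h3)).2 _ (hH n _ ((hs _ _ (hU n)).2.2.1 h h3)) _ _ (hA.1 n)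
    (hφ i).2.1

end Vale.Agent.P145.Lk
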