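import Vale.Agent.P145.WStm
import Vale.Agent.P145.Defs
import Vale.Agent.P153.CA.Basic

/-! P145, link between the statement and the lattice core: definitions and step statements. -/

open Set Filter Topology Metric

namespace Vale.Agent.P145.Lk

open Vale.Agent.P152 Vale.Agent.P145.AT
open Vale.Agent.P153 (IsJordanMap IsTest)
open Vale.Agent.P153.CA (JLoop inside)

noncomputable section

/-- the complex number with given coordinates -/
def cx (p : Pl) : ℂ := ⟨p.1, p.2⟩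

/-- the domain in real coordinates -/
def DP (ψ : ℂ → ℂ) : Set Pl := cx ⁻¹' (ψ '' ball 0 1)

/-- convergence in law of the lattice field -/
def LatConv (c K : ℝ) : Prop :=
  ∀ (ψ : ℂ → ℂ) (δ : ℕ → ℝ) (U : ℕ → Finset Site), IsJordanMap ψ → Apr (DP ψ) δ U →
    ∀ (k : ℕ) (φ : Fin k → ℂ → ℝ), (∀ i, IsTest ψ (φ i)) →
      (Matrix.of fun i j => K * cov ψ (φ i) (φ j)).PosSemidef ∧
      ∀ F : BoundedContinuousFunction (EuclideanSpace ℝ (Fin k)) ℝ,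
        Tendsto (fun n => PH c (U n) fun h =>
            F (WithLp.toLp 2 fun i => lin (smp (δ n) (φ i ∘ cx)) h)) atTop
          (𝓝 (∫ z, F z ∂ProbabilityTheory.multivariateGaussian 0
            (Matrix.of fun i j => K * cov ψ (φ i) (φ j))))

/-! ### Plane topology -/

/-- points in unbounded components of the complement -/
def outs (J : Set ℂ) : Set ℂ := {z | z ∉ J ∧ ¬ Bornology.IsBounded (connectedComponentIn Jᶜ z)}

def T_out : Prop := ∀ J : Set ℂ, IsCompact J → IsOpen (outs J) ∧ IsPreconnected (outs J) ∧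
  (∀ R : ℝ, J ⊆ closedBall 0 R → ∀ z, R < ‖z‖ → z ∈ outs J) ∧
  ∀ S, IsPreconnected S → Disjoint S J →
    ((S ∩ outs J).Nonempty ∨ ¬ Bornology.IsBounded S) → S ⊆ outs J

def T_fr : Prop := ∀ j : ℝ → ℂ, JLoop j → (inside (range j)).Nonempty →
  range j ⊆ closure (outs (range j))

def T_hull : Prop := ∀ U K : Set ℂ, IsOpen U → IsPreconnected U → IsCompact K → K ⊆ U →
  ∃ g, IsCompact g ∧ IsPreconnected g ∧ K ⊆ g ∧ g ⊆ U

def T_dom : Prop := ∀ ψ : ℂ → ℂ, IsJordanMap ψ →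
  (∀ ρ : ℝ, ρ ≤ 1 → IsOpen (ψ '' ball 0 ρ)) ∧ closure (ψ '' ball 0 1) = ψ '' closedBall 0 1 ∧
  frontier (ψ '' ball 0 1) = ψ '' sphere 0 1 ∧ inside (ψ '' sphere 0 1) = ψ '' ball 0 1 ∧
  outs (ψ '' sphere 0 1) = (ψ '' closedBall 0 1)ᶜ

def A_in : Prop := ∀ ψ : ℂ → ℂ, IsJordanMap ψ → IsOpen (DP ψ) ∧ AccIn (DP ψ)

def A_out : Prop := ∀ ψ : ℂ → ℂ, IsJordanMap ψ → AccOut (DP ψ)

/-! ### Polygons -/

/-- the boundary of the polygon -/
def cv (P : Pol) : Set ℂ := P.bd '' Icc 0 1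

/-- the centre of a face -/
def ctr (f : Site) : ℂ := emb f + ⟨1 / 2, 1 / 2⟩

/-- the closed square of a face -/
def InSq (f : Site) (z : ℂ) : Prop :=
  (f.1 : ℝ) ≤ z.re ∧ z.re ≤ f.1 + 1 ∧ (f.2 : ℝ) ≤ z.im ∧ z.im ≤ f.2 + 1

def P_seg : Prop := ∀ P : Pol, ContinuousOn P.bd (Icc 0 1) ∧ (∀ i < P.N, emb (P.β i) ∈ cv P) ∧
  ∀ z ∈ cv P, ∃ i < P.N, ∃ s ∈ Icc (0 : ℝ) 1,
    z = emb (P.β i) + (s : ℂ) * (emb (P.β (i + 1)) - emb (P.β i))

def P_jl : Prop := ∀ P : Pol,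
  JLoop (fun t => P.bd (Int.fract t)) ∧ range (fun t => P.bd (Int.fract t)) = cv P

def P_loc : Prop := ∀ P : Pol, (∀ v, emb v ∈ cv P → ∃ i < P.N, P.β i = v) ∧
  ∀ f, ctr f ∉ cv P ∧ ∀ z, InSq f z → z ∉ cv P →
    (z ∈ P.dom ↔ f ∈ P.face) ∧ (z ∈ outs (cv P) ↔ f ∉ P.face)

def P_fin : Prop := ∀ P : Pol, P.face.Finite

def P_cc : Prop := ∀ P : Pol, Cn P.faceᶜ

def P_inn : Prop := ∀ (P : Pol) (v : Site), (∀ f, v ∈ cor f → f ∈ P.face) ↔ emb v ∈ P.dom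

/-- the faces of the polygon as a finite set -/
structure Good (P : Pol) (D : Finset Site) : Prop where
  coe : ∀ f, f ∈ D ↔ f ∈ P.face
  cc : Cc D
  inn : ∀ v, v ∈ inn D ↔ emb v ∈ P.dom
  bd : ∀ f ∈ D, ∀ v ∈ cor f, v ∉ P152.inn D → ∃ i < P.N, P.β i = v
  nin : ∀ i < P.N, P.β i ∉ P152.inn D

def P_good : Prop := ∀ P : Pol, ∃ D, Good P D

def P_apr : Prop := ∀ (ψ : ℂ → ℂ) (P : ℕ → Pol) (δ : ℕ → ℝ) (U : ℕ → Finset Site),
  IsJordanMap ψ → Approx ψ P δ → (∀ n, Good (P n) (U n)) → Apr (DP ψ) δ U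

/-! ### The model -/

/-- spins with given sets of minus vertices and plus faces -/
def mkS (D T s : Finset Site) : AT.Spin :=
  (fun v => if v ∈ T then -1 else 1, fun f => if f ∈ D ∧ f ∉ s then -1 else 1)

/-- the spins of a height function -/
def spn (D : Finset Site) (h : Ht) : AT.Spin := mkS D (tau D h) (dag D h)

def M_sum : Prop := ∀ (P : Pol) (D : Finset Site), Good P D → P.Conf.Finite ∧
  (∀ s ∈ P.Conf, ∃ h ∈ hs D, spn D h = s) ∧ (∀ h ∈ hs D, spn D h ∈ P.Conf) ∧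
  ∀ G : AT.Spin → ℝ, ∑ᶠ s ∈ P.Conf, G s = ∑ h ∈ hs D, G (spn D h)

/-- elementary facts on heights -/
def M_par : Prop := ∀ (D : Finset Site) (h : Ht), IsH D h → (∀ v, Even (h (v, true))) ∧
  (∀ f ∈ D, ∀ v ∈ cor f,
    h (f, false) - h (v, true) = ((spn D h).1 v : ℤ) * ((spn D h).2 f : ℤ)) ∧
  ∀ m ∈ vin D, ((spn D h).1 (src m) = (spn D h).1 (tgt m) ↔ h (src m, true) = h (tgt m, true)) ∧
    ((spn D h).2 (fa m) = (spn D h).2 (fb m) ↔ h (fa m, false) = h (fb m, false)) ∧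
    (h (src m, true) = h (tgt m, true) ∨ h (fa m, false) = h (fb m, false))

def M_wt : Prop := ∀ (P : Pol) (D : Finset Site) (c : ℝ) (h : Ht), Good P D → 0 < c → IsH D h →
  P.wt c⁻¹ (spn D h) * c ^ (vin D).card = hwt c D h

def M_ht : Prop := ∀ (P : Pol) (D : Finset Site) (h : Ht), Good P D → IsH D h →
  P.IsHt (spn D h) (fun v => (h (v, true) : ℝ) / 2) ∧
  ∀ H, P.IsHt (spn D h) H → ∀ (δ : ℝ) (φ : ℂ → ℝ), 0 < δ → HasCompactSupport φ →
    P.field δ φ H = lin (smp δ ((fun z => φ z / 2) ∘ cx)) h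

/-- the link -/
def Link : Prop := ∀ c K : ℝ, 0 < c → LatConv c K → AT.Conv c⁻¹ (K / 4)

theorem cx_pnt (δ : ℝ) (f : Site) : cx (pnt δ f) = δ * emb f := by
  apply Complex.ext <;> simp [cx, pnt, emb]

theorem tg_eq (m : Vx) : tg m = tgt m := rfl

theorem ot_eq (m : Vx) : ot m = fb m := by
  obtain ⟨x, b⟩ := m
  cases b <;> rfl

theorem dom_eq (P : Pol) : P.dom = inside (cv P) := rfl

theorem mem_face {P : Pol} {f : Site} : f ∈ P.face ↔ ctr f ∈ P.dom := Iff.rfl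

/-- the coordinate map as a homeomorphism -/
def cxH : Pl ≃ₜ ℂ := Complex.equivRealProdCLM.symm.toHomeomorph

theorem cxH_eq : ⇑cxH = cx := by
  funext p
  apply Complex.ext <;> simp [cxH, cx]

theorem norm_le_cx (p : Pl) : ‖p‖ ≤ ‖cx p‖ :=
  max_le (Complex.abs_re_le_norm (cx p)) (Complex.abs_im_le_norm (cx p))

theorem norm_cx_le (p : Pl) : ‖cx p‖ ≤ 2 * ‖p‖ := by
  have h := Complex.norm_le_abs_re_add_abs_im (cx p)
  have h1 : |p.1| ≤ ‖p‖ := norm_fst_le p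
  have h2 : |p.2| ≤ ‖p‖ := norm_snd_le p
  exact h.trans (by simp only [cx]; linarith)

theorem cx_sub (p q : Pl) : cx (p - q) = cx p - cx q := rfl

theorem dist_le_cx (p q : Pl) : dist p q ≤ dist (cx p) (cx q) := by
  rw [dist_eq_norm, dist_eq_norm, ← cx_sub]; exact norm_le_cx _

theorem dist_cx_le (p q : Pl) : dist (cx p) (cx q) ≤ 2 * dist p q := by
  rw [dist_eq_norm, dist_eq_norm, ← cx_sub]; exact norm_cx_le _

end

end Vale.Agent.P145.Lk
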