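import Vale.Agent.P145.NpDefs
import Vale.Agent.P145.RmMain

/-! P145, block NP: exploration of the crossing clusters one after the other. -/

namespace Vale.Agent.P145.Np

open Vale.Agent.P152 Vale.Agent.P145.Rm

/-- there are `k` distinct crossing clusters -/
def Gk (O : Set Vx) (U V : Set Site) (W : Finset Site) (k : ℕ) : Prop :=
  ∃ s ⊆ W, s.card = k ∧ Crs O U V s

/-- there is a crossing -/
def G1 (O : Set Vx) (V : Set Site) (W : Finset Site) : Prop :=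
  ∃ f ∈ W, ∃ g, g ∉ V ∧ Cx O Set.univ f g

variable {c : ℝ} {O O' : Set Vx} {U U' V : Set Site} {f g : Site} {D D' W s : Finset Site}
  {h ho hi : Ht} {ω ωo ωi : Finset Vx} {k : ℕ}

theorem Cx.imp (h : Cx O U f g) (H : ∀ m a b, Sep m a b → a ∈ U → b ∈ U → m ∉ O →
    a ∈ U' ∧ b ∈ U' ∧ m ∉ O') : Cx O' U' f g :=
  PBas_mono (fun _ _ ⟨a, b, m, c, d⟩ =>
    ⟨(H m _ _ d a b c).1, (H m _ _ d a b c).2.1, m, (H m _ _ d a b c).2.2, d⟩) h

theorem Crs.sub (h : Crs O U V s) {t : Finset Site} (ht : t ⊆ s) : Crs O U V t :=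
  ⟨fun f a g b => h.1 f (ht a) g (ht b), fun f a => h.2 f (ht a)⟩

theorem gk_of (h : Crs O U V s) (hs : s ⊆ W) (hk : k ≤ s.card) : Gk O U V W k := by
  obtain ⟨t, a, b⟩ := Finset.exists_subset_card_eq hk
  exact ⟨t, a.trans hs, b, h.sub a⟩

theorem cx_mem (k : Cx (ox D h ω) Set.univ f g) (n : f ≠ g) : f ∈ D := by
  rcases k.cases_head with e | ⟨b, ⟨-, -, m, h1, h2⟩, -⟩
  · exact absurd e n
  · exact (h2.vin.1 (by_contra fun a => h1 (Or.inl a))).1

theorem ox_sub (hD : D' ⊆ D) (k : Out D D' 0 ho ωo) (k' : Ok D' hi ωi) :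
    ox D (glue D' ho hi) (ωo ∪ ωi) ⊆ ox D' hi ωi := fun m hm => by
  by_cases a : m ∈ vin D'
  · exact Or.inr ((o0_glue0 k k').1 ▸ ⟨hm.resolve_left fun b => b (vin_mono hD a), a⟩)
  · exact Or.inl a

theorem cx_in (k : Out D D' 0 ho ωo) (k' : Ok D' hi ωi) (hf : f ∈ D')
    (e : Cx (ox D (glue D' ho hi) (ωo ∪ ωi)) Set.univ f g) : Cx (ox D' hi ωi) Set.univ f g := by
  suffices Cx (ox D' hi ωi) Set.univ f g ∧ g ∈ D' from this.1
  induction e with
  | refl => exact ⟨.refl, hf⟩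
  | @tail a b _ e ih =>
    obtain ⟨-, -, m, h1, h2⟩ := e
    have r := ring_glue k k'
    have hb : b ∈ D' := by
      by_contra n
      have hm : m ∈ bd D' := h2.bd.2 fun x => n (x.1 ih.2)
      obtain ⟨x1, f', x2, x3⟩ := bd_end hm (end_src m)
      exact h1 (Or.inr ⟨r.1 m (by_contra fun y => h1 (Or.inl y)) hm, r.2 f' x2 _ x3 x1⟩)
    refine ⟨ih.1.tail ⟨trivial, trivial, m, fun x => ?_, h2⟩, hb⟩
    rcases x with x | x
    · exact x (h2.vin.2 ⟨ih.2, hb⟩)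
    · exact h1 (Or.inr (((o0_glue0 k k').1.ge x).1))

theorem step (hc : 1 ≤ c) {a : ℝ} (hW : (W : Set Site) ⊆ V)
    (ha : ∀ D, Cc D → JH c D (fun h ω => pi (Gk (ox D h ω) Set.univ V W k)) ≤ a)
    (D : Finset Site) : Cc D → JH c D (fun h ω => pi (Gk (ox D h ω) Set.univ V W (k + 1))) ≤
      a * JH c D fun h ω => pi (G1 (ox D h ω) V W) := by
  classical
  have hc0 : 0 < c := by linarith
  have a0 : 0 ≤ a := (JH_nonneg hc fun _ _ _ => pi_nonneg _).trans (ha ∅ cc_empty)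
  have mem : ∀ {D h ω s}, s ⊆ W → Crs (ox D h ω) Set.univ V s → s ⊆ D := fun h1 h2 f hf => by
    obtain ⟨g, b1, b2⟩ := h2.2 f hf
    exact cx_mem b2 fun e => b1 (e ▸ hW (h1 hf))
  induction D using Finset.strongInductionOn with
  | _ D ih =>
  intro hD
  rw [← JH_mul]
  rcases D.eq_empty_or_nonempty with rfl | ⟨f1, hf1⟩
  · refine JH_mono hc fun h ω _ => ?_
    rw [pi_neg]
    · exact mul_nonneg a0 (pi_nonneg _)
    · rintro ⟨s, b1, b2, b3⟩
      rw [Finset.subset_empty.1 (mem b1 b3)] at b2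
      simp at b2
  obtain ⟨f0, l0, l1⟩ := exit_left hf1
  refine m_exp c hc D 0 {f0} (vin D : Set Vx)ᶜ Set.univ (fun z => z % 4 = 0) _ _
    (Cn.of_sub hD Set.subset_union_left fun g hg => ?_) disjoint_compl_left (fun _ a => a)
    (Or.inl rfl) fun D' ho ωo hs hc' o e r => ?_
  · rcases hg with hg | rfl
    · exact ⟨g, hg, Lk.refl (Or.inl hg)⟩
    · exact ⟨_, l1, (Lk.refl (Or.inl l1)).tail (sep_left g).symm (Or.inr rfl)⟩
  simp only [Set.inter_univ] at e r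
  change exd D (ox D ho ωo) {f0} = D' at e
  replace r : ∀ hi ωi, Ok D' hi ωi → ∀ f, f ∈ Rch (ox D ho ωo) {f0} ↔
      Cx (ox D (glue D' ho hi) (ωo ∪ ωi)) Set.univ f0 f := fun hi ωi k' f => by
    rw [← show Rch (ox D (glue D' ho hi) (ωo ∪ ωi)) {f0} = Rch (ox D ho ωo) {f0} from r hi ωi k']
    simp [Rch, Cx]
  have tr : ∀ hi ωi, Ok D' hi ωi → ∀ s ⊆ W, Crs (ox D (glue D' ho hi) (ωo ∪ ωi)) Set.univ V s →
      (∀ f ∈ s, f ∉ Rch (ox D ho ωo) {f0}) → Crs (ox D' hi ωi) Set.univ V s :=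
    fun hi ωi k' s b1 b2 b3 => ⟨fun f x g y z => b2.1 f x g y (z.mono (ox_sub hs o k') subset_rfl),
      fun f x => (b2.2 f x).imp fun g y => ⟨y.1, cx_in o k'
        (e ▸ mem_exd.2 ⟨mem b1 b2 x, b3 f x⟩) y.2⟩⟩
  rw [Inn, Inn]
  by_cases q : ∃ f ∈ W, f ∈ Rch (ox D ho ωo) {f0} ∧ ∃ g, g ∉ V ∧ g ∈ Rch (ox D ho ωo) {f0}
  · obtain ⟨f, q1, q2, g, q3, q4⟩ := q
    refine le_trans (JH_mono hc fun hi ωi k' => pi_mono ?_) ((ha D' hc').trans ?_)
    · rintro ⟨s, b1, b2, b3⟩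
      refine gk_of (s := s.filter (· ∉ Rch (ox D ho ωo) {f0}))
        (tr hi ωi k' _ ((Finset.filter_subset _ _).trans b1) (b3.sub (Finset.filter_subset _ _))
          fun f x => (Finset.mem_filter.1 x).2) ((Finset.filter_subset _ _).trans b1) ?_
      have b4 := Finset.card_filter_add_card_filter_not (s := s) (· ∈ Rch (ox D ho ωo) {f0})
      have b5 : (s.filter (· ∈ Rch (ox D ho ωo) {f0})).card ≤ 1 :=
        Finset.card_le_one.2 fun x hx y hy => b3.1 x (Finset.mem_filter.1 hx).1 y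
          (Finset.mem_filter.1 hy).1 (.trans (Cx.symm ((r hi ωi k' x).1 (Finset.mem_filter.1 hx).2))
            ((r hi ωi k' y).1 (Finset.mem_filter.1 hy).2))
      omega
    · refine (JH_const (D := D') hc0 a).ge.trans (JH_mono hc fun hi ωi k' => ?_)
      rw [pi_pos (p := G1 _ _ _)
        ⟨f, q1, g, q3, .trans (Cx.symm ((r hi ωi k' f).1 q2)) ((r hi ωi k' g).1 q4)⟩, mul_one]
  · have ss : D' ⊂ D := by
      refine ⟨hs, fun x => ?_⟩
      have y := x l0.mem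
      rw [← e] at y
      exact (mem_exd.1 y).2 (subset_rch rfl)
    refine le_trans (JH_mono hc fun hi ωi k' => pi_mono ?_) ((ih D' ss hc').trans ?_)
    · rintro ⟨s, b1, b2, b3⟩
      refine ⟨s, b1, b2, tr hi ωi k' s b1 b3 fun f x y => ?_⟩
      obtain ⟨g, b4, b5⟩ := b3.2 f x
      exact q ⟨f, b1 x, y, g, b4, (r hi ωi k' g).2 (.trans ((r hi ωi k' f).1 y) b5)⟩
    · rw [← JH_mul]
      refine JH_mono hc fun hi ωi k' => mul_le_mul_of_nonneg_left (pi_mono ?_) a0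
      rintro ⟨f, b1, g, b2, b3⟩
      exact ⟨f, b1, g, b2, b3.mono (ox_sub hs o k') subset_rfl⟩

/-- geometric tail in domains with plus boundary -/
theorem tail1 (hc : 1 ≤ c) {θ : ℝ} (hW : (W : Set Site) ⊆ V)
    (hθ : ∀ D, Cc D → PG c D (fun P _ => pi (¬ Enc P W V)) ≤ θ) (k : ℕ) :
    ∀ D, Cc D → JH c D (fun h ω => pi (Gk (ox D h ω) Set.univ V W k)) ≤ θ ^ k := by
  have t0 : 0 ≤ θ := (JH_nonneg hc fun _ _ _ => pi_nonneg _).trans (hθ ∅ cc_empty)
  induction k with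
  | zero => exact fun D _ => (JH_mono hc fun _ _ _ => pi_le_one _).trans (by
      rw [JH_const (by linarith), pow_zero])
  | succ k ih =>
    refine fun D hD => (step hc hW ih D hD).trans ?_
    rw [pow_succ]
    refine mul_le_mul_of_nonneg_left (le_trans (JH_mono hc fun h ω _ => pi_mono ?_) (hθ D hD))
      (pow_nonneg t0 k)
    rintro ⟨f, b1, g, b2, b3⟩ e
    exact e.not_rch b1 ⟨g, b2, b3.symm⟩

end Vale.Agent.P145.Np
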