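import Vale.Agent.P145.NpOne

/-! P145, block NP: local clusters. -/

namespace Vale.Agent.P145.Np

open Vale.Agent.P152 Vale.Agent.P145.Rm

variable {c : ℝ} {D A A0 A1 B C W U : Finset Site} {V : Set Site} {k : ℕ}

/-- exploration of the outermost minus circuit -/
theorem out2 (hc : 1 ≤ c) (hB : B ⊆ D) (hcc : Cc B) {Φ : Ht → Finset Vx → ℝ}
    {Ψ : Finset Site → Ht → Finset Vx → ℝ} {K : ℝ} (hK : 0 ≤ K) (hΨ : ∀ E h ω, 0 ≤ Ψ E h ω)
    (h1 : ∀ D' ho ωo hi ωi, A ⊆ D' → D' ⊆ B → Out D D' 2 ho ωo → Ok D' hi ωi →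
      Φ (glue D' ho hi) (ωo ∪ ωi) ≤ Ψ D' hi ωi)
    (h2 : ∀ D', A ⊆ D' → Cc D' → JH c D' (Ψ D') ≤ K) :
    JH c D (fun h ω => Φ h ω * pi (Enc (oj 2 h ω) A B)) ≤ K := by
  have hc0 : 0 < c := by linarith
  have s : (D : Set Site)ᶜ ⊆ (B : Set Site)ᶜ := Set.compl_subset_compl.2 hB
  refine le_trans ?_ (JH_const (D := D) hc0 K).le
  refine m_exp c hc D 2 (B : Set Site)ᶜ ∅ Set.univ (fun z => z % 4 = 2) _ _
    (by rwa [Set.union_eq_right.2 s]) (Set.empty_disjoint _) (fun _ a => a) (Or.inr ⟨rfl, s⟩)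
    fun D' ho ωo _ hc' k e r => ?_
  simp only [Set.empty_union, Set.inter_univ] at e r
  have b : D' ⊆ B := fun f hf => by
    by_contra n
    exact (mem_exd.1 (e ▸ hf)).2 (subset_rch n)
  rw [Inn, Inn, JH_const hc0]
  by_cases a : A ⊆ D'
  · refine le_trans (JH_mono hc fun hi ωi k' => ?_) (h2 D' a hc')
    by_cases n : Enc (oj 2 (glue D' ho hi) (ωo ∪ ωi)) A B
    · rw [pi_pos n, mul_one]
      exact h1 D' ho ωo hi ωi a b k k'
    · rw [pi_neg n, mul_zero]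
      exact hΨ _ _ _
  · refine le_trans (JH_mono hc (G := fun _ _ => 0) fun hi ωi k' => ?_) (by rwa [JH_const hc0])
    rw [pi_neg, mul_zero]
    intro n
    refine a fun f hf => e ▸ mem_exd.2 ⟨?_, ?_⟩
    · obtain ⟨E, a1, a2, -⟩ := n
      exact hB (a2 (a1 hf))
    · rw [← r hi ωi k']
      exact n.not_rch hf

/-- minus circuits given an event that is arbitrary in `A1` and increasing elsewhere -/
theorem mreset (hc : 1 ≤ c) (hD : Cc D) (hC : Cc C) (h1 : C ⊆ D) (h2 : A0 ⊆ C) (h3 : B ⊆ C)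
    (h4 : A1 ⊆ A0) (h5 : ∀ m ∈ vin A1, src m ∈ inn A0) {g : Set Vx → Prop}
    (hg : ∀ Q Q' : Set Vx, Q ⊆ Q' → Q' ∩ vin A1 ⊆ Q → g Q → g Q') {q : ℝ}
    (hq : q * JH c C (fun h ω => pi ((vin A0 : Set Vx) ⊆ oj 0 h ω)) ≤
      JH c C fun h ω => pi ((vin A0 : Set Vx) ⊆ oj 0 h ω) * pi (Enc (oj 2 h ω) A B)) :
    q * JH c D (fun h ω => pi (g (oj 2 h ω))) ≤
      JH c D fun h ω => pi (g (oj 2 h ω)) * pi (Enc (oj 2 h ω) A B) := by
  have v := vin_mono (h4.trans (h2.trans h1))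
  have k := reset hc hD hC h1 h2 h3 (G := fun T O => pi (∀ m ∈ vin A1, m ∈ O ∧ src m ∉ T))
    (fun _ _ => pi_nonneg _) (fun T T' O O' a b => pi_congr (forall₂_congr fun m hm => and_congr
      (b m (Or.inl (vin_mono h4 hm))) (not_congr (a _ (Or.inl (h5 m hm)))))) hq
  have e : ∀ h ω, Ok D h ω → ev (fun T O => pi (∀ m ∈ vin A1, m ∈ O ∧ src m ∉ T)) h ω =
      pi ((vin A1 : Set Vx) ⊆ oj 0 h ω) := fun h ω k => pi_congr (forall₂_congr fun m _ => by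
    have := k.1.par.1 (src m)
    simp only [tm, oj, op, Set.mem_ofPred_eq, Finset.mem_coe]
    exact and_congr_right fun _ => by omega)
  rw [JH_congr e] at k
  replace k := k.trans_eq (JH_congr fun h ω k => congrArg (· * _) (e h ω k))
  have f := g_four c hc D (fun _ Q => pi (g Q))
    (fun P Q => pi (((vin A1 : Set Vx) ⊆ P ∧ Disjoint (vin A1 : Set Vx) Q) ∧ Enc Q A B))
    (fun _ Q => pi (g Q) * pi (Enc Q A B)) (fun P _ => pi ((vin A1 : Set Vx) ⊆ P)) hD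
    (fun P Q => by simp only [← pi_and, pi_nonneg, and_self]) fun P Q P' Q' B' d => by
      simp only [← pi_and]
      refine pi_mono fun e => ⟨⟨hg _ _ (Set.subset_union_left.trans Set.subset_union_left)
        (fun m hm => ?_) e.1, e.2.2.mono (Set.subset_union_right.trans Set.subset_union_left)
        subset_rfl subset_rfl⟩, e.2.1.1.trans (Set.subset_union_right.trans Set.subset_union_left)⟩
      rcases hm.1 with (x | x) | x
      · exact x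
      · exact absurd x (Set.disjoint_left.1 e.2.1.2 hm.2)
      · exact absurd (Or.inl (Or.inr (e.2.1.1 hm.2))) (Set.disjoint_left.1 d x)
  simp only [PG, sub_ox v] at f
  rw [JH_congr (F := fun h ω => pi ((_ ∧ Disjoint _ (o2 h ω)) ∧ _)) (G := fun h ω =>
    pi ((vin A1 : Set Vx) ⊆ oj 0 h ω) * pi (Enc (oj 2 h ω) A B)) fun h ω _ => by
      rw [← pi_and]
      refine pi_congr (and_congr_left' (and_iff_left_of_imp fun x => Set.disjoint_left.2
        fun m a b => ?_))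
      have b1 : h (src m, true) % 4 = 0 := (x a).2
      have b2 : h (src m, true) % 4 = 2 := b.2
      omega] at f
  refine le_of_mul_le_mul_right (le_trans ?_ f) (wired_pos hc v)
  rw [mul_comm q, mul_assoc]
  exact mul_le_mul_of_nonneg_left k (JH_nonneg hc fun _ _ _ => pi_nonneg _)

/-- tail for the clusters that avoid the minus edges -/
theorem tail2 (hc : 1 ≤ c) (hD : Cc D) {z : Site} {n0 n1 N : ℕ} (h1 : C ⊆ D) (hC : Cc C)
    (h2 : sq z n1 ⊆ C) (h3 : B ⊆ C) (hB : Cc B) (hU : B ⊆ U) (hn : n0 + 2 ≤ n1) (hN : n0 ≤ N)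
    (hA : sq z n1 ⊆ A) (hW : W ⊆ sq z n0) {a : ℝ}
    (ha : ∀ D, Cc D → JH c D (fun h ω => pi (Gk (ox D h ω) Set.univ (sq z n0) W k)) ≤ a)
    (hq : 1 / 2 * JH c C (fun h ω => pi ((vin (sq z n1) : Set Vx) ⊆ oj 0 h ω)) ≤
      JH c C fun h ω => pi ((vin (sq z n1) : Set Vx) ⊆ oj 0 h ω) * pi (Enc (oj 2 h ω) A B)) :
    JH c D (fun h ω => pi (Gk (oj 2 h ω) U (sq z N) W k)) ≤ 2 * a := by
  have s : sq z (n0 + 1) ⊆ sq z n1 := sq_mono (by omega)
  have k1 := mreset hc hD hC h1 h2 h3 s (fun m hm => by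
      have := sd_le_of_mem_sq (mem_vin.1 hm).1
      exact mem_inn_sq.2 (by change sd (src m) z ≤ _ at this; push_cast at this; omega))
    (g := fun Q => ∃ s ⊆ W, s.card = k ∧ (∀ f ∈ s, ∀ g ∈ s, Cx Q U f g → f = g) ∧
      ∀ f ∈ s, ∃ g, g ∉ sq z n0 ∧ Cx Q (sq z (n0 + 1)) f g)
    (fun Q Q' a b ⟨s, b1, b2, b3, b4⟩ => ⟨s, b1, b2, fun f x g y e => b3 f x g y
      (e.mono a subset_rfl), fun f x => (b4 f x).imp fun g y => ⟨y.1, y.2.imp
        fun m _ _ d u v n => ⟨u, v, fun w => n (b ⟨w, d.vin.2 ⟨u, v⟩⟩)⟩⟩⟩) hq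
  have k2 := k1.trans (out2 hc (h3.trans h1) hB
    ((JH_nonneg hc fun _ _ _ => pi_nonneg _).trans (ha ∅ cc_empty)) (fun _ _ _ => pi_nonneg _)
    (Ψ := fun D h ω => pi (Gk (ox D h ω) Set.univ (sq z n0) W k))
    (fun D' ho ωo hi ωi a b o k' => pi_mono fun ⟨s', b1, b2, b3, b4⟩ => ⟨s', b1, b2,
      fun f x g y e => b3 f x g y (e.imp fun m _ _ d _ _ n => by
        have v : m ∈ vin D' := by_contra fun w => n (Or.inl w)
        exact ⟨hU (b (d.vin.1 v).1), hU (b (d.vin.1 v).2),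
          fun w => n (Or.inr ((o0_glue2 o k').2.le ⟨w, v⟩))⟩),
      fun f x => (b4 f x).imp fun g y => ⟨y.1, y.2.imp fun m _ _ d u v n => ⟨trivial, trivial,
        fun w => w.elim (fun w => w (d.vin.2 ⟨a (hA (s u)), a (hA (s v))⟩))
          fun w => n ((o0_glue2 o k').2.ge w).1⟩⟩⟩) fun D' _ b => ha D' b)
  refine le_trans (JH_mono hc fun h ω _ => pi_mono ?_) (by linarith)
  rintro ⟨s, b1, b2, b3, b4⟩
  refine ⟨s, b1, b2, b3, fun f x => ?_⟩
  obtain ⟨g, y1, y2⟩ := b4 f x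
  exact y2.exit (hW (b1 x)) fun e => y1 (sq_mono hN e)

theorem Gk.congr {O O' : Set Vx} (h : Gk O U V W k) (e : ∀ m ∈ vin U, m ∈ O ↔ m ∈ O') :
    Gk O' U V W k :=
  let ⟨s, b1, b2, b3, b4⟩ := h
  ⟨s, b1, b2, fun f x g y a => b3 f x g y (a.imp fun m _ _ d u v n =>
    ⟨u, v, fun w => n ((e m (d.vin.2 ⟨u, v⟩)).1 w)⟩), fun f x => (b4 f x).imp fun _ y =>
      ⟨y.1, y.2.imp fun m _ _ d u v n => ⟨u, v, fun w => n ((e m (d.vin.2 ⟨u, v⟩)).2 w)⟩⟩⟩

/-- tail for the clusters that avoid the plus edges -/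
theorem tail3 (hc : 1 ≤ c) (hD : Cc D) (h1 : C ⊆ D) (hC : Cc C) (h2 : A0 ⊆ C) (h3 : B ⊆ C)
    (hB : Cc B) (h4 : U ⊆ A0) (h5 : ∀ m ∈ vin U, src m ∈ inn A0) (hA : U ⊆ A) {a : ℝ} (a0 : 0 ≤ a)
    (ha : ∀ D, A ⊆ D → Cc D → JH c D (fun h ω => pi (Gk (oj 2 h ω) U V W k)) ≤ a)
    (hq : 1 / 2 * JH c C (fun h ω => pi ((vin A0 : Set Vx) ⊆ oj 0 h ω)) ≤
      JH c C fun h ω => pi ((vin A0 : Set Vx) ⊆ oj 0 h ω) * pi (Enc (oj 2 h ω) A B)) :
    JH c D (fun h ω => pi (Gk (oj 0 h ω) U V W k)) ≤ 2 * a := by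
  have k1 := reset hc hD hC h1 h2 h3 (G := fun T O => pi (Gk {m | m ∈ O ∧ src m ∉ T} U V W k))
    (fun _ _ => pi_nonneg _) (fun T T' O O' a b => by
      have e := fun m (hm : m ∈ vin U) => and_congr (b m (Or.inl (vin_mono h4 hm)))
        (not_congr (a _ (Or.inl (h5 m hm))))
      exact pi_congr ⟨fun x => x.congr e, fun x => x.congr fun m hm => (e m hm).symm⟩) hq
  have e : ∀ h ω, Ok D h ω → ev (fun T O => pi (Gk {m | m ∈ O ∧ src m ∉ T} U V W k)) h ω =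
      pi (Gk (oj 0 h ω) U V W k) := fun h ω k => by
    rw [ev]
    congr 2
    ext m
    have := k.1.par.1 (src m)
    simp only [tm, oj, op, Set.mem_ofPred_eq, Finset.mem_coe]
    exact and_congr_right fun _ => by omega
  rw [JH_congr e] at k1
  replace k1 := k1.trans_eq (JH_congr fun h ω k => congrArg (· * _) (e h ω k))
  have k2 := k1.trans (out2 hc (h3.trans h1) hB a0 (fun _ _ _ => pi_nonneg _)
    (Ψ := fun _ h ω => pi (Gk (oj 2 h ω) U V W k))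
    (fun D' ho ωo hi ωi a _ o k' => pi_mono fun x => x.congr fun m hm =>
      ⟨fun w => (o0_glue2 o k').1.le ⟨w, vin_mono (hA.trans a) hm⟩,
        fun w => ((o0_glue2 o k').1.ge w).1⟩) ha)
  linarith

end Vale.Agent.P145.Np
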