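import Vale.Agent.P145.RsDefs

/-! Two lateral arms make a bridge. -/

open Set

namespace Vale.Agent.P145.Rs

open Vale.Agent.P153 (V Adj Conn adj_iff)
open Vale.Agent.P153.RSW (Up Ev all cn_first cn_last cn_mono cn_mem ev_mono up_ev cn_refl cn_trans
  cn_step cn_symm cn_cluster cn_all all_symm)

theorem RsBr_col (c : ℤ) {S : Set V} (hS : ∀ j : ℤ, 0 ≤ j → (c, j) ∈ S) {j : ℤ} (hj : 0 ≤ j) :
    Conn all S (c, 0) (c, j) := by
  obtain ⟨n, rfl⟩ := Int.eq_ofNat_of_zero_le hj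
  induction n with
  | zero => exact cn_refl
  | succ n ih =>
    exact cn_trans (ih (by omega)) (cn_step (by rw [adj_iff]; omega) trivial (hS _ (by omega))
      (hS _ (by omega)))

theorem RsBr_ext {E : V → V → Prop} {R : Set V} {a b : V} (c : ℤ) (ha : a ∈ R)
    (h : Conn E R a b) (hb : 0 ≤ b.2) (hc : Adj b (c, b.2)) :
    Conn all ({v | v ∈ R ∧ Conn E R a v} ∪ {v | v.1 = c ∧ 0 ≤ v.2}) a (c, 0) :=
  cn_trans (cn_mono (fun _ _ k => k) subset_union_left (cn_all (cn_cluster h)))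
    (cn_trans (cn_step hc trivial (Or.inl ⟨cn_mem h ha, h⟩) (Or.inr ⟨rfl, hb⟩))
      (cn_symm all_symm (RsBr_col c (fun _ hj => Or.inr ⟨rfl, hj⟩) hb)))

theorem s_br (h : Vale.Agent.P153.RSW.PLB) : S_br := by
  intro Ω e P p hH w A H hw
  have h1 : P (Lat e w A H) ≤ P (Ev e (rc (3 * (2 * w + 1) - A) A 0 H)
      (Iv (3 * (2 * w + 1) - w) (3 * (2 * w + 1) + w)) {v | v.1 = 3 * (2 * w + 1) - A}) :=
    hH.move (sm_mp (3 * (2 * w + 1)) 0) (rc_fin _ _ _ _)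
      (fun v => by simp only [mem_rc]; omega) (fun v => by simp only [mem_rc, mem_Iv]; omega)
      fun v => by simp only [mem_rc, mem_ofPred_eq]; omega
  refine (hH.mul up_ev up_ev (hH.nonneg _) le_rfl h1).trans (hH.mono ?_)
  rintro ω ⟨⟨⟨x0, y0⟩, a1, b, b1, a2, k1⟩, ⟨x1, y1⟩, c1, d, d1, c2, k2⟩
  have b2 := cn_mem k1 a2
  have d2 := cn_mem k2 c2
  have a3 := a2
  have c3 := c2
  have a4 := a1
  have c4 := c1
  simp only [mem_rc, mem_Iv, mem_ofPred_eq] at a4 a3 b1 b2 c4 c3 d1 d2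
  obtain rfl : y0 = 0 := a4.1
  obtain rfl : y1 = 0 := c4.1
  have e1 := RsBr_ext (A + 1) a2 k1 b2.2.2.1 (by rw [adj_iff]; omega)
  have e2 := RsBr_ext (3 * (2 * w + 1) - A - 1) c2 k2 d2.2.2.1 (by rw [adj_iff]; omega)
  obtain ⟨z, z1, z2⟩ := h _ _ (3 * (2 * w + 1) - A - 1) x0 x1 (A + 1)
    (fun v hv => hv.elim (fun k => k.1.2.2.1) fun k => k.2)
    (fun v hv => hv.elim (fun k => k.1.2.2.1) fun k => k.2) (by omega) (by omega) (by omega)
    (Or.inr ⟨rfl, le_rfl⟩) (cn_symm all_symm e2) (Or.inl ⟨a2, cn_refl⟩) e1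
  rcases z1 with z1 | z1 <;> rcases z2 with z2 | z2
  · exact ⟨_, a1, _, c1, a2, cn_trans z2.2 (cn_symm (hH.symm ω) z1.2)⟩
  · have := z1.1.2.1
    have := z2.1
    omega
  · have := z2.1.1
    have := z1.1
    omega
  · have := z1.1
    have := z2.1
    omega

end Vale.Agent.P145.Rs
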