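import Vale.Agent.P145.RsDefs

/-! Abstract RSW theory on the square lattice: a chain of bridges contains a long crossing. -/

open Set

namespace Vale.Agent.P145.Rs

open Vale.Agent.P153 (V Adj Conn adj_iff)
open Vale.Agent.P153.RSW (Up Ev all cn_first cn_last cn_mono cn_mem ev_mono up_ev PLB cn_refl
  cn_all cn_cluster cn_trans cn_symm)

theorem RsChain_step (h : PLB) {E : V → V → Prop} (hE : ∀ x y, E x y → E y x) {S T U : Set V}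
    {a a' b b' : ℤ} (hU : U ⊆ {v | 0 ≤ v.2}) (hS : S ⊆ U) (hT : T ⊆ U) (h1 : a < a')
    (h2 : a' < b) (h3 : b < b') (ha : (a, (0 : ℤ)) ∈ S) (hc : Conn E S (a, 0) (b, 0))
    (ha' : (a', (0 : ℤ)) ∈ T) (hc' : Conn E T (a', 0) (b', 0)) : Conn E U (a, 0) (a', 0) := by
  obtain ⟨v, hv, hv'⟩ := h {v | v ∈ S ∧ Conn E S (a, 0) v} {v | v ∈ T ∧ Conn E T (a', 0) v}
    a a' b b' (fun v hv => hU (hS hv.1)) (fun v hv => hU (hT hv.1)) h1 h2 h3 ⟨ha, cn_refl⟩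
    (cn_all (cn_cluster hc)) ⟨ha', cn_refl⟩ (cn_all (cn_cluster hc'))
  exact cn_trans (cn_mono (fun _ _ k => k) hS hv.2)
    (cn_symm hE (cn_mono (fun _ _ k => k) hT hv'.2))

theorem s_chain (h : PLB) : S_chain := by
  intro Ω e P p hp w A H k hw
  obtain ⟨s, hs⟩ : ∃ s, s = 2 * w + 1 := ⟨_, rfl⟩
  let S : ℕ → Set V := fun t => rc (3 * s - A + (t * s - s)) (A + (t * s - s)) 0 H
  let B : ℕ → Set Ω := fun t => Ev e (S t) (Iv (t * s - s - w) (t * s - s + w))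
    (Iv (t * s + 2 * s - w) (t * s + 2 * s + w))
  have h1 := hp.prod (Finset.range (k + 1)) B (hp.nonneg (Br e w A H)) (fun _ _ => up_ev)
    fun t _ => hp.move (sm_pp (s - t * s) 0) (rc_fin _ _ _ _)
      (fun v => by simp only [S, mem_rc]; omega)
      (fun v => by simp only [mem_rc, mem_Iv]; omega) fun v => by simp only [mem_rc, mem_Iv]; omega
  rw [Finset.card_range] at h1
  refine h1.trans (hp.mono fun ω hω => ?_)
  rw [← hs]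
  have hx : ∀ t, ∃ a b : ℤ, t ≤ k → (t * s - s - w ≤ a ∧ a ≤ t * s - s + w) ∧
      (t * s + 2 * s - w ≤ b ∧ b ≤ t * s + 2 * s + w) ∧ (a, (0 : ℤ)) ∈ S t ∧
      Conn (e ω) (S t) (a, 0) (b, 0) := fun t => by
    by_cases ht : t ≤ k
    · obtain ⟨⟨a, a'⟩, ⟨rfl, ha⟩, ⟨b, b'⟩, ⟨rfl, hb⟩, k1, k2⟩ :=
        mem_iInter₂.1 hω t (Finset.mem_range.2 (Nat.lt_succ_of_le ht))
      exact ⟨a, b, fun _ => ⟨ha, hb, k1, k2⟩⟩
    · exact ⟨0, 0, fun k => absurd k ht⟩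
  choose a b hab using hx
  have hS : ∀ t, S t ⊆ {v | 0 ≤ v.2 ∧ v.2 ≤ H} := fun t v hv => hv.2.2
  have key : ∀ t ≤ k, Conn (e ω) {v | 0 ≤ v.2 ∧ v.2 ≤ H} (a 0, 0) (a t, 0) := by
    intro t ht
    induction t with
    | zero => exact cn_refl
    | succ t ih =>
      have ht' := Nat.le_of_succ_le ht
      obtain ⟨⟨h1, h2⟩, ⟨h3, h4⟩, h5, h6⟩ := hab t ht'
      obtain ⟨⟨k1, k2⟩, ⟨k3, k4⟩, k5, k6⟩ := hab (t + 1) ht
      push_cast at k1 k2 k3 k4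
      exact cn_trans (ih ht') (RsChain_step h (hp.symm ω) (fun v hv => hv.1) (hS t) (hS _)
        (by linarith) (by linarith) (by linarith) h5 h6 k5 k6)
  obtain ⟨⟨-, h2⟩, -, h5, -⟩ := hab 0 (Nat.zero_le k)
  obtain ⟨-, ⟨k3, -⟩, -, k6⟩ := hab k le_rfl
  have hL0 : (0 : ℤ) ≤ k * s := mul_nonneg (Int.natCast_nonneg k) (by omega)
  push_cast at h2
  obtain ⟨c, c1, c2, c3, -⟩ := cn_first (fun v => v.1) lip1 (h := k * s)
    (cn_trans (key k le_rfl) (cn_mono (fun _ _ k => k) (hS k) k6)) (hS 0 h5)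
    (show a 0 ≤ k * s by linarith) (show (k : ℤ) * s ≤ b k by linarith)
  obtain ⟨u, u1, u2, -, u4⟩ := cn_last (hp.symm ω) (fun v => v.1) lip1 (h := 0) c3
    ⟨hS 0 h5, show a 0 ≤ k * s by linarith⟩ (show a 0 ≤ 0 by linarith) (show 0 ≤ c.1 by linarith)
  have hb : ({v | 0 ≤ v.2 ∧ v.2 ≤ H} ∩ {v : V | v.1 ≤ k * s}) ∩ {v : V | 0 ≤ v.1} ⊆
      rc 0 (k * s) 0 H := fun v hv => ⟨hv.2, hv.1.2, hv.1.1⟩
  exact ⟨u, u1, c, c1, hb ⟨u2, u1.ge⟩, cn_mono (fun _ _ k => k) hb u4⟩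

end Vale.Agent.P145.Rs
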