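import Vale.Agent.P145.RsDefs

/-! Closing the gate. -/

open Set

namespace Vale.Agent.P145.Rs

open Vale.Agent.P153 (V Adj Conn adj_iff)
open Vale.Agent.P153.RSW (Up Ev all cn_first cn_last cn_mono cn_mem ev_mono up_ev cn_symm cn_trans
  cn_refl cn_all cn_cluster)

variable {Ω : Type} {e : Ω → V → V → Prop} {P : Set Ω → ℝ} {p : ℝ}

theorem rsClose_r (h : Hyp e P p) (l w : ℤ) : P (D e l w) ≤
    P (Ev e (rc (-(16 * (2 * w + 1))) (16 * (2 * w + 1)) (-(12 * (2 * w + 1))) (12 * (2 * w + 1)))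
      (sq 0 l) {v | v.1 = 16 * (2 * w + 1)}) :=
  h.move (sw_pp 0 0) (rc_fin _ _ _ _) (fun v => by simp only [mem_rc]; omega)
    (fun v => by simp only [mem_rc, mem_sq, Prod.fst_zero, Prod.snd_zero]; omega)
    fun v => by simp only [mem_rc, mem_ofPred_eq]; omega

theorem rsClose_l (h : Hyp e P p) (l w : ℤ) : P (D e l w) ≤
    P (Ev e (rc (-(16 * (2 * w + 1))) (16 * (2 * w + 1)) (-(12 * (2 * w + 1))) (12 * (2 * w + 1)))
      (sq 0 l) {v | v.1 = -(16 * (2 * w + 1))}) :=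
  h.move (sw_pm 0 0) (rc_fin _ _ _ _) (fun v => by simp only [mem_rc]; omega)
    (fun v => by simp only [mem_rc, mem_sq, Prod.fst_zero, Prod.snd_zero]; omega)
    fun v => by simp only [mem_rc, mem_ofPred_eq]; omega

theorem rsClose_hc (h : Hyp e P p) (w : ℤ) :
    P (HC e (-(16 * (2 * w + 1))) (16 * (2 * w + 1)) (-(12 * (2 * w + 1))) (12 * (2 * w + 1))) ≤
      P (HC e 0 (32 * (2 * w + 1)) 0 (24 * (2 * w + 1))) :=
  h.move (sm_pp (-(16 * (2 * w + 1))) (-(12 * (2 * w + 1)))) (rc_fin _ _ _ _)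
    (fun v => by simp only [mem_rc]; omega)
    (fun v => by simp only [mem_rc, mem_ofPred_eq]; omega)
    fun v => by simp only [mem_rc, mem_ofPred_eq]; omega

theorem s_close (h : S_ring) : S_close := by
  intro Ω e P p hp w hw
  constructor
  · refine (hp.mul up_ev up_ev (hp.nonneg _) (rsClose_r hp 0 w) (rsClose_l hp 0 w)).trans
      ((hp.mono ?_).trans (rsClose_hc hp w))
    rintro ω ⟨⟨x, hx, r, hr, x1, x2⟩, x', hx', r', hr', y1, y2⟩
    obtain rfl : x = x' := by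
      simp only [mem_sq, Prod.fst_zero, Prod.snd_zero] at hx hx'
      ext <;> omega
    exact ⟨r', hr', r, hr, cn_mem y2 y1, cn_trans (cn_symm (hp.symm ω) y2) x2⟩
  · intro l N hl hN hN'
    refine (hp.mul (Up.inter up_ev up_ev) up_cir (hp.nonneg _)
      (hp.mul up_ev up_ev (hp.nonneg _) (rsClose_r hp l w) (rsClose_l hp l w)) le_rfl).trans
      ((hp.mono ?_).trans (rsClose_hc hp w))
    rintro ω ⟨⟨⟨x, hx, r, hr, x1, x2⟩, x', hx', r', hr', y1, y2⟩, hc⟩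
    obtain ⟨C, -, c2, c3⟩ := h Ω e ω 0 l N (hp.symm ω) hl hN hc
    have k1 : r ∉ sq 0 (N - 1) := by
      simp only [mem_sq, Prod.fst_zero, Prod.snd_zero, mem_ofPred_eq] at hr ⊢
      omega
    have k2 : r' ∉ sq 0 (N - 1) := by
      simp only [mem_sq, Prod.fst_zero, Prod.snd_zero, mem_ofPred_eq] at hr' ⊢
      omega
    obtain ⟨y, ⟨-, z1⟩, z2⟩ := c3 {v | v ∈ _ ∧ Conn (e ω) _ x v} x r hx k1 ⟨x1, cn_refl⟩
      (cn_all (cn_cluster x2))
    obtain ⟨y', ⟨-, z3⟩, z4⟩ := c3 {v | v ∈ _ ∧ Conn (e ω) _ x' v} x' r' hx' k2 ⟨y1, cn_refl⟩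
      (cn_all (cn_cluster y2))
    have k3 : sq 0 N \ sq 0 l ⊆ rc (-(16 * (2 * w + 1))) (16 * (2 * w + 1)) (-(12 * (2 * w + 1)))
        (12 * (2 * w + 1)) := fun t ht => by
      have := ht.1
      simp only [mem_sq, mem_rc, Prod.fst_zero, Prod.snd_zero] at this ⊢
      omega
    exact ⟨r', hr', r, hr, cn_mem y2 y1, cn_trans (cn_symm (hp.symm ω) y2)
      (cn_trans z3 (cn_trans (cn_mono (fun _ _ k => k) k3 (c2 y' z4 y z2))
        (cn_trans (cn_symm (hp.symm ω) z1) x2)))⟩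

end Vale.Agent.P145.Rs
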