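import Vale.Agent.P145.RsDefs

/-! The possible shapes of a half plane arm. -/

open Set

namespace Vale.Agent.P145.Rs

open Vale.Agent.P153 (V Adj Conn adj_iff)
open Vale.Agent.P153.RSW (Up Ev all cn_first cn_last cn_mono cn_mem ev_mono up_ev cn_exit cn_trans)

variable {Ω : Type}

theorem rsCov_one (e : Ω → V → V → Prop) (w : ℤ) :
    G e w ⊆ Side e w (36 * (2 * w + 1)) (61 * (2 * w + 1)) ∪ D e w (3 * w + 1) := by
  rintro ω ⟨a, ha, b, hb, h1, h2⟩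
  simp only [mem_ofPred_eq] at hb
  by_cases h3 : b.1 = 36 * (2 * w + 1) ∨ b.1 = -(36 * (2 * w + 1))
  · exact Or.inl ⟨a, ha, b, h3, h1, h2⟩
  have h4 := mem_Iv.1 ha
  obtain ⟨c, c1, -, c2, -⟩ := cn_first (fun v => v.2) lip2 (h := 48 * (2 * w + 1)) h2 h1
    (by omega) (by omega)
  have hs : rc (-(36 * (2 * w + 1))) (36 * (2 * w + 1)) 0 (61 * (2 * w + 1)) ∩
      {v : V | v.2 ≤ 48 * (2 * w + 1)} ⊆
      rc (-(12 * (2 * (3 * w + 1) + 1))) (12 * (2 * (3 * w + 1) + 1))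
        (-(16 * (2 * (3 * w + 1) + 1))) (16 * (2 * (3 * w + 1) + 1)) := fun v hv => by
    simp only [mem_inter_iff, mem_rc, mem_ofPred_eq] at hv ⊢
    omega
  refine Or.inr ⟨a, ?_, c, ?_, hs ⟨h1, ?_⟩, cn_mono (fun _ _ k => k) hs c2⟩
  · simp only [mem_sq, Prod.fst_zero, Prod.snd_zero]
    omega
  · simp only [mem_ofPred_eq]
    omega
  · simp only [mem_ofPred_eq]
    omega

theorem rsCov_two (e : Ω → V → V → Prop) {w : ℤ} (hw : 0 ≤ w) (l : ℤ) :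
    G e w ⊆ Side e w (36 * (2 * w + 1)) (61 * (2 * w + 1)) ∪
      Side e w (16 * (2 * w + 1)) (26 * (2 * w + 1)) ∪ Eav e l w ∪
      Ev e (rc (-(36 * (2 * w + 1))) (36 * (2 * w + 1)) 0 (61 * (2 * w + 1)))
        (sq (0, 13 * (2 * w + 1)) l) {v | v.2 = 61 * (2 * w + 1)} := by
  rintro ω ⟨a, ha, b, hb, h1, h2⟩
  simp only [mem_ofPred_eq] at hb
  by_cases h3 : b.1 = 36 * (2 * w + 1) ∨ b.1 = -(36 * (2 * w + 1))
  · exact Or.inl (Or.inl (Or.inl ⟨a, ha, b, h3, h1, h2⟩))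
  have hb2 : b.2 = 61 * (2 * w + 1) := by omega
  have h4 := mem_Iv.1 ha
  by_cases h5 : a ∈ sq (0, 13 * (2 * w + 1)) l
  · exact Or.inr ⟨a, h5, b, hb2, h1, h2⟩
  obtain ⟨c, c1, c0, c2, c3⟩ := cn_first
    (fun v => max (max (v.1 - 16 * (2 * w + 1)) (-v.1 - 16 * (2 * w + 1))) (v.2 - 26 * (2 * w + 1)))
    (fun x y k => by rw [adj_iff] at k; omega) (h := 0) h2 h1 (by omega) (by omega)
  have hs : rc (-(36 * (2 * w + 1))) (36 * (2 * w + 1)) 0 (61 * (2 * w + 1)) ∩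
      {v : V | max (max (v.1 - 16 * (2 * w + 1)) (-v.1 - 16 * (2 * w + 1)))
        (v.2 - 26 * (2 * w + 1)) ≤ 0} ⊆
      rc (-(16 * (2 * w + 1))) (16 * (2 * w + 1)) 0 (26 * (2 * w + 1)) := fun v hv => by
    simp only [mem_inter_iff, mem_rc, mem_ofPred_eq] at hv ⊢
    omega
  have hs' : rc (-(16 * (2 * w + 1))) (16 * (2 * w + 1)) 0 (26 * (2 * w + 1)) ⊆
      rc (-(36 * (2 * w + 1))) (36 * (2 * w + 1)) 0 (61 * (2 * w + 1)) := fun v hv => by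
    simp only [mem_rc] at hv ⊢
    omega
  have c4 := cn_mono (fun _ _ k => k) hs c2
  have a1 : a ∈ rc (-(16 * (2 * w + 1))) (16 * (2 * w + 1)) 0 (26 * (2 * w + 1)) := by
    simp only [mem_rc]
    omega
  by_cases h6 : c.1 = 16 * (2 * w + 1) ∨ c.1 = -(16 * (2 * w + 1))
  · exact Or.inl (Or.inl (Or.inr ⟨a, ha, c, h6, a1, c4⟩))
  have c5 : c.2 = 26 * (2 * w + 1) := by omega
  rcases cn_exit (sq (0, 13 * (2 * w + 1)) l)ᶜ c4 h5 with ⟨-, h7⟩ | ⟨u, v, -, h7, -, h8, -, -, -, h9⟩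
  · exact Or.inl (Or.inr ⟨a, ha, c, c5, ⟨a1, h5⟩, h7⟩)
  · exact Or.inr ⟨v, not_not.1 h7, b, hb2, hs' h8, cn_trans (cn_mono (fun _ _ k => k) hs' h9) c3⟩

theorem s_cov : S_cov := by
  intro Ω e P p h w hw
  refine ⟨(h.mono (rsCov_one e w)).trans (h.union _ _), fun l => ?_⟩
  have h1 : P (Ev e (rc (-(36 * (2 * w + 1))) (36 * (2 * w + 1)) 0 (61 * (2 * w + 1)))
      (sq (0, 13 * (2 * w + 1)) l) {v | v.2 = 61 * (2 * w + 1)}) ≤ P (D e l (3 * w + 1)) :=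
    h.move (sm_pp 0 (13 * (2 * w + 1))) (rc_fin _ _ _ _)
      (fun v => by simp only [mem_rc]; omega)
      (fun v => by simp only [mem_rc, mem_sq, Prod.fst_zero, Prod.snd_zero]; omega)
      fun v => by simp only [mem_rc, mem_ofPred_eq]; omega
  have h2 := (h.mono (rsCov_two e hw l)).trans (h.union _ _)
  have h3 := h.union (Side e w (36 * (2 * w + 1)) (61 * (2 * w + 1)) ∪
    Side e w (16 * (2 * w + 1)) (26 * (2 * w + 1))) (Eav e l w)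
  have h4 := h.union (Side e w (36 * (2 * w + 1)) (61 * (2 * w + 1)))
    (Side e w (16 * (2 * w + 1)) (26 * (2 * w + 1)))
  linarith

end Vale.Agent.P145.Rs
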