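import Vale.Agent.P145.RsDefs

/-! Half plane arms have positive probability. -/

open Set

namespace Vale.Agent.P145.Rs

open Vale.Agent.P153 (V Adj Conn adj_iff)
open Vale.Agent.P153.RSW (Up Ev all cn_first cn_last cn_mono cn_mem ev_mono up_ev)

theorem rsg_sub {Ω : Type} (e : Ω → V → V → Prop) {w : ℤ} (hw : 0 ≤ w) :
    Ev e {v | 0 ≤ v.2} (Iv (-w) w) {v | v.2 = 61 * (2 * w + 1)} ⊆ G e w := by
  rintro ω ⟨x, hx, y, hy, k1, k2⟩
  simp only [mem_ofPred_eq] at hy
  have hx' := mem_Iv.1 hx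
  obtain ⟨u, u1, -, u3, -⟩ := cn_first (fun v => max (max (v.1 - 36 * (2 * w + 1))
    (-v.1 - 36 * (2 * w + 1))) (v.2 - 61 * (2 * w + 1))) (fun a b h => by
      rw [adj_iff] at h; omega) (h := 0) k2 k1 (by omega) (by omega)
  refine ⟨x, hx, u, by simp only [mem_ofPred_eq]; omega, by rw [mem_rc]; omega,
    cn_mono (fun _ _ k => k) (fun v hv => ?_) u3⟩
  simp only [mem_inter_iff, mem_ofPred_eq, mem_rc] at hv ⊢
  omega

theorem s_g : S_g := by
  intro Ω e P p h w hw
  have key : ∀ k : ℕ, P (Ev e (rc 0 (61 * (2 * w + 1)) 0 (61 * (2 * w + 1)))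
      {v | v.2 = 0 ∧ v.1 < k * (2 * w + 1) - w} {v | v.2 = 61 * (2 * w + 1)}) ≤ k * P (G e w) := by
    intro k
    induction k with
    | zero =>
      have h1 := h.add ∅ ∅ (disjoint_empty ∅)
      rw [empty_union] at h1
      refine (h.mono (Y := ∅) ?_).trans (by push_cast; linarith)
      rintro ω ⟨x, hx, -, -, k1, -⟩
      simp only [mem_ofPred_eq, mem_rc] at hx k1
      omega
    | succ k ih =>
      push_cast
      rw [add_one_mul, add_one_mul]
      generalize (k : ℤ) * (2 * w + 1) = t at ih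
      refine (h.mono ?_).trans ((h.union _ _).trans (add_le_add ih
        ((h.move (A := Iv (t - w) (t + w)) (B := {v | v.2 = 61 * (2 * w + 1)}) (sm_pp t 0)
          (rc_fin 0 (61 * (2 * w + 1)) 0 (61 * (2 * w + 1))) (fun v => ?_) (fun v => ?_)
          fun v => ?_).trans (h.mono (rsg_sub e hw)))))
      · rintro ω ⟨x, hx, k1⟩
        exact (lt_or_ge x.1 (t - w)).imp (fun k2 => ⟨x, ⟨hx.1, k2⟩, k1⟩)
          fun k2 => ⟨x, ⟨hx.1, k2, by have := hx.2; omega⟩, k1⟩
      all_goals simp only [mem_ofPred_eq, mem_rc, mem_Iv]; omega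
  have h1 := (h.cr (61 * (2 * w + 1)) (by omega)).trans (h.vc (a := 0) (b := 61 * (2 * w + 1))
    (c := 0) (d := 61 * (2 * w + 1)) (by omega) (by omega) (by omega))
  rw [div_le_iff₀' (by norm_num)]
  refine h1.trans (le_trans (h.mono ?_) (key 62))
  refine ev_mono Subset.rfl (fun v hv => ⟨hv.1, ?_⟩) inter_subset_left
  have := hv.2.2.1
  omega

end Vale.Agent.P145.Rs
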