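import Vale.Agent.P145.RsDefs

/-! Gluing of crossings with squares. -/

open Set

namespace Vale.Agent.P145.Rs

open Vale.Agent.P153 (V Adj Conn adj_iff)
open Vale.Agent.P153.RSW (Up Ev all cn_first cn_last cn_mono cn_mem ev_mono up_ev cn_cluster cn_all
  cn_symm cn_trans)

theorem rsGlue_meet (h1 : S_p1) {E : V → V → Prop} (hE : ∀ x y, E x y → E y x) {a b c d : ℤ}
    {S T : Set V} {x y x' y' : V} (hS : S ⊆ rc a b c d) (hT : T ⊆ rc a b c d) (hx : x ∈ S)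
    (k : Conn E S x y) (e1 : x.1 = a) (e2 : y.1 = b) (hx' : x' ∈ T) (k' : Conn E T x' y')
    (e3 : x'.2 = c) (e4 : y'.2 = d) : Conn E (rc a b c d) x x' := by
  obtain ⟨u, u1, u2⟩ := h1 a b c d {v | v ∈ S ∧ Conn E S x v} {v | v ∈ T ∧ Conn E T x' v} x y x' y'
    (fun v hv => hS hv.1) (fun v hv => hT hv.1)
    ⟨hx, Relation.ReflTransGen.refl⟩ (cn_all (cn_cluster k)) e1 e2
    ⟨hx', Relation.ReflTransGen.refl⟩ (cn_all (cn_cluster k')) e3 e4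
  exact cn_trans (cn_mono (fun _ _ k => k) hS u1.2)
    (cn_symm hE (cn_mono (fun _ _ k => k) hT u2.2))

theorem rsGlue_det (h1 : S_p1) {Ω : Type} {e : Ω → V → V → Prop}
    (he : ∀ ω a b, e ω a b → e ω b a) {a L M h : ℤ} (h0 : 0 ≤ a) (h2 : a ≤ L) (h3 : L ≤ M) :
    HC e 0 L 0 h ∩ (HC e a M 0 h ∩ VC e a L 0 h) ⊆ HC e 0 M 0 h := by
  rintro ω ⟨⟨x, hx, y, hy, k1, k2⟩, ⟨x', hx', y', hy', k3, k4⟩, u, hu, v, hv, k5, k6⟩
  simp only [mem_ofPred_eq] at hx hy hx' hy' hu hv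
  obtain ⟨s, s1, s2, s3, s4⟩ := cn_last (he ω) (fun v => v.1) lip1 (h := a) k2 k1 (by omega)
    (by omega)
  obtain ⟨t, t1, -, t3, -⟩ := cn_first (fun v => v.1) lip1 (h := L) k4 k3 (by omega) (by omega)
  have m1 := rsGlue_meet h1 (he ω) (S := rc 0 L 0 h ∩ {v | a ≤ v.1})
    (fun w hw => ⟨hw.2, hw.1.2⟩) subset_rfl ⟨s2, s1.ge⟩ s4 s1 hy k5 k6 hu hv
  have m2 := rsGlue_meet h1 (he ω) (S := rc a M 0 h ∩ {v | v.1 ≤ L})
    (fun w hw => ⟨hw.1.1, hw.2, hw.1.2.2⟩) subset_rfl ⟨k3, show x'.1 ≤ L by omega⟩ t3 hx' t1 k5 k6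
    hu hv
  have a1 : rc 0 L 0 h ⊆ rc 0 M 0 h := fun w hw => ⟨hw.1, hw.2.1.trans h3, hw.2.2⟩
  have a2 : rc a L 0 h ⊆ rc 0 M 0 h := fun w hw => ⟨h0.trans hw.1, hw.2.1.trans h3, hw.2.2⟩
  have a3 : rc a M 0 h ⊆ rc 0 M 0 h := fun w hw => ⟨h0.trans hw.1, hw.2⟩
  exact ⟨x, hx, y', hy', a1 k1, cn_trans (cn_mono (fun _ _ k => k) a1 s3)
    (cn_trans (cn_mono (fun _ _ k => k) a2 (cn_trans m1 (cn_symm (he ω) m2)))
      (cn_mono (fun _ _ k => k) a3 k4))⟩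

theorem s_glue (h1 : S_p1) : S_glue := by
  intro Ω e P p H hp m h x k h0 hm hx hP
  induction k with
  | zero =>
    rw [zero_add, pow_one, Nat.cast_zero, zero_mul, add_zero]
    exact (mul_le_of_le_one_right hx H.p_le).trans hP
  | succ k ih =>
    have hk : 0 ≤ (k : ℤ) * (m - h) := mul_nonneg k.cast_nonneg (sub_nonneg.2 hm)
    rw [pow_succ, Nat.cast_succ, add_one_mul]
    generalize (k : ℤ) * (m - h) = j at ih hk
    exact (H.mul up_hc (up_hc.inter up_vc) (mul_nonneg hx hp) ih (H.mul up_hc up_vc hp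
      (hP.trans (H.hc (by omega) (by omega) (by omega)))
      ((H.cr h h0).trans (H.vc (by omega) (by omega) (by omega))))).trans
      (H.mono (rsGlue_det h1 H.symm (a := m + j - h) (by omega) (by omega) (by omega)))

end Vale.Agent.P145.Rs
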