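import Vale.Agent.P145.RsDefs

/-! RSW on the square lattice: the induction over scales and the output. -/

open Set

namespace Vale.Agent.P145.Rs

open Vale.Agent.P153 (V Adj Conn adj_iff)
open Vale.Agent.P153.RSW (Up Ev all)

/-- the scales -/
def sc : ℕ → ℤ
  | 0 => 0
  | k + 1 => 3 * sc k + 1

theorem sc_succ (k : ℕ) : sc (k + 1) = 3 * sc k + 1 := rfl

theorem sc_pow (k : ℕ) : 2 * sc k + 1 = 3 ^ k := by
  induction k with
  | zero => rfl
  | succ k ih => rw [sc_succ, pow_succ, ← ih]; ring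

theorem sc_nn (k : ℕ) : 0 ≤ sc k := by
  induction k with
  | zero => exact le_rfl
  | succ k ih => rw [sc_succ]; omega

theorem sc_mono {j k : ℕ} (h : j ≤ k) : sc j ≤ sc k := by
  induction k, h using Nat.le_induction with
  | base => exact le_rfl
  | succ m _ ih => have := sc_nn m; rw [sc_succ]; omega

theorem s_main (h1 : S_glue) (h2 : S_side) (h3 : S_g) (h4 : S_cov) (h5 : S_trap) (h6 : S_close) :
    S_main := by
  intro p K hp
  obtain ⟨t, ht⟩ : ∃ t, t = p / 124 := ⟨_, rfl⟩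
  have t0 : 0 < t := by rw [ht]; positivity
  obtain ⟨β, hβ⟩ : ∃ β, β = min (t / 4) (t / 2 * (t * t)) := ⟨_, rfl⟩
  have b0 : 0 < β := by rw [hβ]; positivity
  have b1 : β ≤ t / 4 := hβ ▸ min_le_left _ _
  have b2 : β ≤ t / 2 * (t * t) := hβ ▸ min_le_right _ _
  obtain ⟨c0, c0p, hc⟩ := h2 p β (K + 126) hp b0
  obtain ⟨c1, hc1⟩ : ∃ c1, c1 = min c0 1 := ⟨_, rfl⟩
  have c1p : 0 < c1 := by rw [hc1]; positivity
  have c1a : c1 ≤ c0 := hc1 ▸ min_le_left _ _
  have c1b : c1 ≤ 1 := hc1 ▸ min_le_right _ _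
  refine ⟨min c1 ((t * t * c1 ^ 4 * p) ^ (K + 1)), by positivity, fun Ω e P H n => ?_⟩
  let good : ℕ → Prop := fun k =>
    β ≤ P (Side e (sc k) (16 * (2 * sc k + 1)) (26 * (2 * sc k + 1))) ∨
      β ≤ P (Side e (sc k) (36 * (2 * sc k + 1)) (61 * (2 * sc k + 1)))
  have hg : ∀ k, good k → c1 ≤ P (HC e 0 ((K + 126) * (2 * sc k + 1)) 0 (61 * (2 * sc k + 1))) := by
    intro k hk
    have := sc_nn k
    have k0 : (0 : ℤ) ≤ (K + 126) * (2 * sc k + 1) := by positivity
    rcases hk with hk | hk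
    · have := hc Ω e P H _ _ _ (sc_nn k) (by omega) (by omega) (by omega) hk
      push_cast at this
      exact c1a.trans (this.trans (H.mono (hc_mono H.symm le_rfl k0 le_rfl le_rfl (by omega))))
    · have := hc Ω e P H _ _ _ (sc_nn k) (by omega) (by omega) (by omega) hk
      push_cast at this
      exact c1a.trans this
  have hG : ∀ k, 2 * t ≤ P (G e (sc k)) := fun k => by
    have := h3 Ω e P p H _ (sc_nn k)
    linarith
  have hD : ∀ j k, j ≤ k → (∀ i, j ≤ i → i ≤ k → ¬ good i) → t ≤ P (D e (sc j) (sc (k + 1))) := by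
    intro j k hk
    induction k, hk using Nat.le_induction with
    | base =>
      intro hb
      have a1 := not_or.1 (hb j le_rfl le_rfl)
      have a2 := (h4 Ω e P p H _ (sc_nn j)).1
      have a3 := hG j
      rw [sc_succ]
      linarith [not_le.1 a1.2]
    | succ k hk ih =>
      intro hb
      have a0 := ih fun i h h' => hb i h (by omega)
      have a1 := not_or.1 (hb (k + 1) (by omega) le_rfl)
      have a2 := (h4 Ω e P p H _ (sc_nn (k + 1))).2 (sc j)
      have a3 := hG (k + 1)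
      have a4 := h5 Ω e P p H (sc j) (sc (k + 1)) (sc_nn j) (sc_mono (by omega))
      have a5 : P (Eav e (sc j) (sc (k + 1))) * (t * t) ≤ t / 2 * (t * t) :=
        ((mul_le_mul_of_nonneg_left (mul_le_mul a0 a0 t0.le (H.nonneg _)) (H.nonneg _)).trans
          a4).trans ((not_le.1 a1.1).le.trans b2)
      have a6 := le_of_mul_le_mul_right a5 (mul_pos t0 t0)
      rw [sc_succ (k + 1)]
      linarith [not_le.1 a1.1, not_le.1 a1.2]
  have fin : t * t * c1 ^ 4 ≤ P (HC e 0 (32 * (2 * sc (n + 1) + 1)) 0 (24 * (2 * sc (n + 1) + 1))) →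
      (t * t * c1 ^ 4 * p) ^ (K + 1) ≤ P (HC e 0 (K * 3 ^ n) 0 (72 * 3 ^ n)) := fun h => by
    have n0 := sc_nn (n + 1)
    have n1 := sc_nn n
    refine (h1 Ω e P p H hp.le _ _ _ K (by omega) (by omega) (by positivity) h).trans
      (H.mono (hc_mono H.symm le_rfl (by positivity) ?_ le_rfl ?_))
    · rw [← sc_pow, sc_succ]
      have : (0 : ℤ) ≤ K := by positivity
      nlinarith
    · rw [← sc_pow, sc_succ]
      omega
  by_cases hx : ∃ k ≤ n, good k
  · classical
    obtain ⟨k0, k1, k2⟩ := hx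
    obtain ⟨σ, hσ⟩ : ∃ σ, σ = Nat.findGreatest good n := ⟨_, rfl⟩
    have s1 : σ ≤ n := hσ ▸ Nat.findGreatest_le n
    have s2 := hg σ (hσ ▸ Nat.findGreatest_spec k1 k2)
    have s0 := sc_nn σ
    have K0 : (0 : ℤ) ≤ K := by positivity
    rcases s1.eq_or_lt with s3 | s3
    · refine (min_le_left _ _).trans (s2.trans (H.mono (hc_mono H.symm le_rfl (by positivity) ?_
        le_rfl ?_)))
      · rw [← s3, ← sc_pow]
        nlinarith
      · rw [← s3, ← sc_pow]
        omega
    refine (min_le_right _ _).trans (fin ?_)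
    have s4 := hD (σ + 1) n s3 fun i h h' => Nat.findGreatest_is_greatest (by omega) h'
    have s5 := sc_mono (show σ + 1 + 1 ≤ n + 1 by omega)
    rw [sc_succ, sc_succ] at s5
    have s6 := (h6 Ω e P p H _ (sc_nn (n + 1))).2 (sc (σ + 1)) (125 * sc σ + 63) (sc_nn _)
      (by rw [sc_succ]; omega) (by omega)
    have s7 := H.cir c1p.le (n := sc (σ + 1)) (N := 125 * sc σ + 63) (by omega) (by nlinarith)
      (by rw [sc_succ]; omega) s2 0
    exact (mul_le_mul (mul_le_mul s4 s4 t0.le (H.nonneg _)) s7 (by positivity)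
      (mul_nonneg (H.nonneg _) (H.nonneg _))).trans s6
  · refine (min_le_right _ _).trans (fin ?_)
    have s4 := hD 0 n (Nat.zero_le n) fun i _ h' k => hx ⟨i, h', k⟩
    exact ((mul_le_of_le_one_right (by positivity) (pow_le_one₀ c1p.le c1b)).trans
      (mul_le_mul s4 s4 t0.le (H.nonneg _))).trans (h6 Ω e P p H _ (sc_nn (n + 1))).1

theorem s_rsw (h : S_main) : S_rsw := by
  intro p K hp
  obtain ⟨c, c0, hc⟩ := h p (216 * K) hp
  refine ⟨c, c0, fun Ω e P H N hN => ?_⟩
  have hex : ∃ n : ℕ, N < 216 * 3 ^ n := by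
    obtain ⟨n, hn⟩ := pow_unbounded_of_one_lt N (show (1 : ℤ) < 3 by norm_num)
    exact ⟨n, by omega⟩
  classical
  have h1 := Nat.find_spec hex
  have h2 : 72 * 3 ^ Nat.find hex ≤ N := by
    rcases k : Nat.find hex with _ | m
    · simpa using hN
    · have := Nat.find_min hex (m := m) (by omega)
      rw [pow_succ]
      omega
  have K0 : (0 : ℤ) ≤ K := by positivity
  refine (hc Ω e P H (Nat.find hex)).trans (H.mono (hc_mono H.symm le_rfl
    (mul_nonneg K0 (by omega)) ?_ le_rfl h2))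
  push_cast
  nlinarith

end Vale.Agent.P145.Rs
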