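import Vale.Agent.P145.RsDefs

/-! Four crossings round a square block all lattice paths. -/

open Set

namespace Vale.Agent.P145.Rs

open Vale.Agent.P153 (V Adj Conn adj_iff)
open Vale.Agent.P153.RSW (Up Ev all cn_first cn_last cn_mono cn_mem cn_symm cn_trans cn_refl
  cn_cluster cn_all all_symm)

theorem rsRing_cut (φ : V → ℤ) (hφ : ∀ x y, Adj x y → φ y ≤ φ x + 1) {S : Set V} {x y : V}
    {lo hi : ℤ} (hc : Conn all S x y) (hx : x ∈ S) (h1 : φ x ≤ lo) (h2 : lo ≤ hi) (h3 : hi ≤ φ y) :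
    ∃ u v, φ u = lo ∧ φ v = hi ∧ u ∈ S ∩ {t | φ t ≤ hi} ∩ {t | lo ≤ φ t} ∧
      Conn all (S ∩ {t | φ t ≤ hi} ∩ {t | lo ≤ φ t}) u v := by
  obtain ⟨v, v1, -, v3, -⟩ := cn_first φ hφ (h := hi) hc hx (h1.trans h2) h3
  obtain ⟨u, u1, u2, -, u4⟩ := cn_last all_symm φ hφ (h := lo) v3 ⟨hx, h1.trans h2⟩ h1 (by omega)
  exact ⟨u, v, u1, v1, ⟨u2, u1.ge⟩, u4⟩

/-- A path in a horizontal strip meets a path in a vertical strip. -/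
theorem rsRing_meet (h : S_p1) (a b c d : ℤ) {S T : Set V} {x y x' y' : V}
    (hS : ∀ t ∈ S, c ≤ t.2 ∧ t.2 ≤ d) (hT : ∀ t ∈ T, a ≤ t.1 ∧ t.1 ≤ b) (hab : a ≤ b) (hcd : c ≤ d)
    (hx : x ∈ S) (k : Conn all S x y) (h1 : x.1 ≤ a) (h2 : b ≤ y.1) (hx' : x' ∈ T)
    (k' : Conn all T x' y') (h3 : x'.2 ≤ c) (h4 : d ≤ y'.2) : (S ∩ T).Nonempty := by
  obtain ⟨u, v, u1, v1, u2, u3⟩ := rsRing_cut (fun v => v.1) lip1 k hx h1 hab h2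
  obtain ⟨u', v', u1', v1', u2', u3'⟩ := rsRing_cut (fun v => v.2) lip2 k' hx' h3 hcd h4
  obtain ⟨t, t1, t2⟩ := h a b c d _ _ u v u' v'
    (fun t ht => ⟨ht.2, ht.1.2, hS t ht.1.1⟩)
    (fun t ht => ⟨(hT t ht.1.1).1, (hT t ht.1.1).2, ht.2, ht.1.2⟩) u2 u3 u1 v1 u2' u3' u1' v1'
  exact ⟨t, t1.1.1, t2.1.1⟩

theorem rsRing_clu {Ω : Type} {e : Ω → V → V → Prop} {ω : Ω} (he : ∀ a b, e ω a b → e ω b a)
    {R R' A B : Set V} (hR : R ⊆ R') (h : ω ∈ Ev e R A B) : ∃ K ⊆ R,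
      (∀ u ∈ K, ∀ v ∈ K, Conn (e ω) R' u v) ∧ ∃ x ∈ K, ∃ y, x ∈ A ∧ y ∈ B ∧ Conn all K x y := by
  obtain ⟨x, hx, y, hy, k1, k2⟩ := h
  exact ⟨{v | v ∈ R ∧ Conn (e ω) R x v}, fun v hv => hv.1,
    fun u hu v hv => cn_mono (fun _ _ k => k) hR (cn_trans (cn_symm he hu.2) hv.2),
    x, ⟨k1, cn_refl⟩, y, hx, hy, cn_all (cn_cluster k2)⟩

theorem rsRing_un {E : V → V → Prop} {R K K' : Set V} (h : ∀ u ∈ K, ∀ v ∈ K, Conn E R u v)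
    (h' : ∀ u ∈ K', ∀ v ∈ K', Conn E R u v) (hn : (K ∩ K').Nonempty) :
    ∀ u ∈ K ∪ K', ∀ v ∈ K ∪ K', Conn E R u v := by
  obtain ⟨t, t1, t2⟩ := hn
  rintro u (hu | hu) v (hv | hv)
  · exact h u hu v hv
  · exact cn_trans (h u hu t t1) (h' t t2 v hv)
  · exact cn_trans (h' u hu t t2) (h t t1 v hv)
  · exact h' u hu v hv

theorem rsRing_exit {S : Set V} {a b z : V} {N : ℤ} (ha : a ∈ sq z N) (hb : b ∉ sq z (N - 1))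
    (haS : a ∈ S) (k : Conn all S a b) : ∃ T ⊆ S, T ⊆ sq z N ∧ a ∈ T ∧ ∃ c, Conn all T a c ∧
      (c.2 = z.2 + N ∨ c.2 = z.2 - N ∨ c.1 = z.1 - N ∨ c.1 = z.1 + N) := by
  rw [mem_sq] at hb
  have ha' := mem_sq.1 ha
  have h0 : max (max (a.1 - z.1) (z.1 - a.1)) (max (a.2 - z.2) (z.2 - a.2)) ≤ N := by omega
  obtain ⟨c, e1, -, e2, -⟩ := cn_first
    (fun v => max (max (v.1 - z.1) (z.1 - v.1)) (max (v.2 - z.2) (z.2 - v.2))) (h := N)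
    (fun x y k => by
      have := lip1 x y k
      have := lip1' x y k
      have := lip2 x y k
      have := lip2' x y k
      omega) k haS h0 (by omega)
  refine ⟨_, inter_subset_left, fun t ht => ?_, ⟨haS, h0⟩, c, e2, by omega⟩
  have := ht.2
  simp only [mem_ofPred_eq] at this
  rw [mem_sq]
  omega

theorem rsRing_sub (z : V) {n N : ℤ} (hn : 0 ≤ n) :
    rc (z.1 - N) (z.1 + N) (z.2 + n + 1) (z.2 + N) ⊆ sq z N \ sq z n ∧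
    rc (z.1 - N) (z.1 + N) (z.2 - N) (z.2 - n - 1) ⊆ sq z N \ sq z n ∧
    rc (z.1 - N) (z.1 - n - 1) (z.2 - N) (z.2 + N) ⊆ sq z N \ sq z n ∧
    rc (z.1 + n + 1) (z.1 + N) (z.2 - N) (z.2 + N) ⊆ sq z N \ sq z n := by
  refine ⟨fun v => ?_, fun v => ?_, fun v => ?_, fun v => ?_⟩ <;>
    simp only [mem_rc, mem_sq, Set.mem_sdiff] <;> omega

theorem s_ring (h : S_p1) : S_ring := by
  rintro Ω e ω z n N he hn hN ⟨⟨⟨c1, c2⟩, c3⟩, c4⟩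
  obtain ⟨s1, s2, s3, s4⟩ := rsRing_sub z (N := N) hn
  obtain ⟨K1, a1, b1, x1, m1, y1, p1, q1, k1⟩ := rsRing_clu he s1 c1
  obtain ⟨K2, a2, b2, x2, m2, y2, p2, q2, k2⟩ := rsRing_clu he s2 c2
  obtain ⟨K3, a3, b3, x3, m3, y3, p3, q3, k3⟩ := rsRing_clu he s3 c3
  obtain ⟨K4, a4, b4, x4, m4, y4, p4, q4, k4⟩ := rsRing_clu he s4 c4
  simp only [mem_ofPred_eq] at p1 q1 p2 q2 p3 q3 p4 q4
  have r1 : ∀ t ∈ K1, z.2 + n + 1 ≤ t.2 ∧ t.2 ≤ z.2 + N := fun t ht => (a1 ht).2.2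
  have r2 : ∀ t ∈ K2, z.2 - N ≤ t.2 ∧ t.2 ≤ z.2 - n - 1 := fun t ht => (a2 ht).2.2
  have r3 : ∀ t ∈ K3, z.1 - N ≤ t.1 ∧ t.1 ≤ z.1 - n - 1 := fun t ht => ⟨(a3 ht).1, (a3 ht).2.1⟩
  have r4 : ∀ t ∈ K4, z.1 + n + 1 ≤ t.1 ∧ t.1 ≤ z.1 + N := fun t ht => ⟨(a4 ht).1, (a4 ht).2.1⟩
  have i13 := rsRing_meet h _ _ _ _ r1 r3 (by omega) (by omega) m1 k1 p1.le (by omega) m3 k3
    (by omega) q3.ge
  have i14 := rsRing_meet h _ _ _ _ r1 r4 (by omega) (by omega) m1 k1 (by omega) q1.ge m4 k4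
    (by omega) q4.ge
  have i23 := rsRing_meet h _ _ _ _ r2 r3 (by omega) (by omega) m2 k2 p2.le (by omega) m3 k3
    p3.le (by omega)
  refine ⟨K2 ∪ K3 ∪ (K1 ∪ K4), union_subset (union_subset (a2.trans s2) (a3.trans s3))
    (union_subset (a1.trans s1) (a4.trans s4)), rsRing_un (rsRing_un b2 b3 i23) (rsRing_un b1 b4 i14)
      (i13.imp fun t ht => ⟨Or.inr ht.2, Or.inl ht.1⟩), fun S a b ha hb haS k => ?_⟩
  rw [mem_sq] at ha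
  obtain ⟨T, tS, t0, aT, c, e2, hc⟩ := rsRing_exit (by rw [mem_sq]; omega) hb haS k
  have t1 : ∀ t ∈ T, z.1 - N ≤ t.1 ∧ t.1 ≤ z.1 + N := fun t ht => ⟨(t0 ht).1, (t0 ht).2.1⟩
  have t2 : ∀ t ∈ T, z.2 - N ≤ t.2 ∧ t.2 ≤ z.2 + N := fun t ht => (t0 ht).2.2
  have cT := cn_mem e2 aT
  have e3 := cn_symm all_symm e2
  rcases hc with r | r | r | r
  · exact (rsRing_meet h _ _ _ _ r1 t1 (by omega) (by omega) m1 k1 p1.le q1.ge aT e2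
      (by omega) r.ge).imp fun t ht => ⟨tS ht.2, Or.inr (Or.inl ht.1)⟩
  · exact (rsRing_meet h _ _ _ _ r2 t1 (by omega) (by omega) m2 k2 p2.le q2.ge cT e3
      r.le (by omega)).imp fun t ht => ⟨tS ht.2, Or.inl (Or.inl ht.1)⟩
  · exact (rsRing_meet h _ _ _ _ t2 r3 (by omega) (by omega) cT e3 r.le (by omega) m3 k3
      p3.le q3.ge).imp fun t ht => ⟨tS ht.1, Or.inl (Or.inr ht.2)⟩
  · exact (rsRing_meet h _ _ _ _ t2 r4 (by omega) (by omega) aT e2 (by omega) r.ge m4 k4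
      p4.le q4.ge).imp fun t ht => ⟨tS ht.1, Or.inr (Or.inr ht.2)⟩

end Vale.Agent.P145.Rs
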