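import Vale.Agent.P145.RsDefs

/-! Lateral exits make long crossings. -/

open Set

namespace Vale.Agent.P145.Rs

open Vale.Agent.P153 (V Adj Conn adj_iff)
open Vale.Agent.P153.RSW (Up Ev all cn_first cn_last cn_mono cn_mem ev_mono up_ev cn_exit cn_symm)

theorem rsSide_cover {Ω : Type} {e : Ω → V → V → Prop} (he : ∀ ω a b, e ω a b → e ω b a)
    {w A H L : ℤ} (h1 : L ≤ -w) (h2 : L ≤ A) :
    Side e w A H ⊆ Ev e (rc L A 0 H) (Iv (-w) w) {v | v.1 = A} ∪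
      Ev e (rc (-A) (-L) 0 H) (Iv (-w) w) {v | v.1 = -A} ∪ HC e L A 0 H ∪ HC e (-A) (-L) 0 H := by
  rintro ω ⟨a, ha, b, hb | hb, k1, k2⟩
  · have s : rc (-A) A 0 H ∩ {v : V | L ≤ v.1} ⊆ rc L A 0 H := fun t ht => ⟨ht.2, ht.1.2⟩
    have a1 : L ≤ a.1 := h1.trans ha.2.1
    rcases cn_exit {v : V | L ≤ v.1} k2 a1 with k | ⟨u, v, -, v1, -, v2, -, -, -, v3⟩
    · exact .inl (.inl (.inl ⟨a, ha, b, hb, s ⟨k1, a1⟩, cn_mono (fun _ _ k => k) s k.2⟩))
    · obtain ⟨c, c1, c2, -, c3⟩ := cn_last (he ω) (fun v => v.1) lip1 (h := L) v3 v2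
        (not_le.1 v1).le (h2.trans hb.ge)
      exact .inl (.inr ⟨c, c1, b, hb, s ⟨c2, c1.ge⟩, cn_mono (fun _ _ k => k) s c3⟩)
  · have s : rc (-A) A 0 H ∩ {v : V | L ≤ -v.1} ⊆ rc (-A) (-L) 0 H := fun t ht =>
      ⟨ht.1.1, le_neg.1 ht.2, ht.1.2.2⟩
    have a1 : L ≤ -a.1 := h1.trans (neg_le_neg ha.2.2)
    rcases cn_exit {v : V | L ≤ -v.1} k2 a1 with k | ⟨u, v, -, v1, -, v2, -, -, -, v3⟩
    · exact .inl (.inl (.inr ⟨a, ha, b, hb, s ⟨k1, a1⟩, cn_mono (fun _ _ k => k) s k.2⟩))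
    · obtain ⟨c, c1, c2, -, c3⟩ := cn_last (he ω) (fun v => -v.1) lip1' (h := L) v3 v2
        (not_le.1 v1).le (by omega)
      have c4 := cn_mono (fun _ _ k => k) s c3
      exact .inr ⟨b, hb, c, (neg_eq_iff_eq_neg.1 c1 :), cn_mem c4 (s ⟨c2, c1.ge⟩),
        cn_symm (he ω) c4⟩

theorem s_side (h1 : S_glue) (h2 : S_br) (h3 : S_chain) : S_side := by
  intro p x K hp hx
  refine ⟨min ((x / 4 * (x / 4)) ^ (K + 1)) ((x / 4 * p) ^ (K + 1)), by positivity,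
    fun Ω e P h w A H hw hH hA hHA k => ?_⟩
  have k1 := (k.trans (h.mono (rsSide_cover h.symm (L := 3 * (2 * w + 1) - A) (by omega)
    (by omega)))).trans ((h.union _ _).trans (add_le_add ((h.union _ _).trans
      (add_le_add (h.union _ _) le_rfl)) le_rfl))
  have k2 : P (Ev e (rc (-A) (-(3 * (2 * w + 1) - A)) 0 H) (Iv (-w) w) {v | v.1 = -A}) ≤
      P (Lat e w A H) := h.move (sm_mp 0 0) (rc_fin _ _ _ _)
    (fun v => by simp only [mem_rc]; omega) (fun v => by simp only [mem_rc, mem_Iv]; omega)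
    fun v => by simp only [mem_rc, mem_ofPred_eq]; omega
  have k3 : ∀ a b : ℤ, b - a = 2 * A - 3 * (2 * w + 1) →
      P (HC e a b 0 H) ≤ P (HC e 0 (2 * A - 3 * (2 * w + 1)) 0 H) := fun a b hab =>
    h.move (sm_pp a 0) (rc_fin _ _ _ _) (fun v => by simp only [mem_rc]; omega)
      (fun v => by simp only [mem_rc, mem_ofPred_eq]; omega)
      fun v => by simp only [mem_rc, mem_ofPred_eq]; omega
  have k4 := k3 (3 * (2 * w + 1) - A) A (by omega)
  have k5 := k3 (-A) (-(3 * (2 * w + 1) - A)) (by omega)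
  have x4 : 0 ≤ x / 4 := by positivity
  rcases le_total (x / 4) (P (Lat e w A H)) with d | d
  · exact (min_le_left _ _).trans ((pow_le_pow_left₀ (by positivity)
      ((mul_self_le_mul_self x4 d).trans (h2 Ω e P p h w A H hw)) _).trans
      (h3 Ω e P p h w A H K hw))
  · refine (min_le_right _ _).trans ((h1 Ω e P p h hp.le _ H _ K hH (by omega) x4
      (show _ ≤ P (HC e 0 (2 * A - 3 * (2 * w + 1)) 0 H) by
        change x ≤ P (Lat e w A H) + _ + _ + _ at k1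
        linarith)).trans (h.mono (hc_mono h.symm le_rfl (by positivity) ?_ le_rfl le_rfl)))
    have := mul_le_mul_of_nonneg_left (show 2 * w + 1 ≤ 2 * A - 3 * (2 * w + 1) - H by omega)
      (Int.natCast_nonneg K)
    omega

end Vale.Agent.P145.Rs
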