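import Vale.Agent.P145.RsDefs

/-! An arm avoiding the gate hits a leg. -/

open Set

namespace Vale.Agent.P145.Rs

open Vale.Agent.P153 (V Adj Conn adj_iff)
open Vale.Agent.P153.RSW (Up Ev all cn_mono cn_mem up_ev cn_refl cn_trans cn_step cn_symm
  cn_cluster cn_all all_symm)

theorem rsTrap_corner {a b c d : ℤ} (n : ℕ) :
    ∀ v ∈ rc a b c d, v.1 - a + (v.2 - c) = n → Conn all (rc a b c d) (a, c) v := by
  induction n with
  | zero =>
    intro v hv h
    obtain rfl : (a, c) = v := by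
      rw [mem_rc] at hv
      ext <;> simp only <;> omega
    exact cn_refl
  | succ n ih =>
    intro v hv h
    have k := mem_rc.1 hv
    by_cases h1 : a < v.1
    · have h2 : (v.1 - 1, v.2) ∈ rc a b c d := by simp only [mem_rc]; omega
      exact cn_trans (ih _ h2 (by simp only; omega))
        (cn_step (by rw [adj_iff]; omega) trivial h2 hv)
    · have h2 : (v.1, v.2 - 1) ∈ rc a b c d := by simp only [mem_rc]; omega
      exact cn_trans (ih _ h2 (by simp only; omega))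
        (cn_step (by rw [adj_iff]; omega) trivial h2 hv)

theorem rsTrap_join {a b c d : ℤ} {u v : V} (hu : u ∈ rc a b c d) (hv : v ∈ rc a b c d) :
    Conn all (rc a b c d) u v := by
  have k1 := mem_rc.1 hu
  have k2 := mem_rc.1 hv
  exact cn_trans (cn_symm all_symm (rsTrap_corner (u.1 - a + (u.2 - c)).toNat u hu (by omega)))
    (rsTrap_corner (v.1 - a + (v.2 - c)).toNat v hv (by omega))

theorem rsTrap_sub (h : S_p1) {Ω : Type} {e : Ω → V → V → Prop}
    (he : ∀ ω a b, e ω a b → e ω b a) {A H : ℤ} {Q I : Set V} (hI : ∀ v ∈ I, v.2 = 0)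
    (hQ : Q ⊆ rc (-A) A 0 H) (hc : ∀ u ∈ Q, ∀ v ∈ Q, Conn all Q u v) :
    Ev e (rc (-A) A 0 H \ Q) I {v | v.2 = H} ∩
      (Ev e (rc (-A) A 0 H) Q {v | v.1 = A} ∩ Ev e (rc (-A) A 0 H) Q {v | v.1 = -A}) ⊆
      Ev e (rc (-A) A 0 H) I {v | v.1 = A ∨ v.1 = -A} := by
  rintro ω ⟨⟨a, ha, b, hb, a1, a2⟩, ⟨x, hx, r, hr, x1, x2⟩, x', hx', r', hr', y1, y2⟩
  obtain ⟨y, z1, z2, z3⟩ := h (-A) A 0 H
    ({t | t ∈ rc (-A) A 0 H ∧ Conn (e ω) (rc (-A) A 0 H) x t} ∪
      {t | t ∈ rc (-A) A 0 H ∧ Conn (e ω) (rc (-A) A 0 H) x' t} ∪ Q)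
    {t | t ∈ rc (-A) A 0 H \ Q ∧ Conn (e ω) (rc (-A) A 0 H \ Q) a t} r' r a b
    (union_subset (union_subset (fun _ k => k.1) fun _ k => k.1) hQ) (fun _ k => k.1.1)
    (Or.inl (Or.inr ⟨cn_mem y2 y1, y2⟩))
    (cn_trans (cn_mono (fun _ _ k => k) (subset_union_right.trans subset_union_left)
        (cn_symm all_symm (cn_all (cn_cluster y2))))
      (cn_trans (cn_mono (fun _ _ k => k) subset_union_right (hc _ hx' _ hx))
        (cn_mono (fun _ _ k => k) (subset_union_left.trans subset_union_left)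
          (cn_all (cn_cluster x2))))) hr' hr ⟨a1, cn_refl⟩ (cn_all (cn_cluster a2)) (hI a ha) hb
  have z4 := cn_mono (fun _ _ k => k) sdiff_subset z3
  rcases z1 with (⟨-, z5⟩ | ⟨-, z5⟩) | z5
  · exact ⟨a, ha, r, Or.inl hr, a1.1, cn_trans z4 (cn_trans (cn_symm (he ω) z5) x2)⟩
  · exact ⟨a, ha, r', Or.inr hr', a1.1, cn_trans z4 (cn_trans (cn_symm (he ω) z5) y2)⟩
  · exact absurd z5 z2.2

theorem s_trap (h : S_p1) : S_trap := by
  intro Ω e P p hp l w hl hw
  refine (hp.mul up_ev (up_ev.inter up_ev) (mul_nonneg (hp.nonneg _) (hp.nonneg _)) le_rfl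
    (hp.mul up_ev up_ev (hp.nonneg _) ?_ ?_)).trans (hp.mono (rsTrap_sub h hp.symm
      (fun v hv => hv.1) (fun v => ?_) fun u hu v hv => rsTrap_join hu hv))
  · exact hp.move (sw_pp (-(13 * (2 * w + 1))) 0) (rc_fin _ _ _ _)
      (fun v => by simp only [mem_rc]; omega)
      (fun v => by simp only [mem_rc, mem_sq, Prod.fst_zero, Prod.snd_zero]; omega)
      fun v => by simp only [mem_rc, mem_ofPred_eq]; omega
  · exact hp.move (sw_pm (-(13 * (2 * w + 1))) 0) (rc_fin _ _ _ _)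
      (fun v => by simp only [mem_rc]; omega)
      (fun v => by simp only [mem_rc, mem_sq, Prod.fst_zero, Prod.snd_zero]; omega)
      fun v => by simp only [mem_rc, mem_ofPred_eq]; omega
  · simp only [mem_rc, mem_sq]
    omega

end Vale.Agent.P145.Rs
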