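import Vale.Agent.P145.RsP1
import Vale.Agent.P145.RsGlue
import Vale.Agent.P145.RsBr
import Vale.Agent.P145.RsChain
import Vale.Agent.P145.RsSide
import Vale.Agent.P145.RsG
import Vale.Agent.P145.RsCov
import Vale.Agent.P145.RsTrap
import Vale.Agent.P145.RsRing
import Vale.Agent.P145.RsClose
import Vale.Agent.P145.RsMain
import Vale.Agent.P145.Core

/-! RSW on the square lattice: the final statement and the interface with the model. -/

namespace Vale.Agent.P145

open Vale.Agent.P152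

theorem Rs.rsw : Rs.S_rsw :=
  Rs.s_rsw (Rs.s_main (Rs.s_glue Rs.s_p1)
    (Rs.s_side (Rs.s_glue Rs.s_p1) (Rs.s_br Rs.s_plb) (Rs.s_chain Rs.s_plb)) Rs.s_g Rs.s_cov
    (Rs.s_trap Rs.s_p1) (Rs.s_close (Rs.s_ring Rs.s_p1)))

/-- adjacency along edges of `O` -/
def eO (O : Set Vx) (v w : Site) : Prop := ∃ m ∈ O, Joi m v w

/-- a symmetric positively associated state below all finite volume plus states -/
def RI (c : ℝ) : Prop := ∃ p > 0, ∃ P : Set (Set Vx) → ℝ, Rs.Hyp eO P p ∧
  ∀ A, Vale.Agent.P153.RSW.Up eO A → ∀ D, Cc D → P A ≤ PG c D fun O _ => pi (O ∈ A)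

end Vale.Agent.P145
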