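import Vale.Agent.P145.RiDefs
import Vale.Agent.P145.RsAll
import Vale.Agent.P152.CBas
import Vale.Agent.P152.NFSym2
import Vale.Agent.P152.CU

/-! P145, block RI: assembly. -/

open Filter Topology

namespace Vale.Agent.P145

open Vale.Agent.P152
open Vale.Agent.P153.RSW (Ev up_ev)

namespace RiAsm

variable {c : ℝ} {D W : Finset _} {G : Set Vx → ℝ}

theorem rr_le (h1 : 1 ≤ c) (h2 : c ≤ 2) (q : Bool × Bool) :
    0 ≤ 1 - rr c q ∧ 1 - rr c q ≤ rr c q.swap ∧ rr c q.swap ≤ 1 := by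
  have a1 : c⁻¹ ≤ 1 := inv_le_one_of_one_le₀ h1
  have a2 : 1 / 2 ≤ c⁻¹ := by
    rw [one_div]
    exact inv_anti₀ (by linarith) h2
  obtain ⟨a, b⟩ := q
  cases a <;> cases b
  · simp [rr]
  · simp [rr]
  · simp [rr]
  · change 0 ≤ 1 - c⁻¹ ∧ 1 - c⁻¹ ≤ c⁻¹ ∧ c⁻¹ ≤ 1
    exact ⟨by linarith, by linarith, a1⟩

theorem bern_congr {W : Finset Vx} {p p' : Vx → ℝ} (h : ∀ m ∈ W, p m = p' m) :
    bern W p G = bern W p' G :=
  Finset.sum_congr rfl fun _ _ => by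
    rw [Finset.prod_congr rfl fun m hm => by rw [h m hm]]

theorem ph_congr {D : Finset Site} (hc : 0 < c) {F F' : Ht → ℝ} (h : ∀ x, IsH D x → F x = F' x) :
    PH c D F = PH c D F' :=
  le_antisymm (PH_mono hc fun x hx => (h x hx).le) (PH_mono hc fun x hx => (h x hx).ge)

/-- primal marks -/
theorem prim (hb : R_bern) (hm : R_mark) (ho : R_ori) (hl : L_leg) (hc : 0 < c) {D : Finset Site}
    {W : Finset Vx} (hD : Cc D) (hW : W ⊆ vin D) (hG : DepE W G) :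
    ED c D ∅ (qo c W G ∘ toOri) = JH c D fun _ ω => G ω := by
  rw [hl c D hD, hm c hc]
  refine ph_congr hc fun h hh => ?_
  rw [hb.2.1 W _ _ _ hW hG]
  exact bern_congr fun m k => by rw [ho.1 D h hh m (hW k)]

/-- dual marks -/
theorem dual (hb : R_bern) (hm : R_mark) (ho : R_ori) (hl : L_leg) (h1 : 1 ≤ c) (h2 : c ≤ 2)
    {D : Finset Site} {W : Finset Vx} (hD : Cc D) (hW : W.image du ⊆ vin D) (hG : DepE W G)
    (hG' : Monotone G) : (JH c D fun _ ω => G {m | du m ∉ (ω : Set Vx)}) ≤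
      ED c D ∅ (qo c W G ∘ osh (1, 0) ∘ toOri) := by
  have hc : 0 < c := by linarith
  rw [hl c D hD, hm c hc D fun O => G {m | du m ∉ O}]
  refine PH_mono hc fun h hh => ?_
  have e : DepE (W.image du) fun O => G {m | du m ∉ O} := fun O => by
    refine (hG _).trans (Eq.trans (congrArg G (Set.ext fun m => and_congr_left fun k => ?_))
      (hG _).symm)
    have : du m ∈ ((W.image du : Finset Vx) : Set Vx) :=
      Finset.mem_coe.2 (Finset.mem_image_of_mem _ k)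
    simp only [Set.mem_ofPred_eq, Set.mem_inter_iff, this, and_true]
  rw [hb.2.1 _ _ _ _ hW e, hb.2.2 W _ G hG]
  refine (hb.1 W _ (fun m => rr c (bt h (du m)).swap) G (fun m _ => rr_le h1 h2 _) hG').trans_eq
    (bern_congr fun m k => ?_)
  rw [Function.comp_apply, ho.2.1, ho.1 D h hh _ (hW (Finset.mem_image_of_mem _ k))]

/-- an open connection costs at most two plus connections -/
theorem two (hj : R_jh) (hk : R_cc) (hs : R_split) (hp : G_pm) (h1 : 1 ≤ c) (S A B : Set Site)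
    (ab' : Site × Site) : ∀ᶠ ab in exh, (JH c (bx ab) fun _ ω => pi ((ω : Set Vx) ∈ Ev eo S A B)) ≤
      PA c (bx ab) (Ev eo S A B) + PA c (bx ab') (Ev eo S A B) := by
  filter_upwards [bas_pf.exv ((bx ab').biUnion cor)] with ab hab
  obtain ⟨a1, -, a3⟩ := hj c h1 (bx ab)
  have k := hp c h1 (bx ab) (bx ab') _ (hk.1 ab).1 (hk.1 ab').1
    (fun f hf v hv => hab (Finset.mem_biUnion.2 ⟨f, hf, hv⟩))
    (inc_of_up (up_ev (S := S) (A := A) (B := B))).up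
  refine le_trans ?_ (add_le_add le_rfl k)
  refine (a3 _ _ fun h ω hh => ?_).trans_eq (a1 _ _)
  by_cases q : (ω : Set Vx) ∈ Ev eo S A B
  · have z : ∀ p : Prop, 0 ≤ pi p := fun p => by unfold pi; split_ifs <;> norm_num
    rcases hs.1 _ h ω S A B hh q with q1 | q1
    · exact le_add_of_le_of_nonneg (ri_pi_mono fun _ => q1) (z _)
    · exact le_add_of_nonneg_of_le (z _) (ri_pi_mono fun _ => q1)
  · have z : ∀ p : Prop, 0 ≤ pi p := fun p => by unfold pi; split_ifs <;> norm_num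
    rw [pi, if_neg q]
    exact add_nonneg (z _) (z _)

/-- the same in the limit -/
theorem two' (hj : R_jh) (hk : R_cc) (hs : R_split) (hp : G_pm) (h1 : 1 ≤ c) (R : RSt c)
    (S A B : Set Site) {x : ℝ} {y : Site × Site → ℝ} {z : ℝ} (hy : Tendsto y exh (𝓝 z))
    (h : ∀ᶠ ab in exh, x ≤ (JH c (bx ab) fun _ ω => pi ((ω : Set Vx) ∈ Ev eo S A B)) + y ab) :
    x ≤ 2 * PL c (Ev eo S A B) + z := by
  have k : ∀ ab', x ≤ PL c (Ev eo S A B) + PA c (bx ab') (Ev eo S A B) + z := fun ab' =>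
    ge_of_tendsto (((R.lim _).add_const _).add (hy.mono_left uf_le))
      (((h.and (two hj hk hs hp h1 S A B ab')).filter_mono uf_le).mono fun ab q => by
        linarith [q.1, q.2])
  have := ge_of_tendsto' (((R.lim (Ev eo S A B)).const_add _).add_const z) k
  linarith

theorem swap (hy : R_sym) (g4 : M_iso) (R : RSt c) (n : ℤ) :
    PL c (Rs.HC eo 0 n 0 n) = PL c (Rs.VC eo 0 n 0 n) := by
  refine Eq.trans (congrArg (PL c) ?_) (hy g4 c R _ _ _ NFSym2_is _ _ _)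
  have e : Rs.rc 0 n 0 n = Equiv.prodComm ℤ ℤ ⁻¹' Rs.rc 0 n 0 n := Set.ext fun v => by
    simp only [Rs.mem_rc, Set.mem_preimage, Equiv.prodComm_apply, Prod.fst_swap, Prod.snd_swap]
    tauto
  rw [← e]
  rfl

theorem cross (hj : R_jh) (hk : R_cc) (hx : R_hex) (hb : R_bern) (hm : R_mark) (ho : R_ori)
    (hs : R_split) (g3 : G_pm) (g5 : L_leg) (h1 : 1 ≤ c) (h2 : c ≤ 2) (hv : Conv c)
    (hu : USh (EE c)) (R : RSt c) (n : ℕ) :
    1 ≤ 2 * PL c (Rs.HC eo 0 n 0 n) + 2 * PL c (Rs.VC eo 0 n 0 n) := by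
  have hc : 0 < c := by linarith
  obtain ⟨W, hW⟩ := hs.2 (Rs.rc 0 n 0 n) {v | v.2 = 0} {v | v.2 = n} (Rs.rc_fin _ _ _ _)
  obtain ⟨G, eG⟩ : ∃ G : Set Vx → ℝ, G = fun O =>
    pi (O ∈ Ev eo (Rs.rc 0 n 0 n) {v | v.2 = 0} {v | v.2 = n}) := ⟨_, rfl⟩
  have hG : Monotone G := eG ▸ fun O O' k => ri_pi_mono (inc_of_up up_ev O O' k)
  rw [← eG] at hW
  have l1 := ho.2.2 c W G
  have t1 := hv ∅ _ (cbas_loc _ l1)
  have t2 : Tendsto (fun ab => ED c (bx ab) ∅ (qo c W G ∘ osh (1, 0) ∘ toOri)) exh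
      (𝓝 (EE c ∅ (qo c W G ∘ osh (1, 0) ∘ toOri))) := hv ∅ _ (cbas_loc _ (cu_loc (1, 0) l1))
  rw [hu (1, 0) _ l1] at t2
  have a1 := two' hj hk hs g3 h1 R (Rs.rc 0 n 0 n) {v | v.1 = 0} {v | v.1 = n} (x := 1) t2 <| by
    filter_upwards [bas_pf.exe (W.image du)] with ab hab
    obtain ⟨b1, b2, b3⟩ := hj c h1 (bx ab)
    refine le_trans ?_ (add_le_add le_rfl (dual hb hm ho g5 h1 h2 (hk.1 ab).1 hab hW hG))
    refine b2.ge.trans ((b3 _ _ fun h ω _ => ?_).trans_eq (b1 _ _))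
    have z : ∀ p : Prop, 0 ≤ pi p := fun p => by unfold pi; split_ifs <;> norm_num
    have o : ∀ p : Prop, p → 1 ≤ pi p := fun p hp => by rw [pi, if_pos hp]
    rw [eG]
    rcases hx ω n with q | q
    · exact le_add_of_le_of_nonneg (o _ q) (z _)
    · exact le_add_of_nonneg_of_le (z _) (o _ q)
  have a2 := two' hj hk hs g3 h1 R (Rs.rc 0 n 0 n) {v | v.2 = 0} {v | v.2 = n} (x := 0) t1.neg <| by
    filter_upwards [bas_pf.exe W] with ab hab
    rw [prim hb hm ho g5 hc (hk.1 ab).1 hab hW, eG, add_neg_cancel]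
  unfold Rs.HC Rs.VC
  linarith

end RiAsm

theorem ri_asm (hj : R_jh) (hk : R_cc) (ht : R_st) (hy : R_sym) (hx : R_hex) (hb : R_bern)
    (hm : R_mark) (ho : R_ori) (hs : R_split) (g1 : G_pa) (g2 : G_dom) (g3 : G_pm) (g4 : M_iso)
    (g5 : L_leg) {c : ℝ} (h1 : 1 ≤ c) (h2 : c ≤ 2) (hv : Conv c) (hu : USh (EE c)) : RI c := by
  have R := ht g1 g2 c h1
  refine ⟨1 / 4, by norm_num, PL c, ⟨eo_symm, R.nonneg, R.univ, R.add,
    fun A B a b => R.fkg A B (inc_of_up a) (inc_of_up b),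
    fun t S A B _ => hy g4 c R _ _ _ (NFSym2_it t) S A B,
    fun S A B _ => hy g4 c R _ _ _ NFSym2_if S A B,
    fun S A B _ => hy g4 c R _ _ _ NFSym2_is S A B, fun n hn => ?_⟩,
    fun A a D hD => R.le A (inc_of_up a) D hD⟩
  obtain ⟨n, rfl⟩ := Int.eq_ofNat_of_zero_le hn
  have a1 := RiAsm.cross hj hk hx hb hm ho hs g3 g5 h1 h2 hv hu R n
  have a2 := RiAsm.swap hy g4 R n
  change 1 / 4 ≤ PL c (Rs.HC eo 0 n 0 n)
  linarith

end Vale.Agent.P145
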