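import Vale.Agent.P153.RSW.Stm

/-! Abstract Russo-Seymour-Welsh theory on the square lattice: definitions and statements. -/

open Set

namespace Vale.Agent.P145.Rs

open Vale.Agent.P153 (V Adj Conn adj_iff)
open Vale.Agent.P153.RSW (Up Ev all cn_first cn_last cn_mono cn_mem ev_mono up_ev)

variable {Ω : Type}

/-- closed rectangle -/
def rc (a b c d : ℤ) : Set V := {v | a ≤ v.1 ∧ v.1 ≤ b ∧ c ≤ v.2 ∧ v.2 ≤ d}

/-- closed square of radius `l` -/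
def sq (z : V) (l : ℤ) : Set V := rc (z.1 - l) (z.1 + l) (z.2 - l) (z.2 + l)

/-- interval of the horizontal axis -/
def Iv (a b : ℤ) : Set V := {v | v.2 = 0 ∧ a ≤ v.1 ∧ v.1 ≤ b}

/-- horizontal crossing -/
def HC (e : Ω → V → V → Prop) (a b c d : ℤ) : Set Ω :=
  Ev e (rc a b c d) {v | v.1 = a} {v | v.1 = b}

/-- vertical crossing -/
def VC (e : Ω → V → V → Prop) (a b c d : ℤ) : Set Ω :=
  Ev e (rc a b c d) {v | v.2 = c} {v | v.2 = d}

/-- symmetries of the square lattice -/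
inductive Sm : (V → V) → Prop
  | tr (t : V) : Sm fun v => (v.1 + t.1, v.2 + t.2)
  | fl : Sm fun v => (-v.1, v.2)
  | sw : Sm fun v => (v.2, v.1)
  | comp {g h : V → V} : Sm g → Sm h → Sm (g ∘ h)

/-- positive association, symmetry, crossings of squares -/
structure Hyp (e : Ω → V → V → Prop) (P : Set Ω → ℝ) (p : ℝ) : Prop where
  symm : ∀ ω a b, e ω a b → e ω b a
  nonneg : ∀ A, 0 ≤ P A
  univ : P univ = 1
  add : ∀ A B, Disjoint A B → P (A ∪ B) = P A + P B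
  fkg : ∀ A B, Up e A → Up e B → P A * P B ≤ P (A ∩ B)
  tr : ∀ (t : V) (S A B : Set V), S.Finite →
    P (Ev e {v | (v.1 + t.1, v.2 + t.2) ∈ S} {v | (v.1 + t.1, v.2 + t.2) ∈ A}
      {v | (v.1 + t.1, v.2 + t.2) ∈ B}) = P (Ev e S A B)
  fl : ∀ S A B : Set V, S.Finite →
    P (Ev e {v | (-v.1, v.2) ∈ S} {v | (-v.1, v.2) ∈ A} {v | (-v.1, v.2) ∈ B}) = P (Ev e S A B)
  sw : ∀ S A B : Set V, S.Finite →
    P (Ev e {v | (v.2, v.1) ∈ S} {v | (v.2, v.1) ∈ A} {v | (v.2, v.1) ∈ B}) = P (Ev e S A B)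
  cr : ∀ n : ℤ, 0 ≤ n → p ≤ P (HC e 0 n 0 n)

/-- half plane arm leaving through a vertical side -/
def Side (e : Ω → V → V → Prop) (w A H : ℤ) : Set Ω :=
  Ev e (rc (-A) A 0 H) (Iv (-w) w) {v | v.1 = A ∨ v.1 = -A}

/-- the same with less room behind -/
def Lat (e : Ω → V → V → Prop) (w A H : ℤ) : Set Ω :=
  Ev e (rc (3 * (2 * w + 1) - A) A 0 H) (Iv (-w) w) {v | v.1 = A}

/-- bridge -/
def Br (e : Ω → V → V → Prop) (w A H : ℤ) : Set Ω :=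
  Ev e (rc (3 * (2 * w + 1) - A) A 0 H) (Iv (-w) w)
    (Iv (3 * (2 * w + 1) - w) (3 * (2 * w + 1) + w))

/-- half plane arm -/
def G (e : Ω → V → V → Prop) (w : ℤ) : Set Ω :=
  Ev e (rc (-(36 * (2 * w + 1))) (36 * (2 * w + 1)) 0 (61 * (2 * w + 1))) (Iv (-w) w)
    {v | v.1 = 36 * (2 * w + 1) ∨ v.1 = -(36 * (2 * w + 1)) ∨ v.2 = 61 * (2 * w + 1)}

/-- arm from a small square inside a tube -/
def D (e : Ω → V → V → Prop) (l w : ℤ) : Set Ω :=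
  Ev e (rc (-(12 * (2 * w + 1))) (12 * (2 * w + 1)) (-(16 * (2 * w + 1))) (16 * (2 * w + 1)))
    (sq 0 l) {v | v.2 = 16 * (2 * w + 1)}

/-- arm avoiding the gate -/
def Eav (e : Ω → V → V → Prop) (l w : ℤ) : Set Ω :=
  Ev e (rc (-(16 * (2 * w + 1))) (16 * (2 * w + 1)) 0 (26 * (2 * w + 1)) \
    sq (0, 13 * (2 * w + 1)) l) (Iv (-w) w) {v | v.2 = 26 * (2 * w + 1)}

/-- four crossings round the square of radius `n` inside the square of radius `N` -/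
def Cir (e : Ω → V → V → Prop) (z : V) (n N : ℤ) : Set Ω :=
  HC e (z.1 - N) (z.1 + N) (z.2 + n + 1) (z.2 + N) ∩ HC e (z.1 - N) (z.1 + N) (z.2 - N) (z.2 - n - 1) ∩
    VC e (z.1 - N) (z.1 - n - 1) (z.2 - N) (z.2 + N) ∩ VC e (z.1 + n + 1) (z.1 + N) (z.2 - N) (z.2 + N)

theorem mem_rc {a b c d : ℤ} {v : V} : v ∈ rc a b c d ↔ a ≤ v.1 ∧ v.1 ≤ b ∧ c ≤ v.2 ∧ v.2 ≤ d :=
  Iff.rfl

theorem mem_sq {z v : V} {l : ℤ} :
    v ∈ sq z l ↔ z.1 - l ≤ v.1 ∧ v.1 ≤ z.1 + l ∧ z.2 - l ≤ v.2 ∧ v.2 ≤ z.2 + l := Iff.rfl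

theorem mem_Iv {a b : ℤ} {v : V} : v ∈ Iv a b ↔ v.2 = 0 ∧ a ≤ v.1 ∧ v.1 ≤ b := Iff.rfl

theorem rc_fin (a b c d : ℤ) : (rc a b c d).Finite :=
  ((finite_Icc a b).prod (finite_Icc c d)).subset fun _ h => ⟨⟨h.1, h.2.1⟩, h.2.2⟩

theorem lip1 (x y : V) (h : Adj x y) : y.1 ≤ x.1 + 1 := by rw [adj_iff] at h; omega
theorem lip1' (x y : V) (h : Adj x y) : -y.1 ≤ -x.1 + 1 := by rw [adj_iff] at h; omega
theorem lip2 (x y : V) (h : Adj x y) : y.2 ≤ x.2 + 1 := by rw [adj_iff] at h; omega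
theorem lip2' (x y : V) (h : Adj x y) : -y.2 ≤ -x.2 + 1 := by rw [adj_iff] at h; omega

theorem Sm.inj {g : V → V} (h : Sm g) : Function.Injective g := by
  induction h with
  | tr t => intro x y k; simp only [Prod.ext_iff] at k ⊢; omega
  | fl => intro x y k; simp only [Prod.ext_iff] at k ⊢; omega
  | sw => intro x y k; simp only [Prod.ext_iff] at k ⊢; omega
  | comp _ _ h1 h2 => exact h1.comp h2

theorem Sm.of {g g' : V → V} (h : Sm g) (k : ∀ v, (g' v).1 = (g v).1 ∧ (g' v).2 = (g v).2) :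
    Sm g' := by
  obtain rfl : g' = g := funext fun v => Prod.ext (k v).1 (k v).2
  exact h

theorem sm_pp (a b : ℤ) : Sm fun v => (v.1 + a, v.2 + b) := Sm.tr (a, b)
theorem sm_mp (a b : ℤ) : Sm fun v => (a - v.1, v.2 + b) :=
  ((sm_pp a b).comp Sm.fl).of fun v => by dsimp only [Function.comp]; omega
theorem sw_pp (a b : ℤ) : Sm fun v => (v.2 + a, v.1 + b) :=
  ((sm_pp a b).comp Sm.sw).of fun v => by dsimp only [Function.comp]; omega
theorem sw_pm (a b : ℤ) : Sm fun v => (v.2 + a, b - v.1) :=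
  (((sm_pp a b).comp Sm.sw).comp Sm.fl).of fun v => by dsimp only [Function.comp]; omega
theorem sw_mp (a b : ℤ) : Sm fun v => (a - v.2, v.1 + b) :=
  ((sm_mp a b).comp Sm.sw).of fun v => by dsimp only [Function.comp]; omega
theorem sm_pm (a b : ℤ) : Sm fun v => (v.1 + a, b - v.2) :=
  ((sw_pm a b).comp Sm.sw).of fun v => by dsimp only [Function.comp]; omega

variable {e : Ω → V → V → Prop} {P : Set Ω → ℝ} {p : ℝ} {X Y : Set Ω}

theorem Hyp.mono (h : Hyp e P p) (hX : X ⊆ Y) : P X ≤ P Y := by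
  have h1 := h.add X (Y \ X) disjoint_sdiff_right
  rw [union_sdiff_cancel hX] at h1
  linarith [h.nonneg (Y \ X)]

theorem Hyp.le_one (h : Hyp e P p) (X : Set Ω) : P X ≤ 1 := h.univ ▸ h.mono (subset_univ X)

theorem Hyp.p_le (h : Hyp e P p) : p ≤ 1 := (h.cr 0 le_rfl).trans (h.le_one _)

theorem Hyp.union (h : Hyp e P p) (X Y : Set Ω) : P (X ∪ Y) ≤ P X + P Y := by
  have h1 := h.add X (Y \ X) disjoint_sdiff_right
  rw [union_sdiff_self] at h1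
  linarith [h.mono (sdiff_subset (s := Y) (t := X))]

/-- FKG with lower bounds -/
theorem Hyp.mul (h : Hyp e P p) {x y : ℝ} (hX : Up e X) (hY : Up e Y) (hy : 0 ≤ y) (h1 : x ≤ P X)
    (h2 : y ≤ P Y) : x * y ≤ P (X ∩ Y) :=
  (mul_le_mul h1 h2 hy (h.nonneg _)).trans (h.fkg _ _ hX hY)

theorem Hyp.prod (h : Hyp e P p) {ι : Type} (t : Finset ι) (F : ι → Set Ω) {x : ℝ} (hx : 0 ≤ x)
    (hF : ∀ i ∈ t, Up e (F i)) (hP : ∀ i ∈ t, x ≤ P (F i)) :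
    x ^ t.card ≤ P (⋂ i ∈ t, F i) := by
  classical
  suffices H : Up e (⋂ i ∈ t, F i) ∧ x ^ t.card ≤ P (⋂ i ∈ t, F i) from H.2
  induction t using Finset.induction_on with
  | empty => exact ⟨fun _ _ _ _ => by simp, by simp [h.univ]⟩
  | insert i t hi ih =>
    obtain ⟨h1, h2⟩ := ih (fun j hj => hF j (Finset.mem_insert_of_mem hj))
      fun j hj => hP j (Finset.mem_insert_of_mem hj)
    have h3 := hF i (Finset.mem_insert_self i t)
    rw [Finset.set_biInter_insert, Finset.card_insert_of_notMem hi, pow_succ']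
    exact ⟨h3.inter h1, h.mul h3 h1 (pow_nonneg hx _) (hP i (Finset.mem_insert_self i t)) h2⟩

theorem Hyp.sym (h : Hyp e P p) {g : V → V} (hg : Sm g) : ∀ S A B : Set V, S.Finite →
    P (Ev e (g ⁻¹' S) (g ⁻¹' A) (g ⁻¹' B)) = P (Ev e S A B) := by
  induction hg with
  | tr t => exact h.tr t
  | fl => exact h.fl
  | sw => exact h.sw
  | comp h1 _ k1 k2 =>
    intro S A B hS
    rw [preimage_comp, preimage_comp, preimage_comp, k2 _ _ _ (hS.preimage h1.inj.injOn),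
      k1 _ _ _ hS]

/-- transport of a connection event: `g` maps the new picture to the old one -/
theorem Hyp.move (h : Hyp e P p) {g : V → V} (hg : Sm g) {S A B S' A' B' : Set V} (hS : S.Finite)
    (h1 : ∀ v, g v ∈ S → v ∈ S') (h2 : ∀ v, g v ∈ S → g v ∈ A → v ∈ A')
    (h3 : ∀ v, g v ∈ S → g v ∈ B → v ∈ B') : P (Ev e S A B) ≤ P (Ev e S' A' B') := by
  rw [← h.sym hg S A B hS]
  exact h.mono (ev_mono h1 (fun v hv => h2 v hv.2 hv.1) fun v hv => h3 v hv.2 hv.1)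

theorem up_hc {a b c d : ℤ} : Up e (HC e a b c d) := up_ev
theorem up_vc {a b c d : ℤ} : Up e (VC e a b c d) := up_ev
theorem up_cir {z : V} {n N : ℤ} : Up e (Cir e z n N) :=
  ((up_hc.inter up_hc).inter up_vc).inter up_vc

/-- shorter and wider rectangles are easier to cross -/
theorem hc_mono (he : ∀ ω a b, e ω a b → e ω b a) {a b c d a' b' c' d' : ℤ} (h1 : a ≤ a')
    (h2 : a' ≤ b') (h3 : b' ≤ b) (h4 : c' ≤ c) (h5 : d ≤ d') : HC e a b c d ⊆ HC e a' b' c' d' := by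
  rintro ω ⟨x, hx, y, hy, k1, k2⟩
  simp only [mem_ofPred_eq] at hx hy
  obtain ⟨u, u1, u2, u3, -⟩ := cn_first (fun v => v.1) lip1 (h := b') k2 k1 (by omega) (by omega)
  obtain ⟨v, v1, v2, -, v4⟩ := cn_last (he ω) (fun v => v.1) lip1 (h := a') u3
    ⟨k1, show x.1 ≤ b' by omega⟩ (by omega) (by omega)
  have hs : rc a b c d ∩ {v : V | v.1 ≤ b'} ∩ {v : V | a' ≤ v.1} ⊆ rc a' b' c' d' := fun t ht =>
    ⟨ht.2, ht.1.2, h4.trans ht.1.1.2.2.1, ht.1.1.2.2.2.trans h5⟩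
  exact ⟨v, v1, u, u1, hs ⟨v2, v1.ge⟩, cn_mono (fun _ _ k => k) hs v4⟩

theorem vc_mono (he : ∀ ω a b, e ω a b → e ω b a) {a b c d a' b' c' d' : ℤ} (h1 : c ≤ c')
    (h2 : c' ≤ d') (h3 : d' ≤ d) (h4 : a' ≤ a) (h5 : b ≤ b') : VC e a b c d ⊆ VC e a' b' c' d' := by
  rintro ω ⟨x, hx, y, hy, k1, k2⟩
  simp only [mem_ofPred_eq] at hx hy
  obtain ⟨u, u1, u2, u3, -⟩ := cn_first (fun v => v.2) lip2 (h := d') k2 k1 (by omega) (by omega)
  obtain ⟨v, v1, v2, -, v4⟩ := cn_last (he ω) (fun v => v.2) lip2 (h := c') u3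
    ⟨k1, show x.2 ≤ d' by omega⟩ (by omega) (by omega)
  have hs : rc a b c d ∩ {v : V | v.2 ≤ d'} ∩ {v : V | c' ≤ v.2} ⊆ rc a' b' c' d' := fun t ht =>
    ⟨h4.trans ht.1.1.1, ht.1.1.2.1.trans h5, ht.2, ht.1.2⟩
  exact ⟨v, v1, u, u1, hs ⟨v2, v1.ge⟩, cn_mono (fun _ _ k => k) hs v4⟩

/-- translated horizontal crossings -/
theorem Hyp.hc (h : Hyp e P p) {L H a b c d : ℤ} (h1 : a ≤ b) (h2 : b - a ≤ L) (h3 : H ≤ d - c) :
    P (HC e 0 L 0 H) ≤ P (HC e a b c d) :=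
  (h.move (S' := rc a (a + L) c (c + H)) (A' := {v | v.1 = a}) (B' := {v | v.1 = a + L})
    (sm_pp (-a) (-c)) (rc_fin _ _ _ _) (fun v => by simp only [mem_rc]; omega)
    (fun v => by simp only [mem_rc, mem_ofPred_eq]; omega)
    fun v => by simp only [mem_rc, mem_ofPred_eq]; omega).trans
    (h.mono (hc_mono h.symm le_rfl h1 (by omega) le_rfl (by omega)))

/-- vertical crossings -/
theorem Hyp.vc (h : Hyp e P p) {L H a b c d : ℤ} (h1 : c ≤ d) (h2 : d - c ≤ L) (h3 : H ≤ b - a) :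
    P (HC e 0 L 0 H) ≤ P (VC e a b c d) :=
  (h.move (S' := rc a (a + H) c (c + L)) (A' := {v | v.2 = c}) (B' := {v | v.2 = c + L})
    (sw_pp (-c) (-a)) (rc_fin _ _ _ _) (fun v => by simp only [mem_rc]; omega)
    (fun v => by simp only [mem_rc, mem_ofPred_eq]; omega)
    fun v => by simp only [mem_rc, mem_ofPred_eq]; omega).trans
    (h.mono (vc_mono h.symm le_rfl h1 (by omega) le_rfl (by omega)))

/-! ### Statements -/

/-- a horizontal and a vertical crossing of a rectangle meet -/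
def S_p1 : Prop := ∀ (a b c d : ℤ) (S T : Set V) (x y x' y' : V), S ⊆ rc a b c d →
  T ⊆ rc a b c d → x ∈ S → Conn all S x y → x.1 = a → y.1 = b → x' ∈ T → Conn all T x' y' →
  x'.2 = c → y'.2 = d → (S ∩ T).Nonempty

/-- gluing with squares -/
def S_glue : Prop := ∀ (Ω : Type) (e : Ω → V → V → Prop) (P : Set Ω → ℝ) (p : ℝ), Hyp e P p →
  0 ≤ p → ∀ (m h : ℤ) (x : ℝ) (k : ℕ), 0 ≤ h → h ≤ m → 0 ≤ x → x ≤ P (HC e 0 m 0 h) →
  (x * p) ^ (k + 1) ≤ P (HC e 0 (m + k * (m - h)) 0 h)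

/-- two lateral arms make a bridge -/
def S_br : Prop := ∀ (Ω : Type) (e : Ω → V → V → Prop) (P : Set Ω → ℝ) (p : ℝ), Hyp e P p →
  ∀ w A H : ℤ, 0 ≤ w → P (Lat e w A H) * P (Lat e w A H) ≤ P (Br e w A H)

/-- bridges make long crossings -/
def S_chain : Prop := ∀ (Ω : Type) (e : Ω → V → V → Prop) (P : Set Ω → ℝ) (p : ℝ), Hyp e P p →
  ∀ (w A H : ℤ) (k : ℕ), 0 ≤ w → P (Br e w A H) ^ (k + 1) ≤ P (HC e 0 (k * (2 * w + 1)) 0 H)

/-- lateral exits make long crossings -/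
def S_side : Prop := ∀ (p x : ℝ) (K : ℕ), 0 < p → 0 < x → ∃ c > 0,
  ∀ (Ω : Type) (e : Ω → V → V → Prop) (P : Set Ω → ℝ), Hyp e P p → ∀ w A H : ℤ, 0 ≤ w → 0 ≤ H →
    4 * (2 * w + 1) ≤ A → H + 4 * (2 * w + 1) ≤ 2 * A → x ≤ P (Side e w A H) →
    c ≤ P (HC e 0 (K * (2 * w + 1)) 0 H)

/-- half plane arms -/
def S_g : Prop := ∀ (Ω : Type) (e : Ω → V → V → Prop) (P : Set Ω → ℝ) (p : ℝ), Hyp e P p →
  ∀ w : ℤ, 0 ≤ w → p / 62 ≤ P (G e w)

/-- the possible shapes of a half plane arm -/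
def S_cov : Prop := ∀ (Ω : Type) (e : Ω → V → V → Prop) (P : Set Ω → ℝ) (p : ℝ), Hyp e P p →
  ∀ w : ℤ, 0 ≤ w →
    P (G e w) ≤ P (Side e w (36 * (2 * w + 1)) (61 * (2 * w + 1))) + P (D e w (3 * w + 1)) ∧
    ∀ l : ℤ, P (G e w) ≤ P (Side e w (36 * (2 * w + 1)) (61 * (2 * w + 1))) +
      P (Side e w (16 * (2 * w + 1)) (26 * (2 * w + 1))) + P (Eav e l w) + P (D e l (3 * w + 1))

/-- an arm avoiding the gate hits a leg -/
def S_trap : Prop := ∀ (Ω : Type) (e : Ω → V → V → Prop) (P : Set Ω → ℝ) (p : ℝ), Hyp e P p →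
  ∀ l w : ℤ, 0 ≤ l → l ≤ w → P (Eav e l w) * (P (D e l w) * P (D e l w)) ≤
    P (Side e w (16 * (2 * w + 1)) (26 * (2 * w + 1)))

/-- four crossings block all lattice paths -/
def S_ring : Prop := ∀ (Ω : Type) (e : Ω → V → V → Prop) (ω : Ω) (z : V) (n N : ℤ),
  (∀ a b, e ω a b → e ω b a) → 0 ≤ n → n < N → ω ∈ Cir e z n N →
  ∃ C : Set V, C ⊆ sq z N \ sq z n ∧ (∀ u ∈ C, ∀ v ∈ C, Conn (e ω) (sq z N \ sq z n) u v) ∧
    ∀ (S : Set V) (a b : V), a ∈ sq z n → b ∉ sq z (N - 1) → a ∈ S → Conn all S a b →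
      (S ∩ C).Nonempty

/-- closing the gate -/
def S_close : Prop := ∀ (Ω : Type) (e : Ω → V → V → Prop) (P : Set Ω → ℝ) (p : ℝ), Hyp e P p →
  ∀ w : ℤ, 0 ≤ w →
    P (D e 0 w) * P (D e 0 w) ≤ P (HC e 0 (32 * (2 * w + 1)) 0 (24 * (2 * w + 1))) ∧
    ∀ l N : ℤ, 0 ≤ l → l < N → N ≤ 12 * (2 * w + 1) →
      P (D e l w) * P (D e l w) * P (Cir e 0 l N) ≤
        P (HC e 0 (32 * (2 * w + 1)) 0 (24 * (2 * w + 1)))

/-- the main estimate -/
def S_main : Prop := ∀ (p : ℝ) (K : ℕ), 0 < p → ∃ c > 0,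
  ∀ (Ω : Type) (e : Ω → V → V → Prop) (P : Set Ω → ℝ), Hyp e P p → ∀ n : ℕ,
    c ≤ P (HC e 0 (K * 3 ^ n) 0 (72 * 3 ^ n))

/-- OUTPUT: long crossings -/
def S_rsw : Prop := ∀ (p : ℝ) (K : ℕ), 0 < p → ∃ c > 0,
  ∀ (Ω : Type) (e : Ω → V → V → Prop) (P : Set Ω → ℝ), Hyp e P p → ∀ N : ℤ, 72 ≤ N →
    c ≤ P (HC e 0 (K * N) 0 N)

theorem Hyp.cir (h : Hyp e P p) {x : ℝ} (hx : 0 ≤ x) {L H n N : ℤ} (hN : 0 ≤ N) (h1 : 2 * N ≤ L)
    (h2 : H ≤ N - n - 1) (h3 : x ≤ P (HC e 0 L 0 H)) (z : V) : x ^ 4 ≤ P (Cir e z n N) := by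
  rw [show x ^ 4 = x * x * x * x by ring]
  exact h.mul ((up_hc.inter up_hc).inter up_vc) up_vc hx
    (h.mul (up_hc.inter up_hc) up_vc hx (h.mul up_hc up_hc hx
      (h3.trans (h.hc (by omega) (by omega) (by omega)))
      (h3.trans (h.hc (by omega) (by omega) (by omega))))
      (h3.trans (h.vc (by omega) (by omega) (by omega))))
    (h3.trans (h.vc (by omega) (by omega) (by omega)))

end Vale.Agent.P145.Rs
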