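import Vale.Agent.P145.Core
import Vale.Agent.P145.RsDefs
import Vale.Agent.P152.CDefs

/-! P145, block RI: the limit law of the plus edges satisfies the hypotheses of the abstract
crossing theory. -/

open Filter Topology

namespace Vale.Agent.P145

open Vale.Agent.P152
open Vale.Agent.P153.RSW (Ev)

/-- open edges as a relation between vertices -/
def eo (P : Set Vx) (a b : Site) : Prop := ∃ m ∈ P, Joi m a b

/-- increasing events -/
def Inc (A : Set (Set Vx)) : Prop := ∀ P P', P ⊆ P' → P ∈ A → P' ∈ A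

/-- an ultrafilter that refines the exhaustion -/
noncomputable def uf : Ultrafilter (Site × Site) := Ultrafilter.of exh

/-- law of the plus edges -/
noncomputable def PA (c : ℝ) (D : Finset Site) (A : Set (Set Vx)) : ℝ :=
  PG c D fun P _ => pi (P ∈ A)

/-- limit law of the plus edges -/
noncomputable def PL (c : ℝ) (A : Set (Set Vx)) : ℝ := limUnder uf fun ab => PA c (bx ab) A

/-- independent marks -/
noncomputable def bern (W : Finset Vx) (p : Vx → ℝ) (G : Set Vx → ℝ) : ℝ :=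
  ∑ u ∈ W.powerset, (∏ m ∈ W, if m ∈ u then p m else 1 - p m) * G u

/-- probability that an edge is open -/
noncomputable def rr (c : ℝ) (q : Bool × Bool) : ℝ := if q.2 then (if q.1 then c⁻¹ else 0) else 1

/-- agreement of the two ends and of the two plaquettes -/
def bt (h : Ht) (m : Vx) : Bool × Bool :=
  (decide (h (src m, true) = h (tgt m, true)), decide (h (fa m, false) = h (fb m, false)))

/-- the edge that separates the plaquettes `src m` and `tgt m` -/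
def du (m : Vx) : Vx := (m.1 + dir m.2, !m.2)

/-- `G` only depends on the edges in `W` -/
def DepE (W : Finset Vx) (G : Set Vx → ℝ) : Prop := ∀ O, G O = G (O ∩ W)

/-- conditional probability given the orientation -/
noncomputable def qo (c : ℝ) (W : Finset Vx) (G : Set Vx → ℝ) (o : Ori) : ℝ :=
  bern W (fun m => rr c (ab o m)) G

theorem uf_le : (uf : Filter (Site × Site)) ≤ exh := Ultrafilter.of_le _

theorem eo_symm (P : Set Vx) (a b : Site) (h : eo P a b) : eo P b a :=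
  h.imp fun _ k => ⟨k.1, k.2.symm⟩

theorem eo_mono {P P' : Set Vx} (h : P ⊆ P') (a b : Site) (k : eo P a b) : eo P' a b :=
  k.imp fun _ k => ⟨h k.1, k.2⟩

theorem inc_of_up {A : Set (Set Vx)} (h : P153.RSW.Up eo A) : Inc A :=
  fun P P' k => h P P' (eo_mono k)

theorem eo_iff {P : Set Vx} {a b : Site} : eo P a b ↔
    ((a, true) ∈ P ∧ b = (a.1 + 1, a.2)) ∨ ((a, false) ∈ P ∧ b = (a.1, a.2 + 1)) ∨
      ((b, true) ∈ P ∧ a = (b.1 + 1, b.2)) ∨ ((b, false) ∈ P ∧ a = (b.1, b.2 + 1)) := by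
  constructor
  · rintro ⟨⟨x, t⟩, h, ⟨rfl, rfl⟩ | ⟨rfl, rfl⟩⟩ <;> cases t <;>
      simp_all [src, tgt, dir, Prod.ext_iff]
  · rintro (⟨h, rfl⟩ | ⟨h, rfl⟩ | ⟨h, rfl⟩ | ⟨h, rfl⟩)
    · exact ⟨_, h, Or.inl ⟨rfl, by simp [tgt, dir, Prod.ext_iff]⟩⟩
    · exact ⟨_, h, Or.inl ⟨rfl, by simp [tgt, dir, Prod.ext_iff]⟩⟩
    · exact ⟨_, h, Or.inr ⟨rfl, by simp [tgt, dir, Prod.ext_iff]⟩⟩
    · exact ⟨_, h, Or.inr ⟨rfl, by simp [tgt, dir, Prod.ext_iff]⟩⟩

theorem eo_adj {P : Set Vx} {a b : Site} (h : eo P a b) : P153.Adj a b := by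
  rw [P153.adj_iff]
  rcases eo_iff.1 h with ⟨-, rfl⟩ | ⟨-, rfl⟩ | ⟨-, rfl⟩ | ⟨-, rfl⟩ <;> simp

theorem ri_pi_mono {p q : Prop} (h : p → q) : pi p ≤ pi q := by
  unfold pi
  split_ifs with h1 h2
  · exact le_rfl
  · exact absurd (h h1) h2
  · exact zero_le_one
  · exact le_rfl

theorem Inc.up {A : Set (Set Vx)} (h : Inc A) : Up fun P _ => pi (P ∈ A) :=
  fun P P' _ _ k _ => ri_pi_mono (h P P' k)

/-! ### Statements -/

/-- elementary properties of the finite volume law -/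
def R_jh : Prop := ∀ c : ℝ, 1 ≤ c → ∀ D : Finset Site,
  (∀ F G : Ht → Finset Vx → ℝ,
    JH c D (fun h ω => F h ω + G h ω) = JH c D F + JH c D G) ∧
  (JH c D fun _ _ => 1) = 1 ∧
  ∀ F G : Ht → Finset Vx → ℝ, (∀ h ω, Ok D h ω → F h ω ≤ G h ω) → JH c D F ≤ JH c D G

/-- boxes and images under symmetries have connected complements -/
def R_cc : Prop := (∀ ab, Cc (bx ab) ∧ Cn (bx ab)) ∧ ∀ (gv gp : Site ≃ Site) (ge : Vx ≃ Vx), Iso gv gp ge →
  Iso gv.symm gp.symm ge.symm ∧ ∀ D, Cc D → Cc (D.map gp.toEmbedding)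

/-- elementary properties of the limit law -/
structure RSt (c : ℝ) : Prop where
  lim : ∀ A, Tendsto (fun ab => PA c (bx ab) A) uf (𝓝 (PL c A))
  nonneg : ∀ A, 0 ≤ PL c A
  univ : PL c Set.univ = 1
  add : ∀ A B, Disjoint A B → PL c (A ∪ B) = PL c A + PL c B
  fkg : ∀ A B, Inc A → Inc B → PL c A * PL c B ≤ PL c (A ∩ B)
  le : ∀ A, Inc A → ∀ D, Cc D → PL c A ≤ PA c D A

def R_st : Prop := G_pa → G_dom → ∀ c : ℝ, 1 ≤ c → RSt c

/-- symmetry of the limit law -/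
def R_sym : Prop := M_iso → ∀ c : ℝ, RSt c → ∀ (gv gp : Site ≃ Site) (ge : Vx ≃ Vx),
  Iso gv gp ge → ∀ S A B : Set Site,
  PL c (Ev eo (gv ⁻¹' S) (gv ⁻¹' A) (gv ⁻¹' B)) = PL c (Ev eo S A B)

/-- planar duality in a square -/
def R_hex : Prop := ∀ (O : Set Vx) (n : ℕ),
  O ∈ Rs.HC eo 0 n 0 n ∨ {m | du m ∉ O} ∈ Rs.VC eo 0 n 0 n

/-- independent marks: monotonicity, restriction, complement -/
def R_bern : Prop :=
  (∀ (W : Finset Vx) (p p' : Vx → ℝ) (G : Set Vx → ℝ),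
    (∀ m ∈ W, 0 ≤ p m ∧ p m ≤ p' m ∧ p' m ≤ 1) → Monotone G → bern W p G ≤ bern W p' G) ∧
  (∀ (W V : Finset Vx) (p : Vx → ℝ) (G : Set Vx → ℝ), W ⊆ V → DepE W G →
    bern V p G = bern W p G) ∧
  ∀ (W : Finset Vx) (p : Vx → ℝ) (G : Set Vx → ℝ), DepE W G →
    bern (W.image du) p (fun O => G {m | du m ∉ O}) = bern W (fun m => 1 - p (du m)) G

/-- given the heights the marks are independent -/
def R_mark : Prop := ∀ c : ℝ, 0 < c → ∀ (D : Finset Site) (G : Set Vx → ℝ),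
  (JH c D fun _ ω => G ω) = PH c D fun h => bern (vin D) (fun m => rr c (bt h m)) G

/-- dictionary with orientations -/
def R_ori : Prop :=
  (∀ (D : Finset Site) (h : Ht), IsH D h → ∀ m ∈ vin D,
    ab (toOri (cfg (NFLink_T D h))) m = bt h m) ∧
  (∀ (o : Ori) (m : Vx), ab (osh (1, 0) o) m = (ab o (du m)).swap) ∧
  ∀ (c : ℝ) (W : Finset Vx) (G : Set Vx → ℝ), IsLocal (qo c W G)

/-- an open path is a plus path or a minus path; locality of connection events -/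
def R_split : Prop :=
  (∀ (D : Finset Site) (h : Ht) (ω : Finset Vx) (S A B : Set Site), Ok D h ω →
    (ω : Set Vx) ∈ Ev eo S A B → ox D h ω ∈ Ev eo S A B ∨ o2 h ω ∈ Ev eo S A B) ∧
  ∀ S A B : Set Site, S.Finite → ∃ W : Finset Vx, DepE W fun O => pi (O ∈ Ev eo S A B)

/-- four crossings enclose -/
def R_enc : Prop := P_enc → ∀ (P : Set Vx) (z : Site) (n N : ℕ), n < N →
  P ∈ Rs.Cir eo z n N → Enc P (sq z n) (sq z N)

/-- a long crossing is an arm -/
def R_arm : Prop := ∀ (P : Set Vx) (z : Site) (n N : ℕ), 1 ≤ n → n ≤ N →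
  P ∈ Rs.HC eo z.1 (z.1 + N) z.2 (z.2 + n - 1) → Arm P z n N

end Vale.Agent.P145
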