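import Vale.Agent.P145.RmDec

/-! P145, block RM: minus circuits under adverse conditions. -/

open Filter Topology

namespace Vale.Agent.P145.Rm

open Vale.Agent.P152

variable {c : ℝ} {D D' A A0 B C E : Finset Site} {h ho hi : Ht} {ω ωo ωi : Finset Vx}

theorem bd_vin {z : Site} {n : ℕ} (hE : E ⊆ sq z n) (hD : sq z (n + 1) ⊆ D) : bd E ⊆ vin D := by
  rintro ⟨x, b⟩ hm
  have k := mem_vx.1 (vx_mono hE (Finset.mem_sdiff.1 hm).1)
  rw [mem_vin]
  constructor <;> refine hD ?_ <;> cases b <;>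
    simp only [mem_sq, fa, fb, dir, Bool.not_true, Bool.not_false, if_true, Bool.false_eq_true,
      if_false, Prod.fst_sub, Prod.snd_sub] at k ⊢ <;> push_cast <;> omega

theorem enc_ox {z : Site} {n : ℕ} (hD : sq z (n + 1) ⊆ D) (k : Enc (ox D h ω) A (sq z n)) :
    Enc (oj 0 h ω) A (sq z n) := by
  obtain ⟨E, a1, a2, a3, a4, a5⟩ := k
  exact ⟨E, a1, a2, a3, a4, fun m hm => (a5 hm).resolve_left fun a => a (bd_vin a2 hD hm)⟩

theorem enc_glue (hB : B ⊆ D') (k : Out D D' 0 ho ωo) (k' : Ok D' hi ωi) :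
    Enc (oj 2 (glue D' ho hi) (ωo ∪ ωi)) A B ↔ Enc (oj 2 hi ωi) A B := by
  have e : oj 2 (glue D' ho hi) (ωo ∪ ωi) ∩ vin D' = oj 2 hi ωi := (o0_glue0 k k').2
  refine ⟨fun ⟨E, a1, a2, a3, a4, a5⟩ => ⟨E, a1, a2, a3, a4, fun m hm => e ▸ ⟨a5 hm, ?_⟩⟩,
    fun a => a.mono (e ▸ Set.inter_subset_left) subset_rfl subset_rfl⟩
  by_contra n
  obtain ⟨-, f, h1, h2⟩ := bd_end hm (end_src m)
  have b : glue D' ho hi (src m, true) % 4 = 2 := (a5 hm).2
  rw [glue_out k'.1 fun a => n (vin_of_src a), (k.2.1 f (hB (a2 h1)) _ h2).2] at b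
  omega

theorem sub_glue {S : Finset Vx} (hS : S ⊆ vin D') (k : Out D D' 0 ho ωo) (k' : Ok D' hi ωi) :
    (S : Set Vx) ⊆ oj 0 (glue D' ho hi) (ωo ∪ ωi) ↔ (S : Set Vx) ⊆ oj 0 hi ωi := by
  have e : oj 0 (glue D' ho hi) (ωo ∪ ωi) ∩ vin D' = oj 0 hi ωi := (o0_glue0 k k').1
  rw [← e]
  exact forall₂_congr fun m hm => (and_iff_left (hS hm)).symm

theorem sub_ox {S : Finset Vx} (hS : S ⊆ vin D) :
    (S : Set Vx) ⊆ ox D h ω ↔ (S : Set Vx) ⊆ oj 0 h ω :=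
  forall₂_congr fun _ hm => or_iff_right fun a => a (hS hm)

theorem ext_enc (j : ℤ) (hB : B ⊆ A) (A' : Set Site) :
    Ext B fun h ω => pi (Enc (oj j h ω) A A') := by
  have k : ∀ (h h' : Ht) (ω ω' : Finset Vx), (∀ v, v ∉ inn B → h (v, true) = h' (v, true)) →
      (∀ m, m ∉ vin B → (m ∈ ω ↔ m ∈ ω')) → Enc (oj j h ω) A A' → Enc (oj j h' ω') A A' := by
    rintro h h' ω ω' h1 h2 ⟨E, a1, a2, a3, a4, a5⟩
    refine ⟨E, a1, a2, a3, a4, fun m hm => ?_⟩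
    have n : m ∉ vin B := fun a => (Finset.mem_sdiff.1 hm).2
      (vin_mono (hB.trans (Finset.coe_subset.1 a1)) a)
    exact ⟨(h2 m n).1 (a5 hm).1, h1 _ (fun a => n (vin_of_src a)) ▸ (a5 hm).2⟩
  exact fun h h' ω ω' h1 h2 => pi_congr ⟨k _ _ _ _ h1 h2,
    k _ _ _ _ (fun v hv => (h1 v hv).symm) fun m hm => (h2 m hm).symm⟩

/-- decreasing events are more likely in larger domains -/
theorem dom2 (hc : 1 ≤ c) (hD : Cc D) (hD' : Cc D') (hs : D' ⊆ D) {p : Set Vx → Prop}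
    (hp : ∀ Q Q', Q ⊆ Q' → p Q → p Q') :
    JH c D' (fun h ω => pi (p (oj 2 h ω))) ≤ JH c D fun h ω => pi (p (oj 2 h ω)) := by
  have k := g_dom c hc D D' (fun _ Q => -1 * pi (p Q)) hD hD' hs fun _ _ Q Q' _ e => by
    linarith [pi_mono (hp Q' Q e)]
  rw [PG, PG, JH_mul, JH_mul, neg_one_mul, neg_one_mul] at k
  exact neg_le_neg_iff.1 k

theorem wired_pos (hc : 1 ≤ c) {S : Finset Vx} (hS : S ⊆ vin D) :
    0 < JH c D fun h ω => pi ((S : Set Vx) ⊆ oj 0 h ω) :=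
  JH_pos hc (fun _ _ _ => pi_nonneg _) (ok_flat D).1 subset_rfl
    (Finset.prod_pos fun m hm => by simp [ow, ag, hm, flat]) (by
      rw [pi_pos]
      · exact one_pos
      · exact fun m hm => ⟨hS hm, by simp [flat]⟩)

/-- a wired plus box inside is better than a plus circuit -/
theorem wired_le (hc : 1 ≤ c) (hC : Cc C) (hE : E ⊆ C) (hE' : Cc E) (hb : bd E ⊆ vin C)
    (h0 : A0 ⊆ E) (hA : E ⊆ A) :
    JH c C (fun h ω => pi ((bd E : Set Vx) ⊆ oj 0 h ω) * pi (Enc (oj 2 h ω) A B)) *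
        JH c C (fun h ω => pi ((vin A0 : Set Vx) ⊆ oj 0 h ω)) ≤
      JH c C (fun h ω => pi ((vin A0 : Set Vx) ⊆ oj 0 h ω) * pi (Enc (oj 2 h ω) A B)) *
        JH c C fun h ω => pi ((bd E : Set Vx) ⊆ oj 0 h ω) * 1 := by
  have a : ∀ W : Ht → Finset Vx → ℝ, Ext E W →
      JH c C (fun h ω => pi ((vin A0 : Set Vx) ⊆ oj 0 h ω) *
        (pi ((bd E : Set Vx) ⊆ oj 0 h ω) * W h ω)) =
      JH c E (fun h ω => pi ((vin A0 : Set Vx) ⊆ oj 0 h ω)) *
        JH c C fun h ω => pi ((bd E : Set Vx) ⊆ oj 0 h ω) * W h ω := fun W hW =>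
    core hc (j := 0) hE hE' (W' := fun h ω => pi ((bd E : Set Vx) ⊆ oj 0 h ω) * W h ω)
      (fun h ω k n => ring_of k (by_contra fun a => n (by rw [pi_neg a, zero_mul])))
      fun ho ωo hi ωi k k' => ⟨by rw [pi_congr (bd_glue k k'), ext_glue hW subset_rfl k'],
        pi_congr (sub_glue (vin_mono h0) k k')⟩
  have v := vin_mono (h0.trans hE)
  have k := g_four c hc C
    (fun P Q => pi ((vin A0 : Set Vx) ⊆ P) * (pi ((bd E : Set Vx) ⊆ P) * pi (Enc Q A B)))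
    (fun P _ => pi ((vin A0 : Set Vx) ⊆ P)) (fun P Q => pi ((vin A0 : Set Vx) ⊆ P) * pi (Enc Q A B))
    (fun P _ => pi ((vin A0 : Set Vx) ⊆ P) * (pi ((bd E : Set Vx) ⊆ P) * 1)) hC
    (fun P Q => by simp only [mul_one, ← pi_and, pi_nonneg, and_self]) fun P Q P' Q' B' _ => by
      simp only [mul_one, ← pi_and]
      have s : P ⊆ P ∪ P' ∪ B' := Set.subset_union_left.trans Set.subset_union_left
      exact pi_mono fun e => ⟨⟨Set.subset_inter e.1.1 e.2, e.1.2.2.mono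
        (Set.subset_union_left.trans Set.subset_union_left) subset_rfl subset_rfl⟩,
        e.1.1.trans s, e.1.2.1.trans s⟩
  simp only [PG, sub_ox v, sub_ox hb] at k
  have k1 := a _ (ext_enc 2 hA B)
  have k2 := a (fun _ _ => 1) fun _ _ _ _ _ _ => rfl
  refine le_of_mul_le_mul_left ?_ (wired_pos hc (D := E) (vin_mono h0))
  rw [← mul_assoc, ← k1, mul_left_comm, ← k2]
  exact k

/-- minus circuits given a wired plus box inside and a plus boundary outside -/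
def ADV (c : ℝ) : Prop := ∃ μ n1 : ℕ, 2 ≤ μ ∧ 1 ≤ n1 ∧ ∀ n ≥ n1, ∀ z : Site,
  1 / 2 ≤ JH c (sq z (μ ^ 3 * n)) (fun h ω => pi (Enc (oj 2 h ω) (sq z (μ * n)) (sq z (μ ^ 2 * n)))) ∧
  1 / 2 * JH c (sq z (μ ^ 3 * n)) (fun h ω => pi ((vin (sq z n) : Set Vx) ⊆ oj 0 h ω)) ≤
    JH c (sq z (μ ^ 3 * n)) fun h ω => pi ((vin (sq z n) : Set Vx) ⊆ oj 0 h ω) *
      pi (Enc (oj 2 h ω) (sq z (μ * n)) (sq z (μ ^ 2 * n)))

theorem two_le (hc : 1 ≤ c) {p q : Ht → Finset Vx → Prop} {a b : ℝ}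
    (h1 : JH c D (fun h ω => pi (¬ p h ω)) ≤ a) (h2 : JH c D (fun h ω => pi (¬ q h ω)) ≤ b) :
    1 - a - b ≤ JH c D fun h ω => pi (p h ω) * pi (q h ω) := by
  have k := JH_mono (D := D) (F := fun h ω => 1 - pi (¬ p h ω) - pi (¬ q h ω))
    (G := fun h ω => pi (p h ω) * pi (q h ω)) hc fun h ω _ => by
      by_cases e : p h ω <;> by_cases e' : q h ω <;> simp [pi, e, e']
  rw [JH_sub, JH_sub, JH_const (by linarith)] at k
  linarith

theorem adv (hc : 1 ≤ c) (hS : SR c) : ADV c := by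
  have hc0 : 0 < c := by linarith
  obtain ⟨μ0, n1, -, h1, h2⟩ := hS (1 / 6) (by norm_num)
  refine ⟨μ0 + 2, n1, by omega, h1, fun n hn z => ?_⟩
  set μ := μ0 + 2 with hμ
  have l : ∀ k ≥ n1, n1 ≤ μ * k ∧ μ0 * k ≤ μ * k ∧ k + 1 ≤ μ * k := fun k hk => by
    refine ⟨?_, ?_, ?_⟩ <;> nlinarith
  rw [show μ ^ 3 * n = μ * (μ * (μ * n)) by ring, show μ ^ 2 * n = μ * (μ * n) by ring]
  obtain ⟨l1, l2, l3⟩ := l n hn
  obtain ⟨m1, m2, m3⟩ := l _ l1
  obtain ⟨-, p2, p3⟩ := l _ m1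
  set a := μ * n
  set b := μ * a
  set d := μ * b
  obtain ⟨ab, e1, e2⟩ := ((h2 a l1 b m2 z).2.and (ev_subset (sq z (d + 1)))).exists
  have k1 : 1 - 1 / 6 - 1 / 6 ≤ JH c (sq z d) fun h ω => pi (Enc (oj 2 h ω) (sq z a) (sq z b)) := by
    have k := out_le (j := 0) (A := sq z b) (W := fun _ _ => 1) hc ((sq_mono d.le_succ).trans e2)
      (cc_sq z d) (Φ := fun h ω => pi (Enc (oj 2 h ω) (sq z a) (sq z b)))
      (Ψ := fun h ω => pi (Enc (oj 2 h ω) (sq z a) (sq z b)))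
      (JH_nonneg hc (D := sq z d) fun _ _ _ => pi_nonneg _) (fun _ _ => pi_nonneg _)
      (fun _ _ _ _ _ _ => rfl) (fun _ _ => zero_le_one)
      (fun D' ho ωo hi ωi s k k' => (pi_congr (enc_glue s k k')).le)
      fun D' _ s hc' => dom2 hc (cc_sq z d) hc' s (p := fun Q => Enc Q (sq z a) (sq z b))
        fun _ _ e k => k.mono e subset_rfl subset_rfl
    simp only [mul_one, JH_const hc0] at k
    refine le_trans (two_le hc e1 ?_) k
    exact (JH_mono hc fun h ω _ => pi_mono (mt (enc_ox e2))).trans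
      ((h2 b m1 d p2 z).1 _ (cc_bx ab))
  refine ⟨by linarith, ?_⟩
  have s1 : sq z (a + 1) ⊆ sq z d := sq_mono (by omega)
  have s2 : sq z a ⊆ sq z d := sq_mono (by omega)
  have k2 : 1 - (1 / 6 + 1 / 6) - 1 / 6 ≤ JH c (sq z d) fun h ω =>
      pi (Enc (oj 2 h ω) (sq z a) (sq z b)) * pi (Enc (oj 0 h ω) (sq z n) (sq z a)) := by
    refine two_le hc ?_ ((JH_mono hc fun h ω _ => pi_mono (mt (enc_ox s1))).trans
      ((h2 n hn a l2 z).1 _ (cc_sq z d)))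
    simp only [pi_not]
    rw [JH_sub, JH_const hc0]
    linarith
  have d1 : Dep (inn (sq z n)) (vin (sq z n)) fun _ _ => 1 := fun _ _ _ _ _ _ => rfl
  have k3 := le_dec (j := 0) (A := sq z n) hc (Or.inl rfl) s2 subset_rfl d1 (fun _ _ => rfl)
    (fun _ _ => zero_le_one) (ext_enc 2 subset_rfl (sq z b)) fun _ _ => pi_nonneg _
  have k4 := dec_le (j := 0) (A := sq z n) (W := fun _ _ => 1) hc (Or.inl rfl) s2 subset_rfl d1
    (fun _ _ => rfl) (fun _ _ => zero_le_one) (fun _ _ _ _ _ _ => rfl) fun _ _ => zero_le_one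
  simp only [ev, one_mul] at k3
  simp only [ev, one_mul, JH_const hc0] at k4
  have p := wired_pos hc (vin_mono ((sq_mono (z := z) (show n ≤ a by omega)).trans s2))
  refine le_trans (mul_le_mul_of_nonneg_right (le_trans (by linarith) k3) p.le) ?_
  refine le_trans ?_ (mul_le_of_le_one_right
    (JH_nonneg hc fun _ _ _ => mul_nonneg (pi_nonneg _) (pi_nonneg _)) k4)
  rw [Finset.sum_mul, Finset.mul_sum]
  refine Finset.sum_le_sum fun E hE => ?_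
  obtain ⟨a1, a2, a3⟩ := mem_fam.1 hE
  rw [mul_assoc, mul_left_comm _ (ph _ _ _ _)]
  exact mul_le_mul_of_nonneg_left (wired_le hc (cc_sq z d) (a1.trans s2) a3 (bd_vin a1 s1) a2 a1)
    (ph_nonneg hc (fun _ _ => zero_le_one) _ _)

end Vale.Agent.P145.Rm
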