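import Vale.Agent.P145.RmDefs

/-! P145, block RM: innermost and outermost circuits. -/

open Filter Topology

namespace Vale.Agent.P145.Rm

open Vale.Agent.P152

/-- no smaller circuit of class `j` -/
def Inr (j : ℤ) (A E : Finset Site) (h : Ht) (ω : Finset Vx) : Prop :=
  ∀ E' ⊂ E, A ⊆ E' → Cc E' → ¬ ∀ m ∈ bd E', m ∈ vin E → m ∈ oj j h ω

open Classical in
/-- candidates for the inside of a circuit -/
noncomputable def fam (A B : Finset Site) : Finset (Finset Site) :=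
  B.powerset.filter fun E => A ⊆ E ∧ Cc E

/-- weight of the inside -/
noncomputable def ph (c : ℝ) (F : Set Site → Set Vx → ℝ) (A E : Finset Site) : ℝ :=
  JH c E fun h ω => ev F h ω * pi (Inr 0 A E h ω)

theorem mem_fam {A B E : Finset Site} : E ∈ fam A B ↔ E ⊆ B ∧ A ⊆ E ∧ Cc E := by
  classical
  rw [fam, Finset.mem_filter, Finset.mem_powerset]

theorem bd_sub {E E' : Finset Site} (h : E' ⊆ E) {m : Vx} (hm : m ∈ bd E') (hv : m ∉ vin E) :
    m ∈ bd E := by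
  rw [mem_bd] at hm ⊢
  rw [mem_vin] at hv
  have := @h (fa m)
  have := @h (fb m)
  tauto

theorem sel_le {j : ℤ} {A B : Finset Site} {h : Ht} {ω : Finset Vx} :
    ∑ E ∈ fam A B, pi (Inr j A E h ω) * pi ((bd E : Set Vx) ⊆ oj j h ω) ≤ 1 := by
  classical
  have u : ∀ E ∈ fam A B, ∀ E' ∈ fam A B, Inr j A E h ω → (bd E : Set Vx) ⊆ oj j h ω →
      (bd E' : Set Vx) ⊆ oj j h ω → E ⊆ E' := fun E hE E' hE' a b b' => by
    by_contra n
    refine a (E ∩ E') ⟨Finset.inter_subset_left, fun a => n (a.trans Finset.inter_subset_right)⟩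
      (Finset.subset_inter (mem_fam.1 hE).2.1 (mem_fam.1 hE').2.1)
      ((mem_fam.1 hE).2.2.inter (mem_fam.1 hE').2.2) fun m hm hv => b' ?_
    rw [Finset.mem_coe, mem_bd]
    rw [mem_bd, Finset.mem_inter, Finset.mem_inter] at hm
    rw [mem_vin] at hv
    tauto
  by_cases e : ∃ E ∈ fam A B, Inr j A E h ω ∧ (bd E : Set Vx) ⊆ oj j h ω
  · obtain ⟨E, hE, a, b⟩ := e
    rw [Finset.sum_eq_single E, pi_pos a, pi_pos b, one_mul]
    · intro E' hE' n
      rw [← pi_and]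
      exact pi_neg fun k => n (Finset.Subset.antisymm (u E' hE' E hE k.1 k.2 b)
        (u E hE E' hE' a b k.2))
    · exact fun n => absurd hE n
  · rw [Finset.sum_eq_zero]
    · exact zero_le_one
    · intro E hE
      rw [← pi_and]
      exact pi_neg fun k => e ⟨E, hE, k⟩

theorem le_sel {j : ℤ} {A B : Finset Site} {h : Ht} {ω : Finset Vx} :
    pi (Enc (oj j h ω) A B) ≤
      ∑ E ∈ fam A B, pi (Inr j A E h ω) * pi ((bd E : Set Vx) ⊆ oj j h ω) := by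
  classical
  have n : ∀ E ∈ fam A B, 0 ≤ pi (Inr j A E h ω) * pi ((bd E : Set Vx) ⊆ oj j h ω) :=
    fun _ _ => mul_nonneg (pi_nonneg _) (pi_nonneg _)
  by_cases e : Enc (oj j h ω) A B
  · obtain ⟨E0, a1, a2, -, a3, a4⟩ := id e
    obtain ⟨E, hE, k⟩ := Finset.exists_min_image
      ((fam A B).filter fun E => (bd E : Set Vx) ⊆ oj j h ω) Finset.card
      ⟨E0, Finset.mem_filter.2 ⟨mem_fam.2 ⟨a2, a1, a3⟩, a4⟩⟩
    obtain ⟨hE, b⟩ := Finset.mem_filter.1 hE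
    refine le_trans ?_ (Finset.single_le_sum n hE)
    rw [pi_pos e, pi_pos b, pi_pos, one_mul]
    intro E' h1 h2 h3 h4
    refine absurd (k E' (Finset.mem_filter.2 ⟨mem_fam.2 ⟨h1.1.trans (mem_fam.1 hE).1, h2, h3⟩,
      fun m hm => ?_⟩)) (not_le.2 (Finset.card_lt_card h1))
    by_cases hv : m ∈ vin E
    exacts [h4 m hm hv, b (bd_sub h1.1 hm hv)]
  · rw [pi_neg e]
    exact Finset.sum_nonneg n

theorem dec_eq {c : ℝ} (hc : 1 ≤ c) {j : ℤ} (hj : j = 0 ∨ j = 2) {D A A0 B E : Finset Site}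
    (hB : B ⊆ D) (hE : E ∈ fam A B) (hA : A0 ⊆ A) {F : Set Site → Set Vx → ℝ}
    (hF : Dep (inn A0) (vin A0) F) (hs : Sy F) {W : Ht → Finset Vx → ℝ} (hW : Ext B W) :
    JH c D (fun h ω => ev F h ω * W h ω *
      (pi (Inr j A E h ω) * pi ((bd E : Set Vx) ⊆ oj j h ω))) =
      ph c F A E * JH c D fun h ω => pi ((bd E : Set Vx) ⊆ oj j h ω) * W h ω := by
  obtain ⟨h1, h2, h3⟩ := mem_fam.1 hE
  rw [ph, ← core hc (j := j) (h1.trans hB) h3 (Φ := fun h ω => ev F h ω * pi (Inr j A E h ω))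
    (W' := fun h ω => pi ((bd E : Set Vx) ⊆ oj j h ω) * W h ω)
    (fun h ω k n => ring_of k (by_contra fun a => n (by rw [pi_neg a, zero_mul])))
    fun ho ωo hi ωi k k' => ⟨by rw [pi_congr (bd_glue k k'), ext_glue hW h1 k'], ?_⟩]
  · exact JH_congr fun h ω _ => by ring
  rw [ev_glue hF hs (hA.trans h2) hj k k']
  congr 1
  have e : oj j (glue E ho hi) (ωo ∪ ωi) ∩ vin E = oj 0 hi ωi := by
    rcases hj with rfl | rfl
    exacts [(o0_glue0 k k').1, (o0_glue2 k k').2]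
  refine pi_congr (forall_congr' fun E' => forall₃_congr fun _ _ _ => not_congr
    (forall₃_congr fun m _ hv => ?_))
  rw [← e]
  exact (and_iff_left hv).symm

variable {c : ℝ} {j : ℤ} {D A A0 B : Finset Site} {F : Set Site → Set Vx → ℝ}
  {W : Ht → Finset Vx → ℝ}

/-- the weights of the innermost circuits sum to at most the whole -/
theorem dec_le (hc : 1 ≤ c) (hj : j = 0 ∨ j = 2) (hB : B ⊆ D) (hA : A0 ⊆ A)
    (hF : Dep (inn A0) (vin A0) F) (hs : Sy F) (h0 : ∀ T O, 0 ≤ F T O) (hW : Ext B W)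
    (hW0 : ∀ h ω, 0 ≤ W h ω) :
    ∑ E ∈ fam A B, ph c F A E * JH c D (fun h ω => pi ((bd E : Set Vx) ⊆ oj j h ω) * W h ω) ≤
      JH c D fun h ω => ev F h ω * W h ω := by
  rw [← Finset.sum_congr rfl fun E hE => dec_eq hc hj hB hE hA hF hs hW, ← JH_sum]
  refine JH_mono hc fun h ω _ => ?_
  rw [← Finset.mul_sum]
  exact mul_le_of_le_one_right (mul_nonneg (h0 _ _) (hW0 _ _)) sel_le

/-- decomposition along the innermost circuit -/
theorem le_dec (hc : 1 ≤ c) (hj : j = 0 ∨ j = 2) (hB : B ⊆ D) (hA : A0 ⊆ A)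
    (hF : Dep (inn A0) (vin A0) F) (hs : Sy F) (h0 : ∀ T O, 0 ≤ F T O) (hW : Ext B W)
    (hW0 : ∀ h ω, 0 ≤ W h ω) :
    JH c D (fun h ω => ev F h ω * W h ω * pi (Enc (oj j h ω) A B)) ≤
      ∑ E ∈ fam A B, ph c F A E * JH c D fun h ω => pi ((bd E : Set Vx) ⊆ oj j h ω) * W h ω := by
  rw [← Finset.sum_congr rfl fun E hE => dec_eq hc hj hB hE hA hF hs hW, ← JH_sum]
  refine JH_mono hc fun h ω _ => ?_
  rw [← Finset.mul_sum]
  exact mul_le_mul_of_nonneg_left le_sel (mul_nonneg (h0 _ _) (hW0 _ _))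

theorem ph_nonneg (hc : 1 ≤ c) (h0 : ∀ T O, 0 ≤ F T O) (A E : Finset Site) : 0 ≤ ph c F A E :=
  JH_nonneg hc fun _ _ _ => mul_nonneg (h0 _ _) (pi_nonneg _)

/-- exploration of the outermost circuit -/
theorem out_le (hc : 1 ≤ c) (hB : B ⊆ D) (hcc : Cc B) {Φ Ψ : Ht → Finset Vx → ℝ} {K : ℝ}
    (hK : 0 ≤ K) (hΨ : ∀ h ω, 0 ≤ Ψ h ω) (hW : Ext B W) (hW0 : ∀ h ω, 0 ≤ W h ω)
    (h1 : ∀ D' ho ωo hi ωi, A ⊆ D' → Out D D' j ho ωo → Ok D' hi ωi →
      Φ (glue D' ho hi) (ωo ∪ ωi) ≤ Ψ hi ωi)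
    (h2 : ∀ D', A ⊆ D' → D' ⊆ B → Cc D' → JH c D' Ψ ≤ K) :
    JH c D (fun h ω => Φ h ω * W h ω * pi (Enc (oj j h ω) A B)) ≤ K * JH c D W := by
  have hc0 : 0 < c := by linarith
  have s : (D : Set Site)ᶜ ⊆ (B : Set Site)ᶜ := Set.compl_subset_compl.2 hB
  rw [← JH_mul]
  refine m_exp c hc D j (B : Set Site)ᶜ ∅ Set.univ (fun z => z % 4 = j) _ _
    (by rwa [Set.union_eq_right.2 s]) (Set.empty_disjoint _) (fun _ a => a) (Or.inr ⟨rfl, s⟩)
    fun D' ho ωo _ hc' k e r => ?_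
  simp only [Set.empty_union, Set.inter_univ] at e r
  have b : D' ⊆ B := fun f hf => by
    by_contra n
    exact (mem_exd.1 (e ▸ hf)).2 (subset_rch n)
  have e1 : Inn c D' ho ωo (fun h ω => K * W h ω) = K * W ho ωo := by
    rw [Inn, ← JH_const (D := D') hc0 (K * W ho ωo)]
    exact JH_congr fun hi ωi k' => by rw [ext_glue hW b k']
  rw [e1, Inn]
  by_cases a : A ⊆ D'
  · refine le_trans (JH_mono hc (G := fun hi ωi => W ho ωo * Ψ hi ωi) fun hi ωi k' => ?_) ?_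
    · rw [ext_glue hW b k', mul_comm (W ho ωo)]
      by_cases n : Enc (oj j (glue D' ho hi) (ωo ∪ ωi)) A B
      · rw [pi_pos n, mul_one]
        exact mul_le_mul_of_nonneg_right (h1 D' ho ωo hi ωi a k k') (hW0 _ _)
      · rw [pi_neg n, mul_zero]
        exact mul_nonneg (hΨ _ _) (hW0 _ _)
    · rw [JH_mul, mul_comm]
      exact mul_le_mul_of_nonneg_right (h2 D' a b hc') (hW0 _ _)
  · refine le_trans (JH_mono hc (G := fun _ _ => 0) fun hi ωi k' => ?_) ?_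
    · rw [pi_neg, mul_zero]
      intro n
      refine a fun f hf => e ▸ mem_exd.2 ⟨?_, ?_⟩
      · obtain ⟨E, a1, a2, -⟩ := n
        exact hB (a2 (a1 hf))
      · rw [← r hi ωi k']
        exact n.not_rch hf
    · rw [JH_const hc0]
      exact mul_nonneg hK (hW0 _ _)

end Vale.Agent.P145.Rm
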