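import Vale.Agent.P145.GDom
import Vale.Agent.P145.MExp
import Vale.Agent.P145.PBox

/-! P145, block RM: ratio mixing and Peierls estimate for even data. Objects and statements. -/

open Filter Topology

namespace Vale.Agent.P145.Rm

open Vale.Agent.P152

/-- `Φ` only depends on the even data in `U`, up to the global flip -/
def EL (U : Finset Site) (Φ : Ht → Finset Vx → ℝ) : Prop :=
  ∀ (D D' : Finset Site) (h : Ht) (ω : Finset Vx) (h' : Ht) (ω' : Finset Vx) (j : ℤ),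
    Ok D h ω → Ok D' h' ω' → U ⊆ D → U ⊆ D' →
    (∀ v ∈ inn U, h' (v, true) % 4 = (h (v, true) + j) % 4) → (∀ m ∈ vin U, m ∈ ω ↔ m ∈ ω') →
    Φ h ω = Φ h' ω'

/-- Peierls estimate -/
def PEI (c : ℝ) : Prop := ∃ C : ℝ, 0 ≤ C ∧ ∃ R n1 : ℕ, 1 ≤ R ∧ ∀ n ≥ n1, ∀ (ι : Type)
  (D : Finset Site) (J : Finset ι) (z : ι → Site) (Φ : ι → Ht → Finset Vx → ℝ) (η : ℝ), Cc D →
  (∀ i ∈ J, sq (z i) (R * n) ⊆ D ∧ (∀ h ω, 0 ≤ Φ i h ω) ∧ EL (sq (z i) n) (Φ i) ∧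
    ∃ D2, Cc D2 ∧ sq (z i) (R * n) ⊆ D2 ∧ JH c D2 (Φ i) ≤ η) →
  (∀ i ∈ J, ∀ k ∈ J, i ≠ k → (2 * (R * n : ℕ) : ℤ) ≤ sd (z i) (z k)) →
  JH c D (fun h ω => ∏ i ∈ J, Φ i h ω) ≤ (C * η) ^ J.card

/-- vertices with spin minus -/
def tm (h : Ht) : Set Site := {v | h (v, true) % 4 = 2}

/-- `F` only depends on the spins in `V` and the edges in `E` -/
def Dep (V : Set Site) (E : Set Vx) (F : Set Site → Set Vx → ℝ) : Prop :=
  ∀ T T' O O', (∀ v ∈ V, v ∈ T ↔ v ∈ T') → (∀ m ∈ E, m ∈ O ↔ m ∈ O') → F T O = F T' O'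

/-- evaluation on the even data -/
def ev (F : Set Site → Set Vx → ℝ) (h : Ht) (ω : Finset Vx) : ℝ := F (tm h) ω

/-- flip symmetry -/
def Sy (F : Set Site → Set Vx → ℝ) : Prop := ∀ T O, F Tᶜ O = F T O

/-- open edges of class `j` -/
def oj (j : ℤ) (h : Ht) (ω : Finset Vx) : Set Vx := op (fun z => z % 4 = j) h ω

/-- `W` only depends on the data outside `B` -/
def Ext (B : Finset Site) (W : Ht → Finset Vx → ℝ) : Prop :=
  ∀ h h' ω ω', (∀ v, v ∉ inn B → h (v, true) = h' (v, true)) →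
    (∀ m, m ∉ vin B → (m ∈ ω ↔ m ∈ ω')) → W h ω = W h' ω'

theorem ext_glue {B D' : Finset Site} {W : Ht → Finset Vx → ℝ} {ho hi : Ht}
    {ωo ωi : Finset Vx} (hW : Ext B W) (hB : D' ⊆ B) (k' : Ok D' hi ωi) :
    W (glue D' ho hi) (ωo ∪ ωi) = W ho ωo :=
  hW _ _ _ _ (fun v hv => glue_out k'.1 fun a => hv
    (mem_inn_cor.2 fun f hf => hB (mem_inn_cor.1 a f hf))) fun m hm => by
      rw [Finset.mem_union]
      exact or_iff_left fun a => hm (JBas_vin hB (k'.2.1 a))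

/-- a boundary of class `j` is a ring -/
theorem ring_of {D E : Finset Site} {j : ℤ} {h : Ht} {ω : Finset Vx} (k : Ok D h ω)
    (hM : (bd E : Set Vx) ⊆ oj j h ω) : Ring D E j h ω :=
  ⟨fun _ _ h2 => (hM h2).1, fun f h1 v h2 h3 => by
    obtain ⟨m, h4, h5⟩ := exists_bd h1 h2 h3
    rw [k.end_eq (hM h4).1 h5]
    exact (hM h4).2⟩

theorem bd_glue {D E : Finset Site} {j i : ℤ} {ho hi : Ht} {ωo ωi : Finset Vx}
    (k : Out D E j ho ωo) (k' : Ok E hi ωi) :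
    (bd E : Set Vx) ⊆ oj i (glue E ho hi) (ωo ∪ ωi) ↔ (bd E : Set Vx) ⊆ oj i ho ωo := by
  refine forall₂_congr fun m hm => ?_
  rw [oj, oj, ← op_glue_out _ k k']
  exact (and_iff_left (Finset.mem_sdiff.1 hm).2).symm

/-- Markov property as an identity -/
theorem core {c : ℝ} (hc : 1 ≤ c) {D D' : Finset Site} {j : ℤ} (hD : D' ⊆ D) (hD' : Cc D')
    {Φ Ψ W W' : Ht → Finset Vx → ℝ} (h1 : ∀ h ω, Ok D h ω → W h ω ≠ 0 → Ring D D' j h ω)
    (h2 : ∀ ho ωo hi ωi, Out D D' j ho ωo → Ok D' hi ωi →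
      W (glue D' ho hi) (ωo ∪ ωi) = W' ho ωo ∧ Φ (glue D' ho hi) (ωo ∪ ωi) = Ψ hi ωi) :
    JH c D (fun h ω => Φ h ω * W h ω) = JH c D' Ψ * JH c D W := by
  have r : ∀ F : Ht → Finset Vx → ℝ, JH c D (fun h ω => F h ω * W h ω) =
      JH c D fun h ω => pi (Ring D D' j h ω) * (F h ω * W h ω) := fun F =>
    JH_congr fun h ω k => by
      by_cases hM : W h ω = 0
      · rw [hM, mul_zero, mul_zero]
      · rw [pi_pos (h1 h ω k hM), one_mul]
  have e : ∀ ho ωo, Out D D' j ho ωo → Inn c D' ho ωo (fun h ω => Φ h ω * W h ω) =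
      Inn c D' ho ωo fun h ω => JH c D' Ψ * W h ω := fun ho ωo k => by
    rw [Inn, Inn, JH_congr (G := fun hi ωi => W' ho ωo * Ψ hi ωi)
      fun hi ωi k' => by rw [(h2 ho ωo hi ωi k k').2, (h2 ho ωo hi ωi k k').1, mul_comm],
      JH_mul, ← JH_const (D := D') (show 0 < c by linarith) (_ * JH c D' Ψ)]
    exact JH_congr fun hi ωi k' => by rw [(h2 ho ωo hi ωi k k').1, mul_comm]
  rw [← JH_mul, r, r fun _ _ => JH c D' Ψ]
  exact le_antisymm (m_mk c hc D D' j _ _ hD hD' fun ho ωo k => (e ho ωo k).le)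
    (m_mk c hc D D' j _ _ hD hD' fun ho ωo k => (e ho ωo k).ge)

/-- symmetric local functions pass to the inside -/
theorem ev_glue {D E A : Finset Site} {j : ℤ} {ho hi : Ht} {ωo ωi : Finset Vx}
    {F : Set Site → Set Vx → ℝ} (hF : Dep (inn A) (vin A) F) (hs : Sy F) (hA : A ⊆ E)
    (hj : j = 0 ∨ j = 2) (k : Out D E j ho ωo) (k' : Ok E hi ωi) :
    ev F (glue E ho hi) (ωo ∪ ωi) = ev F hi ωi := by
  have e1 : ∀ v ∈ (inn A : Set Site), ho (v, true) % 4 = j ∧ hi (v, true) % 2 = 0 := fun v hv =>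
    ⟨(k.2.1 v (hA (inn_subset hv)) v (self_cor v)).2, by have := k'.1.par.1 v; omega⟩
  have e2 : ∀ m ∈ (vin A : Set Vx), m ∈ ((ωo ∪ ωi : Finset Vx) : Set Vx) ↔ m ∈ (ωi : Set Vx) :=
    fun m hm => by
      rw [Finset.mem_coe, Finset.mem_union]
      exact or_iff_right fun a => (Finset.mem_sdiff.1 (k.2.2.1 a)).2 (JBas_vin hA hm)
  rcases hj with rfl | rfl
  · refine hF _ _ _ _ (fun v hv => ?_) e2
    have := e1 v hv
    simp only [tm, Set.mem_ofPred_eq, glue_true]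
    omega
  · rw [ev, ev, ← hs (tm hi)]
    refine hF _ _ _ _ (fun v hv => ?_) e2
    have := e1 v hv
    simp only [tm, Set.mem_compl_iff, Set.mem_ofPred_eq, glue_true]
    omega

end Vale.Agent.P145.Rm
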