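import Vale.Agent.P145.RsDefs
import Vale.Agent.P153.RSW.PLA
import Vale.Agent.P153.RSW.PLB

/-! A horizontal and a vertical crossing of a rectangle meet. -/

open Set

namespace Vale.Agent.P145.Rs

open Vale.Agent.P153 (V Adj Conn adj_iff)
open Vale.Agent.P153.RSW (Up Ev all cn_first cn_last cn_mono cn_mem ev_mono up_ev cn_refl cn_trans
  cn_step cn_symm pla plb mem_hex0)

theorem RsP1_col {S : Set V} {i j j' : ℤ} (h : j ≤ j') (hS : ∀ k, j ≤ k → k ≤ j' → (i, k) ∈ S) :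
    Conn all S (i, j) (i, j') := by
  induction j', h using Int.le_induction with
  | base => exact cn_refl
  | succ n hn ih =>
    exact cn_trans (ih fun k h1 h2 => hS k h1 (by omega))
      (cn_step (by rw [adj_iff]; simp) trivial (hS n hn (by omega)) (hS _ (by omega) le_rfl))

theorem s_plb : Vale.Agent.P153.RSW.PLB := plb pla

theorem s_p1 : S_p1 := by
  intro a b c d S T x y x' y' hS hT hx hxy hxa hyb hx' hxy' hxc hyd
  have hy := cn_mem hxy hx
  have hy' := cn_mem hxy' hx'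
  have k1 := mem_rc.1 (hS hx)
  have k2 := mem_rc.1 (hS hy)
  have k3 := mem_rc.1 (hT hx')
  have k4 := mem_rc.1 (hT hy')
  obtain ⟨ρ, hρ⟩ : ∃ ρ : ℕ, a.natAbs + b.natAbs + c.natAbs + d.natAbs + 2 = ρ := ⟨_, rfl⟩
  let S' : Set V := S ∪ {v | (v.1 = a - 1 ∨ v.1 = b + 1) ∧ c - 1 ≤ v.2 ∧ v.2 ≤ d}
  let T' : Set V := T ∪ {v | (v.1 = x'.1 ∧ v.2 = c - 1) ∨ (v.1 = y'.1 ∧ d < v.2)}
  have s1 : ∀ i j, (i = a - 1 ∨ i = b + 1) → c - 1 ≤ j → j ≤ d → (i, j) ∈ S' :=
    fun i j h1 h2 h3 => Or.inr ⟨h1, h2, h3⟩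
  obtain ⟨v, hv1, hv2⟩ := pla (c - 1) ρ S' T' (a - 1) x'.1 (b + 1) (y'.1, ρ + 1)
    (by
      rintro v (hv | hv)
      · have := mem_rc.1 (hS hv)
        exact ⟨show c - 1 ≤ v.2 by omega, mem_hex0.2 (by omega)⟩
      · simp only [mem_ofPred_eq] at hv
        exact ⟨hv.2.1, mem_hex0.2 (by omega)⟩)
    (by
      rintro v (hv | hv)
      · have := mem_rc.1 (hT hv)
        exact show c - 1 ≤ v.2 by omega
      · simp only [mem_ofPred_eq] at hv ⊢
        omega)
    (by omega) (by omega) (s1 _ _ (Or.inl rfl) le_rfl (by omega))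
    (cn_trans (RsP1_col (j' := x.2) (by omega) fun k h1 h2 => s1 _ _ (Or.inl rfl) h1 (by omega))
      (cn_trans (cn_step (by rw [adj_iff]; dsimp only; omega) trivial
        (s1 _ _ (Or.inl rfl) (by omega) (by omega)) (Or.inl hx))
      (cn_trans (cn_mono (fun _ _ k => k) subset_union_left hxy)
      (cn_trans (b := (b + 1, y.2)) (cn_step (by rw [adj_iff]; dsimp only; omega) trivial
        (Or.inl hy) (s1 _ _ (Or.inr rfl) (by omega) (by omega)))
      (cn_symm (fun _ _ k => k)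
        (RsP1_col (by omega) fun k h1 h2 => s1 _ _ (Or.inr rfl) h1 (by omega)))))))
    (Or.inr (Or.inl ⟨rfl, rfl⟩))
    (cn_trans (cn_step (by rw [adj_iff]; dsimp only; omega) trivial (Or.inr (Or.inl ⟨rfl, rfl⟩))
        (Or.inl hx'))
      (cn_trans (cn_mono (fun _ _ k => k) subset_union_left hxy')
      (RsP1_col (i := y'.1) (j := y'.2) (by omega) fun k h1 h2 =>
        h1.eq_or_lt.elim (fun e => Or.inl (e ▸ hy')) fun e => Or.inr (Or.inr ⟨rfl, hyd ▸ e⟩))))
    (fun h => by have := mem_hex0.1 h; dsimp only at this; omega)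
  rcases hv1 with h1 | h1 <;> rcases hv2 with h2 | h2
  · exact ⟨v, h1, h2⟩
  · have := mem_rc.1 (hS h1)
    simp only [mem_ofPred_eq] at h2
    omega
  · have := mem_rc.1 (hT h2)
    simp only [mem_ofPred_eq] at h1
    omega
  · simp only [mem_ofPred_eq] at h1 h2
    omega

end Vale.Agent.P145.Rs
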