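import Vale.Agent.P145.SDefs
import Vale.Agent.P152.FLat
import Vale.Agent.P152.FCalcA

/-! P145, block SR: sampling and the analytic input in lattice form. -/

open Filter Topology

namespace Vale.Agent.P145.Sr

open Vale.Agent.P152

theorem SAna_app {δ : ℝ} (hδ : 0 < δ) {f : Pl → ℝ} (hf : Sm f) (x : Site) :
    sa δ f x = δ ^ 2 * f (δ * x.1, δ * x.2) := by
  have h : (Function.support fun x : Site => δ ^ 2 * f (δ * x.1, δ * x.2)).Finite :=
    (fin_samp hδ hf.2).subset fun x hx => right_ne_zero_of_mul hx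
  rw [sa, dif_pos h, Finsupp.ofSupportFinite_coe]

theorem s_sam : S_sam := by
  intro δ hδ f hf
  refine ⟨SAna_app hδ hf, fun g hg => ?_, fun s => ?_⟩
  · ext x
    rw [Finsupp.sub_apply, SAna_app hδ hf, SAna_app hδ hg, SAna_app hδ (hf.sub hg), Pi.sub_apply,
      mul_sub]
  · have h : sa δ (tsl (δ * s.1, δ * s.2) f) =
        Finsupp.equivMapDomain (Equiv.addRight s) (sa δ f) := by
      ext x
      rw [Finsupp.equivMapDomain_apply, SAna_app hδ hf, SAna_app hδ (sm_tsl _ hf)]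
      simp [tsl, mul_add, sub_eq_add_neg]
    rw [h, ms, ms, Finsupp.sum_equivMapDomain]

theorem SAna_test {ψ : Pl → ℝ} (h : Sm ψ) (u w : Pl) : IsTest (tsl u ψ - tsl w ψ) :=
  ⟨((sm_tsl u h).sub (sm_tsl w h)).1, ((sm_tsl u h).sub (sm_tsl w h)).2, by
    rw [MeasureTheory.integral_sub' (sm_tsl u h).integrable (sm_tsl w h).integrable]
    simp only [tsl, MeasureTheory.integral_sub_right_eq_self, sub_self]⟩

theorem s_ana : S_ana := by
  intro hfej hvar hsam c K hc hK hG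
  obtain ⟨hv, ψ, hψ, hs, hlim⟩ := hvar
  obtain ⟨p, hp⟩ : ∃ p : ℕ → Pl → ℝ, ∀ j, p j = tsl ((j : ℝ), 0) ψ := ⟨_, fun _ => rfl⟩
  have p0 : p 0 = ψ := by
    rw [hp]
    funext x
    simp [tsl, Prod.mk_zero_zero]
  have pt : ∀ i j, IsTest (p i - p j) := fun i j => by
    rw [hp, hp]
    exact SAna_test hψ _ _
  have ps : ∀ j, Sm (p j) := fun j => hp j ▸ sm_tsl _ hψ
  simp only [← hp] at hlim
  rw [← p0] at hlim
  refine ⟨K * gcov (p 0 - p 3) (p 0 - p 3) + 1, fun T hT ε hε => ?_⟩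
  obtain ⟨m, hm⟩ := exists_nat_gt (8 / ε)
  have m0 : (0 : ℝ) < m := lt_trans (by positivity) hm
  have m1 : 1 ≤ m := Nat.succ_le_of_lt (by exact_mod_cast m0)
  have l1 : Tendsto (fun j : ℕ => Real.exp
      (-((1 / (T * m)) ^ 2 * (K * gcov (p 0 - p j) (p 0 - p j))) / 2)) atTop (𝓝 0) :=
    Real.tendsto_exp_atBot.comp ((tendsto_neg_atTop_atBot.comp
      ((hlim.const_mul_atTop hK).const_mul_atTop (by positivity))).atBot_div_const two_pos)
  obtain ⟨μ, hμ1, hμ2⟩ := ((l1.eventually (ge_mem_nhds (by positivity : (0 : ℝ) < ε / 16))).and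
    (hlim.eventually_ge_atTop 0)).exists
  have g1 : gcov (p μ - p (μ + 3)) (p μ - p (μ + 3)) = gcov (p 0 - p 3) (p 0 - p 3) := by
    rw [← hv (p 0 - p 3) ((μ : ℝ), 0)]
    have : tsl ((μ : ℝ), 0) (p 0 - p 3) = p μ - p (μ + 3) := by
      funext x
      simp [hp, tsl, sub_sub]
    rw [this]
  have ht : Tendsto (fun n : ℕ => (n : ℝ)⁻¹) atTop (𝓝[>] 0) :=
    tendsto_inv_atTop_nhdsGT_zero.comp tendsto_natCast_atTop_atTop
  have e1 := hG _ (pt 0 3) 0 1 one_pos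
  have e2 := hG _ (pt μ (μ + 3)) 0 1 one_pos
  have e3 := (Finset.range m).eventually_all.2 fun (j : ℕ) _ =>
    hG _ (pt 0 μ) (j / (T * m)) (ε / 16) (by positivity)
  obtain ⟨n1, hn1⟩ := eventually_atTop.1
    ((ht.eventually (e1.and (e2.and e3))).and (eventually_ge_atTop 1))
  refine ⟨μ, n1, fun n hn => ?_⟩
  obtain ⟨⟨f1, f2, f3⟩, n0⟩ := hn1 n hn
  have n0' : (0 : ℝ) < n := by exact_mod_cast n0
  have hδ : (0 : ℝ) < (n : ℝ)⁻¹ := inv_pos.2 n0'
  have q1 : ∀ j, ms (sa (n : ℝ)⁻¹ (p j)) = ms (sa (n : ℝ)⁻¹ ψ) := fun j => by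
    rw [← (hsam _ hδ ψ hψ).2.2 ((j * n : ℕ), 0), hp]
    have : (n : ℝ)⁻¹ * ((j : ℝ) * n) = j := by field_simp
    simp [this]
  have q2 : ∀ i j, ms (sa (n : ℝ)⁻¹ (p i - p j)) = 0 := fun i j => by
    rw [(hsam _ hδ _ (ps i)).2.1 _ (ps j), ms_sub, q1, q1, sub_self]
  have q3 : ∀ i j h, lin (sa (n : ℝ)⁻¹ (p i)) h - lin (sa (n : ℝ)⁻¹ (p j)) h =
      lin (sa (n : ℝ)⁻¹ (p i - p j)) h := fun i j h => by
    rw [(hsam _ hδ _ (ps i)).2.1 _ (ps j), lin_sub]
  refine ⟨fun j => sa (n : ℝ)⁻¹ (p j), fun j => by rw [q1, q1], fun j x hx => ?_, ?_⟩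
  · rw [Finsupp.mem_support_iff, (hsam _ hδ _ (ps j)).1, hp] at hx
    have h1 := hs (subset_tsupport _ (right_ne_zero_of_mul hx))
    rw [mem_ball_zero_iff, Prod.norm_def, max_lt_iff] at h1
    simp only [Prod.fst_sub, Prod.snd_sub, sub_zero, Real.norm_eq_abs] at h1
    have a1 : |(x.1 : ℝ) - j * n| < n := by
      have : (x.1 : ℝ) - j * n = n * ((n : ℝ)⁻¹ * x.1 - j) := by field_simp
      rw [this, abs_mul, abs_of_pos n0']
      exact mul_lt_of_lt_one_right n0' h1.1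
    have a2 : |(x.2 : ℝ)| < n := by
      have : (x.2 : ℝ) = n * ((n : ℝ)⁻¹ * x.2) := by field_simp
      rw [this, abs_mul, abs_of_pos n0']
      exact mul_lt_of_lt_one_right n0' h1.2
    simp only [sd, sub_zero, max_lt_iff]
    exact ⟨by exact_mod_cast a1, by exact_mod_cast a2⟩
  · have f4 := (Finset.range m).eventually_all.2 fun j hj => f3 j hj (q2 0 μ)
    filter_upwards [f1 (q2 0 3), f2 (q2 μ (μ + 3)), f4] with ab b1 b2 b3
    simp only [q3]
    refine ⟨b1.1, g1 ▸ b2.1, (hfej c hc (bx ab) _ T (ε / 8) m hT m1 (by positivity)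
      fun j j1 j2 => ((b3 j (Finset.mem_range.2 j2)).2).trans ?_).trans ?_⟩
    · have j3 : (1 : ℝ) ≤ j := by exact_mod_cast j1
      have k1 : (1 / (T * m)) ^ 2 ≤ ((j : ℝ) / (T * m)) ^ 2 := by gcongr
      have k2 := mul_le_mul_of_nonneg_right k1 (mul_nonneg hK.le hμ2)
      have k3 : Real.exp (-(((j : ℝ) / (T * m)) ^ 2 * (K * gcov (p 0 - p μ) (p 0 - p μ))) / 2) ≤
          Real.exp (-((1 / (T * m)) ^ 2 * (K * gcov (p 0 - p μ) (p 0 - p μ))) / 2) :=
        Real.exp_le_exp.2 (by linarith)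
      linarith
    · have k1 : 4 / (m : ℝ) ≤ ε / 2 := by
        rw [div_lt_iff₀ hε] at hm
        rw [div_le_iff₀ m0]
        linarith
      linarith

end Vale.Agent.P145.Sr
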