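import Vale.Agent.P145.SDefs

/-! P145, block SR: heights of circuits. -/

open Filter Topology

namespace Vale.Agent.P145.Sr

open Vale.Agent.P152

theorem SArm_step {D : Finset Site} {h : Ht} {ω : Finset Vx} (ok : Ok D h ω) {m : Vx}
    (hm : m ∈ vin D) (hn : m ∉ o2 h ω) :
    (h (fa m, false) + 1) / 4 = (h (fb m, false) + 1) / 4 ∧
      (m ∈ ω → h (src m, true) = 4 * ((h (fa m, false) + 1) / 4)) := by
  by_cases hw : m ∈ ω
  · have h2 : h (src m, true) % 4 ≠ 2 := fun e => hn ⟨hw, e⟩
    have p := ok.1.par.1 (src m)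
    obtain ⟨a, -, b, -⟩ := ok.1.edge hm
    rw [abs_eq (by norm_num)] at a b
    exact ⟨by omega, fun _ => by omega⟩
  · exact ⟨by rw [ok.2.2.2 m hm hw], fun e => absurd e hw⟩

theorem s_arm : S_arm := by
  intro he D A C h ω ok cA cC hn
  have := mt (he (o2 h ω) A C cA cC) hn
  push Not at this
  obtain ⟨f, hf, g, hg, path⟩ := this
  refine ⟨4 * ((h (f, false) + 1) / 4), fun k B hB hv ⟨E, e1, e2, _, _, e5⟩ => ?_⟩
  have key : (g ∈ E ∧ (h (g, false) + 1) / 4 = (h (f, false) + 1) / 4) ∨
      k = 4 * ((h (f, false) + 1) / 4) := by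
    clear hg
    induction path using Relation.ReflTransGen.head_induction_on with
    | refl => exact Or.inl ⟨e1 hf, rfl⟩
    | @head x y st _ ih =>
      rcases ih with ⟨hy, cy⟩ | ih
      · obtain ⟨-, -, m, hm, sp⟩ := st
        have mv : m ∈ vin D := hv (mem_vx.2 (by
          rcases sp with ⟨-, e⟩ | ⟨e, -⟩
          · exact Or.inr (e ▸ e2 hy)
          · exact Or.inl (e ▸ e2 hy)))
        obtain ⟨s1, s2⟩ := SArm_step ok mv hm
        by_cases hx : x ∈ E
        · refine Or.inl ⟨hx, ?_⟩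
          rcases sp with ⟨rfl, rfl⟩ | ⟨rfl, rfl⟩
          · exact s1.trans cy
          · exact s1.symm.trans cy
        · have mb : m ∈ bd E := mem_bd.2 (by
            rcases sp with ⟨rfl, rfl⟩ | ⟨rfl, rfl⟩
            · exact fun e => hx (e.2 hy)
            · exact fun e => hx (e.1 hy))
          obtain ⟨w, hk⟩ := e5 mb
          have hk' : h (src m, true) = k := hk
          right
          rw [← hk', s2 w]
          rcases sp with ⟨rfl, rfl⟩ | ⟨rfl, rfl⟩
          · rw [s1, cy]
          · rw [cy]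
      · exact Or.inr ih
  exact key.resolve_left fun e => hg (hB (e2 e.1))

theorem s_lev : S_lev := by
  intro ht D A B h ω ok ⟨E, e1, e2, e3, e4, e5⟩
  rcases (bd E).eq_empty_or_nonempty with e | ⟨m0, h0⟩
  · exact ⟨0, E, e1, e2, e3, e4, by rw [e]; simp⟩
  · refine ⟨h (src m0, true), E, e1, e2, e3, e4, fun m hm => ⟨(e5 hm).1, ?_⟩⟩
    have p := ht E e3 e4 m0 h0 m hm
    show h (src m, true) = h (src m0, true)
    generalize src m = v at p
    induction p with
    | refl => rfl
    | tail _ st ih =>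
      obtain ⟨m', hm', j⟩ := st
      have := ok.2.2.1 m' (e5 hm').1
      rcases j with ⟨rfl, rfl⟩ | ⟨rfl, rfl⟩
      · exact this.symm.trans ih
      · exact this.trans ih

end Vale.Agent.P145.Sr
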