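import Vale.Agent.P145.Core

/-! P145, block SR (strong crossing estimate): objects, basic facts and step statements. -/

open Filter Topology

namespace Vale.Agent.P145.Sr

open Vale.Agent.P152

/-- total mass -/
noncomputable def ms (a : Site →₀ ℝ) : ℝ := a.sum fun _ r => r

open Classical in
/-- a function sampled at mesh `δ` -/
noncomputable def sa (δ : ℝ) (f : Pl → ℝ) : Site →₀ ℝ :=
  if h : (Function.support fun x : Site => δ ^ 2 * f (δ * x.1, δ * x.2)).Finite then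
    Finsupp.ofSupportFinite _ h else 0

/-- no minus circuit in the annulus -/
noncomputable def arm (z : Site) (n N : ℕ) : Set Vx → Set Vx → ℝ :=
  fun _ Q => pi (¬ Enc Q (sq z n) (sq z N))

/-- open edges at height `k` -/
def lv (k : ℤ) (h : Ht) (ω : Finset Vx) : Set Vx := op (· = k) h ω

/-- there is a plus circuit, and every circuit of constant height is far from the average -/
def Zf (a : Site →₀ ℝ) (T : ℝ) (A B : Finset Site) (h : Ht) (ω : Finset Vx) : Prop :=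
  Enc (o0 h ω) A B ∧ ∀ k : ℤ, Enc (lv k h ω) A B → T ≤ |lin a h - k * ms a|

/-! ### Basic facts -/

variable {c : ℝ} {D : Finset Site}

theorem pi_le {p q : Prop} (h : p → q) : pi p ≤ pi q := by
  unfold pi
  split_ifs with h1 h2
  · exact le_rfl
  · exact absurd (h h1) h2
  · exact zero_le_one
  · exact le_rfl

theorem pi_pos {p : Prop} (h : p) : pi p = 1 := if_pos h
theorem pi_neg {p : Prop} (h : ¬ p) : pi p = 0 := if_neg h
theorem pi_nonneg (p : Prop) : 0 ≤ pi p := by unfold pi; split_ifs <;> norm_num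
theorem pi_le_one (p : Prop) : pi p ≤ 1 := by unfold pi; split_ifs <;> norm_num
theorem pi_not (p : Prop) : pi (¬ p) = 1 - pi p := by
  by_cases h : p <;> simp [pi, h]
theorem pi_and (p q : Prop) : pi (p ∧ q) = pi p * pi q := by
  by_cases h : p <;> by_cases k : q <;> simp [pi, h, k]

theorem ow_nonneg (hc : 1 ≤ c) (h : Ht) (ω : Finset Vx) (m : Vx) : 0 ≤ ow c h ω m := by
  unfold ow ag hv
  split_ifs <;> linarith

theorem ok_of {h : Ht} {ω : Finset Vx} (hh : IsH D h) (hω : ω ⊆ vin D)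
    (hw : ∏ m ∈ vin D, ow c h ω m ≠ 0) : Ok D h ω := by
  have k := Finset.prod_ne_zero_iff.1 hw
  refine ⟨hh, hω, fun m hm => ?_, fun m hm hn => ?_⟩
  · have := k m (hω hm)
    by_contra e
    simp [ow, ag, hm, e] at this
  · have := k m hm
    by_contra e
    obtain ⟨h1, h2⟩ := mem_vin.1 hm
    have a1 := hh.2.2 _ h1 (src m) (by cases m with | mk x b => cases b <;> simp [mem_cor, fa, src])
    have a2 := hh.2.2 _ h1 (tgt m) (by
      cases m with | mk x b => cases b <;> simp [mem_cor, fa, tgt, dir])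
    have a3 := hh.2.2 _ h2 (src m) (by
      cases m with | mk x b => cases b <;> simp [mem_cor, fb, src, dir])
    have a4 := hh.2.2 _ h2 (tgt m) (by
      cases m with | mk x b => cases b <;> simp [mem_cor, fb, tgt, dir])
    rw [abs_eq (by norm_num)] at a1 a2 a3 a4
    have : h (src m, true) = h (tgt m, true) := by omega
    simp_all [ow, ag, hv]

theorem sum_ow (c : ℝ) (D : Finset Site) (h : Ht) :
    ∑ ω ∈ (vin D).powerset, ∏ m ∈ vin D, ow c h ω m = hwt c D h := by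
  classical
  have := Finset.prod_add (fun m => ag h m) (fun m => hv c h m - ag h m) (vin D)
  simp only [add_sub_cancel] at this
  rw [hwt, this]
  refine Finset.sum_congr rfl fun ω hω => ?_
  rw [← Finset.prod_sdiff (Finset.mem_powerset.1 hω), mul_comm]
  congr 1
  · exact Finset.prod_congr rfl fun m hm => if_pos hm
  · exact Finset.prod_congr rfl fun m hm => if_neg (Finset.mem_sdiff.1 hm).2

theorem jn_ht (F : Ht → ℝ) : jn c D (fun h _ => F h) = ∑ h ∈ hs D, hwt c D h * F h := by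
  simp only [jn, ← Finset.sum_mul, sum_ow]

theorem jn_one : jn c D 1 = ∑ h ∈ hs D, hwt c D h := by
  have := jn_ht (c := c) (D := D) fun _ => 1
  simp only [mul_one] at this
  exact this

theorem JH_ht (F : Ht → ℝ) : JH c D (fun h _ => F h) = PH c D F := by
  rw [JH, PH, jn_ht, jn_one]

theorem JH_const (hc : 1 ≤ c) (a : ℝ) : JH c D (fun _ _ => a) = a := by
  rw [JH_ht, show (fun _ => a) = a • (1 : Ht → ℝ) from funext fun _ => by simp, PH_smul,
    PH_one (by linarith), mul_one]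

theorem JH_add (F G : Ht → Finset Vx → ℝ) :
    JH c D (fun h ω => F h ω + G h ω) = JH c D F + JH c D G := by
  simp only [JH, jn, mul_add, Finset.sum_add_distrib, add_div]

theorem JH_mul (a : ℝ) (F : Ht → Finset Vx → ℝ) :
    JH c D (fun h ω => a * F h ω) = a * JH c D F := by
  simp only [JH, jn, mul_left_comm _ a, ← Finset.mul_sum, mul_div_assoc]

theorem JH_sub (F G : Ht → Finset Vx → ℝ) :
    JH c D (fun h ω => F h ω - G h ω) = JH c D F - JH c D G := by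
  simp only [JH, jn, mul_sub, Finset.sum_sub_distrib, sub_div]

theorem JH_mono (hc : 1 ≤ c) {F G : Ht → Finset Vx → ℝ}
    (h : ∀ k ω, Ok D k ω → F k ω ≤ G k ω) : JH c D F ≤ JH c D G := by
  refine div_le_div_of_nonneg_right (Finset.sum_le_sum fun k hk => Finset.sum_le_sum fun ω hω => ?_)
    (jn_one (c := c) (D := D) ▸ (hZ_pos (by linarith) D).le)
  by_cases e : ∏ m ∈ vin D, ow c k ω m = 0
  · simp [e]
  · exact mul_le_mul_of_nonneg_left (h _ _ (ok_of (mem_hs.1 hk) (Finset.mem_powerset.1 hω) e))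
      (Finset.prod_nonneg fun m _ => ow_nonneg hc k ω m)

theorem PG_mono (hc : 1 ≤ c) {G G' : Set Vx → Set Vx → ℝ} (h : ∀ P Q, G P Q ≤ G' P Q) :
    PG c D G ≤ PG c D G' := JH_mono hc fun _ _ _ => h _ _

theorem PG_nonneg (hc : 1 ≤ c) {G : Set Vx → Set Vx → ℝ} (h : ∀ P Q, 0 ≤ G P Q) :
    0 ≤ PG c D G := (JH_const hc 0).symm.le.trans (JH_mono hc fun _ _ _ => h _ _)

theorem PG_not (hc : 1 ≤ c) (p : Set Vx → Set Vx → Prop) :
    PG c D (fun P Q => pi (¬ p P Q)) = 1 - PG c D fun P Q => pi (p P Q) := by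
  simp only [PG, pi_not]
  rw [JH_sub, JH_const hc]

theorem enc_mono {O O' : Set Vx} {A A' B B' : Set Site} (h1 : O ⊆ O') (h2 : A' ⊆ A) (h3 : B ⊆ B')
    (h : Enc O A B) : Enc O' A' B' :=
  h.imp fun _ k => ⟨h2.trans k.1, k.2.1.trans h3, k.2.2.1, k.2.2.2.1, k.2.2.2.2.trans h1⟩

theorem up_arm (z : Site) (n N : ℕ) : Up (arm z n N) :=
  fun _ _ _ _ _ k => pi_le (mt (enc_mono k subset_rfl subset_rfl))

theorem up_enc (A B : Set Site) : Up fun P _ => pi (Enc P A B) :=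
  fun _ _ _ _ k _ => pi_le (enc_mono k subset_rfl subset_rfl)

theorem mem_sq {z f : Site} {n : ℕ} :
    f ∈ sq z n ↔ z.1 - n ≤ f.1 ∧ f.1 < z.1 + n ∧ z.2 - n ≤ f.2 ∧ f.2 < z.2 + n := by
  simp only [sq, mem_bx, Prod.fst_sub, Prod.snd_sub, Prod.fst_add, Prod.snd_add]

theorem mem_inn_sq {z v : Site} {n : ℕ} : v ∈ inn (sq z n) ↔ sd v z < n := by
  simp only [sq, mem_inn_bx, Prod.fst_sub, Prod.snd_sub, Prod.fst_add, Prod.snd_add, sd,
    max_lt_iff, abs_lt]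
  omega

theorem mem_bd {E : Finset Site} {m : Vx} : m ∈ bd E ↔ ¬ (fa m ∈ E ↔ fb m ∈ E) := by
  simp only [bd, Finset.mem_sdiff, mem_vx, mem_vin]
  tauto

theorem vx_sq {z : Site} {n : ℕ} (h : sq z (n + 1) ⊆ D) : vx (sq z n) ⊆ vin D := by
  rintro ⟨x, b⟩ hm
  rw [mem_vx] at hm
  rw [mem_vin]
  constructor <;> refine h ?_ <;> cases b <;>
    simp only [mem_sq, fa, fb, dir, Bool.not_true, Bool.not_false, if_true, Bool.false_eq_true,
      if_false, Prod.fst_sub, Prod.snd_sub] at hm ⊢ <;> push_cast <;> omega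

theorem cor_ends (m : Vx) : src m ∈ cor (fa m) ∧ tgt m ∈ cor (fa m) ∧ src m ∈ cor (fb m) ∧
    tgt m ∈ cor (fb m) := by
  obtain ⟨x, b⟩ := m
  cases b <;> simp [mem_cor, fa, fb, src, tgt, dir]

theorem lin_sub (a b : Site →₀ ℝ) (h : Ht) : lin (a - b) h = lin a h - lin b h :=
  Finsupp.sum_sub_index fun _ _ _ => sub_mul _ _ _

theorem ms_sub (a b : Site →₀ ℝ) : ms (a - b) = ms a - ms b :=
  Finsupp.sum_sub_index fun _ _ _ => rfl

/-! ### Step statements -/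

/-- boxes are connected and have connected complements -/
def S_box : Prop := ∀ ab : Site × Site, Cn (bx ab) ∧ Cc (bx ab)

/-- dipole bound -/
def S_dip : Prop := M_exp → P_enc → ∀ c : ℝ, 1 ≤ c → ∀ (D A B : Finset Site)
  (a a' : Site →₀ ℝ) (T : ℝ), Cn A → A.Nonempty → Cc B → vx B ⊆ vin D → a.support ⊆ inn A →
  Disjoint a'.support (inn B) → 0 ≤ T →
  T ^ 2 * JH c D (fun h ω => pi (Zf a T A B h ω)) ≤ PH c D fun h => (lin a h - lin a' h) ^ 2

/-- without a minus circuit all circuits of constant height have the same height -/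
def S_arm : Prop := P_enc → ∀ (D A C : Finset Site) (h : Ht) (ω : Finset Vx), Ok D h ω → Cn A →
  Cc C → ¬ Enc (o2 h ω) A C → ∃ K : ℤ, ∀ (k : ℤ) (B : Finset Site), B ⊆ C → vx B ⊆ vin D →
    Enc (lv k h ω) A B → k = K

/-- a circuit has constant height -/
def S_lev : Prop := P_tim → ∀ (D A B : Finset Site) (h : Ht) (ω : Finset Vx), Ok D h ω →
  Enc (o0 h ω) A B → ∃ k : ℤ, Enc (lv k h ω) A B

/-- translation invariance -/
def S_tr : Prop := M_iso → ∀ (c : ℝ) (D : Finset Site) (z w : Site) (n N : ℕ), Cc D →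
  ∃ D', Cc D' ∧ PG c D' (arm w n N) = PG c D (arm z n N)

/-- small values from the characteristic function -/
def S_fej : Prop := ∀ c : ℝ, 0 < c → ∀ (D : Finset Site) (X : Ht → ℝ) (T η : ℝ) (m : ℕ), 0 < T →
  1 ≤ m → 0 ≤ η → (∀ j : ℕ, 1 ≤ j → j < m → PH c D (fun h => Real.cos (j / (T * m) * X h)) ≤ η) →
  PH c D (fun h => pi (|X h| ≤ T)) ≤ 4 / m + 4 * η

/-- the variance of a long dipole is large -/
def S_var : Prop := (∀ (f : Pl → ℝ) (w : Pl), gcov (tsl w f) (tsl w f) = gcov f f) ∧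
  ∃ ψ : Pl → ℝ, Sm ψ ∧ tsupport ψ ⊆ Metric.ball 0 1 ∧ Tendsto
    (fun j : ℕ => gcov (ψ - tsl ((j : ℝ), 0) ψ) (ψ - tsl ((j : ℝ), 0) ψ)) atTop atTop

/-- Gaussian moments in the plane -/
def GM (c K : ℝ) : Prop := Conv c ∧ St0 (EE c) ∧ 0 ≤ K ∧ ∀ f, IsTest f →
  (∀ n : ℕ, Tendsto (fun δ => EE c ∅ (Ys δ f ^ (2 * n))) (𝓝[>] 0)
    (𝓝 (((2 * n - 1).doubleFactorial : ℝ) * (K * gcov f f) ^ n))) ∧
  ∀ n : ℕ, Tendsto (fun δ => EE c ∅ (Ys δ f ^ (2 * n + 1))) (𝓝[>] 0) (𝓝 0)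

/-- Gaussian limit in large boxes -/
def GF (c K : ℝ) : Prop := ∀ f, IsTest f → ∀ t : ℝ, ∀ ε > 0, ∀ᶠ δ : ℝ in 𝓝[>] 0,
  ms (sa δ f) = 0 → ∀ᶠ ab in exh,
    PH c (bx ab) (fun h => lin (sa δ f) h ^ 2) ≤ K * gcov f f + ε ∧
    PH c (bx ab) (fun h => Real.cos (t * lin (sa δ f) h)) ≤
      Real.exp (-(t ^ 2 * (K * gcov f f)) / 2) + ε

def S_gff : Prop := ∀ c K : ℝ, GM c K → GF c K

/-- sampling -/
def S_sam : Prop := ∀ δ > 0, ∀ f, Sm f →
  (∀ x : Site, sa δ f x = δ ^ 2 * f (δ * x.1, δ * x.2)) ∧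
  (∀ g, Sm g → sa δ (f - g) = sa δ f - sa δ g) ∧
  ∀ s : Site, ms (sa δ (tsl (δ * s.1, δ * s.2) f)) = ms (sa δ f)

/-- the analytic input in lattice form -/
def ANA (c : ℝ) : Prop := ∃ C : ℝ, ∀ T > 0, ∀ ε > 0, ∃ μ n1 : ℕ, ∀ n ≥ n1,
  ∃ a : ℕ → Site →₀ ℝ, (∀ j, ms (a j) = ms (a 0)) ∧
    (∀ j, ∀ x ∈ (a j).support, sd x ((j * n : ℕ), 0) < n) ∧ ∀ᶠ ab in exh,
      PH c (bx ab) (fun h => (lin (a 0) h - lin (a 3) h) ^ 2) ≤ C ∧
      PH c (bx ab) (fun h => (lin (a μ) h - lin (a (μ + 3)) h) ^ 2) ≤ C ∧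
      PH c (bx ab) (fun h => pi (|lin (a 0) h - lin (a μ) h| ≤ T)) ≤ ε

def S_ana : Prop := S_fej → S_var → S_sam → ∀ c K : ℝ, 0 < c → 0 < K → GF c K → ANA c

/-- two arms are unlikely -/
def KEY (c : ℝ) : Prop := ∀ ε > 0, ∃ μ n1 : ℕ, 1 ≤ μ ∧ 1 ≤ n1 ∧ ∀ n ≥ n1, ∀ N ≥ μ * n,
  ∃ (D : Finset Site) (z w : Site), Cc D ∧ PG c D (arm z n N) * PG c D (arm w n N) ≤ ε

end Vale.Agent.P145.Sr
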