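import Vale.Agent.P145.SDefs
import Vale.Agent.P145.JBas

/-! P145, block SR: the dipole bound. -/

open Filter Topology

namespace Vale.Agent.P145.Sr

open Vale.Agent.P152

theorem SDip_zero {c : ℝ} {D : Finset Site} (a : Site →₀ ℝ) :
    JH c D (fun h _ => lin a h) = 0 := by
  have k := PH_neg (c := c) (D := D) (lin a)
  have e : (fun h => lin a (-h)) = (-1 : ℝ) • lin a := by
    funext h
    simp [lin, Finsupp.sum]
  rw [e, PH_smul] at k
  rw [JH_ht]
  linarith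

theorem SDip_sq {c : ℝ} (hc : 1 ≤ c) {D : Finset Site} (a : Site →₀ ℝ) (b : ℝ) :
    JH c D (fun h _ => lin a h ^ 2) ≤ JH c D fun h _ => (lin a h + b) ^ 2 := by
  have e : (fun (h : Ht) (_ : Finset Vx) => (lin a h + b) ^ 2) =
      fun h _ => (lin a h ^ 2 + (2 * b) * lin a h) + b ^ 2 := by
    funext h _
    ring
  rw [e, JH_add, JH_add, JH_mul, SDip_zero, JH_const hc]
  nlinarith [sq_nonneg b]

theorem SDip_enc (hP : P_enc) {D D' A B : Finset Site} {ho hi : Ht} {ωo ωi : Finset Vx} {k : ℤ}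
    (hA : Cn A) (hB : Cc B) (hD : vx B ⊆ vin D) (hDB : D' ⊆ B) (hO : Out D D' 0 ho ωo)
    (hI : IsH D' hi) (hk : ∀ f ∈ A, f ∈ D' ∧ ho (f, false) = k + 1) :
    Enc (lv k (glue D' ho hi) (ωo ∪ ωi)) A B := by
  refine hP _ _ _ hA hB fun f hf hr => ?_
  refine rch_ind (A := (B : Set Site)ᶜ) (P := fun x => ¬ (x ∈ D' ∧ ho (x, false) = k + 1))
    (fun g hg e => hg (hDB e.1)) (fun m x y _ hm hn ih e => ih ?_) hr (hk f hf)
  have h1 := hm.cor (end_src m)
  have h2 := (hO.2.1 y e.1 _ h1.2).1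
  have h5 := e.2
  by_cases hx : x ∈ D'
  · have := (hO.2.1 x hx _ h1.1).1
    exact ⟨hx, by omega⟩
  · have h3 : m ∈ bd D' := hm.bd.2 fun q => hx (q.2 e.1)
    have h4 : m ∈ vx B := by
      rcases hm with ⟨-, rfl⟩ | ⟨rfl, -⟩
      exacts [mem_vx.2 (Or.inr (hDB e.1)), mem_vx.2 (Or.inl (hDB e.1))]
    refine absurd ⟨Finset.mem_union_left _ (hO.2.2.2.1 m (hD h4) h3), ?_⟩ hn
    show glue D' ho hi (src m, true) = k
    rw [glue_out hI (bd_end h3 (end_src m)).1]
    omega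

theorem SDip_lin {D' : Finset Site} {ho hi : Ht} {a : Site →₀ ℝ} {k : ℤ}
    (hk : ∀ v ∈ a.support, ho (v, true) = k) :
    lin a (glue D' ho hi) = lin a hi + k * ms a := by
  simp only [lin, ms, Finsupp.sum, Finset.mul_sum, ← Finset.sum_add_distrib]
  refine Finset.sum_congr rfl fun v hv => ?_
  rw [glue_true, hk v hv]
  push_cast
  ring

theorem s_dip : S_dip := by
  intro hM hP c hc D A B a a' T hA hne hB hD ha ha' hT
  have hBD : B ⊆ D := fun f hf => (mem_vin.1 (hD (mem_vx.2 (Or.inl hf : fa (f, true) ∈ B ∨ _)))).1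
  rw [← JH_mul, ← JH_ht]
  refine hM c hc D 0 (B : Set Site)ᶜ ∅ Set.univ (fun z => z % 4 = 0) _ _ ?_ (by simp)
    (fun _ h => h) (Or.inl rfl) fun D' ho ωo _ _ hO hE hS => ?_
  · rwa [Set.union_eq_right.2 (Set.compl_subset_compl.2 (Finset.coe_subset.2 hBD))]
  simp only [Set.empty_union, Set.inter_univ] at hE hS
  have hm : ∀ f, f ∈ D' ↔ f ∈ D ∧ f ∉ Rch (op (fun z => z % 4 = 0) ho ωo) (B : Set Site)ᶜ :=
    fun f => by simp only [← hE, exd, Finset.mem_filter]
  have hDB : D' ⊆ B := fun f hf => by_contra fun e => ((hm f).1 hf).2 (subset_rch e)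
  unfold Inn
  beta_reduce
  by_cases hAD : A ⊆ D'
  · obtain ⟨f0, hf0⟩ := hne
    have hk : ∀ f ∈ A, ∀ v ∈ cor f, ho (v, true) = ho (f0, true) := fun f hf v hv =>
      (hO.2.1.eq ((hA f0 hf0 f hf).mono (Finset.coe_subset.2 hAD)) (self_cor f0) hv).symm
    have hk' : ∀ v ∈ a.support, ho (v, true) = ho (f0, true) := fun v hv =>
      hk v (inn_subset (ha hv)) v (self_cor v)
    refine le_trans (JH_mono hc fun hi ωi hI => ?_)
      ((SDip_sq hc a (ho (f0, true) * ms a - lin a' ho)).trans (JH_mono hc fun hi ωi hI => ?_))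
    · by_cases hZ : Zf a T A B (glue D' ho hi) (ωo ∪ ωi)
      · have k := hZ.2 _ (SDip_enc hP hA hB hD hDB hO hI.1 fun f hf => ⟨hAD hf, by
          rw [(hO.2.1 f (hAD hf) f (self_cor f)).1, hk f hf f (self_cor f)]⟩)
        rw [SDip_lin hk', add_sub_cancel_right] at k
        rw [pi_pos hZ, mul_one, ← sq_abs (lin a hi)]
        exact pow_le_pow_left₀ hT k 2
      · rw [pi_neg hZ, mul_zero]
        exact sq_nonneg _
    · have e : lin a' (glue D' ho hi) = lin a' ho := Finset.sum_congr rfl fun v hv => by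
        beta_reduce
        rw [glue_out hI.1 fun q => Finset.disjoint_left.1 ha' hv (inn_mono hDB q)]
      rw [SDip_lin hk', e, add_sub_assoc]
  · obtain ⟨f, hf, hn⟩ := Finset.not_subset.1 hAD
    refine JH_mono hc fun hi ωi hI => ?_
    rw [pi_neg, mul_zero]
    · exact sq_nonneg _
    intro hZ
    obtain ⟨E, h1, h2, -⟩ := id hZ.1
    refine hn ((hm f).2 ⟨hBD (h2 (h1 hf)), ?_⟩)
    rw [← hS hi ωi hI]
    exact hZ.1.not_rch hf

end Vale.Agent.P145.Sr
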