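import Vale.Agent.P145.SDefs

/-! P145, block SR: small values from the characteristic function. -/

open Filter Topology

namespace Vale.Agent.P145.Sr

open Vale.Agent.P152

theorem SFej_sum {ι : Type*} (c : ℝ) (D : Finset Site) (s : Finset ι) (F : ι → Ht → ℝ) :
    PH c D (fun h => ∑ i ∈ s, F i h) = ∑ i ∈ s, PH c D (F i) := by
  simp only [PH, Finset.mul_sum, ← Finset.sum_div]
  rw [Finset.sum_comm]

theorem SFej_pt (m : ℕ) (x : ℝ) (p : Prop) (h : p → |x| * m ≤ 1) :
    (m : ℝ) ^ 2 / 4 * pi p ≤
      ∑ i ∈ Finset.range m, ∑ j ∈ Finset.range m, Real.cos (((i : ℝ) - j) * x) := by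
  have e : ∑ i ∈ Finset.range m, ∑ j ∈ Finset.range m, Real.cos (((i : ℝ) - j) * x) =
      (∑ i ∈ Finset.range m, Real.cos (i * x)) ^ 2 +
        (∑ i ∈ Finset.range m, Real.sin (i * x)) ^ 2 := by
    simp only [pow_two, Finset.sum_mul_sum, ← Finset.sum_add_distrib, sub_mul, Real.cos_sub]
  rw [e]
  by_cases k : p
  · have h1 : (m : ℝ) / 2 ≤ ∑ i ∈ Finset.range m, Real.cos (i * x) := by
      have := Finset.card_nsmul_le_sum (Finset.range m) (fun i : ℕ => Real.cos (i * x)) (1 / 2)
        fun i hi => by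
          have a1 : (i : ℝ) ≤ m := by exact_mod_cast (Finset.mem_range.1 hi).le
          have a2 : |(i : ℝ) * x| ≤ 1 := by
            rw [abs_mul, Nat.abs_cast, mul_comm]
            exact (mul_le_mul_of_nonneg_left a1 (abs_nonneg x)).trans (h k)
          have a3 := (sq_le_one_iff_abs_le_one _).2 a2
          linarith [Real.one_sub_sq_div_two_le_cos (x := i * x)]
      rw [Finset.card_range, nsmul_eq_mul] at this
      linarith
    have h2 := pow_le_pow_left₀ (by positivity) h1 2
    rw [pi_pos k]
    nlinarith [sq_nonneg (∑ i ∈ Finset.range m, Real.sin (i * x))]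
  · rw [pi_neg k, mul_zero]
    positivity

theorem s_fej : S_fej := by
  intro c hc D X T η m hT hm hη H
  have m0 : (0 : ℝ) < m := by exact_mod_cast hm
  have h1 := PH_mono (D := D) hc (F := ((m : ℝ) ^ 2 / 4) • fun h => pi (|X h| ≤ T))
    (G := fun h => ∑ i ∈ Finset.range m, ∑ j ∈ Finset.range m,
      Real.cos (((i : ℝ) - j) * (X h / (T * m)))) fun h _ => SFej_pt m _ _ fun k => by
        rw [abs_div, abs_of_pos (mul_pos hT m0), div_mul_eq_mul_div, div_le_one (mul_pos hT m0)]
        exact mul_le_mul_of_nonneg_right k m0.le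
  simp only [PH_smul, SFej_sum] at h1
  have h2 : ∀ i ∈ Finset.range m, ∀ j ∈ Finset.range m,
      PH c D (fun h => Real.cos (((i : ℝ) - j) * (X h / (T * m)))) ≤
        (if j = i then 1 else 0) + η := by
    intro i hi j hj
    rw [Finset.mem_range] at hi hj
    rcases lt_trichotomy i j with k | rfl | k
    · rw [if_neg k.ne', zero_add]
      refine le_of_eq_of_le (congrArg _ (funext fun h => ?_)) (H (j - i) (by omega) (by omega))
      rw [← Real.cos_neg, Nat.cast_sub k.le]
      congr 1
      ring
    · have := PH_mono (D := D) hc (G := 1)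
        (F := fun h => Real.cos (((i : ℝ) - i) * (X h / (T * m)))) fun h _ => Real.cos_le_one _
      rw [PH_one hc] at this
      rw [if_pos rfl]
      linarith
    · rw [if_neg k.ne, zero_add]
      refine le_of_eq_of_le (congrArg _ (funext fun h => ?_)) (H (i - j) (by omega) (by omega))
      rw [Nat.cast_sub k.le]
      congr 1
      ring
  have h3 := h1.trans (Finset.sum_le_sum fun i hi => Finset.sum_le_sum (h2 i hi))
  have h4 : ∑ i ∈ Finset.range m, ∑ j ∈ Finset.range m, ((if j = i then (1 : ℝ) else 0) + η) =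
      m * (1 + m * η) := by
    rw [Finset.sum_congr rfl fun i hi => show _ = 1 + m * η by
      rw [Finset.sum_add_distrib, Finset.sum_ite_eq', if_pos hi]
      simp]
    rw [Finset.sum_const, Finset.card_range, nsmul_eq_mul]
  rw [h4] at h3
  have h5 : (m : ℝ) * (1 + m * η) = (m : ℝ) ^ 2 / 4 * (4 / m + 4 * η) := by
    field_simp
  rw [h5] at h3
  exact le_of_mul_le_mul_left h3 (by positivity)

end Vale.Agent.P145.Sr
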