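import Vale.Agent.P145.SDefs
import Vale.Agent.P145.IFin
import Vale.Agent.P152.FChar
import Vale.Agent.P152.FLat
import Vale.Agent.P152.FPotC

/-! P145, block SR: the Gaussian limit in large boxes. -/

open Filter Topology

namespace Vale.Agent.P145.Sr

open Vale.Agent.P152

theorem SGff_tel (u : ℤ → ℝ) {a b : ℤ} (h : a ≤ b) :
    ∑ i ∈ Finset.Ico a b, (u (i + 1) - u i) = u b - u a := by
  induction b, h using Int.leInduction with
  | base => simp
  | succ b h ih =>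
    rw [← Finset.insert_Ico_right_eq_Ico_add_one h, Finset.sum_insert (by simp), ih]
    ring

theorem SGff_tel2 (u : ℤ → ℝ) (n : ℤ) : ∑ i ∈ Finset.Ico 0 n, (u (i + 1) - u i) -
    ∑ i ∈ Finset.Ico n 0, (u (i + 1) - u i) = u n - u 0 := by
  rcases le_total 0 n with h | h
  · rw [SGff_tel u h, Finset.Ico_eq_empty_of_le h, Finset.sum_empty, sub_zero]
  · rw [SGff_tel u h, Finset.Ico_eq_empty_of_le h, Finset.sum_empty]
    ring

theorem SGff_sg {k : Ht} (hk : Ib.IsG k) (l : Leg) :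
    sg (Ib.lgs k l) = (k (plq l.1, false) : ℝ) - k (pvx l.1, true) := by
  have h := hk.2 l.1
  rw [abs_eq (by norm_num)] at h
  rw [← Int.cast_sub]
  rcases h with h | h <;> rw [h]
  · simp [sg, Ib.lgs, show k (pvx l.1, true) < k (plq l.1, false) by omega]
  · simp [sg, Ib.lgs, show ¬ k (pvx l.1, true) < k (plq l.1, false) by omega]

theorem SGff_inc {k : Ht} (hk : Ib.IsG k) (m : Vx) :
    inc (Ib.lgs k) m = (k (tgt m, true) : ℝ) - k (src m, true) := by
  simp only [inc, SGff_sg hk, plq_lg, pvx_lg]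
  ring

theorem SGff_HH {D : Finset Site} {h : Ht} (hh : IsH D h) (x : Site) :
    HH x (cfg (NFLink_T D h)) = (h (x, true) : ℝ) - h (0, true) := by
  have h1 := SGff_tel2 (fun i => (h ((i, 0), true) : ℝ)) x.1
  have h2 := SGff_tel2 (fun j => (h ((x.1, j), true) : ℝ)) x.2
  rw [← Ib.IFin_lgs hh]
  simp only [HH, SGff_inc (Ib.IFin_isG hh), Ib.IFin_true, src, tgt, dir, if_true,
    Bool.false_eq_true, if_false, Prod.mk_add_mk, add_zero]
  rw [h1, h2]
  exact sub_add_sub_cancel' _ _ _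

theorem SGff_Ys {δ : ℝ} (hδ : 0 < δ) {f : Pl → ℝ} (hf : Sm f) (h0 : ms (sa δ f) = 0)
    {D : Finset Site} {h : Ht} (hh : IsH D h) :
    Ys δ f (cfg (NFLink_T D h)) = lin (sa δ f) h := by
  have h1 : (Function.support fun x : Site => δ ^ 2 * f (δ * x.1, δ * x.2)).Finite :=
    (fin_samp hδ hf.2).subset (Function.support_mul_subset_right _ _)
  have h2 : ∀ x : Site, sa δ f x = δ ^ 2 * f (δ * x.1, δ * x.2) := fun x => by
    rw [sa, dif_pos h1]
    rfl
  rw [Ys, finsum_eq_sum_of_support_subset (s := (sa δ f).support) _ fun x hx =>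
    Finsupp.mem_support_iff.2 (by rw [h2]; exact left_ne_zero_of_mul hx)]
  simp only [← h2, SGff_HH hh, mul_sub, Finset.sum_sub_distrib, ← Finset.sum_mul]
  rw [show ∑ x ∈ (sa δ f).support, sa δ f x = 0 from h0, zero_mul, sub_zero]
  rfl

theorem SGff_PH {c δ : ℝ} (hδ : 0 < δ) {f : Pl → ℝ} (hf : Sm f) (h0 : ms (sa δ f) = 0)
    (ab : Site × Site) (u : ℝ → ℝ) :
    PH c (bx ab) (fun h => u (lin (sa δ f) h)) = ED c (bx ab) ∅ fun ζ => u (Ys δ f ζ) := by
  rw [Ib.IFin_ED, PH, PH]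
  congr 1
  exact Finset.sum_congr rfl fun h hh => by rw [SGff_Ys hδ hf h0 (mem_hs.1 hh)]

theorem s_gff : S_gff := by
  rintro c K ⟨hc, hs, hK, hG⟩ f hf t ε hε
  have ht := hf.smul t
  have e : gcov (t • f) (t • f) = t ^ 2 * gcov f f := by
    rw [gcov_smul, gcov_symm hf.sm ht.sm, gcov_smul]
    ring
  have h1 := (char_lim hs (fun δ => Ys δ (t • f))
    (eventually_mem_nhdsWithin.mono fun δ hδ => floc_Ys hδ ht.sm)
    (mul_nonneg hK (gcov_nonneg ht)) (hG _ ht).1 (hG _ ht).2).1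
  have h2 := (hG f hf).1 1
  rw [e, mul_left_comm] at h1
  simp only [Ys_smul, Pi.smul_apply, smul_eq_mul] at h1
  simp only [mul_one, Nat.add_one_sub_one, Nat.doubleFactorial, Nat.cast_one, one_mul,
    pow_one] at h2
  filter_upwards [eventually_mem_nhdsWithin, h1.eventually_lt_const (lt_add_of_pos_right _ hε),
    h2.eventually_lt_const (lt_add_of_pos_right _ hε)] with δ hδ a1 a2 h0
  have hl := floc_Ys hδ hf.sm
  have l1 : Loc fun ζ => Real.cos (t * Ys δ f ζ) := floc_map (fun x => Real.cos (t * x)) hl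
  have l2 : Loc fun ζ => Ys δ f ζ ^ 2 := floc_map (fun x => x ^ 2) hl
  rw [show Ys δ f ^ 2 = fun ζ => Ys δ f ζ ^ 2 from rfl] at a2
  filter_upwards [(hc ∅ _ l1).eventually_lt_const a1, (hc ∅ _ l2).eventually_lt_const a2]
    with ab b1 b2
  rw [SGff_PH hδ hf.sm h0 ab fun x => x ^ 2, SGff_PH hδ hf.sm h0 ab fun x => Real.cos (t * x)]
  exact ⟨b2.le, b1.le⟩

end Vale.Agent.P145.Sr
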