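import Vale.Agent.P145.SDefs
import Vale.Agent.P145.PBox

/-! P145, block SR: two arms are unlikely. -/

open Filter Topology

namespace Vale.Agent.P145.Sr

open Vale.Agent.P152

variable {c : ℝ} {D : Finset Site}

theorem SKey_o0 {A B : Finset Site} {h : Ht} {ω : Finset Vx} (hB : vx B ⊆ vin D)
    (k : Enc (ox D h ω) A B) : Enc (o0 h ω) A B := by
  obtain ⟨E, h1, h2, h3, h4, h5⟩ := k
  refine ⟨E, h1, h2, h3, h4, fun m hm => (h5 hm).resolve_left fun k => k ?_⟩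
  exact hB (vx_mono (Finset.coe_subset.1 h2) (Finset.mem_sdiff.1 hm).1)

theorem SKey_pa (hp : G_pa) (hc : 1 ≤ c) (hD : Cc D) {p q : Set Vx → Set Vx → Prop} {x y : ℝ}
    (h1 : Up fun P Q => pi (p P Q)) (h2 : Up fun P Q => pi (q P Q)) (hy : 0 ≤ y)
    (k1 : x ≤ PG c D fun P Q => pi (p P Q)) (k2 : y ≤ PG c D fun P Q => pi (q P Q)) :
    (Up fun P Q => pi (p P Q ∧ q P Q)) ∧ x * y ≤ PG c D fun P Q => pi (p P Q ∧ q P Q) := by
  simp only [pi_and]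
  refine ⟨fun P P' Q Q' a b => mul_le_mul (h1 _ _ _ _ a b) (h2 _ _ _ _ a b) (pi_nonneg _)
    (pi_nonneg _), le_trans ?_ (hp c hc D _ _ hD h1 h2)⟩
  exact mul_le_mul k1 k2 hy (PG_nonneg hc fun _ _ => pi_nonneg _)

/-- the deterministic part -/
theorem SKey_det (ha : S_arm) (hl : S_lev) (pe : P_enc) (pt : P_tim) {h : Ht} {ω : Finset Vx}
    (hk : Ok D h ω) {A1 A2 A0 B1 B2 B0 C1 C2 : Finset Site} {a b : Site →₀ ℝ} {T : ℝ}
    (c1 : Cn A1) (c2 : Cn A2) (d1 : Cc C1) (d2 : Cc C2) (s1 : A1 ⊆ A0) (s2 : A2 ⊆ A0)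
    (t1 : B1 ⊆ B0) (t2 : B2 ⊆ B0) (u1 : B0 ⊆ C1) (u2 : B0 ⊆ C2) (v : vx B0 ⊆ vin D)
    (hm : ms b = ms a) (n1 : ¬ Enc (o2 h ω) A1 C1) (n2 : ¬ Enc (o2 h ω) A2 C2)
    (e1 : Enc (ox D h ω) A1 B1) (e2 : Enc (ox D h ω) A2 B2) (e0 : Enc (ox D h ω) A0 B0)
    (z1 : ¬ Zf a T A1 B1 h ω) (z2 : ¬ Zf b T A2 B2 h ω) : |lin a h - lin b h| ≤ 2 * T := by
  have v1 := (vx_mono t1).trans v
  have v2 := (vx_mono t2).trans v
  obtain ⟨k0, f0⟩ := hl pt D _ _ h ω hk (SKey_o0 v e0)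
  obtain ⟨K1, g1⟩ := ha pe D _ _ h ω hk c1 d1 n1
  obtain ⟨K2, g2⟩ := ha pe D _ _ h ω hk c2 d2 n2
  simp only [Zf, not_and, not_forall, not_le] at z1 z2
  obtain ⟨k1, f1, l1⟩ := z1 (SKey_o0 v1 e1)
  obtain ⟨k2, f2, l2⟩ := z2 (SKey_o0 v2 e2)
  have q1 := (g1 k1 _ (t1.trans u1) v1 f1).trans
    (g1 k0 _ u1 v (enc_mono subset_rfl (Finset.coe_subset.2 s1) subset_rfl f0)).symm
  have q2 := (g2 k2 _ (t2.trans u2) v2 f2).trans
    (g2 k0 _ u2 v (enc_mono subset_rfl (Finset.coe_subset.2 s2) subset_rfl f0)).symm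
  rw [q1, abs_lt] at l1
  rw [q2, hm, abs_lt] at l2
  rw [abs_le]
  constructor <;> linarith [l1.1, l1.2, l2.1, l2.2]

theorem SKey_sup {a : ℕ → Site →₀ ℝ} {n : ℕ}
    (h : ∀ j, ∀ x ∈ (a j).support, sd x ((j * n : ℕ), 0) < n) (j : ℕ) :
    (a j).support ⊆ inn (sq ((j * n : ℕ), 0) n) ∧
      Disjoint (a (j + 3)).support (inn (sq ((j * n : ℕ), 0) (2 * n))) := by
  refine ⟨fun x hx => mem_inn_sq.2 (h j x hx), Finset.disjoint_left.2 fun x hx k => ?_⟩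
  have h1 := h _ x hx
  rw [mem_inn_sq] at k
  simp only [sd, max_lt_iff, abs_lt, add_mul] at h1 k
  push_cast at h1 k
  omega

theorem s_key (hd : S_dip) (ha : S_arm) (hl : S_lev) (me : M_exp) (pe : P_enc) (pt : P_tim)
    (hp : G_pa) (hc : 1 ≤ c) (hw : WR c) (hn : ANA c) : KEY c := by
  intro ε hε
  obtain ⟨c0, h0, n0, hn0, hw⟩ := hw
  obtain ⟨C, hn⟩ := hn
  have hδ : 0 < c0 ^ 3 * ε / 3 := by positivity
  obtain ⟨T, hT, hTC⟩ : ∃ T : ℝ, 0 < T ∧ C ≤ T ^ 2 * (c0 ^ 3 * ε / 3) := by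
    refine ⟨|C| / (c0 ^ 3 * ε / 3) + 1, by positivity, ?_⟩
    have k : 0 ≤ |C| / (c0 ^ 3 * ε / 3) := by positivity
    have e := div_mul_cancel₀ |C| hδ.ne'
    nlinarith [le_abs_self C, mul_nonneg (sq_nonneg (|C| / (c0 ^ 3 * ε / 3))) hδ.le,
      mul_nonneg k hδ.le]
  obtain ⟨μ, n1, hn⟩ := hn (2 * T) (by positivity) _ hδ
  refine ⟨3 * μ + 2, max n1 n0, by omega, hn0.trans (le_max_right _ _), fun n hnn N hN => ?_⟩
  obtain ⟨a, hm, hs, hev⟩ := hn n (le_of_max_le_left hnn)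
  have hn0' := le_of_max_le_right hnn
  obtain ⟨ab, ⟨b1, b2, b3⟩, hab⟩ :=
    (hev.and (ev_subset (sq ((0 * n : ℕ), 0) (2 * ((μ + 1) * n) + 1)))).exists
  have v := vx_sq hab
  have hD := cc_bx ab
  have hμ : (μ + 1) * n = μ * n + n := by ring
  have hN' : (3 * μ + 2) * n = 3 * (μ * n) + 2 * n := by ring
  have sub : ∀ {i j r R : ℕ}, i + r ≤ j + R → j + r ≤ i + R → sq ((i : ℤ), 0) r ⊆ sq ((j : ℤ), 0) R :=
    fun h1 h2 x hx => by
      rw [mem_sq] at hx ⊢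
      simp only at hx ⊢
      omega
  have t1 : sq ((0 * n : ℕ), 0) (2 * n) ⊆ sq ((0 * n : ℕ), 0) (2 * ((μ + 1) * n)) :=
    sub (by omega) (by omega)
  have t2 : sq ((μ * n : ℕ), 0) (2 * n) ⊆ sq ((0 * n : ℕ), 0) (2 * ((μ + 1) * n)) :=
    sub (by omega) (by omega)
  refine ⟨bx ab, ((0 * n : ℕ), 0), ((μ * n : ℕ), 0), hD, ?_⟩
  have p1 := SKey_pa hp hc hD (up_arm ((0 * n : ℕ), 0) n N) (up_arm ((μ * n : ℕ), 0) n N)
    (PG_nonneg hc fun _ _ => pi_nonneg _) le_rfl le_rfl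
  have p2 := SKey_pa hp hc hD p1.1 (up_enc _ _) h0.le p1.2 (hw n hn0' ((0 * n : ℕ), 0) _ hD).1
  have p3 := SKey_pa hp hc hD p2.1 (up_enc _ _) h0.le p2.2 (hw n hn0' ((μ * n : ℕ), 0) _ hD).1
  have p4 := (SKey_pa hp hc hD p3.1 (up_enc _ _) h0.le p3.2
    (hw ((μ + 1) * n) (by omega) ((0 * n : ℕ), 0) _ hD).1).2
  have ne : ∀ z, (sq z n).Nonempty := fun z => ⟨z, self_mem_sq (by omega)⟩
  have d1 := (hd me pe c hc _ _ _ _ _ T (cn_sq _ _) (ne _) (cc_sq _ _) ((vx_mono t1).trans v)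
    (SKey_sup hs 0).1 (SKey_sup hs 0).2 hT.le).trans (b1.trans hTC)
  have d2 := (hd me pe c hc _ _ _ _ _ T (cn_sq _ _) (ne _) (cc_sq _ _) ((vx_mono t2).trans v)
    (SKey_sup hs μ).1 (SKey_sup hs μ).2 hT.le).trans (b2.trans hTC)
  replace d1 := le_of_mul_le_mul_left d1 (by positivity)
  replace d2 := le_of_mul_le_mul_left d2 (by positivity)
  rw [← JH_ht] at b3
  have key := add_le_add (add_le_add d1 d2) b3
  rw [← JH_add, ← JH_add] at key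
  have fin := p4.trans ((JH_mono hc fun h ω hk => ?_).trans key)
  · refine le_of_mul_le_mul_right (a := c0 ^ 3) ?_ (by positivity)
    unfold arm
    linarith
  · beta_reduce
    rcases Classical.em _ with e | e
    swap
    · rw [pi_neg e]
      exact add_nonneg (add_nonneg (pi_nonneg _) (pi_nonneg _)) (pi_nonneg _)
    rw [pi_pos e]
    obtain ⟨⟨⟨⟨n1, n2⟩, e1⟩, e2⟩, e0⟩ := e
    by_cases z1 : Zf (a 0) T (sq ((0 * n : ℕ), 0) n) (sq ((0 * n : ℕ), 0) (2 * n)) h ω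
    · rw [pi_pos z1, add_assoc]
      exact le_add_of_nonneg_right (add_nonneg (pi_nonneg _) (pi_nonneg _))
    by_cases z2 : Zf (a μ) T (sq ((μ * n : ℕ), 0) n) (sq ((μ * n : ℕ), 0) (2 * n)) h ω
    · rw [pi_pos z2, pi_neg z1, zero_add]
      exact le_add_of_nonneg_right (pi_nonneg _)
    rw [pi_neg z1, pi_neg z2, add_zero, zero_add, pi_pos (SKey_det ha hl pe pt hk (cn_sq _ _)
      (cn_sq _ _) (cc_sq _ _) (cc_sq _ _) (sub (by omega) (by omega)) (sub (by omega) (by omega))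
      t1 t2 (sub (by omega) (by omega)) (sub (by omega) (by omega)) v (hm μ) n1 n2 e1 e2 e0 z1 z2)]

/-- from two arms to the strong estimate -/
theorem s_fin (ht : S_tr) (mi : M_iso) (gd : G_dom) (gp : G_pm) (hc : 1 ≤ c) (hk : KEY c) :
    SR c := by
  intro ε hε
  obtain ⟨μ, n1, h1, h2, hk⟩ := hk (ε ^ 2) (by positivity)
  refine ⟨μ, n1, h1, h2, fun n hn N hN z => ?_⟩
  obtain ⟨D, x, y, hD, hk⟩ := hk n hn N hN
  obtain ⟨w, hw⟩ : ∃ w, PG c D (arm w n N) ≤ ε := by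
    by_contra e
    push Not at e
    nlinarith [mul_lt_mul'' (e x) (e y) hε.le hε.le]
  obtain ⟨D', hD', e⟩ := ht mi c D w z n N hD
  have ev : ∀ᶠ ab in exh, PG c (bx ab) (arm z n N) ≤ ε := (ev_subset D').mono fun ab h =>
    (gd c hc _ _ _ (cc_bx ab) hD' h (up_arm z n N)).trans (e.trans_le hw)
  refine ⟨fun U hU => ?_, ev⟩
  obtain ⟨ab, k1, k2⟩ := (ev.and (ev_inn (U.biUnion cor))).exists
  have := gp c hc (bx ab) U _ (cc_bx ab) hU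
    (fun f hf v hv => k2 (Finset.mem_biUnion.2 ⟨f, hf, hv⟩)) (up_enc (sq z n) (sq z N))
  unfold arm at k1
  rw [PG_not hc] at k1 ⊢
  linarith

end Vale.Agent.P145.Sr
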