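import Vale.Agent.P145.SDefs
import Vale.Agent.P145.RiCc
import Vale.Agent.P152.NFSym2

/-! P145, block SR: boxes and translation invariance. -/

open Filter Topology

namespace Vale.Agent.P145.Sr

open Vale.Agent.P152

theorem s_box : S_box := fun ab => ⟨RiCcx.cn_box ab, RiCcx.cc_box ab⟩

theorem STr_cn {gv gp : Site ≃ Site} {ge : Vx ≃ Vx} (h : Iso gv gp ge) {D : Finset Site}
    (hD : Cn (D : Set Site)) : Cn (D.map gp.toEmbedding : Set Site) := by
  have hm : ∀ f, gp f ∈ (D.map gp.toEmbedding : Set Site) ↔ f ∈ (D : Set Site) := fun f => by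
    simp only [Finset.mem_coe, Finset.mem_map_equiv, gp.symm_apply_apply]
  intro f hf g hg
  obtain ⟨f, rfl⟩ := gp.surjective f
  obtain ⟨g, rfl⟩ := gp.surjective g
  refine ⟨hf, (hD f ((hm f).1 hf) g ((hm g).1 hg)).2.lift gp ?_⟩
  rintro a b ⟨h1, h2, m, -, h3⟩
  refine ⟨(hm a).2 h1, (hm b).2 h2, ge m, Set.notMem_empty _, ?_⟩
  rcases h3 with ⟨rfl, rfl⟩ | ⟨rfl, rfl⟩
  · exact h.faces m
  · exact (h.faces m).symm

theorem STr_enc (s : Site) {Q : Set Vx} {z : Site} {n N : ℕ}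
    (h : Enc Q (sq z n) (sq z N)) :
    Enc (NFSym2_te s '' Q) (sq (z + s) n) (sq (z + s) N) := by
  obtain ⟨E, h1, h2, h3, h4, h5⟩ := h
  have I := NFSym2_it s
  have hm : ∀ f, Equiv.addRight s f ∈ E.map (Equiv.addRight s).toEmbedding ↔ f ∈ E := fun f => by
    simp only [Finset.mem_map_equiv, Equiv.symm_apply_apply]
  have hs : ∀ (f : Site) (k : ℕ), Equiv.addRight s f ∈ sq (z + s) k ↔ f ∈ sq z k := fun f k => by
    rw [mem_sq, mem_sq]
    simp only [Equiv.coe_addRight, Prod.fst_add, Prod.snd_add]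
    omega
  refine ⟨E.map (Equiv.addRight s).toEmbedding, fun f hf => ?_, fun f hf => ?_, STr_cn I h3,
    RiCcx.cc_map I h4, fun m hm' => ?_⟩
  · obtain ⟨f, rfl⟩ := (Equiv.addRight s).surjective f
    exact (hm f).2 (h1 ((hs f n).1 hf))
  · obtain ⟨f, rfl⟩ := (Equiv.addRight s).surjective f
    exact (hs f N).2 (h2 ((hm f).1 hf))
  · obtain ⟨m, rfl⟩ := (NFSym2_te s).surjective m
    refine Set.mem_image_of_mem _ (h5 ?_)
    have k := mem_bd.1 (Finset.mem_coe.1 hm')
    refine Finset.mem_coe.2 (mem_bd.2 fun e => k ?_)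
    rcases I.faces m with ⟨a, b⟩ | ⟨a, b⟩
    · rw [a, b, hm, hm]
      exact e
    · rw [a, b, hm, hm]
      exact e.symm

theorem STr_im (s : Site) (Q : Set Vx) : NFSym2_te (-s) '' (NFSym2_te s '' Q) = Q := by
  rw [Set.image_image]
  have : (fun m : Vx => NFSym2_te (-s) (NFSym2_te s m)) = id := by
    funext m
    obtain ⟨x, b⟩ := m
    simp [NFSym2_te]
  rw [this, Set.image_id]

theorem STr_iff (s : Site) (Q : Set Vx) (z : Site) (n N : ℕ) :
    Enc (NFSym2_te s '' Q) (sq (z + s) n) (sq (z + s) N) ↔ Enc Q (sq z n) (sq z N) := by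
  refine ⟨fun h => ?_, STr_enc s⟩
  have k := STr_enc (-s) h
  rwa [STr_im, add_neg_cancel_right] at k

theorem s_tr : S_tr := by
  intro M c D z w n N hD
  have I := NFSym2_it (w - z)
  refine ⟨D.map (Equiv.addRight (w - z)).toEmbedding, RiCcx.cc_map I hD, ?_⟩
  rw [M _ _ _ I]
  congr 1
  funext P Q
  have k := STr_iff (w - z) Q z n N
  rw [add_sub_cancel] at k
  simp only [arm, k]

end Vale.Agent.P145.Sr
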