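import Vale.Agent.P145.SDefs
import Vale.Agent.P152.FPotA

/-! P145, block SR: the variance of a long dipole. -/

open Filter Topology MeasureTheory

namespace Vale.Agent.P145.Sr

open Vale.Agent.P152

theorem SVar_tsl (f : Pl → ℝ) (w : Pl) : gcov (tsl w f) (tsl w f) = gcov f f := by
  unfold gcov
  rw [← integral_add_right_eq_self _ w]
  refine integral_congr_ae (Eventually.of_forall fun x => ?_)
  beta_reduce
  rw [← integral_add_right_eq_self _ w]
  refine integral_congr_ae (Eventually.of_forall fun y => ?_)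
  simp [green, tsl]

theorem SVar_sub {f g h : Pl → ℝ} (hf : Sm f) (hg : Sm g) (hh : Sm h) :
    gcov (f - g) h = gcov f h - gcov g h := by
  have := gcov_add (hf.sub hg) hg hh
  rw [sub_add_cancel] at this
  linarith

theorem SVar_green {x y : Pl} {d : ℝ} (hd : 0 < d) (h : d ≤ y.1 - x.1) :
    green x y ≤ -((2 * Real.pi)⁻¹ * Real.log d) := by
  unfold green
  rw [neg_mul, neg_le_neg_iff]
  refine mul_le_mul_of_nonneg_left (Real.log_le_log hd (Real.le_sqrt_of_sq_le ?_))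
    (by positivity)
  nlinarith [sq_nonneg (x.2 - y.2)]

theorem SVar_far {ψ : Pl → ℝ} (hψ : Sm ψ) (h0 : ∀ p, 0 ≤ ψ p) (hs : tsupport ψ ⊆ Metric.ball 0 1)
    {d : ℝ} (hd : 0 < d) :
    gcov ψ (tsl (d + 2, 0) ψ) ≤ -((2 * Real.pi)⁻¹ * Real.log d) * (∫ p, ψ p) ^ 2 := by
  have hb : ∀ p, ψ p ≠ 0 → |p.1| < 1 := fun p hp =>
    (norm_fst_le p).trans_lt (mem_ball_zero_iff.1 (hs (subset_tsupport _ hp)))
  have hp := sm_tsl (d + 2, 0) hψ
  have hI : ∫ y, tsl (d + 2, 0) ψ y = ∫ p, ψ p := integral_sub_right_eq_self ψ _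
  rw [gcov_eq, ip, pow_two, ← mul_assoc, ← integral_const_mul]
  refine integral_mono (FCalcB_int (contDiff_pot hp).continuous hψ) (hψ.integrable.const_mul _)
    fun x => ?_
  by_cases hx : ψ x = 0
  · simp [hx]
  refine mul_le_mul_of_nonneg_right ?_ (h0 x)
  rw [← hI, ← integral_const_mul]
  refine integral_mono (FPotA_int hp x) (hp.integrable.const_mul _) fun y => ?_
  by_cases hy : tsl (d + 2, 0) ψ y = 0
  · simp [hy]
  refine mul_le_mul_of_nonneg_right (SVar_green hd ?_) (h0 _)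
  have a1 := abs_lt.1 (hb x hx)
  have a2 := abs_lt.1 (hb _ hy)
  simp only [Prod.fst_sub] at a2
  linarith [a1.2, a2.1]

theorem s_var : S_var := by
  refine ⟨SVar_tsl, ?_⟩
  obtain ⟨ψ, hψ, hs, h01, W, -, hW, h1⟩ := cut_one (A := {0}) isCompact_singleton
    Metric.isOpen_ball (Set.singleton_subset_iff.2 (Metric.mem_ball_self one_pos))
  have hI : 0 < ∫ p, ψ p := hψ.1.continuous.integral_pos_of_hasCompactSupport_nonneg_nonzero hψ.2
    (fun p => (h01 p).1) (x := 0) (by rw [h1 0 (hW rfl)]; exact one_ne_zero)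
  refine ⟨ψ, hψ, hs, ?_⟩
  have ht : Tendsto (fun j : ℕ => 2 * gcov ψ ψ +
      2 * (2 * Real.pi)⁻¹ * (∫ p, ψ p) ^ 2 * Real.log ((j : ℝ) + -2)) atTop atTop :=
    tendsto_atTop_add_const_left _ _ ((Real.tendsto_log_atTop.comp (tendsto_atTop_add_const_right
      _ _ tendsto_natCast_atTop_atTop)).const_mul_atTop (by positivity))
  refine tendsto_atTop_mono' _ ?_ ht
  filter_upwards [eventually_ge_atTop 3] with j hj
  have hj' : (3 : ℝ) ≤ j := by exact_mod_cast hj
  have hp := sm_tsl ((j : ℝ), 0) hψ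
  have h2 := SVar_far hψ (fun p => (h01 p).1) hs (d := (j : ℝ) + -2) (by linarith)
  rw [show (j : ℝ) + -2 + 2 = j by ring] at h2
  rw [SVar_sub hψ hp (hψ.sub hp), gcov_symm hψ (hψ.sub hp), gcov_symm hp (hψ.sub hp),
    SVar_sub hψ hp hψ, SVar_sub hψ hp hp, SVar_tsl, gcov_symm hp hψ]
  linarith

end Vale.Agent.P145.Sr
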