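import Vale.Agent.P145.SKey
import Vale.Agent.P145.SDip
import Vale.Agent.P145.SArm
import Vale.Agent.P145.STr
import Vale.Agent.P145.SFej
import Vale.Agent.P145.SVar
import Vale.Agent.P145.SGff
import Vale.Agent.P145.SAna
import Vale.Agent.P145.MExp
import Vale.Agent.P145.MSym
import Vale.Agent.P145.GDom
import Vale.Agent.P145.PTim
import Vale.Agent.P152.XMain

/-! P145, block SR: assembly. -/

namespace Vale.Agent.P145

open Vale.Agent.P152

variable {c K : ℝ}

/-- Gaussian moments in the plane -/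
theorem Sr.gm (h1 : 1 < c) (h2 : c ≤ 2) : ∃ K, 0 < K ∧ Sr.GM c K := by
  have hs := st_all h1 h2
  obtain ⟨K, hK, h3⟩ := blkD _ hs
  exact ⟨K, pos_all h1 h2 hK, conv_all h1 h2, hs.toSt0, hK.nonneg,
    fun _ hf => f_mom hs hK h3 (blkE1 _ hs) hf⟩

/-- the strong crossing estimate follows from the weak one -/
theorem sr_of (h1 : 1 < c) (h2 : c ≤ 2) (hw : WR c) : SR c := by
  obtain ⟨K, hK, h⟩ := Sr.gm h1 h2
  exact Sr.s_fin Sr.s_tr m_iso g_dom g_pm h1.le (Sr.s_key Sr.s_dip Sr.s_arm Sr.s_lev m_exp p_enc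
    p_tim g_pa h1.le hw (Sr.s_ana Sr.s_fej Sr.s_var Sr.s_sam c K (by linarith) hK
      (Sr.s_gff c K h)))

end Vale.Agent.P145
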