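import Vale.Agent.P145.WBas

/-! P145, block W: the estimate for one wall as the mesh goes to zero. -/

open Filter Topology Metric

namespace Vale.Agent.P145

open Vale.Agent.P152

theorem wa_prod {ι : Type} (J : Finset ι) (A B : ι → Finset Site) (O : Set Vx) :
    ∏ i ∈ J, pi (Enc O (A i) (B i)) = pi (CG J A B O) := by
  by_cases h : CG J A B O
  · rw [wpi_of h]; exact Finset.prod_eq_one fun i hi => wpi_of (h i hi)
  · rw [wpi_not h]
    obtain ⟨i, hi, k⟩ : ∃ i ∈ J, ¬ Enc O (A i) (B i) := by simpa [CG] using h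
    exact Finset.prod_eq_zero hi (wpi_not k)

theorem wa_bi {c K : ℝ} (bi : BI c K) {η : Pl → ℝ} (hη : Sm η) {s : ℝ} (hs : 0 < s) {ν : ℕ}
    (hν : 13 ≤ ν) (O R : Finset Site) (ρ : ℝ)
    (hO : ∀ p ∈ O, ∀ x ∈ tsupport η, 20 * s ≤ dist (pnt s p) x) {ε : ℝ} (hε : 0 < ε) :
    ∀ᶠ δ : ℝ in 𝓝[>] 0, Geo s ν O R ρ δ → ∀ᶠ ab in exh,
      |NN c (bx ab) ((Zs ν O).image fun z => (z, false)) (lkA (unt s ν δ)) (lkB (unt s ν δ) ν)
        fun h => Real.exp (XH (lgr δ η) h) - Real.exp (K * en η / 2)| ≤ ε := by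
  obtain ⟨r, hr⟩ := (O.image fun p => ‖pnt s p‖).exists_le
  have h0 : (0 : ℝ) < ν := by exact_mod_cast (by omega : 0 < ν)
  filter_upwards [bi η hη s hs (s / (6 * ν)) (by positivity) (-(s / 2)) r ε hε] with δ hδ g
  have k := hδ (Site × Bool) ((Zs ν O).image fun z => (z, false))
    (fun i P => pi (Enc P (lkA (unt s ν δ) i) (lkB (unt s ν δ) ν i)))
    (fun i => vx (lkB (unt s ν δ) ν i)) (fun i P => ⟨wpi_nonneg _, wpi_le _⟩)
    (fun i P => wpi_congr ⟨wenc_loc fun m hm _ => hm, wenc_mono Set.inter_subset_left⟩)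
    fun i hi => by
      obtain ⟨z, hz, rfl⟩ := Finset.mem_image.1 hi
      obtain ⟨p, hp, e⟩ := g.band z hz
      exact ⟨pnt s p, p.2, hr _ (Finset.mem_image_of_mem _ hp), hO p hp, e⟩
  simp only [wa_prod] at k
  exact k

theorem wa_d {δ : ℝ} (hδ : 0 < δ) (v : Site) {a b : ℤ} (ha : a = 0 ∨ a = 1) (hb : b = 0 ∨ b = 1) :
    dist (pnt δ (v - (a, b))) (pnt δ v) ≤ δ := by
  have k : ∀ x a : ℤ, a = 0 ∨ a = 1 → dist (δ * ((x - a : ℤ) : ℝ)) (δ * x) ≤ δ := by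
    rintro x a (rfl | rfl)
    · simp [hδ.le]
    · rw [Real.dist_eq, abs_le]; push_cast; constructor <;> linarith
  exact max_le (k _ _ ha) (k _ _ hb)

theorem wa_sum {ν : ℕ} {O : Finset Site} {θ : ℝ} (hθ : 0 ≤ θ) (f : Site × Bool → ℝ)
    (h : ∀ q ∈ Qs ν O, f (q, true) ≤ θ / ((sld O).card + 1)) :
    ∑ i ∈ (Qs ν O).image fun z => (z, true), f i ≤ θ := by
  have k : (((Qs ν O).image fun z => (z, true)).card : ℝ) ≤ (sld O).card + 1 := by
    exact_mod_cast (Finset.card_image_le.trans Finset.card_image_le).trans (Nat.le_succ _)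
  refine (Finset.sum_le_card_nsmul _ _ (θ / ((sld O).card + 1)) fun i hi => ?_).trans ?_
  · obtain ⟨z, hz, rfl⟩ := Finset.mem_image.1 hi
    exact h z hz
  · rw [nsmul_eq_mul]
    refine (mul_le_mul_of_nonneg_right k (by positivity)).trans (le_of_eq ?_)
    field_simp

theorem w_asy {c K : ℝ} (cov : W_cov) (con : W_con) (one : W_one) (cl : W_cl) (geo : W_geo)
    (wid : W_id) (hb : ∀ ab, Cc (bx ab)) (hc : 1 ≤ c) (wr : WR c) (sr : SR c) (bi : BI c K)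
    (bxx : BX c) : W_asy c K := by
  intro φ ρ hφ hφ0
  obtain ⟨M, hM⟩ := hφ.1.continuous.bddAbove_range_of_hasCompactSupport hφ.2
  obtain ⟨b, hb0, hbx⟩ := bxx (2 * M) ρ
  refine ⟨b, hb0, fun η K0 s κ O R hη hK hKρ hs hκ hκ2 hcr hO hR => ?_⟩
  obtain ⟨c0, hc0, n0, hn0, hwr⟩ := wr
  obtain ⟨μ, n1, hμ, hn1, hsr⟩ := sr (κ ^ 2 / ((sld O).card + 1)) (by positivity)
  obtain ⟨ν, hν'⟩ : ∃ ν : ℕ, ν = 12 * μ + 13 := ⟨_, rfl⟩
  have hν : 13 ≤ ν := by omega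
  obtain ⟨p0, hp0⟩ : ∃ p0 : ℝ, p0 = c0 ^ ((Zs ν O).image fun z => (z, false)).card := ⟨_, rfl⟩
  have p1 : 0 < p0 := hp0 ▸ pow_pos hc0 _
  obtain ⟨-, -, -, -, j5, j6, j7⟩ := wid 1 φ η one_pos hφ hη
  filter_upwards [hbx, geo s ν (n0 + n1) O R (ρ + s) hs hν,
    wa_bi bi hη hs hν O R (ρ + s) hO (mul_pos hκ p1),
    wa_bi bi j5 hs hν O R (ρ + s) (j6 ▸ hO) p1, Ioc_mem_nhdsGT (half_pos hs)]
    with δ h1 h2 h3 h4 hδ V U hV hVρ hRV hp hm
  obtain ⟨h2, g⟩ := h2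
  obtain ⟨hδ, hδs⟩ := hδ
  obtain ⟨i1, i2, i3, i4, -⟩ := wid δ φ η hδ hφ hη
  replace h3 := h3 g
  replace h4 := h4 g
  have gn := g.near
  have go := g.out
  have gi := g.inn
  generalize unt s ν δ = l at h2 h3 h4 gn go gi
  have hN : μ * (12 * l) ≤ ν * l := by rw [hν']; nlinarith
  obtain ⟨ab, ⟨⟨h3, h4⟩, hVb, hUb⟩, hB, hQ⟩ := (((h3.and h4).and ((ev_subset V).and
    (ev_subset U))).and ((ev_vin ((lkJ ν O).biUnion fun i => vx (lkB l ν i))).and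
    ((eventually_all_finset (Qs ν O)).2 fun q _ =>
      (hsr (12 * l) (by omega) (ν * l) hN ((3 * l : ℤ) • q)).2))).exists
  obtain ⟨k1, k2⟩ := cl c hc _ ((Zs ν O).image fun z => (z, false))
    ((Qs ν O).image fun z => (z, true)) (lkA l) (lkB l ν) (bx ab) (hb ab)
    fun i hi => (Finset.subset_biUnion_of_mem (fun i => vx (lkB l ν i)) hi).trans hB
  have N0 := hp0.le.trans (k1 c0 hc0.le fun i hi => by
    obtain ⟨z, -, rfl⟩ := Finset.mem_image.1 hi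
    rw [lkA_f, lkB_f]
    exact (hwr (2 * l) (by omega) _ _ (hb ab)).1)
  have N1 := k2 (κ ^ 2) (wa_sum (sq_nonneg κ) _ fun q _ => by
      rw [lkA_t, lkB_t]
      exact (hsr (12 * l) (by omega) (ν * l) hN _).1 _ (hb ab))
    (wa_sum (sq_nonneg κ) _ fun q hq => by
      rw [lkA_t, lkB_t]
      exact hQ q hq)
  have out : ∀ Z : Finset Site, (∀ f, (∃ p ∈ R, dist (pnt δ f) (pnt s p) ≤ 3 * s) → f ∈ Z) →
      vx (upS (6 * ν * l) (kn R)) ⊆ vin Z := fun Z hZ m hm => by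
    obtain ⟨p, hp, e1, e2⟩ := go m hm
    exact mem_vin.2 ⟨hZ _ ⟨p, hp, e1⟩, hZ _ ⟨p, hp, e2⟩⟩
  have face : ∀ f, (∃ x ∈ K0, dist (pnt δ f) x ≤ s) → f ∈ upS (6 * ν * l) R := by
    rintro f ⟨x, hx, e⟩
    have e0 : ‖x‖ ≤ ρ := mem_closedBall_zero_iff.1 (hKρ hx)
    obtain ⟨p, e1, e2⟩ := gi f (by
      have := norm_le_norm_add_norm_sub' (pnt δ f) x
      rw [← dist_eq_norm] at this
      linarith)
    refine e2 (hR p ⟨x, hx, ?_⟩)
    have := dist_triangle_left (pnt s p) x (pnt δ f)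
    linarith
  have vi : ∀ v, (∃ x ∈ K0, dist (pnt δ v) x ≤ δ) → v ∈ inn (upS (6 * ν * l) R) := by
    rintro v ⟨x, hx, e⟩
    have k : ∀ a b : ℤ, a = 0 ∨ a = 1 → b = 0 ∨ b = 1 → v - (a, b) ∈ upS (6 * ν * l) R :=
      fun a b ha hb => face _ ⟨x, hx, by
        have := dist_triangle (pnt δ (v - (a, b))) (pnt δ v) x
        have := wa_d hδ v ha hb
        linarith⟩
    exact mem_inn.2 ⟨face _ ⟨x, hx, by linarith⟩, k _ _ (by simp) (by simp),
      k _ _ (by simp) (by simp), k _ _ (by simp) (by simp)⟩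
  have su : ∀ v, smp δ φ v ≠ 0 → pnt δ v ∈ K0 := fun v hv =>
    hK (Or.inl (subset_tsupport _ fun e => hv (by rw [(i1 v).1, e, mul_zero])))
  have s0 : ∀ v, 0 ≤ smp δ φ v := fun v => (i1 v).1 ▸ mul_nonneg (sq_nonneg δ) (hφ0 _)
  have e2 : K * en (fun p => 2 * η p) / 2 = 2 * K * en η := by rw [j7]; ring
  simp only [i4, e2] at h4
  obtain ⟨r1, r2⟩ := one c hc _ _ _ (lkA l) (lkB l ν) _ _ (bx ab) V (smp δ φ) (psp δ φ η)
    (psm δ φ η) (XH (lgr δ η)) κ (Real.exp (K * en η / 2)) (Real.exp (2 * K * en η)) b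
    (wall_of cov con (by omega) hν hcr) (hb ab) hV hVb (out V hRV)
    (fun v => ⟨s0 v, (i1 v).2.1 ▸ le_max_right _ _, (i1 v).2.2 ▸ le_max_right _ _⟩)
    (fun v hv => by
      have z : psi δ φ η v = 0 := by
        by_contra k
        obtain ⟨x, hx, e⟩ := i2 v k
        exact hv (vi v ⟨x, hK hx, e⟩)
      refine ⟨by_contra fun k => hv (vi v ⟨_, su v k, by simp [hδ.le]⟩), ?_, ?_⟩
      · rw [(i1 v).2.1, z, max_self]
      · rw [(i1 v).2.2, z, neg_zero, max_self])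
    i3 hκ hκ2 (Real.exp_pos _).le (Real.exp_pos _).le hb0 (p1.trans_le N0) N1
    (h3.trans (mul_le_mul_of_nonneg_left N0 hκ.le)) (h4.trans N0) hp hm
    (h1 _ V (fun v => by
        have := hM (Set.mem_range_self (pnt δ v))
        have := s0 v
        simp only [Finsupp.smul_apply, smul_eq_mul]
        refine ⟨by linarith, ?_⟩
        rw [(i1 v).1]
        nlinarith [sq_nonneg δ])
      (fun v hv => mem_closedBall_zero_iff.1 (hKρ (su v fun e => hv (by simp [e])))) hVρ) U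
  refine ⟨fun a1 a2 => r1 (fun f hf => face f (a1 f hf)) fun i hi m hm hU => ?_,
    fun a1 a2 => r2 a1 hUb (out U a2)⟩
  obtain ⟨p, hp, e⟩ := gn i hi
  exact absurd (a2 _ (mem_vin.1 hU).1 p hp) (not_lt.2 (e m hm))

end Vale.Agent.P145
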